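import Vale.Agent.P057T.Eq.Defs

/-! Monotonicity and numerics for the tower predicates. -/

open MvPolynomial Finset

namespace Vale.Agent.P057T.Eq

set_option linter.unusedSectionVars false

variable {ι : Type} [Fintype ι] [DecidableEq ι] {G : GT ι}

namespace GT

theorem Bd.mono {F : MvPolynomial ι ℝ} {H H' : ℝ} (h : G.Bd F H) (hH : H ≤ H') : G.Bd F H' := by
  obtain ⟨b, h1, h2⟩ := h
  exact ⟨b, h1, h2.trans hH⟩

theorem Big.mono {g : ℕ} {H H' : ℝ} (h : G.Big g H') (hH : H ≤ H') : G.Big g H :=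
  fun e k I h1 h2 h3 h4 h5 => h e k I h1 h2 h3 h4 (h5.mono hH)

theorem Small.mono {g : ℕ} {η η' : ℝ} (h : G.Small g η) (hη : η ≤ η') : G.Small g η' := by
  intro j hj hg
  obtain ⟨v, h1, h2, h3⟩ := h j hj hg
  exact ⟨v, h1, h2, fun a => (h3 a).trans hη⟩

theorem Zr.mono {s g : ℕ} {H H' : ℝ} (h : G.Zr s g H') (hH : H ≤ H') : G.Zr s g H :=
  fun e F h1 h2 h3 h4 h5 h6 => h e F h1 h2 h3 h4 h5 (h6.mono hH)

theorem Ap.mono {g d : ℕ} {F : MvPolynomial ι ℝ} {H H' : ℝ} (h : G.Ap g d F H) (hH : H ≤ H') :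
    G.Ap g d F H' := by
  obtain ⟨n, I, h1, h2, h3, h4, h5, h6⟩ := h
  exact ⟨n, I, h1, h2.trans hH, h3, h4, h5, h6.mono hH⟩

theorem Lo.mono {g g' : ℕ} {F : MvPolynomial ι ℝ} (h : G.Lo g F) (hg : g ≤ g') : G.Lo g' F :=
  fun b hb => lt_of_lt_of_le (h b hb) hg

theorem Dl.mono {e e' : ℕ} {F : MvPolynomial ι ℝ} (h : G.Dl e F) (he : e ≤ e') : G.Dl e' F :=
  fun m hm => lt_of_lt_of_le (h m hm) he

theorem InL.mono {V : Finset ι} {R R' : ℝ} {h : ι → ℤ} (hh : G.InL V R h) (hR : R ^ 2 ≤ R' ^ 2) :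
    G.InL V R' h := ⟨hh.1, hh.2.trans hR⟩

theorem dv_nonneg (V : Finset ι) : 0 ≤ G.dv V := abs_nonneg _

theorem Rare.mono {κ : Type} [Fintype κ] {g : ℕ} {R R' ε ε' : ℝ} {bad bad' : (κ → ι → ℤ) → Prop}
    (h : G.Rare κ g R' ε bad) (hR : R ^ 2 ≤ R' ^ 2) (hε : ε ≤ ε') (hb : ∀ x, bad' x → bad x) :
    G.Rare κ g R ε' bad' := by
  intro E hE
  refine lt_of_lt_of_le (h E fun x hx => ⟨fun j => ((hE x hx).1 j).mono hR, hb x (hE x hx).2⟩) ?_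
  exact mul_le_mul_of_nonneg_right hε (pow_nonneg (dv_nonneg _) _)

/-- general transfer of regularity -/
theorem Rg.of_le {WW : ℕ → ℝ} {c Y c' Y' : ℝ} {g0 g1 : ℕ} (h : G.Rg WW c' Y' g1) (hg : g0 ≤ g1)
    (hp : ∀ g < g0, 0 < c * (Y + WW g))
    (h1 : ∀ g ≤ g0, c * (Y + WW g) ≤ c' * (Y' + WW g)) : G.Rg WW c Y g0 := by
  intro g hg0
  obtain ⟨hb, hs⟩ := h g (lt_of_lt_of_le hg0 hg)
  refine ⟨hb.mono (Real.exp_le_exp.2 (h1 g hg0.le)), hs.mono (min_le_min ?_ ?_)⟩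
  · exact Real.exp_le_exp.2 (neg_le_neg (h1 (g + 1) hg0))
  · exact inv_anti₀ (hp g hg0) (h1 g hg0.le)

theorem Rg.mono {WW : ℕ → ℝ} {c Y c' Y' : ℝ} {g0 g1 : ℕ} (h : G.Rg WW c' Y' g1) (hg : g0 ≤ g1)
    (hW : ∀ g, 0 ≤ WW g) (hc0 : 0 < c) (hY0 : 0 < Y) (hc : c ≤ c') (hY : Y ≤ Y') :
    G.Rg WW c Y g0 := by
  refine h.of_le hg (fun g _ => mul_pos hc0 (by linarith [hW g])) (fun g _ => ?_)
  exact mul_le_mul hc (by linarith) (by linarith [hW g]) (hc0.le.trans hc)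

/-- a new parameter `Y1 ≤ K (Y + WW g0)` is paid by the factor `2 K` -/
theorem Rg.shift {WW : ℕ → ℝ} {c Y c' Y1 K : ℝ} {g0 g1 : ℕ} (h : G.Rg WW c' Y g1) (hg : g0 ≤ g1)
    (hW : G.Wd WW) (hc0 : 0 < c) (hY0 : 0 ≤ Y) (hY1 : 0 < Y1) (hK : 1 ≤ K)
    (hY : Y1 ≤ K * (Y + WW g0)) (hc : 2 * K * c ≤ c') : G.Rg WW c Y1 g0 := by
  refine h.of_le hg (fun g _ => mul_pos hc0 (by linarith [hW.nn g])) (fun g hg' => ?_)
  have h1 : WW g0 ≤ WW g := hW.anti hg'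
  have h2 := hW.nn g
  have h3 : Y1 + WW g ≤ 2 * K * (Y + WW g) := by nlinarith
  calc c * (Y1 + WW g) ≤ c * (2 * K * (Y + WW g)) := mul_le_mul_of_nonneg_left h3 hc0.le
    _ = 2 * K * c * (Y + WW g) := by ring
    _ ≤ c' * (Y + WW g) := mul_le_mul_of_nonneg_right hc (by linarith)

theorem AOk.mono {T : AT ι} {P P' : ℝ} (h : G.AOk T P) (hP0 : 0 < P) (hP : P ≤ P') : G.AOk T P' :=
  ⟨h.bk, h.qv, h.pv, h.pd, h.pl, fun a => (inv_anti₀ hP0 hP).trans (h.s1 a),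
    fun a => (h.s2 a).trans hP⟩

theorem card_TV (κ : Type) [Fintype κ] :
    Fintype.card (G.TV κ) ≤ (1 + Fintype.card κ) * Fintype.card ι := by
  have : Fintype.card {a : ι // 2 ≤ G.w a} ≤ Fintype.card ι := Fintype.card_subtype_le _
  simp only [Fintype.card_sum, Fintype.card_prod]
  nlinarith

end GT

theorem Sz.mono {P Y P' Y' : ℝ} (h : Sz ι P Y) (hP : P ≤ P') (hY : 1 ≤ Y') : Sz ι P' Y' :=
  ⟨h.cd.trans hP, h.P2.trans hP, hY⟩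

theorem Sz.tv {P Y Y' : ℝ} (G : GT ι) (h : Sz ι P Y) (κ : Type) [Fintype κ] {r : ℕ}
    (hr : Fintype.card κ ≤ r) (hY : 1 ≤ Y') : Sz (G.TV κ) ((1 + r) * P) Y' := by
  have h1 : (Fintype.card (G.TV κ) : ℝ) ≤ (1 + Fintype.card κ) * Fintype.card ι := by
    exact_mod_cast G.card_TV κ
  have h2 : (Fintype.card κ : ℝ) ≤ r := by exact_mod_cast hr
  have h3 := h.cd
  have h4 := h.P2
  have h5 : (0 : ℝ) ≤ r := Nat.cast_nonneg r
  have h6 : (0 : ℝ) ≤ Fintype.card ι := Nat.cast_nonneg _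
  refine ⟨h1.trans (mul_le_mul (by linarith) h3 h6 (by linarith)), by nlinarith, hY⟩

theorem Sz.tv1 {P Y Y' : ℝ} (G : GT ι) (h : Sz ι P Y) (hY : 1 ≤ Y') : Sz (G.TV Unit) (2 * P) Y' := by
  have := h.tv G Unit (r := 1) (by simp) hY
  norm_num at this
  exact this

theorem pw_le {P : ℝ} (hP : 2 ≤ P) {a b : ℕ} (h : a ≤ b) : P ^ a ≤ P ^ b :=
  pow_le_pow_right₀ (by linarith) h

theorem one_le_pw {P : ℝ} (hP : 2 ≤ P) (a : ℕ) : 1 ≤ P ^ a := one_le_pow₀ (by linarith)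

theorem pw_pos {P : ℝ} (hP : 2 ≤ P) (a : ℕ) : 0 < P ^ a := pow_pos (by linarith) a

theorem nat_le_pw {P : ℝ} (hP : 2 ≤ P) (n : ℕ) : (n : ℝ) ≤ P ^ n := by
  have h1 : (n : ℝ) ≤ 2 ^ n := by exact_mod_cast (Nat.lt_two_pow_self (n := n)).le
  exact h1.trans (pow_le_pow_left₀ (by norm_num) hP n)

theorem two_mul_pw {P : ℝ} (hP : 2 ≤ P) (a : ℕ) : 2 * P ^ a ≤ P ^ (a + 1) := by
  rw [pow_succ]; nlinarith [pw_pos hP a]

theorem add_pw_le {P : ℝ} (hP : 2 ≤ P) (a b : ℕ) : P ^ a + P ^ b ≤ P ^ (a + b + 1) := by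
  have h1 := pw_le hP (Nat.le_add_right a b)
  have h2 := pw_le hP (Nat.le_add_left b a)
  linarith [two_mul_pw hP (a + b)]

theorem mul_pw_le {P : ℝ} (hP : 2 ≤ P) (r c : ℕ) : ((1 + r) * P) ^ c ≤ P ^ ((r + 2) * c) := by
  rw [pow_mul]
  refine pow_le_pow_left₀ (by positivity) ?_ c
  have := nat_le_pw hP (r + 1)
  push_cast at this
  rw [pow_succ]
  exact mul_le_mul_of_nonneg_right (by linarith) (by linarith)

theorem two_pw_le {P : ℝ} (hP : 2 ≤ P) (c : ℕ) : (2 * P) ^ c ≤ P ^ (2 * c) := by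
  rw [pow_mul]
  exact pow_le_pow_left₀ (by linarith) (by nlinarith) c

end Vale.Agent.P057T.Eq
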