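import Vale.Agent.P057T.Eq.Inv
import Vale.Agent.P057T.Eq.Mono

/-! Row BD: witnesses of boundedness, and the calculus of bounded forms. -/

open MvPolynomial Finset

namespace Vale.Agent.P057T.Eq

variable {ι : Type} [Fintype ι] [DecidableEq ι] {s : ℕ} {G : GT ι}

theorem th_hm (h : G.Ok s) (a : ι) : G.Hm (G.w a) (G.th a) :=
  Chart.tc_hom h.qh (fun i j hij => (h.blk i j (Or.inl hij)).2.symm) a

theorem th_vars (h : G.Ok s) (a : ι) : ∀ j ∈ (G.th a).vars, G.g j ≤ G.g a :=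
  Chart.tc_vars h.ql (fun i j hij => (h.blk i j (Or.inl hij)).1.ge) a

theorem pderiv_th (h : G.Ok s) {k y : ι} (hy : G.g k ≤ G.g y) :
    pderiv y (G.th k) = C (G.A k y) :=
  Chart.pderiv_tc h.ql (fun i j hij => (h.blk i j (Or.inl hij)).1.ge) hy

omit [DecidableEq ι] in
theorem th_vars_sub {V : Finset ι} (hV : G.Bk V) (hq : ∀ a ∈ V, (G.q a).vars ⊆ V) {a : ι}
    (ha : a ∈ V) : ∀ j ∈ (G.th a).vars, j ∈ V := by
  refine Chart.vars_sum' fun b _ => ?_
  by_cases hb : G.A a b = 0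
  · simp [hb]
  · have hbV := (hV a b (Or.inl hb)).1 ha
    exact Chart.vars_mul' (Chart.vars_C' _)
      (Chart.vars_sub' (Chart.vars_X' hbV) fun j hj => hq b hbV hj)

theorem bd0 : BD := by
  intro s ι _ _ G h
  obtain ⟨ψ, h1, h2, h3, h4, h5⟩ := exists_psi h
  refine ⟨fun b b' e => by rw [← h2 b, e, h2], fun e b => ⟨fun hb => ?_, fun hb => ?_⟩,
    fun V b hV hq => ⟨fun hb => ?_, fun hb => ?_⟩, fun g b => ⟨fun hb => ?_, fun hb => ?_⟩⟩
  · exact Chart.hom_aeval hb (th_hm h)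
  · rw [← h2 b]; exact Chart.hom_aeval hb h5
  · exact Chart.vars_aeval (P := (· ∈ V)) fun i hi => th_vars_sub hV hq (hb hi)
  · have key : ∀ n a, G.g a = n → a ∈ V → ∀ j ∈ (ψ a).vars, j ∈ V := by
      intro n
      induction n using Nat.strong_induction_on with
      | _ n ih =>
        intro a ha haV
        rw [h1 a]
        exact Chart.vars_add' (Chart.lin_vars fun j hj => (hV a j (Or.inr hj)).1 haV)
          (Chart.vars_aeval fun k hk => ih _ (ha ▸ h.ql a k hk) k rfl (hq a haV hk))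
    rw [← h2 b]
    exact Chart.vars_aeval (P := (· ∈ V)) fun i hi => key _ i rfl (hb hi)
  · exact Chart.vars_aeval fun i hi j hj => (th_vars h i j hj).trans_lt (hb i hi)
  · rw [← h2 b]
    exact Chart.vars_aeval fun i hi j hj => (h4 i j hj).trans_lt (hb i hi)

theorem bd (_ : INV) : BD := bd0

theorem th_inj (h : G.Ok s) {b b' : MvPolynomial ι ℝ} (e : aeval G.th b = aeval G.th b') : b = b' :=
  (bd0 s ι G h).1 b b' e

theorem hm_iff (h : G.Ok s) (e : ℕ) (b : MvPolynomial ι ℝ) : G.Hm e b ↔ G.Hm e (aeval G.th b) :=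
  (bd0 s ι G h).2.1 e b

theorem lo_iff (h : G.Ok s) (g : ℕ) (b : MvPolynomial ι ℝ) : G.Lo g b ↔ G.Lo g (aeval G.th b) :=
  (bd0 s ι G h).2.2.2 g b

theorem th_surj (h : G.Ok s) (F : MvPolynomial ι ℝ) :
    ∃ b : MvPolynomial ι ℝ, aeval G.th b = F := by
  obtain ⟨ψ, -, -, h3, -⟩ := exists_psi h
  exact ⟨_, h3 F⟩

namespace GT

section

omit [DecidableEq ι]

variable {F F' : MvPolynomial ι ℝ} {H H' : ℝ}

theorem Bd.nonneg (h : G.Bd F H) : 0 ≤ H := by
  obtain ⟨b, -, hb⟩ := h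
  exact (L1.nrm_nonneg b).trans hb

theorem bd_zero (G : GT ι) (hH : 0 ≤ H) : G.Bd 0 H := ⟨0, map_zero _, L1.nrm_zero.le.trans hH⟩

theorem bd_C (G : GT ι) (a : ℝ) : G.Bd (C a) |a| := ⟨C a, by simp, (L1.nrm_C a).le⟩

theorem bd_th (G : GT ι) (a : ι) : G.Bd (G.th a) 1 := ⟨X a, aeval_X _ _, (L1.nrm_X a).le⟩

theorem Bd.add (h : G.Bd F H) (h' : G.Bd F' H') : G.Bd (F + F') (H + H') := by
  obtain ⟨b, rfl, hb⟩ := h
  obtain ⟨b', rfl, hb'⟩ := h'
  exact ⟨b + b', map_add _ _ _, (L1.nrm_add_le b b').trans (add_le_add hb hb')⟩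

theorem Bd.neg (h : G.Bd F H) : G.Bd (-F) H := by
  obtain ⟨b, rfl, hb⟩ := h
  exact ⟨-b, map_neg _ _, (L1.nrm_neg b).le.trans hb⟩

theorem Bd.sub (h : G.Bd F H) (h' : G.Bd F' H') : G.Bd (F - F') (H + H') := by
  rw [sub_eq_add_neg]; exact h.add h'.neg

theorem Bd.mul (h : G.Bd F H) (h' : G.Bd F' H') : G.Bd (F * F') (H * H') := by
  have h0 := h.nonneg
  obtain ⟨b, rfl, hb⟩ := h
  obtain ⟨b', rfl, hb'⟩ := h'
  exact ⟨b * b', map_mul _ _ _, (L1.nrm_mul_le b b').trans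
    (mul_le_mul hb hb' (L1.nrm_nonneg b') h0)⟩

theorem Bd.C_mul (h : G.Bd F H) (a : ℝ) : G.Bd (C a * F) (|a| * H) := (G.bd_C a).mul h

theorem Bd.smul (h : G.Bd F H) (a : ℝ) : G.Bd (a • F) (|a| * H) := by
  rw [← C_mul']; exact h.C_mul a

theorem Bd.mul_th (h : G.Bd F H) (a : ι) : G.Bd (G.th a * F) H := by
  simpa using (G.bd_th a).mul h

theorem bd_sum {κ : Type*} (G : GT ι) {t : Finset κ} {f : κ → MvPolynomial ι ℝ} {K : κ → ℝ}
    (h : ∀ a ∈ t, G.Bd (f a) (K a)) : G.Bd (∑ a ∈ t, f a) (∑ a ∈ t, K a) := by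
  classical
  induction t using Finset.induction_on with
  | empty => simpa using G.bd_zero le_rfl
  | insert a t ha ih =>
    rw [sum_insert ha, sum_insert ha]
    exact (h a (mem_insert_self a t)).add (ih fun b hb => h b (mem_insert_of_mem hb))

theorem Bd.eq_zero (h : G.Bd F 0) : F = 0 := by
  obtain ⟨b, rfl, hb⟩ := h
  rw [L1.eq_zero_of_nrm hb, map_zero]

end

variable {F : MvPolynomial ι ℝ} {H : ℝ}

/-- a good witness -/
theorem Bd.wit (hG : G.Ok s) {g e : ℕ} (h : G.Bd F H) (hl : G.Lo g F) (hh : G.Hm e F) :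
    ∃ b, aeval G.th b = F ∧ L1.nrm b ≤ H ∧ G.Lo g b ∧ G.Hm e b := by
  obtain ⟨b, rfl, hb⟩ := h
  exact ⟨b, rfl, hb, (lo_iff hG g b).2 hl, (hm_iff hG e b).2 hh⟩

/-- derivative in a variable of the last group -/
theorem Bd.pderiv (hG : G.Ok s) {e : ℕ} {y : ι} (h : G.Bd F H) (hl : G.Lo (G.g y + 1) F)
    (hh : G.Hm e F) : G.Bd (pderiv y F) ((∑ i, |G.A i y|) * (e * H)) := by
  obtain ⟨b, rfl, hb, hbl, hbh⟩ := h.wit hG hl hh
  refine ⟨∑ i, C (G.A i y) * MvPolynomial.pderiv i b, (Chart.pderiv_chart fun i hi =>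
    pderiv_th hG (Nat.lt_succ_iff.1 (hbl i hi))).symm, ?_⟩
  refine (Chart.nrm_dir_le _ (Chart.totalDegree_le_of_hom hG.w1 hbh)).trans ?_
  gcongr

/-- derivative along a vector `u` supported on the last group `γ` -/
theorem Bd.dir (hG : G.Ok s) {e γ : ℕ} {u : ι → ℝ} (hu : ∀ y, u y ≠ 0 → G.g y = γ) (h : G.Bd F H)
    (hl : G.Lo (γ + 1) F) (hh : G.Hm e F) :
    G.Bd (∑ y, C (u y) * MvPolynomial.pderiv y F) ((∑ i, |∑ y, G.A i y * u y|) * (e * H)) := by
  obtain ⟨b, rfl, hb, hbl, hbh⟩ := h.wit hG hl hh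
  refine ⟨∑ i, C (∑ y, G.A i y * u y) * MvPolynomial.pderiv i b, ?_, ?_⟩
  · have e1 : ∀ y, C (u y) * MvPolynomial.pderiv y (aeval G.th b) =
        aeval G.th (∑ i, C (G.A i y * u y) * MvPolynomial.pderiv i b) := by
      intro y
      by_cases hy : u y = 0
      · simp [hy]
      · rw [Chart.pderiv_chart fun i hi =>
          pderiv_th hG (y := y) ((Nat.lt_succ_iff.1 (hbl i hi)).trans (hu y hy).ge), map_sum, map_sum,
          mul_sum]
        refine sum_congr rfl fun i _ => ?_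
        simp only [map_mul, aeval_C, algebraMap_eq]
        ring
    rw [sum_congr rfl fun y _ => e1 y, ← map_sum, sum_comm]
    congr 1
    refine sum_congr rfl fun i _ => ?_
    rw [map_sum, sum_mul]
  · refine (Chart.nrm_dir_le _ (Chart.totalDegree_le_of_hom hG.w1 hbh)).trans ?_
    gcongr

end GT

end Vale.Agent.P057T.Eq
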