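import Vale.Agent.P057T.Eq.Defs

/-! The derivative tower has admissible analytic data; degrees of differences. -/

set_option linter.all false

open MvPolynomial Finset
open scoped Real

namespace Vale.Agent.P057T.Eq

namespace Derok

variable {ι : Type} [Fintype ι] [DecidableEq ι]

/-- weighted degree at most an integer -/
def DZ {σ : Type} (w : σ → ℕ) (k : ℤ) (F : MvPolynomial σ ℝ) : Prop :=
  ∀ m ∈ F.support, ((Finsupp.weight w m : ℕ) : ℤ) ≤ k

section dz
variable {σ : Type} {w : σ → ℕ}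

theorem DZ.mono {k k' : ℤ} {F : MvPolynomial σ ℝ} (h : DZ w k F) (hk : k ≤ k') : DZ w k' F :=
  fun m hm => (h m hm).trans hk

theorem dz_zero (k : ℤ) : DZ w k (0 : MvPolynomial σ ℝ) := fun m hm => by simp at hm

theorem DZ.add {k : ℤ} {F F' : MvPolynomial σ ℝ} (h : DZ w k F) (h' : DZ w k F') :
    DZ w k (F + F') := fun m hm => by
  classical
  rcases Finset.mem_union.mp (support_add hm) with h1 | h1
  · exact h m h1
  · exact h' m h1

theorem DZ.neg {k : ℤ} {F : MvPolynomial σ ℝ} (h : DZ w k F) : DZ w k (-F) := fun m hm =>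
  h m (by rwa [support_neg] at hm)

theorem DZ.sub {k : ℤ} {F F' : MvPolynomial σ ℝ} (h : DZ w k F) (h' : DZ w k F') :
    DZ w k (F - F') := by
  rw [sub_eq_add_neg]; exact h.add h'.neg

theorem DZ.mul {k k' : ℤ} {F F' : MvPolynomial σ ℝ} (h : DZ w k F) (h' : DZ w k' F') :
    DZ w (k + k') (F * F') := fun m hm => by
  classical
  obtain ⟨a, ha, b, hb, rfl⟩ := Finset.mem_add.mp (support_mul F F' hm)
  have h1 := h a ha
  have h2 := h' b hb
  rw [map_add]; push_cast; omega

theorem dz_monomial (m : σ →₀ ℕ) (r : ℝ) :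
    DZ w ((Finsupp.weight w m : ℕ) : ℤ) (monomial m r) := fun m' hm => by
  classical
  have := support_monomial_subset hm
  rw [Finset.mem_singleton] at this
  rw [this]

theorem dz_C (r : ℝ) : DZ w 0 (C r : MvPolynomial σ ℝ) := by
  have := dz_monomial (w := w) 0 r
  simpa using this

theorem dz_X (a : σ) : DZ w (w a) (X a : MvPolynomial σ ℝ) := by
  have := dz_monomial (w := w) (Finsupp.single a 1) (1 : ℝ)
  simpa [Finsupp.weight_single, X] using this

theorem DZ.cmul {k : ℤ} {F : MvPolynomial σ ℝ} (h : DZ w k F) (r : ℝ) : DZ w k (C r * F) := by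
  simpa using (dz_C (w := w) r).mul h

theorem dz_sum {κ : Type} {k : ℤ} (s : Finset κ) (F : κ → MvPolynomial σ ℝ)
    (h : ∀ i ∈ s, DZ w k (F i)) : DZ w k (∑ i ∈ s, F i) := by
  classical
  induction s using Finset.induction_on with
  | empty => simpa using dz_zero k
  | insert a s ha ih =>
    rw [Finset.sum_insert ha]
    exact (h a (Finset.mem_insert_self _ _)).add (ih fun i hi => h i (Finset.mem_insert_of_mem hi))

theorem dz_hom {e : ℕ} {F : MvPolynomial σ ℝ} (h : IsWeightedHomogeneous w F e) : DZ w e F :=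
  fun m hm => by rw [h (mem_support_iff.mp hm)]

theorem whc_dz {e : ℕ} {F : MvPolynomial σ ℝ} (h : DZ w ((e : ℤ) - 1) F) :
    weightedHomogeneousComponent w e F = 0 := by
  classical
  ext m
  rw [coeff_weightedHomogeneousComponent, coeff_zero]
  split_ifs with hm
  · by_contra hc
    have := h m (mem_support_iff.mpr hc)
    rw [hm] at this; omega
  · rfl

theorem dz_sub_whc {e : ℕ} {F : MvPolynomial σ ℝ} (h : DZ w e F) :
    DZ w ((e : ℤ) - 1) (F - weightedHomogeneousComponent w e F) := fun m hm => by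
  classical
  have h1 := mem_support_iff.mp hm
  rw [coeff_sub, coeff_weightedHomogeneousComponent] at h1
  split_ifs at h1 with hw
  · simp at h1
  · have h2 := h m (mem_support_iff.mpr (by simpa using h1))
    omega

end dz

variable (G : GT ι) (h : ι → ℤ)

theorem dl_iff (e : ℕ) (F : MvPolynomial ι ℝ) : G.Dl e F ↔ DZ G.w ((e : ℤ) - 1) F :=
  ⟨fun H m hm => by have := H m hm; omega, fun H m hm => by have := H m hm; omega⟩

variable {κ : Type} [Fintype κ] [DecidableEq κ]

theorem dd_add (h : κ → ι → ℤ) (j : κ) (F F' : MvPolynomial ι ℝ) :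
    G.dd h j (F + F') = G.dd h j F + G.dd h j F' := by
  simp only [GT.dd, map_add, mul_add, Finset.sum_add_distrib]

theorem dd_sub (h : κ → ι → ℤ) (j : κ) (F F' : MvPolynomial ι ℝ) :
    G.dd h j (F - F') = G.dd h j F - G.dd h j F' := by
  simp only [GT.dd, map_sub, mul_sub, Finset.sum_sub_distrib]

theorem dd_C (h : κ → ι → ℤ) (j : κ) (r : ℝ) : G.dd h j (C r) = 0 := by
  simp [GT.dd]

theorem dd_zero (h : κ → ι → ℤ) (j : κ) : G.dd h j 0 = 0 := by
  simp [GT.dd]

theorem dd_mul (h : κ → ι → ℤ) (j : κ) (F F' : MvPolynomial ι ℝ) :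
    G.dd h j (F * F') = G.dd h j F * rename Sum.inl F' + rename Sum.inl F * G.dd h j F' := by
  simp only [GT.dd, pderiv_mul, map_add, map_mul, Finset.sum_mul, Finset.mul_sum,
    ← Finset.sum_add_distrib]
  exact Finset.sum_congr rfl fun b _ => by ring

theorem dd_X (h : κ → ι → ℤ) (j : κ) (a : ι) : G.dd h j (X a) = G.wv h j a := by
  unfold GT.dd
  rw [Finset.sum_eq_single a]
  · simp
  · intro b _ hb
    rw [pderiv_X_of_ne (Ne.symm hb)]; simp
  · simp

theorem df_add (F F' : MvPolynomial ι ℝ) : G.df h (F + F') = G.df h F + G.df h F' := by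
  simp only [GT.df, GT.sh, map_add]; ring

theorem sh_eq (F : MvPolynomial ι ℝ) : G.sh h F = rename Sum.inl F + G.df h F := by
  simp only [GT.df]; ring

theorem df_mul (F F' : MvPolynomial ι ℝ) : G.df h (F * F') =
    rename Sum.inl F * G.df h F' + G.df h F * rename Sum.inl F' + G.df h F * G.df h F' := by
  simp only [GT.df, GT.sh, map_mul]; ring

theorem df_C (r : ℝ) : G.df h (C r) = 0 := by
  simp [GT.df, GT.sh]

theorem df_X (a : ι) : G.df h (X a) = G.wv (fun _ : Unit => h) () a := by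
  simp [GT.df, GT.sh]

/-- the three degree bounds -/
def PP (k : ℤ) (F : MvPolynomial ι ℝ) : Prop :=
  DZ (G.tan fun _ : Unit => h).w k (rename Sum.inl F) ∧
  DZ (G.tan fun _ : Unit => h).w (k - 1) (G.dd (fun _ : Unit => h) () F) ∧
  DZ (G.tan fun _ : Unit => h).w (k - 2) (G.df h F - G.dd (fun _ : Unit => h) () F)

variable {G h}

theorem PP.df {k : ℤ} {F : MvPolynomial ι ℝ} (H : PP G h k F) :
    DZ (G.tan fun _ : Unit => h).w (k - 1) (G.df h F) := by
  have := H.2.1.add (H.2.2.mono (by omega))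
  rwa [add_sub_cancel] at this

theorem PP.mono {k k' : ℤ} {F : MvPolynomial ι ℝ} (H : PP G h k F) (hk : k ≤ k') : PP G h k' F :=
  ⟨H.1.mono hk, H.2.1.mono (by omega), H.2.2.mono (by omega)⟩

theorem PP.add {k : ℤ} {F F' : MvPolynomial ι ℝ} (H : PP G h k F) (H' : PP G h k F') :
    PP G h k (F + F') := by
  refine ⟨by rw [map_add]; exact H.1.add H'.1, by rw [dd_add]; exact H.2.1.add H'.2.1, ?_⟩
  have := H.2.2.add H'.2.2
  rw [df_add, dd_add, add_sub_add_comm]
  exact this

theorem PP.mul {k k' : ℤ} {F F' : MvPolynomial ι ℝ} (H : PP G h k F) (H' : PP G h k' F') :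
    PP G h (k + k') (F * F') := by
  refine ⟨by rw [map_mul]; exact H.1.mul H'.1, ?_, ?_⟩
  · rw [dd_mul]
    exact ((H.2.1.mul H'.1).mono (by omega)).add ((H.1.mul H'.2.1).mono (by omega))
  · have h1 : G.df h (F * F') - G.dd (fun _ : Unit => h) () (F * F') =
        rename Sum.inl F * (G.df h F' - G.dd (fun _ : Unit => h) () F') +
        (G.df h F - G.dd (fun _ : Unit => h) () F) * rename Sum.inl F' +
        G.df h F * G.df h F' := by
      rw [df_mul, dd_mul]; ring
    rw [h1]
    exact (((H.1.mul H'.2.2).mono (by omega)).add ((H.2.2.mul H'.1).mono (by omega))).add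
      ((H.df.mul H'.df).mono (by omega))

theorem pp_C (r : ℝ) : PP G h 0 (C r) := by
  refine ⟨by rw [rename_C]; exact dz_C r, by rw [dd_C]; exact dz_zero _, ?_⟩
  rw [df_C, dd_C, sub_zero]; exact dz_zero _

theorem pp_zero (k : ℤ) : PP G h k 0 := by
  refine ⟨by rw [map_zero]; exact dz_zero _, by rw [dd_zero]; exact dz_zero _, ?_⟩
  have : G.df h 0 = 0 := by simp [GT.df, GT.sh]
  rw [this, dd_zero, sub_zero]; exact dz_zero _

theorem pp_X (hw : ∀ a, 1 ≤ G.w a) (a : ι) : PP G h (G.w a) (X a) := by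
  refine ⟨by rw [rename_X]; exact dz_X (w := (G.tan fun _ : Unit => h).w) (Sum.inl a), ?_, ?_⟩
  · rw [dd_X]
    unfold GT.wv
    split_ifs with hb
    · refine (dz_X (w := (G.tan fun _ : Unit => h).w) (Sum.inr ((), ⟨a, hb⟩))).mono ?_
      show ((G.w a - 1 : ℕ) : ℤ) ≤ _
      omega
    · exact (dz_C _).mono (by have := hw a; omega)
  · rw [df_X, dd_X, sub_self]; exact dz_zero _

theorem pp_monomial (hw : ∀ a, 1 ≤ G.w a) (m : ι →₀ ℕ) (r : ℝ) :
    PP G h ((Finsupp.weight G.w m : ℕ) : ℤ) (monomial m r) := by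
  induction m using Finsupp.induction_linear generalizing r with
  | zero => simpa using pp_C (G := G) (h := h) r
  | add m m' ih ih' =>
    have := (ih r).mul (ih' 1)
    rw [monomial_mul, mul_one] at this
    rw [map_add]; push_cast; exact this
  | single a n =>
    induction n with
    | zero => simpa using pp_C (G := G) (h := h) r
    | succ n ihn =>
      have := ihn.mul (pp_X (h := h) hw a)
      rw [X, monomial_mul, mul_one, ← Finsupp.single_add] at this
      refine this.mono (le_of_eq ?_)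
      simp only [Finsupp.weight_single, smul_eq_mul]
      push_cast; ring

theorem pp_of (hw : ∀ a, 1 ≤ G.w a) {k : ℤ} {F : MvPolynomial ι ℝ} (H : DZ G.w k F) :
    PP G h k F := by
  rw [F.as_sum]
  have : ∀ s : Finset (ι →₀ ℕ), s ⊆ F.support → PP G h k (∑ m ∈ s, monomial m (coeff m F)) := by
    intro s
    induction s using Finset.induction_on with
    | empty => intro _; simpa using pp_zero k
    | insert m s hm ih =>
      intro hs
      rw [Finset.sum_insert hm]
      exact ((pp_monomial hw m _).mono (H m (hs (Finset.mem_insert_self _ _)))).add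
        (ih fun x hx => hs (Finset.mem_insert_of_mem hx))
  exact this _ (Finset.Subset.refl _)

/-! ### Variables -/

theorem wv_mem (h : κ → ι → ℤ) (j : κ) (S : Set ι) {a : ι} (ha : a ∈ S) :
    G.wv h j a ∈ supported ℝ {x : G.TV κ | G.base x ∈ S} := by
  unfold GT.wv
  split_ifs with hb
  · exact X_mem_supported.mpr ha
  · exact Subalgebra.algebraMap_mem _ _

theorem sup_dd (h : κ → ι → ℤ) (j : κ) (S : Set ι) {F : MvPolynomial ι ℝ}
    (hF : F ∈ supported ℝ S) :
    rename Sum.inl F ∈ supported ℝ {x : G.TV κ | G.base x ∈ S} ∧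
      G.dd h j F ∈ supported ℝ {x : G.TV κ | G.base x ∈ S} := by
  induction hF using Algebra.adjoin_induction with
  | mem x hx =>
    obtain ⟨a, ha, rfl⟩ := hx
    refine ⟨?_, ?_⟩
    · rw [rename_X]; exact X_mem_supported.mpr ha
    · rw [dd_X]; exact wv_mem h j S ha
  | algebraMap r =>
    refine ⟨?_, ?_⟩
    · rw [algebraMap_eq, rename_C]; exact Subalgebra.algebraMap_mem _ _
    · rw [algebraMap_eq, dd_C]; exact zero_mem _
  | add x y _ _ hx hy =>
    exact ⟨by rw [map_add]; exact add_mem hx.1 hy.1, by rw [dd_add]; exact add_mem hx.2 hy.2⟩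
  | mul x y _ _ hx hy =>
    exact ⟨by rw [map_mul]; exact mul_mem hx.1 hy.1,
      by rw [dd_mul]; exact add_mem (mul_mem hx.2 hy.1) (mul_mem hx.1 hy.2)⟩

theorem sup_df (S : Set ι) {F : MvPolynomial ι ℝ} (hF : F ∈ supported ℝ S) :
    G.df h F ∈ supported ℝ {x : G.TV Unit | G.base x ∈ S} := by
  induction hF using Algebra.adjoin_induction with
  | mem x hx =>
    obtain ⟨a, ha, rfl⟩ := hx
    rw [df_X]; exact wv_mem _ _ S ha
  | algebraMap r => rw [algebraMap_eq, df_C]; exact zero_mem _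
  | add x y _ _ hx hy => rw [df_add]; exact add_mem hx hy
  | mul x y hx0 hy0 hx hy =>
    rw [df_mul]
    exact add_mem (add_mem (mul_mem (sup_dd (fun _ : Unit => h) () S hx0).1 hy)
      (mul_mem hx (sup_dd (fun _ : Unit => h) () S hy0).1)) (mul_mem hx hy)

theorem th_mem (S : Set ι) (a : ι) (hS : ∀ b, G.A a b ≠ 0 → b ∈ S ∧ G.q b ∈ supported ℝ S) :
    G.th a ∈ supported ℝ S := by
  unfold GT.th
  refine sum_mem fun b _ => ?_
  by_cases hb : G.A a b = 0
  · rw [hb, map_zero, zero_mul]; exact zero_mem _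
  · exact mul_mem (Subalgebra.algebraMap_mem _ _)
      (sub_mem (X_mem_supported.mpr (hS b hb).1) (hS b hb).2)

theorem th_dz {s : ℕ} (hG : G.Ok s) (a : ι) : DZ G.w (G.w a) (G.th a) := by
  unfold GT.th
  refine dz_sum _ _ fun b _ => ?_
  by_cases hb : G.A a b = 0
  · rw [hb, map_zero, zero_mul]; exact dz_zero _
  · rw [(hG.blk a b (Or.inl hb)).2]
    exact ((dz_X b).sub (dz_hom (hG.qh b))).cmul _

/-- the data of the derivative tower stay in a set closed under the charts -/
theorem der_mem (T : AT ι) (S : Set ι) (x : G.TV Unit) (h1 : G.th (G.base x) ∈ supported ℝ S)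
    (h2 : T.p (G.base x) ∈ supported ℝ S) :
    (G.der T h).p x ∈ supported ℝ {x : G.TV Unit | G.base x ∈ S} := by
  have h3 : G.ch T (G.base x) ∈ supported ℝ S := add_mem h1 h2
  rcases x with a | a
  · exact add_mem (sup_dd (fun _ : Unit => h) () S h2).1
      (mul_mem (Subalgebra.algebraMap_mem _ _) (sup_df S h3))
  · exact sub_mem (sup_df S h3) (sup_dd (fun _ : Unit => h) () S h1).2

theorem mem_U (T : AT ι) (x : G.TV Unit) : x ∈ (G.der T h).U ↔ G.base x ∈ T.U := by
  simp [GT.der]

theorem vars_U (T : AT ι) {F : MvPolynomial (G.TV Unit) ℝ}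
    (hF : F ∈ supported ℝ {x : G.TV Unit | G.base x ∈ (T.U : Set ι)}) : F.vars ⊆ (G.der T h).U :=
  fun x hx => (mem_U T x).mpr (mem_supported.mp hF (Finset.mem_coe.mpr hx))

end Derok

open Derok in
theorem derok (hT : TANOK) : DEROK := by
  intro s ι _ _ G T P h hG hP hA
  have hU : ∀ {F : MvPolynomial ι ℝ}, F.vars ⊆ T.U → F ∈ supported ℝ (T.U : Set ι) :=
    fun hF => mem_supported.mpr (Finset.coe_subset.mpr hF)
  have hth : ∀ a ∈ T.U, G.th a ∈ supported ℝ (T.U : Set ι) := fun a ha =>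
    th_mem _ a fun b hb => by
      have hb' : b ∈ T.U := (hA.bk a b (Or.inl hb)).mp ha
      exact ⟨hb', hU (hA.qv b hb')⟩
  have hs2 : (1 : ℝ) ≤ √2 := Real.one_le_sqrt.mpr (by norm_num)
  have hs3 : √2 ≤ (2 : ℝ) := Real.sqrt_le_iff.mpr (by norm_num)
  have hPi : 0 < P⁻¹ := inv_pos.mpr hP
  have h2P : (2 * P)⁻¹ = P⁻¹ / 2 := by field_simp
  refine ⟨⟨?_, ?_, ?_, ?_, ?_, ?_, ?_⟩, fun d Q hQ hd => ⟨vars_U T (sup_df _ (hU hQ)), ?_, ?_⟩⟩
  · intro x y hxy
    rw [mem_U, mem_U]
    rcases x with a | a <;> rcases y with b | b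
    · exact hA.bk a b hxy
    · simp [GT.tan, GT.tm] at hxy
    · simp [GT.tan, GT.tm] at hxy
    · refine hA.bk a.2.1 b.2.1 ?_
      simpa [GT.tan, GT.tm] using hxy
  · intro x hx
    have hx' := (mem_U T x).mp hx
    refine vars_U T ?_
    rcases x with a | a
    · exact (sup_dd (fun _ : Unit => h) () _ (hU (hA.qv a hx'))).1
    · exact (sup_dd (fun _ : Unit => h) a.1 _ (hU (hA.qv a.2.1 hx'))).2
  · intro x hx
    have hx' := (mem_U T x).mp hx
    exact vars_U T (der_mem T _ x (hth _ hx') (hU (hA.pv _ hx')))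
  · intro x hx
    have hx' := (mem_U T x).mp hx
    have h1 := pp_of (h := h) hG.w1 (th_dz hG (G.base x))
    have h2 := pp_of (h := h) hG.w1 ((dl_iff G _ _).mp (hA.pd _ hx'))
    rw [dl_iff]
    rcases x with a | a
    · refine h2.1.add (DZ.cmul ?_ _)
      show DZ _ _ (G.df h (G.th a + T.p a))
      rw [df_add]
      exact h1.df.add (h2.df.mono (by omega))
    · show DZ _ (((G.w a.2.1 - 1 : ℕ) : ℤ) - 1)
        (G.df h (G.th a.2.1 + T.p a.2.1) - G.dd (fun _ : Unit => h) () (G.th a.2.1))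
      have ha := a.2.2
      have h3 : G.df h (G.th a.2.1 + T.p a.2.1) - G.dd (fun _ : Unit => h) () (G.th a.2.1) =
          (G.df h (G.th a.2.1) - G.dd (fun _ : Unit => h) () (G.th a.2.1)) +
            G.df h (T.p a.2.1) := by
        rw [df_add]; ring
      rw [h3]
      have h4 : G.base (Sum.inr a : G.TV Unit) = a.2.1 := rfl
      rw [h4] at h1 h2
      exact (h1.2.2.mono (by omega)).add (h2.df.mono (by omega))
  · intro x hx
    have hx' := (mem_U T x).mp hx
    have h1 : ∀ {F : MvPolynomial ι ℝ} {g : ℕ}, G.Lo g F → g ≤ G.g (G.base x) + 1 →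
        F ∈ supported ℝ {b | G.g b < G.g (G.base x) + 1} := fun hF hg =>
      mem_supported.mpr fun b hb => (hF b (Finset.mem_coe.mp hb)).trans_le hg
    have h2 := der_mem (h := h) T {b | G.g b < G.g (G.base x) + 1} x
      (th_mem _ _ fun b hb => by
        have h3 := (hG.blk _ b (Or.inl hb)).1
        exact ⟨by show G.g b < _; omega, h1 (hG.ql b) (by omega)⟩)
      (h1 (hA.pl _ hx') le_rfl)
    intro y hy
    exact mem_supported.mp h2 (Finset.mem_coe.mpr hy)
  · intro x
    rw [h2P]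
    rcases x with a | a
    · have h1 := hA.s1 a
      show P⁻¹ / 2 ≤ √2 * T.sg a
      nlinarith
    · have h1 := hA.s1 a.2.1
      show P⁻¹ / 2 ≤ T.sg a.2.1 / √2
      rw [div_le_div_iff₀ (by norm_num) (by linarith)]
      nlinarith
  · intro x
    rcases x with a | a
    · have h1 := hA.s1 a
      have h2 := hA.s2 a
      show √2 * T.sg a ≤ 2 * P
      nlinarith
    · have h1 := hA.s1 a.2.1
      have h2 := hA.s2 a.2.1
      show T.sg a.2.1 / √2 ≤ 2 * P
      rw [div_le_iff₀ (by linarith)]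
      nlinarith
  · have h1 := (pp_of (h := h) hG.w1 ((dl_iff G _ _).mp hd)).df
    rw [dl_iff]
    exact h1.mono (by push_cast; omega)
  · have h0 : DZ G.w ((d + 1 : ℕ) : ℤ) Q := ((dl_iff G _ _).mp hd).mono (by push_cast; omega)
    have h1 := pp_of (h := h) hG.w1 h0
    have h2 := pp_of (h := h) hG.w1 (dz_sub_whc h0)
    have h3 : G.df h Q = G.dd (fun _ : Unit => h) () (G.top (d + 1) Q) +
        (G.dd (fun _ : Unit => h) () (Q - weightedHomogeneousComponent G.w (d + 1) Q) +
          (G.df h Q - G.dd (fun _ : Unit => h) () Q)) := by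
      rw [dd_sub]; unfold GT.top; ring
    have h4 := (hT s ι Unit G (fun _ => h) hG).2.2.2.2.2.1 () d (G.top (d + 1) Q)
      (weightedHomogeneousComponent_isWeightedHomogeneous _ _)
    have h5 : DZ (G.tan fun _ : Unit => h).w ((d : ℤ) - 1)
        (G.dd (fun _ : Unit => h) () (Q - weightedHomogeneousComponent G.w (d + 1) Q) +
          (G.df h Q - G.dd (fun _ : Unit => h) () Q)) :=
      (h2.2.1.mono (by push_cast; omega)).add (h1.2.2.mono (by push_cast; omega))
    rw [h3]
    unfold GT.top at h4 ⊢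
    rw [map_add, whc_dz h5, add_zero]
    exact h4.weightedHomogeneousComponent_same

end Vale.Agent.P057T.Eq
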