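import Vale.Agent.P057T.Eq.Defs

/-!
Row DET: block determinants.
-/

open MvPolynomial Finset

namespace Vale.Agent.P057T.Eq

noncomputable section

set_option linter.unusedSectionVars false

namespace DetP

variable {ι : Type} [Fintype ι] [DecidableEq ι]

theorem det_inj {α : Type} [Fintype α] [DecidableEq α] (M : Matrix ι ι ℝ) (V : Finset ι)
    (f : α → ι) (hf : Function.Injective f) (hr : ∀ a, a ∈ V ↔ ∃ x, f x = a) :
    (M.submatrix (Subtype.val : V → ι) (Subtype.val : V → ι)).det = (M.submatrix f f).det := by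
  let e : α ≃ V := Equiv.ofBijective (fun x => ⟨f x, (hr _).2 ⟨x, rfl⟩⟩)
    ⟨fun x y h => hf (congrArg Subtype.val h), fun a => by
      obtain ⟨x, hx⟩ := (hr a.1).1 a.2
      exact ⟨x, Subtype.ext hx⟩⟩
  rw [← Matrix.det_submatrix_equiv_self e]
  rfl

omit [Fintype ι] in
theorem prod_inj {α : Type} [Fintype α] (φ : ι → ℝ) (V : Finset ι)
    (f : α → ι) (hf : Function.Injective f) (hr : ∀ a, a ∈ V ↔ ∃ x, f x = a) :
    ∏ a ∈ V, φ a = ∏ x, φ (f x) := by
  have : V = univ.image f := by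
    ext a
    rw [hr]
    simp
  rw [this, prod_image fun x _ y _ h => hf h]

theorem dv_pos {s : ℕ} {G : GT ι} (hG : G.Ok s) {V : Finset ι} (hV : G.Bk V) : 0 < G.dv V := by
  have h1 : G.A.submatrix (Subtype.val : V → ι) (Subtype.val : V → ι) *
      G.B.submatrix (Subtype.val : V → ι) (Subtype.val : V → ι) = 1 := by
    ext a b
    have h2 : (G.A * G.B) a.1 b.1 = (1 : Matrix ι ι ℝ) a.1 b.1 := by rw [hG.AB]
    rw [Matrix.mul_apply] at h2 ⊢
    simp only [Matrix.submatrix_apply]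
    rw [Finset.sum_coe_sort V fun c => G.A a.1 c * G.B c b.1,
      Finset.sum_subset (subset_univ V) fun c _ hc => ?_, h2]
    · simp only [Matrix.one_apply, Subtype.ext_iff]
    · by_cases h : G.A a.1 c = 0
      · rw [h, zero_mul]
      · exact absurd ((hV _ _ (Or.inl h)).1 a.2) hc
  have h3 := congrArg Matrix.det h1
  rw [Matrix.det_mul, Matrix.det_one] at h3
  exact abs_pos.2 (right_ne_zero_of_mul_eq_one h3)

theorem dv_empty (G : GT ι) : G.dv ∅ = 1 := by
  unfold GT.dv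
  rw [Matrix.det_isEmpty, abs_one]

theorem dv_split (G : GT ι) {U V : Finset ι} (hV : G.Bk V) (h : V ⊆ U) :
    G.dv U = G.dv V * G.dv (U \ V) := by
  unfold GT.dv
  rw [← abs_mul, det_inj G.B U
    (Sum.elim (Subtype.val : V → ι) (Subtype.val : (U \ V : Finset ι) → ι)) ?_ ?_]
  · congr 1
    rw [← Matrix.det_fromBlocks_zero₂₁ _ (G.B.submatrix (Subtype.val : V → ι)
      (Subtype.val : (U \ V : Finset ι) → ι))]
    congr 1
    ext (a | a) (b | b)
    · rfl
    · rfl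
    · by_contra hne
      exact (mem_sdiff.1 a.2).2 ((hV _ _ (Or.inr hne)).2 b.2)
    · rfl
  · rintro (a | a) (b | b) hab
    · exact congrArg Sum.inl (Subtype.ext hab)
    · exact absurd (show b.1 ∈ V from (show a.1 = b.1 from hab) ▸ a.2) (mem_sdiff.1 b.2).2
    · exact absurd (show a.1 ∈ V from (show a.1 = b.1 from hab).symm ▸ b.2) (mem_sdiff.1 a.2).2
    · exact congrArg Sum.inr (Subtype.ext hab)
  · intro a
    constructor
    · intro ha
      by_cases hv : a ∈ V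
      · exact ⟨Sum.inl ⟨a, hv⟩, rfl⟩
      · exact ⟨Sum.inr ⟨a, mem_sdiff.2 ⟨ha, hv⟩⟩, rfl⟩
    · rintro ⟨b | b, rfl⟩
      · exact h b.2
      · exact (mem_sdiff.1 b.2).1

theorem bk_V1 {s : ℕ} {G : GT ι} (hG : G.Ok s) {T : AT ι} (hU : G.Bk T.U) : G.Bk (G.V1 T) := by
  intro a b hab
  simp only [GT.V1, mem_filter]
  rw [hU a b hab, (hG.blk a b hab).2]

theorem two_le {s : ℕ} {G : GT ι} (hG : G.Ok s) {T : AT ι} (a : (T.U \ G.V1 T : Finset ι)) :
    2 ≤ G.w a.1 := by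
  have h1 := mem_sdiff.1 a.2
  have h2 := hG.w1 a.1
  have h3 : G.w a.1 ≠ 1 := fun h => h1.2 (mem_filter.2 ⟨h1.1, h⟩)
  omega

/-- the active variables of the derivative tower -/
def emb {s : ℕ} {G : GT ι} (hG : G.Ok s) (T : AT ι) :
    T.U ⊕ (T.U \ G.V1 T : Finset ι) → G.TV Unit :=
  Sum.map Subtype.val fun a => ((), ⟨a.1, two_le hG a⟩)

theorem emb_inj {s : ℕ} {G : GT ι} (hG : G.Ok s) (T : AT ι) : Function.Injective (emb hG T) :=
  Function.Injective.sumMap Subtype.val_injective fun _ _ h =>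
    Subtype.ext (congrArg (fun x : Unit × {a : ι // 2 ≤ G.w a} => x.2.1) h)

theorem emb_range {s : ℕ} {G : GT ι} (hG : G.Ok s) (T : AT ι) (h : ι → ℤ) (x : G.TV Unit) :
    x ∈ (G.der T h).U ↔ ∃ y, emb hG T y = x := by
  simp only [GT.der, mem_filter, mem_univ, true_and]
  constructor
  · intro hx
    rcases x with a | ⟨⟨⟩, a, ha⟩
    · exact ⟨Sum.inl ⟨a, hx⟩, rfl⟩
    · refine ⟨Sum.inr ⟨a, mem_sdiff.2 ⟨hx, fun h1 => ?_⟩⟩, rfl⟩
      have := (mem_filter.1 h1).2
      omega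
  · rintro ⟨a | a, rfl⟩
    · exact a.2
    · exact (mem_sdiff.1 a.2).1

theorem dv_der {s : ℕ} {G : GT ι} (hG : G.Ok s) (T : AT ι) (h : ι → ℤ) :
    (G.tan fun _ : Unit => h).dv (G.der T h).U = G.dv T.U * G.dv (T.U \ G.V1 T) := by
  unfold GT.dv
  rw [← abs_mul, det_inj _ _ (emb hG T) (emb_inj hG T) (emb_range hG T h)]
  congr 1
  rw [← Matrix.det_fromBlocks_zero₂₁ _ 0]
  congr 1
  ext (a | a) (b | b)
  · rfl
  · rfl
  · rfl
  · show (if () = () then G.B a.1 b.1 else 0) = G.B a.1 b.1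
    exact if_pos rfl

theorem prod_der {s : ℕ} {G : GT ι} (hG : G.Ok s) (T : AT ι) (h : ι → ℤ) :
    ∏ x ∈ (G.der T h).U, ((G.der T h).sg x)⁻¹
      = (∏ a ∈ T.U, (√2 * T.sg a)⁻¹) * ∏ a ∈ T.U \ G.V1 T, (T.sg a / √2)⁻¹ := by
  rw [prod_inj _ _ (emb hG T) (emb_inj hG T) (emb_range hG T h), Fintype.prod_sum_type,
    ← Finset.prod_coe_sort T.U, ← Finset.prod_coe_sort (T.U \ G.V1 T)]
  rfl

end DetP

open DetP in
/-- the form without hypotheses -/
theorem det0 : DET := by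
  intro s ι _ _ G hG
  refine ⟨fun V hV => dv_pos hG hV, dv_empty G, fun U V _ hV h => dv_split G hV h, ?_⟩
  intro T h P _ hT
  have hs : G.V1 T ⊆ T.U := filter_subset _ _
  have h2 : (√2 : ℝ) ≠ 0 := by positivity
  unfold GT.mn
  rw [dv_der hG, prod_der hG]
  simp only [mul_inv, div_eq_mul_inv, inv_inv, prod_mul_distrib, prod_const]
  have hc : T.U.card = (T.U \ G.V1 T).card + (G.V1 T).card := (card_sdiff_add_card_eq_card hs).symm
  have hp := prod_sdiff (f := fun a => (T.sg a)⁻¹) hs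
  have hd := dv_split G (bk_V1 hG hT.bk) hs
  rw [hc, pow_add, inv_pow, inv_pow, sq]
  nth_rewrite 1 [hd, ← hp]
  field_simp

theorem det (_ : TANOK) : DET := det0

end

end Vale.Agent.P057T.Eq
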