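import Vale.Agent.P057T.Eq.Defs
import Vale.Agent.P057T.TowH52

/-! Bridge from towers to matrices; summability of the weight. -/

open MvPolynomial Finset Matrix
open scoped Real
open Vale.Agent.P267.H775 Vale.Agent.P057T.Poi

namespace Vale.Agent.P057T.Eq

noncomputable section

set_option linter.unusedSectionVars false

variable {ι : Type} [Fintype ι] [DecidableEq ι]

namespace Br

/-- extension by zero -/
def ex0 (V : Finset ι) (y : V → ℤ) : ι → ℤ := fun a => if h : a ∈ V then y ⟨a, h⟩ else 0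

theorem ex0_mem (V : Finset ι) (y : V → ℤ) : ex0 V y ∈ Lat V := fun _ ha => dif_neg ha

theorem ex0_coe (V : Finset ι) (y : V → ℤ) (a : V) : ex0 V y a = y a := dif_pos a.2

/-- points supported on `V` -/
def latE (V : Finset ι) : (V → ℤ) ≃ Lat V where
  toFun y := ⟨ex0 V y, ex0_mem V y⟩
  invFun z := fun a => z.1 a
  left_inv y := funext fun a => ex0_coe V y a
  right_inv z := by
    ext a
    by_cases h : a ∈ V
    · exact dif_pos h
    · exact (dif_neg h).trans (z.2 a h).symm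

theorem latE_coe (V : Finset ι) (y : V → ℤ) : (latE V y).1 = ex0 V y := rfl

/-- splitting of the points supported on `U` -/
def splE {U S : Finset ι} (h : S ⊆ U) : Lat (U \ S) × Lat S ≃ Lat U where
  toFun u := ⟨u.1.1 + u.2.1, fun a ha => by
    rw [Pi.add_apply, u.1.2 a fun h1 => ha (mem_sdiff.1 h1).1, u.2.2 a fun h1 => ha (h h1),
      add_zero]⟩
  invFun z := (⟨fun a => if a ∈ S then 0 else z.1 a, fun a ha => by
      by_cases h1 : a ∈ S
      · exact if_pos h1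
      · exact (if_neg h1).trans (z.2 a fun h2 => ha (mem_sdiff.2 ⟨h2, h1⟩))⟩,
    ⟨fun a => if a ∈ S then z.1 a else 0, fun _ ha => if_neg ha⟩)
  left_inv u := by
    ext a
    · by_cases h1 : a ∈ S
      · exact (if_pos h1).trans (u.1.2 a fun h2 => (mem_sdiff.1 h2).2 h1).symm
      · refine (if_neg h1).trans ?_
        show u.1.1 a + u.2.1 a = u.1.1 a
        rw [u.2.2 a h1, add_zero]
    · by_cases h1 : a ∈ S
      · refine (if_pos h1).trans ?_
        show u.1.1 a + u.2.1 a = u.2.1 a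
        rw [u.1.2 a fun h2 => (mem_sdiff.1 h2).2 h1, zero_add]
      · exact (if_neg h1).trans (u.2.2 a h1).symm
  right_inv z := by
    ext a
    show (if a ∈ S then 0 else z.1 a) + (if a ∈ S then z.1 a else 0) = z.1 a
    split_ifs <;> simp

theorem splE_coe {U S : Finset ι} (h : S ⊆ U) (u : Lat (U \ S) × Lat S) :
    (splE h u).1 = u.1.1 + u.2.1 := rfl

theorem eval_congr_vars {F : MvPolynomial ι ℝ} {x y : ι → ℝ} (h : ∀ a ∈ F.vars, x a = y a) :
    eval x F = eval y F :=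
  hom_congr_vars (by ext r; simp) (fun i hi _ => by simpa using h i hi) rfl

theorem eval_add_of_disj {F : MvPolynomial ι ℝ} {S : Finset ι} (h : Disjoint F.vars S)
    (z : ι → ℤ) {y : ι → ℤ} (hy : y ∈ Lat S) : eval (cz (z + y)) F = eval (cz z) F :=
  eval_congr_vars fun a ha => by
    simp only [cz, Pi.add_apply, hy a (disjoint_left.1 h ha), add_zero]

variable (G : GT ι)

/-- the scaled chart matrix on `V` -/
def mM (σ : ι → ℝ) (V : Finset ι) : Matrix V V ℝ := Matrix.of fun a b => σ a * G.A a b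

/-- its inverse -/
def mI (σ : ι → ℝ) (V : Finset ι) : Matrix V V ℝ := Matrix.of fun b a => G.B b a / σ a

variable {G} {s : ℕ}

theorem sum_bk {V : Finset ι} (f : ι → ℝ) (h : ∀ b, b ∉ V → f b = 0) :
    ∑ b, f b = ∑ b : V, f b := by
  rw [Finset.sum_coe_sort V f]
  exact (Finset.sum_subset (subset_univ V) fun b _ hb => h b hb).symm

theorem A_zero {V : Finset ι} (hV : G.Bk V) {a b : ι} (ha : a ∈ V) (hb : b ∉ V) : G.A a b = 0 := by
  by_contra h
  exact hb ((hV a b (Or.inl h)).1 ha)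

theorem B_zero {V : Finset ι} (hV : G.Bk V) {a b : ι} (ha : a ∈ V) (hb : b ∉ V) : G.B a b = 0 := by
  by_contra h
  exact hb ((hV a b (Or.inr h)).1 ha)

theorem AB_sub (hG : G.Ok s) {V : Finset ι} (hV : G.Bk V) (a c : V) :
    ∑ b : V, G.A a b * G.B b c = (1 : Matrix V V ℝ) a c := by
  have h := congrFun (congrFun hG.AB a) c
  rw [mul_apply, sum_bk (V := V) _ fun b hb => by rw [A_zero hV a.2 hb, zero_mul]] at h
  rw [h, one_apply, one_apply]
  simp only [Subtype.ext_iff]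

theorem mM_mul (hG : G.Ok s) {V : Finset ι} (hV : G.Bk V) {σ : ι → ℝ} (hσ : ∀ a, 0 < σ a) :
    mM G σ V * mI G σ V = 1 := by
  ext a c
  have h := AB_sub hG hV a c
  have h1 : (mM G σ V * mI G σ V) a c = σ a / σ c * ∑ b : V, G.A a b * G.B b c := by
    rw [mul_apply, Finset.mul_sum]
    refine Finset.sum_congr rfl fun b _ => ?_
    simp only [mM, mI, of_apply]
    ring
  rw [h1, h]
  by_cases hac : a = c
  · rw [hac, div_self (hσ c).ne', one_mul]
  · rw [one_apply_ne hac, mul_zero]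

theorem mM_inv (hG : G.Ok s) {V : Finset ι} (hV : G.Bk V) {σ : ι → ℝ} (hσ : ∀ a, 0 < σ a) :
    (mM G σ V)⁻¹ = mI G σ V := Matrix.inv_eq_right_inv (mM_mul hG hV hσ)

theorem mM_det (hG : G.Ok s) {V : Finset ι} (hV : G.Bk V) {σ : ι → ℝ} (hσ : ∀ a, 0 < σ a) :
    (mM G σ V).det ≠ 0 := by
  have h := congrArg det (mM_mul hG hV hσ)
  rw [det_mul, det_one] at h
  exact left_ne_zero_of_mul_eq_one h

theorem mn_eq (hG : G.Ok s) {V : Finset ι} (hV : G.Bk V) {σ : ι → ℝ} (hσ : ∀ a, 0 < σ a) :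
    G.mn σ V = |(mM G σ V).det|⁻¹ := by
  have h := congrArg det (mM_mul hG hV hσ)
  rw [det_mul, det_one] at h
  have h1 : mI G σ V = G.B.submatrix (Subtype.val : V → ι) (Subtype.val : V → ι) *
      diagonal fun a : V => (σ a)⁻¹ := by
    ext b a
    simp [mI, div_eq_mul_inv]
  rw [← abs_inv, ← eq_inv_of_mul_eq_one_right h, h1, det_mul, det_diagonal, abs_mul, GT.mn, GT.dv,
    ← Finset.prod_coe_sort V, abs_of_pos (a := ∏ a : V, (σ a)⁻¹)
      (Finset.prod_pos fun a _ => inv_pos.2 (hσ a))]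

theorem mn_pos (hG : G.Ok s) {V : Finset ι} (hV : G.Bk V) {σ : ι → ℝ} (hσ : ∀ a, 0 < σ a) :
    0 < G.mn σ V := by
  rw [mn_eq hG hV hσ]
  exact inv_pos.2 (abs_pos.2 (mM_det hG hV hσ))

theorem dq_eq (hG : G.Ok s) {V : Finset ι} (hV : G.Bk V) {σ : ι → ℝ} (hσ : ∀ a, 0 < σ a)
    (ξ : ι → ℝ) : G.dq σ V ξ = qf ((mM G σ V)⁻¹)ᵀ fun b => ξ b := by
  rw [mM_inv hG hV hσ, GT.dq, qf, ← Finset.sum_coe_sort V]
  refine Finset.sum_congr rfl fun a _ => ?_
  congr 1
  rw [← Finset.sum_coe_sort V, Finset.sum_div]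
  refine Finset.sum_congr rfl fun b _ => ?_
  simp only [mI, transpose_apply, of_apply]
  ring

theorem ch_eval (hG : G.Ok s) (T : AT ι) (x : ι → ℝ) (a : ι) :
    eval x (G.ch T a) = ∑ b, G.A a b * (x b - eval x (G.cq T b)) := by
  have h1 : ∑ b, G.A a b * ∑ c, G.B b c * eval x (T.p c) = eval x (T.p a) := by
    have h2 : G.A *ᵥ (G.B *ᵥ fun c => eval x (T.p c)) = fun c => eval x (T.p c) := by
      rw [mulVec_mulVec, hG.AB, one_mulVec]
    exact congrFun h2 a
  simp only [GT.ch, GT.th, GT.cq, map_add, map_sum, map_mul, map_sub, eval_C, eval_X]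
  rw [← h1, ← Finset.sum_add_distrib]
  refine Finset.sum_congr rfl fun b _ => ?_
  ring

theorem sum_ch (hG : G.Ok s) (T : AT ι) {V : Finset ι} (hV : G.Bk V) (σ x : ι → ℝ) :
    ∑ a ∈ V, (σ a * eval x (G.ch T a)) ^ 2 =
      qf (mM G σ V) fun b => x b - eval x (G.cq T b) := by
  rw [qf, ← Finset.sum_coe_sort V]
  refine Finset.sum_congr rfl fun a _ => ?_
  congr 1
  rw [ch_eval hG, sum_bk (V := V) _ fun b hb => by rw [A_zero hV a.2 hb, zero_mul],
    Finset.mul_sum]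
  refine Finset.sum_congr rfl fun b _ => ?_
  simp only [mM, of_apply]
  ring

theorem sg_pos {T : AT ι} {P : ℝ} (hP : 0 < P) (hT : G.AOk T P) (a : ι) : 0 < T.sg a :=
  (inv_pos.2 hP).trans_le (hT.s1 a)

theorem nu_pos (T : AT ι) (z : ι → ℤ) : 0 < G.nu T z := Real.exp_pos _

theorem nu_eq (hG : G.Ok s) {T : AT ι} (hT : G.Bk T.U) (z : ι → ℤ) :
    G.nu T z = gq (mM G T.sg T.U) fun b => cz z b - eval (cz z) (G.cq T b) := by
  rw [GT.nu, gq, sum_ch hG T hT]

theorem vars_w {e : ℕ} {F : MvPolynomial ι ℝ} (h : G.Dl e F) {c : ι} (hc : c ∈ F.vars) :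
    G.w c < e := by
  obtain ⟨m, hm, hcm⟩ := (mem_vars_iff_mem_support c).1 hc
  exact (Finsupp.le_weight_of_ne_zero' G.w (Finsupp.mem_support_iff.1 hcm)).trans_lt (h m hm)

theorem cq_congr (T : AT ι) (b : ι) {x y : ι → ℝ} (h1 : ∀ c ∈ (G.q b).vars, x c = y c)
    (h2 : ∀ a, G.B b a ≠ 0 → ∀ c ∈ (T.p a).vars, x c = y c) :
    eval x (G.cq T b) = eval y (G.cq T b) := by
  simp only [GT.cq, map_sub, map_sum, map_mul, eval_C]
  rw [eval_congr_vars h1]
  congr 1
  refine Finset.sum_congr rfl fun a _ => ?_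
  by_cases h : G.B b a = 0
  · rw [h, zero_mul, zero_mul]
  · rw [eval_congr_vars (h2 a h)]

/-- the order of the stages -/
def stg (G : GT ι) (s : ℕ) (a : ι) : ℕ := G.g a * (s + 1) + G.w a

theorem stg_lt_of_g (hG : G.Ok s) {a b : ι} (h : G.g a < G.g b) : stg G s a < stg G s b := by
  have h1 := hG.ws a
  have h2 : (G.g a + 1) * (s + 1) ≤ G.g b * (s + 1) := Nat.mul_le_mul_right _ h
  unfold stg
  nlinarith

theorem cq_tri (hG : G.Ok s) {T : AT ι} {P : ℝ} (hT : G.AOk T P) {b : ι} (hb : b ∈ T.U)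
    {x y : ι → ℝ} (h : ∀ c, stg G s c < stg G s b → x c = y c) :
    eval x (G.cq T b) = eval y (G.cq T b) := by
  refine cq_congr T b (fun c hc => h c (stg_lt_of_g hG (hG.ql b c hc))) fun a ha c hc => h c ?_
  have ha1 : a ∈ T.U := (hT.bk b a (Or.inr ha)).1 hb
  obtain ⟨e1, e2⟩ := hG.blk b a (Or.inr ha)
  have h1 := hT.pl a ha1 c hc
  have h2 := vars_w (hT.pd a ha1) hc
  rcases Nat.lt_succ_iff_lt_or_eq.1 h1 with h3 | h3
  · exact stg_lt_of_g hG (e1 ▸ h3)
  · unfold stg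
    rw [h3, e1, e2]
    omega

/-- sums over a block closed part `S` of the active variables, the rest being frozen -/
theorem fib_sum (hG : G.Ok s) {T : AT ι} {P : ℝ} (hT : G.AOk T P) {S : Finset ι} (hS : S ⊆ T.U)
    (hB : G.Bk S) {σ : ι → ℝ} (hσ : ∀ a, 0 < σ a) (z : ι → ℤ) :
    Summable (fun y : S → ℤ => gq (mM G σ S)
      (toR y - fun b : S => eval (cz (z + ex0 S y)) (G.cq T b) - z b)) ∧
    ∑' y : S → ℤ, gq (mM G σ S)
      (toR y - fun b : S => eval (cz (z + ex0 S y)) (G.cq T b) - z b) ≤ th (mM G σ S) 0 := by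
  refine tower_sum' (fun a : S => stg G s a) (fun a b hab => ?_) (mM_det hG hB hσ)
    (c := fun y b => eval (cz (z + ex0 S y)) (G.cq T b) - z b) fun y y' b h => ?_
  · have : G.A a b = 0 := by
      by_contra h
      obtain ⟨e1, e2⟩ := hG.blk a b (Or.inl h)
      exact hab (by simp only [stg, e1, e2])
    simp only [mM, of_apply, this, mul_zero]
  · simp only
    congr 1
    refine cq_tri hG hT (hS b.2) fun c hc => ?_
    simp only [cz, Pi.add_apply, ex0]
    by_cases h1 : c ∈ S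
    · rw [dif_pos h1, dif_pos h1, h ⟨c, h1⟩ hc]
    · rw [dif_neg h1, dif_neg h1]

theorem gq_fib (T : AT ι) (S : Finset ι) (σ : ι → ℝ) (z : ι → ℤ) (y : S → ℤ) :
    gq (mM G σ S) (fun b => cz (z + ex0 S y) b - eval (cz (z + ex0 S y)) (G.cq T b)) =
    gq (mM G σ S) (toR y - fun b : S => eval (cz (z + ex0 S y)) (G.cq T b) - z b) := by
  congr 1
  funext b
  simp only [cz, Pi.add_apply, ex0_coe, Pi.sub_apply, toR_apply]
  push_cast
  ring

theorem bk_sdiff {U S : Finset ι} (hU : G.Bk U) (hS : G.Bk S) : G.Bk (U \ S) := fun a b h => by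
  rw [mem_sdiff, mem_sdiff, hU a b h, hS a b h]

/-- the weight splits when the charts outside `S` do not use `S` -/
theorem nu_split (hG : G.Ok s) {T : AT ι} (hU : G.Bk T.U) {S : Finset ι} (hS : S ⊆ T.U)
    (hB : G.Bk S) (hd : ∀ a ∈ T.U \ S, Disjoint (G.q a).vars S ∧ Disjoint (T.p a).vars S)
    (z : ι → ℤ) {y : ι → ℤ} (hy : y ∈ Lat S) :
    G.nu T (z + y) = G.nu (T.rs (T.U \ S)) z *
      gq (mM G T.sg S) fun b => cz (z + y) b - eval (cz (z + y)) (G.cq T b) := by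
  rw [GT.nu, GT.nu, gq, ← Real.exp_add, ← mul_add, ← sum_ch hG T hB, ← Finset.sum_sdiff hS]
  congr 3
  refine Finset.sum_congr rfl fun a ha => ?_
  have hk := bk_sdiff hU hB
  have h1 : eval (cz (z + y)) (G.ch T a) = eval (cz z) (G.ch T a) := by
    simp only [GT.ch, GT.th, map_add, map_sum, map_mul, map_sub, eval_C, eval_X]
    rw [eval_add_of_disj (hd a ha).2 z hy]
    congr 1
    refine Finset.sum_congr rfl fun b _ => ?_
    by_cases h : G.A a b = 0
    · rw [h, zero_mul, zero_mul]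
    · have hb := (hk a b (Or.inl h)).1 ha
      rw [eval_add_of_disj (hd b hb).1 z hy]
      simp only [cz, Pi.add_apply, hy b (mem_sdiff.1 hb).2, add_zero]
  rw [h1]
  rfl

theorem aok_rs {T : AT ι} {P : ℝ} (hT : G.AOk T P) {S : Finset ι} (hB : G.Bk S)
    (hd : ∀ a ∈ T.U \ S, Disjoint (G.q a).vars S ∧ Disjoint (T.p a).vars S) :
    G.AOk (T.rs (T.U \ S)) P where
  bk := bk_sdiff hT.bk hB
  qv a ha := subset_sdiff.2 ⟨hT.qv a (mem_sdiff.1 ha).1, (hd a ha).1⟩
  pv a ha := subset_sdiff.2 ⟨hT.pv a (mem_sdiff.1 ha).1, (hd a ha).2⟩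
  pd a ha := hT.pd a (mem_sdiff.1 ha).1
  pl a ha := hT.pl a (mem_sdiff.1 ha).1
  s1 := hT.s1
  s2 := hT.s2

theorem summ_le (hG : G.Ok s) {T : AT ι} {P : ℝ} (hP : 0 < P) (hT : G.AOk T P) :
    Summable (fun z : Lat T.U => G.nu T z.1) ∧ G.ms T ≤ th (mM G T.sg T.U) 0 := by
  obtain ⟨h1, h2⟩ := fib_sum hG hT Subset.rfl hT.bk (sg_pos hP hT) 0
  have he : ∀ y : T.U → ℤ, G.nu T (latE T.U y).1 = gq (mM G T.sg T.U)
      (toR y - fun b : T.U => eval (cz (0 + ex0 T.U y)) (G.cq T b) - (0 : ι → ℤ) b) := by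
    intro y
    rw [← gq_fib, nu_eq hG hT.bk, latE_coe, zero_add]
  refine ⟨(latE T.U).summable_iff.1 (h1.congr fun y => (he y).symm), ?_⟩
  rw [GT.ms, ← (latE T.U).tsum_eq]
  simp only [he]
  exact h2

theorem norm_term (T : AT ι) (Q : MvPolynomial ι ℝ) (z : ι → ℤ) :
    ‖(G.nu T z : ℂ) * Complex.exp (2 * π * Complex.I * (eval (cz z) Q : ℝ))‖ = G.nu T z := by
  rw [norm_mul, Complex.norm_real, Real.norm_eq_abs, abs_of_pos (nu_pos T z), Complex.norm_exp]
  simp

theorem summable_term (hG : G.Ok s) {T : AT ι} {P : ℝ} (hP : 0 < P) (hT : G.AOk T P)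
    (Q : MvPolynomial ι ℝ) : Summable fun z : Lat T.U =>
      (G.nu T z.1 : ℂ) * Complex.exp (2 * π * Complex.I * (eval (cz z.1) Q : ℝ)) :=
  Summable.of_norm_bounded (summ_le hG hP hT).1 fun z => (norm_term T Q z.1).le

theorem norm_Sm_le (hG : G.Ok s) {T : AT ι} {P : ℝ} (hP : 0 < P) (hT : G.AOk T P)
    (Q : MvPolynomial ι ℝ) : ‖G.Sm T Q‖ ≤ G.ms T :=
  tsum_of_norm_bounded (summ_le hG hP hT).1.hasSum fun z => (norm_term T Q z.1).le

theorem Sm_zero (T : AT ι) : G.Sm T 0 = (G.ms T : ℂ) := by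
  simp [GT.Sm, GT.ms, Complex.ofReal_tsum]

theorem ms_nonneg (T : AT ι) : 0 ≤ G.ms T := tsum_nonneg fun z => (nu_pos T z.1).le

end Br

theorem summ : SUMM := fun _ _ _ _ _ _ _ hG hP hT => (Br.summ_le hG hP hT).1

end

end Vale.Agent.P057T.Eq
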