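import Vale.Agent.P057T.Eq.Defs
import Vale.Agent.P057T.HermH83

/-! Short bases of a block from the absence of short dual vectors. -/

open MvPolynomial Finset

namespace Vale.Agent.P057T.Eq.Wb

open Vale.Agent.P057T.Herm

set_option linter.unusedSectionVars false
set_option linter.unusedSimpArgs false

variable {ι : Type} [Fintype ι] [DecidableEq ι]

/-- basis free width bound -/
def Wf (G : GT ι) (WW : ℕ → ℝ) : Prop :=
  ∀ (g : ℕ) (k : ι → ℤ), k ≠ 0 → (∀ a, k a ≠ 0 → G.g a = g) →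
    ∃ a, Real.exp (-WW g) ≤ |∑ b, (k b : ℝ) * G.B b a|

theorem sum_sub (S : Finset ι) (f : ι → ℝ) (h : ∀ c, c ∉ S → f c = 0) :
    ∑ c : S, f c.1 = ∑ c, f c := by
  rw [Finset.sum_coe_sort S f]
  exact Finset.sum_subset (subset_univ S) fun c _ hc => h c hc

theorem sub_inv {G : GT ι} {s : ℕ} (hG : G.Ok s) {S : Finset ι} (hS : G.Bk S) :
    G.A.submatrix (Subtype.val : S → ι) (Subtype.val : S → ι) *
      G.B.submatrix (Subtype.val : S → ι) (Subtype.val : S → ι) = 1 := by
  ext a b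
  have h := congrFun (congrFun hG.AB a.1) b.1
  rw [Matrix.mul_apply] at h ⊢
  simp only [Matrix.submatrix_apply]
  rw [sum_sub S (fun c => G.A a.1 c * G.B c b.1), h]
  · simp only [Matrix.one_apply, Subtype.ext_iff]
  · intro c hc
    by_contra h0
    exact hc ((hS a.1 c (Or.inl (left_ne_zero_of_mul h0))).1 a.2)

theorem dual {G : GT ι} {s : ℕ} (hG : G.Ok s) {WW : ℕ → ℝ} (ha : Antitone WW) (hW : Wf G WW)
    {S : Finset ι} (hS : G.Bk S) {g : ℕ} (hg : ∀ a ∈ S, g ≤ G.g a) (k : S → ℤ) (hk : k ≠ 0) :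
    ∃ a : S, Real.exp (-WW g) ≤ |∑ b : S, (k b : ℝ) * G.B b.1 a.1| := by
  obtain ⟨a0, h0⟩ : ∃ a0, k a0 ≠ 0 := Function.ne_iff.1 hk
  set k' : ι → ℤ := fun a => if h : a ∈ S then (if G.g a = G.g a0.1 then k ⟨a, h⟩ else 0) else 0
    with hk'
  have h1 : k' ≠ 0 := by
    intro h
    have := congrFun h a0.1
    simp [hk', a0.2] at this
    exact h0 this
  have h2 : ∀ a, k' a ≠ 0 → a ∈ S ∧ G.g a = G.g a0.1 := by
    intro a h
    by_cases hs : a ∈ S
    · by_cases hh : G.g a = G.g a0.1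
      · exact ⟨hs, hh⟩
      · simp [hk', hh] at h
    · simp [hk', hs] at h
  obtain ⟨a, h3⟩ := hW _ k' h1 fun a h => (h2 a h).2
  have h4 : ∑ b, (k' b : ℝ) * G.B b a ≠ 0 := by
    intro h
    rw [h, abs_zero] at h3
    exact absurd h3 (not_le.2 (Real.exp_pos _))
  obtain ⟨b, -, hb⟩ := Finset.exists_ne_zero_of_sum_ne_zero h4
  have hb1 : k' b ≠ 0 := by exact_mod_cast left_ne_zero_of_mul hb
  have hb2 := right_ne_zero_of_mul hb
  have haS : a ∈ S := (hS b a (Or.inr hb2)).1 (h2 b hb1).1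
  have hag : G.g a = G.g a0.1 := (hG.blk b a (Or.inr hb2)).1 ▸ (h2 b hb1).2
  refine ⟨⟨a, haS⟩, ?_⟩
  have h5 : ∑ b : S, (k b : ℝ) * G.B b.1 a = ∑ b, (k' b : ℝ) * G.B b a := by
    rw [← sum_sub S (fun b => (k' b : ℝ) * G.B b a)]
    · refine Finset.sum_congr rfl fun c _ => ?_
      by_cases hh : G.g c.1 = G.g a0.1
      · simp [hk', c.2, hh]
      · have : G.B c.1 a = 0 := by
          by_contra h
          exact hh ((hG.blk _ _ (Or.inr h)).1.trans hag)
        simp [this]
    · intro c hc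
      simp [hk', hc]
  rw [h5]
  exact (Real.exp_le_exp.2 (neg_le_neg (ha (hg _ a0.2))).ge.ge).trans' le_rfl |>.trans h3

/-- a short basis of the block `S` -/
theorem wb {G : GT ι} {s : ℕ} (hG : G.Ok s) {WW : ℕ → ℝ} (ha : Antitone WW) (hW : Wf G WW)
    {S : Finset ι} (hS : G.Bk S) {g : ℕ} (hg : ∀ a ∈ S, g ≤ G.g a) :
    ∃ U V : Matrix S S ℤ, U * V = 1 ∧ V * U = 1 ∧ ∀ a b : S,
      |∑ c : S, G.A a.1 c.1 * (U c b : ℝ)| ≤
        Real.exp (WW g + ((Fintype.card ι : ℝ) ^ 2 + 1)) := by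
  set A := G.A.submatrix (Subtype.val : S → ι) (Subtype.val : S → ι) with hA
  set B := G.B.submatrix (Subtype.val : S → ι) (Subtype.val : S → ι) with hB
  have hAB : A * B = 1 := sub_inv hG hS
  have hd : A.det ≠ 0 := by
    intro h
    have := congrArg Matrix.det hAB
    rw [Matrix.det_mul, h, zero_mul, Matrix.det_one] at this
    exact zero_ne_one this
  have hE := Real.exp_pos (-WW g)
  obtain ⟨U, V, h1, h2, h3⟩ := short_basis A hd (T := Real.exp (-WW g) ^ 2 / 2) (by
    intro k hk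
    obtain ⟨a, h⟩ := dual hG ha hW hS hg k hk
    refine ⟨fun b => B b a, ?_⟩
    have e : ql A (fun b => B b a) = 1 := by
      have : ∀ i, (Matrix.mulVec A fun b => B b a) i = if i = a then 1 else 0 := fun i => by
        have := congrFun (congrFun hAB i) a
        rw [Matrix.mul_apply, Matrix.one_apply] at this
        exact this
      simp [ql, this]
    rw [e]
    have h4 := pow_le_pow_left₀ hE.le h 2
    rw [sq_abs] at h4
    have h5 : 0 < Real.exp (-WW g) ^ 2 := by positivity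
    simp only [hB, Matrix.submatrix_apply]
    linarith)
  refine ⟨U, V, h1, h2, fun a b => ?_⟩
  have h4 : (∑ c : S, G.A a.1 c.1 * (U c b : ℝ)) ^ 2 ≤ ql A (fun i => (U i b : ℝ)) :=
    Finset.single_le_sum (f := fun i => (Matrix.mulVec A fun i => (U i b : ℝ)) i ^ 2)
      (fun _ _ => sq_nonneg _) (mem_univ a)
  have h5 := h3 b
  have hc : Fintype.card S ≤ Fintype.card ι := Fintype.card_subtype_le _
  have h6 : (2 : ℝ) ^ (Fintype.card S * Fintype.card S) ≤ Real.exp ((Fintype.card ι : ℝ) ^ 2) := by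
    have e2 : (2 : ℝ) ≤ Real.exp 1 := by have := Real.add_one_le_exp 1; linarith
    calc (2 : ℝ) ^ (Fintype.card S * Fintype.card S)
        ≤ 2 ^ (Fintype.card ι * Fintype.card ι) :=
          pow_le_pow_right₀ one_le_two (Nat.mul_le_mul hc hc)
      _ ≤ Real.exp 1 ^ (Fintype.card ι * Fintype.card ι) := pow_le_pow_left₀ zero_le_two e2 _
      _ = _ := by rw [← Real.exp_nat_mul]; congr 1; push_cast; ring
  refine abs_le_of_sq_le_sq' ?_ (Real.exp_pos _).le |> fun h => abs_le.2 h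
  set q := ql A (fun i => (U i b : ℝ))
  have e1 : Real.exp (WW g + ((Fintype.card ι : ℝ) ^ 2 + 1)) ^ 2 * Real.exp (-WW g) ^ 2 =
      (Real.exp ((Fintype.card ι : ℝ) ^ 2) * Real.exp 1) ^ 2 := by
    rw [← mul_pow, ← Real.exp_add, ← Real.exp_add]; congr 2; ring
  have e2 : (2 : ℝ) ≤ Real.exp 1 := by have := Real.add_one_le_exp 1; linarith
  have e3 : 1 ≤ Real.exp ((Fintype.card ι : ℝ) ^ 2) := Real.one_le_exp (by positivity)
  have h7 : q * Real.exp (-WW g) ^ 2 ≤
      (Real.exp ((Fintype.card ι : ℝ) ^ 2) * Real.exp 1) ^ 2 := by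
    set x := Real.exp ((Fintype.card ι : ℝ) ^ 2)
    have : 2 * x ≤ x * Real.exp 1 := by nlinarith
    nlinarith
  rw [← e1] at h7
  exact h4.trans (le_of_mul_le_mul_right h7 (by positivity))

/-- the same with vectors in `ι → ℤ`: short vectors `v b` that generate the coordinate vectors -/
theorem wbv {G : GT ι} {s : ℕ} (hG : G.Ok s) {WW : ℕ → ℝ} (ha : Antitone WW) (hW : Wf G WW)
    {S : Finset ι} (hS : G.Bk S) {g : ℕ} (hg : ∀ a ∈ S, g ≤ G.g a) :
    ∃ v u : ι → ι → ℤ, (∀ b c, c ∉ S → v b c = 0) ∧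
      (∀ b a, |∑ c, G.A a c * (v b c : ℝ)| ≤ Real.exp (WW g + ((Fintype.card ι : ℝ) ^ 2 + 1))) ∧
      ∀ a ∈ S, ∀ c, ∑ b ∈ S, u a b * v b c = if c = a then 1 else 0 := by
  obtain ⟨U, V, h1, -, h3⟩ := wb hG ha hW hS hg
  refine ⟨fun b c => if h : b ∈ S ∧ c ∈ S then U ⟨c, h.2⟩ ⟨b, h.1⟩ else 0,
    fun a b => if h : a ∈ S ∧ b ∈ S then V ⟨b, h.2⟩ ⟨a, h.1⟩ else 0, ?_, ?_, ?_⟩
  · intro b c hc
    simp [hc]
  · intro b a
    by_cases hb : b ∈ S
    · by_cases haS : a ∈ S
      · rw [← sum_sub S]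
        · have := h3 ⟨a, haS⟩ ⟨b, hb⟩
          simpa [hb] using this
        · intro c hc
          simp [hc]
      · rw [Finset.sum_eq_zero, abs_zero]
        · exact (Real.exp_pos _).le
        · intro c _
          by_cases hc : c ∈ S
          · have : G.A a c = 0 := by
              by_contra h
              exact haS ((hS a c (Or.inl h)).2 hc)
            simp [this]
          · simp [hc]
    · simp [hb, (Real.exp_pos _).le]
  · intro a haS c
    by_cases hc : c ∈ S
    · have := congrFun (congrFun h1 ⟨c, hc⟩) ⟨a, haS⟩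
      rw [Matrix.mul_apply, Matrix.one_apply] at this
      rw [← Finset.sum_coe_sort S]
      simp only [haS, hc, true_and, and_true, Finset.coe_mem, dite_true, Subtype.coe_eta]
      simp only [Subtype.mk.injEq] at this
      rw [← this]
      exact Finset.sum_congr rfl fun b _ => mul_comm _ _
    · have : c ≠ a := fun h => hc (h ▸ haS)
      simp [hc, this]

open Classical in
/-- the smallest block closed set containing `a` -/
noncomputable def cp (G : GT ι) (a : ι) : Finset ι :=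
  univ.filter fun b => ∀ S, G.Bk S → (a ∈ S ↔ b ∈ S)

theorem mem_cp {G : GT ι} {a b : ι} : b ∈ cp G a ↔ ∀ S, G.Bk S → (a ∈ S ↔ b ∈ S) := by
  simp [cp]

theorem cp_bk (G : GT ι) (a : ι) : G.Bk (cp G a) := by
  intro b c h
  rw [mem_cp, mem_cp]
  exact ⟨fun h1 S hS => (h1 S hS).trans (hS b c h), fun h1 S hS => (h1 S hS).trans (hS b c h).symm⟩

theorem cp_self (G : GT ι) (a : ι) : a ∈ cp G a := mem_cp.2 fun _ _ => Iff.rfl

theorem cp_eq {G : GT ι} {a b : ι} (h : b ∈ cp G a) : cp G b = cp G a := by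
  ext c
  rw [mem_cp, mem_cp]
  rw [mem_cp] at h
  exact ⟨fun h1 S hS => (h S hS).trans (h1 S hS), fun h1 S hS => (h S hS).symm.trans (h1 S hS)⟩

theorem cp_g {G : GT ι} {s : ℕ} (hG : G.Ok s) {a b : ι} (h : b ∈ cp G a) : G.g b = G.g a := by
  have h1 : G.Bk (univ.filter fun c => G.g c = G.g a) := by
    intro c d hcd
    simp only [mem_filter, mem_univ, true_and]
    rw [(hG.blk c d hcd).1]
  simpa using (mem_cp.1 h _ h1).1 (by simp)

/-- from the basis free bound to `Wd` -/
theorem wd_of_wf {G : GT ι} {s : ℕ} (hG : G.Ok s) {WW W1 : ℕ → ℝ} (ha : Antitone WW)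
    (hW : Wf G WW) (ha1 : Antitone W1) (h0 : ∀ g, 0 ≤ W1 g)
    (h1 : ∀ g, WW g + ((Fintype.card ι : ℝ) ^ 2 + 1) ≤ W1 g) : G.Wd W1 := by
  have h := fun a : ι => wbv hG ha hW (cp_bk G a) (g := G.g a) fun b hb => (cp_g hG hb).ge
  have h' : ∀ S : Finset ι, ∃ v u : ι → ι → ℤ, ∀ a, cp G a = S → (∀ b c, c ∉ S → v b c = 0) ∧
      (∀ b a', |∑ c, G.A a' c * (v b c : ℝ)| ≤
        Real.exp (WW (G.g a) + ((Fintype.card ι : ℝ) ^ 2 + 1))) ∧
      ∀ a ∈ S, ∀ c, ∑ b ∈ S, u a b * v b c = if c = a then 1 else 0 := by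
    intro S
    by_cases hS : ∃ a, cp G a = S
    · obtain ⟨a, rfl⟩ := hS
      obtain ⟨v, u, h2, h3, h4⟩ := h a
      refine ⟨v, u, fun a' ha' => ⟨h2, ?_, h4⟩⟩
      rw [cp_g hG (ha' ▸ cp_self G a')]
      exact h3
    · exact ⟨0, 0, fun a ha' => absurd ⟨a, ha'⟩ hS⟩
  choose v u hv using h'
  refine ⟨ha1, h0, Matrix.of fun c b => v (cp G b) b c,
    Matrix.of fun b a => if b ∈ cp G a then u (cp G a) a b else 0, ?_, ?_, ?_⟩
  · ext c a
    rw [Matrix.mul_apply, Matrix.one_apply, ← (hv _ a rfl).2.2 a (cp_self G a) c,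
      ← Finset.sum_subset (subset_univ (cp G a))]
    · refine Finset.sum_congr rfl fun b hb => ?_
      simp only [Matrix.of_apply, hb, if_true, cp_eq hb]
      ring
    · intro b _ hb
      simp [hb]
  · rintro V hV a b (h2 | h2)
    · by_cases h3 : a ∈ cp G b
      · exact (mem_cp.1 h3 V hV).symm
      · exact absurd ((hv _ b rfl).1 b a h3) h2
    · by_cases h3 : a ∈ cp G b
      · exact (mem_cp.1 h3 V hV).symm
      · simp [h3] at h2
  · intro a b
    by_cases h3 : a ∈ cp G b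
    · refine ((hv _ b rfl).2.1 b a).trans (Real.exp_le_exp.2 ?_)
      rw [cp_g hG h3]
      exact h1 _
    · rw [Finset.sum_eq_zero, abs_zero]
      · exact (Real.exp_pos _).le
      · intro c _
        by_cases hc : c ∈ cp G b
        · have : G.A a c = 0 := by
            by_contra h4
            exact h3 ((cp_bk G b a c (Or.inl h4)).2 hc)
          simp [this]
        · simp [(hv _ b rfl).1 b c hc]

/-- conversely `Wd` gives the basis free bound -/
theorem wf_of_wd {G : GT ι} {s : ℕ} (hG : G.Ok s) {WW : ℕ → ℝ} (hW : G.Wd WW) :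
    Wf G fun g => WW g + Fintype.card ι := by
  obtain ⟨-, -, U, V, h1, h2, h3⟩ := hW
  intro g k hk hg
  by_contra hc
  push Not at hc
  have hBA : G.B * G.A = 1 := mul_eq_one_comm.1 hG.AB
  have hz : ∀ b, ∑ c, k c * U c b = 0 := by
    intro b
    have e : ((∑ c, k c * U c b : ℤ) : ℝ) =
        ∑ a, (∑ c, (k c : ℝ) * G.B c a) * ∑ c, G.A a c * (U c b : ℝ) := by
      have e1 : ∀ c d, ∑ a, G.B c a * G.A a d = if c = d then 1 else 0 := fun c d => by
        have := congrFun (congrFun hBA c) d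
        rwa [Matrix.mul_apply, Matrix.one_apply] at this
      simp only [Finset.sum_mul_sum]
      rw [Finset.sum_comm]
      push_cast
      refine Finset.sum_congr rfl fun c _ => ?_
      rw [Finset.sum_comm]
      have : ∀ d, ∑ a, (k c : ℝ) * G.B c a * (G.A a d * U d b) =
          (k c : ℝ) * U d b * ∑ a, G.B c a * G.A a d := fun d => by
        rw [Finset.mul_sum]; exact Finset.sum_congr rfl fun a _ => by ring
      simp [this, e1]
    have hD : (Fintype.card ι : ℝ) < Real.exp (Fintype.card ι) := by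
      have := Real.add_one_le_exp (Fintype.card ι : ℝ); linarith
    have e2 : ∀ a, |(∑ c, (k c : ℝ) * G.B c a) * ∑ c, G.A a c * (U c b : ℝ)| ≤
        Real.exp (-(Fintype.card ι : ℝ)) := by
      intro a
      by_cases ha : G.g a = g
      · rw [abs_mul]
        refine (mul_le_mul (hc a).le (h3 a b) (abs_nonneg _) (Real.exp_pos _).le).trans ?_
        rw [← Real.exp_add, ha]
        exact le_of_eq (by congr 1; ring)
      · have e3 : ∑ c, (k c : ℝ) * G.B c a = 0 := by
          refine Finset.sum_eq_zero fun c _ => ?_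
          by_contra h
          have h4 : k c ≠ 0 := by exact_mod_cast left_ne_zero_of_mul h
          exact ha ((hG.blk c a (Or.inr (right_ne_zero_of_mul h))).1.symm.trans (hg c h4))
        rw [e3, zero_mul, abs_zero]
        exact (Real.exp_pos _).le
    have e3 : |((∑ c, k c * U c b : ℤ) : ℝ)| < 1 := by
      rw [e]
      refine (Finset.abs_sum_le_sum_abs _ _).trans_lt ?_
      refine (Finset.sum_le_sum fun a _ => e2 a).trans_lt ?_
      rw [Finset.sum_const, card_univ, nsmul_eq_mul, Real.exp_neg, ← div_eq_mul_inv,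
        div_lt_one (Real.exp_pos _)]
      exact hD
    have e4 : |∑ c, k c * U c b| < 1 := by exact_mod_cast e3
    exact Int.abs_lt_one_iff.1 e4
  apply hk
  have e5 : Matrix.vecMul k U = 0 := funext fun b => hz b
  have e6 := congrArg (fun x => Matrix.vecMul x V) e5
  simpa [Matrix.vecMul_vecMul, h1] using e6

end Vale.Agent.P057T.Eq.Wb
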