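import Vale.Agent.P057T.Eq.Gw

/-! The trivial bound for the upper groups. -/

open MvPolynomial Finset Matrix
open scoped Real
open Vale.Agent.P267.H775 Vale.Agent.P057T.Poi

namespace Vale.Agent.P057T.Eq

noncomputable section

set_option linter.unusedSectionVars false

variable {ι : Type} [Fintype ι] [DecidableEq ι]

namespace Br

variable {G : GT ι} {s : ℕ}

/-- summing out a block closed set that the other charts do not use -/
theorem ms_le_split (hG : G.Ok s) {T : AT ι} {P : ℝ} (hP : 0 < P) (hT : G.AOk T P) {S : Finset ι}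
    (hS : S ⊆ T.U) (hB : G.Bk S)
    (hd : ∀ a ∈ T.U \ S, Disjoint (G.q a).vars S ∧ Disjoint (T.p a).vars S) :
    G.ms T ≤ th (mM G T.sg S) 0 * G.ms (T.rs (T.U \ S)) := by
  have hσ := sg_pos hP hT
  have hs2 : Summable fun u : Lat (T.U \ S) × Lat S => G.nu T (u.1.1 + u.2.1) :=
    (splE hS).summable_iff.2 (summ_le hG hP hT).1
  have h1 : G.ms T = ∑' z : Lat (T.U \ S), ∑' y : Lat S, G.nu T (z.1 + y.1) := by
    rw [← hs2.tsum_prod, GT.ms, ← (splE hS).tsum_eq]
    rfl
  have hn : Summable fun z : Lat (T.U \ S) => G.nu (T.rs (T.U \ S)) z.1 :=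
    (summ_le hG hP (aok_rs hT hB hd)).1
  have h2 : ∀ z : Lat (T.U \ S), ∑' y : Lat S, G.nu T (z.1 + y.1) ≤
      th (mM G T.sg S) 0 * G.nu (T.rs (T.U \ S)) z.1 := by
    intro z
    rw [← (latE S).tsum_eq]
    have e : ∀ y : S → ℤ, G.nu T (z.1 + (latE S y).1) = G.nu (T.rs (T.U \ S)) z.1 *
        gq (mM G T.sg S) (toR y - fun b : S => eval (cz (z.1 + ex0 S y)) (G.cq T b) - z.1 b) := by
      intro y
      rw [nu_split hG hT.bk hS hB hd z.1 (latE S y).2, latE_coe, gq_fib]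
    simp only [e]
    rw [tsum_mul_left, mul_comm]
    exact mul_le_mul_of_nonneg_right (fib_sum hG hT hS hB hσ z.1).2 (nu_pos _ _).le
  rw [h1]
  refine (hs2.prod.tsum_le_tsum h2 (hn.mul_left _)).trans_eq ?_
  rw [tsum_mul_left]
  rfl

theorem bk_filter (hG : G.Ok s) {U : Finset ι} (hU : G.Bk U) (p : ℕ → ℕ → Prop)
    [∀ a, Decidable (p (G.g a) (G.w a))] : G.Bk (U.filter fun a => p (G.g a) (G.w a)) := by
  intro a b h
  obtain ⟨e1, e2⟩ := hG.blk a b h
  rw [mem_filter, mem_filter, hU a b h, e1, e2]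

end Br

open Br in
theorem p1m : P1M := by
  refine fun s => ⟨4, fun ι _ _ G T WW P g hG hW hz hT => ?_⟩
  have hP : 0 < P := by linarith [hz.P2]
  have hB : G.Bk (T.U.filter fun a => ¬ G.g a < g) := bk_filter hG hT.bk fun x _ => ¬ x < g
  have he : T.U.filter (fun a => G.g a < g) = T.U \ T.U.filter fun a => ¬ G.g a < g := by
    ext a
    simp only [mem_filter, mem_sdiff]
    tauto
  have hd : ∀ a ∈ T.U \ T.U.filter fun a => ¬ G.g a < g,
      Disjoint (G.q a).vars (T.U.filter fun a => ¬ G.g a < g) ∧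
      Disjoint (T.p a).vars (T.U.filter fun a => ¬ G.g a < g) := by
    intro a ha
    rw [← he, mem_filter] at ha
    refine ⟨disjoint_left.2 fun c hc h => (mem_filter.1 h).2 ?_,
      disjoint_left.2 fun c hc h => (mem_filter.1 h).2 ?_⟩
    · exact (hG.ql a c hc).trans ha.2
    · exact lt_of_le_of_lt (Nat.le_of_lt_succ (hT.pl a ha.1 c hc)) ha.2
  rw [he]
  refine ⟨aok_rs hT hB hd, (ms_le_split hG hP hT (filter_subset _ _) hB hd).trans ?_⟩
  exact mul_le_mul_of_nonneg_right (th_bd hG hW hz (fun a => ⟨hT.s1 a, hT.s2 a⟩) hB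
    (fun a ha => not_lt.1 (mem_filter.1 ha).2) 0) (ms_nonneg _)

end

end Vale.Agent.P057T.Eq
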