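import Vale.Agent.P057T.Eq.Defs

/-! Row `sub`: restriction of a tower to its active variables. -/

open MvPolynomial Finset
open scoped Real

namespace Vale.Agent.P057T.Eq

noncomputable section

set_option linter.all false

namespace SubH1

variable {ι : Type} [Fintype ι] [DecidableEq ι]

/-- kill the variables outside `U` -/
def kl (U : Finset ι) (F : MvPolynomial ι ℝ) : MvPolynomial U ℝ :=
  killCompl (f := (Subtype.val : U → ι)) Subtype.val_injective F

/-- inclusion of polynomial rings -/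
def rn (U : Finset ι) (F : MvPolynomial U ℝ) : MvPolynomial ι ℝ := rename (Subtype.val : U → ι) F

theorem rn_kl {U : Finset ι} {F : MvPolynomial ι ℝ} (h : F.vars ⊆ U) : rn U (kl U F) = F := by
  obtain ⟨q, hq⟩ := exists_rename_eq_of_vars_subset_range F (Subtype.val : U → ι)
    Subtype.val_injective (fun a ha => ⟨⟨a, h ha⟩, rfl⟩)
  unfold rn kl
  rw [← hq, killCompl_rename_app]

theorem wt_map (U : Finset ι) (w : ι → ℕ) (m : U →₀ ℕ) :
    Finsupp.weight w (m.mapDomain (Subtype.val : U → ι)) = Finsupp.weight (fun a : U => w a.1) m := by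
  rw [Finsupp.weight_apply, Finsupp.weight_apply,
    Finsupp.sum_mapDomain_index (by simp) (by intros; simp [add_mul])]

theorem coeff_rn (U : Finset ι) (F : MvPolynomial U ℝ) (m : U →₀ ℕ) :
    coeff (m.mapDomain (Subtype.val : U → ι)) (rn U F) = coeff m F :=
  coeff_rename_mapDomain _ Subtype.val_injective F m

theorem coeff_rn_ne {U : Finset ι} {F : MvPolynomial U ℝ} {d : ι →₀ ℕ} (h : coeff d (rn U F) ≠ 0) :
    ∃ m : U →₀ ℕ, m.mapDomain (Subtype.val : U → ι) = d ∧ coeff m F ≠ 0 :=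
  coeff_rename_ne_zero _ F d h

theorem isZ_rn {U : Finset ι} {F : MvPolynomial U ℝ} (h : IsZ F) : IsZ (rn U F) := by
  intro d
  by_cases hd : coeff d (rn U F) = 0
  · exact ⟨0, by simp [hd]⟩
  · obtain ⟨m, rfl, _⟩ := coeff_rn_ne hd
    rw [coeff_rn]; exact h m

theorem l1_rn (U : Finset ι) (F : MvPolynomial U ℝ) : l1 (rn U F) = l1 F := by
  unfold l1 rn
  rw [support_rename_of_injective Subtype.val_injective,
    Finset.sum_image (fun x _ y _ h => Finsupp.mapDomain_injective Subtype.val_injective h)]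
  refine Finset.sum_congr rfl fun m _ => ?_
  rw [coeff_rename_mapDomain _ Subtype.val_injective]

theorem mem_vars_rn {U : Finset ι} {F : MvPolynomial U ℝ} {a : U} (h : a ∈ F.vars) :
    a.1 ∈ (rn U F).vars := by
  rw [mem_vars_iff_mem_support] at h ⊢
  obtain ⟨m, hm, ha⟩ := h
  refine ⟨m.mapDomain Subtype.val, ?_, ?_⟩
  · rw [MvPolynomial.mem_support_iff, coeff_rn]; exact MvPolynomial.mem_support_iff.1 hm
  · rw [Finsupp.mem_support_iff, Finsupp.mapDomain_apply Subtype.val_injective]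
    exact Finsupp.mem_support_iff.1 ha

/-- restricted formal tower -/
def sG (G : GT ι) (U : Finset ι) : GT U where
  g := fun a => G.g a.1
  w := fun a => G.w a.1
  A := G.A.submatrix Subtype.val Subtype.val
  B := G.B.submatrix Subtype.val Subtype.val
  q := fun a => kl U (G.q a.1)
  ex := univ.filter (fun a => a.1 ∈ G.ex)

/-- restricted analytic data -/
def sT (T : AT ι) : AT T.U where
  U := univ
  p := fun a => kl T.U (T.p a.1)
  sg := fun a => T.sg a.1

variable {G : GT ι} {U : Finset ι}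

theorem hm_rn {e : ℕ} {F : MvPolynomial U ℝ} : G.Hm e (rn U F) ↔ (sG G U).Hm e F := by
  constructor
  · intro h m hm
    have := h (d := m.mapDomain Subtype.val) (by rw [coeff_rn]; exact hm)
    rw [wt_map] at this; exact this
  · intro h d hd
    obtain ⟨m, rfl, hm⟩ := coeff_rn_ne hd
    rw [wt_map]; exact h hm

theorem lo_rn {g : ℕ} {F : MvPolynomial U ℝ} : G.Lo g (rn U F) ↔ (sG G U).Lo g F := by
  constructor
  · intro h a ha; exact h a.1 (mem_vars_rn ha)
  · intro h b hb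
    obtain ⟨a, ha, rfl⟩ := mem_vars_rename _ _ hb
    exact h a ha

theorem dl_rn {e : ℕ} {F : MvPolynomial U ℝ} (h : G.Dl e (rn U F)) : (sG G U).Dl e F := by
  intro m hm
  have := h (m.mapDomain Subtype.val) (by
    rw [MvPolynomial.mem_support_iff, coeff_rn]; exact MvPolynomial.mem_support_iff.1 hm)
  rw [wt_map] at this; exact this

theorem top_rn (e : ℕ) (F : MvPolynomial U ℝ) : G.top e (rn U F) = rn U ((sG G U).top e F) := by
  ext d
  unfold GT.top
  rw [coeff_weightedHomogeneousComponent]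
  by_cases hd : ∃ m : U →₀ ℕ, m.mapDomain (Subtype.val : U → ι) = d
  · obtain ⟨m, rfl⟩ := hd
    rw [coeff_rn, coeff_rn, coeff_weightedHomogeneousComponent, wt_map]
    rfl
  · have h0 : ∀ F : MvPolynomial U ℝ, coeff d (rn U F) = 0 := fun F => by
      by_contra h
      obtain ⟨m, hm, _⟩ := coeff_rn_ne h
      exact hd ⟨m, hm⟩
    rw [h0, h0]; simp

theorem sum_U {M : Type*} [AddCommMonoid M] (U : Finset ι) (f : ι → M) (h : ∀ b, b ∉ U → f b = 0) :
    ∑ b, f b = ∑ b : U, f b.1 := by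
  rw [Finset.sum_coe_sort U f]
  exact (Finset.sum_subset (Finset.subset_univ _) (fun b _ hb => h b hb)).symm

theorem A_zero (hB : G.Bk U) {a b : ι} (ha : a ∈ U) (hb : b ∉ U) : G.A a b = 0 := by
  by_contra h
  exact hb ((hB a b (Or.inl h)).1 ha)

theorem th_rn (hB : G.Bk U) (hq : ∀ a ∈ U, (G.q a).vars ⊆ U) (a : U) :
    G.th a.1 = rn U ((sG G U).th a) := by
  unfold GT.th
  rw [sum_U U _ (fun b hb => by rw [A_zero hB a.2 hb]; simp)]
  unfold rn
  rw [map_sum]
  refine Finset.sum_congr rfl fun b _ => ?_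
  rw [map_mul, map_sub, rename_C, rename_X]
  have := rn_kl (hq b.1 b.2)
  unfold rn at this
  show _ = C (G.A a.1 b.1) * (X b.1 - rename Subtype.val (kl U (G.q b.1)))
  rw [this]

theorem bd_rn (hB : G.Bk U) (hq : ∀ a ∈ U, (G.q a).vars ⊆ U) {F : MvPolynomial U ℝ} {H : ℝ}
    (h : (sG G U).Bd F H) : G.Bd (rn U F) H := by
  obtain ⟨b, hb, hH⟩ := h
  refine ⟨rn U b, ?_, by rw [l1_rn]; exact hH⟩
  rw [← hb]
  unfold rn
  rw [aeval_rename]
  have : (G.th ∘ (Subtype.val : U → ι)) = fun a => rename (Subtype.val : U → ι) ((sG G U).th a) :=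
    funext fun a => th_rn hB hq a
  rw [this]
  exact (comp_aeval_apply (sG G U).th (rename (Subtype.val : U → ι)) b).symm

theorem ok_s {s : ℕ} (hO : G.Ok s) (hB : G.Bk U) (hq : ∀ a ∈ U, (G.q a).vars ⊆ U) :
    (sG G U).Ok s where
  w1 := fun a => hO.w1 a.1
  ws := fun a => hO.ws a.1
  gs := fun a => hO.gs a.1
  AB := by
    ext a c
    have h := congrFun (congrFun hO.AB a.1) c.1
    rw [Matrix.mul_apply, sum_U U _ (fun b hb => by rw [A_zero hB a.2 hb]; simp)] at h
    rw [Matrix.mul_apply]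
    refine h.trans ?_
    rw [Matrix.one_apply, Matrix.one_apply]
    by_cases hac : a = c
    · rw [if_pos hac, if_pos (congrArg Subtype.val hac)]
    · rw [if_neg hac, if_neg (fun h => hac (Subtype.ext h))]
  blk := fun a b h => hO.blk a.1 b.1 h
  qh := fun a => hm_rn.1 (by
    show G.Hm (G.w a.1) (rn U (kl U (G.q a.1)))
    rw [rn_kl (hq a.1 a.2)]; exact hO.qh a.1)
  ql := fun a => lo_rn.1 (by
    show G.Lo (G.g a.1) (rn U (kl U (G.q a.1)))
    rw [rn_kl (hq a.1 a.2)]; exact hO.ql a.1)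
  qe := fun a ha => by
    have : a.1 ∈ G.ex := (Finset.mem_filter.1 ha).2
    show kl U (G.q a.1) = 0
    rw [hO.qe a.1 this]; simp [kl]

/-- extension by zero -/
def ext0 (U : Finset ι) (k : U → ℤ) : ι → ℤ := fun a => if h : a ∈ U then k ⟨a, h⟩ else 0

theorem ext0_val (k : U → ℤ) (a : U) : ext0 U k a.1 = k a := by
  unfold ext0; rw [dif_pos a.2]

theorem ext0_not (k : U → ℤ) {a : ι} (h : a ∉ U) : ext0 U k a = 0 := by
  unfold ext0; rw [dif_neg h]

theorem lin_rn (k : U → ℤ) : rn U (lin (cz k)) = lin (cz (ext0 U k)) := by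
  unfold lin
  rw [sum_U U _ (fun b hb => by simp [cz, ext0_not k hb])]
  unfold rn
  rw [map_sum]
  refine Finset.sum_congr rfl fun b _ => ?_
  rw [map_mul, rename_C, rename_X]
  simp [cz, ext0_val]

theorem big_s (hB : G.Bk U) (hq : ∀ a ∈ U, (G.q a).vars ⊆ U) {g : ℕ} {H : ℝ} (h : G.Big g H) :
    (sG G U).Big g H := by
  intro e k I hk hI hL hH hb a ha
  have hb' := bd_rn hB hq hb
  have e1 : rn U (lin (cz k) + I) = lin (cz (ext0 U k)) + rn U I := by
    rw [← lin_rn]; unfold rn; rw [map_add]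
  rw [e1] at hb'
  have := h e (ext0 U k) (rn U I) (fun b hb => by
    by_cases hbU : b ∈ U
    · have : k ⟨b, hbU⟩ ≠ 0 := by rw [← ext0_val k ⟨b, hbU⟩]; exact hb
      exact hk ⟨b, hbU⟩ this
    · exact absurd (ext0_not k hbU) hb) (isZ_rn hI) (lo_rn.2 hL) (hm_rn.2 hH) hb' a.1
      (by rw [ext0_val]; exact ha)
  exact Finset.mem_filter.2 ⟨Finset.mem_univ _, this⟩

theorem small_s (hB : G.Bk U) {g : ℕ} {η : ℝ} (h : G.Small g η) : (sG G U).Small g η := by
  intro j hj hg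
  obtain ⟨v, h1, h2, h3⟩ := h j.1 (Finset.mem_filter.1 hj).2 hg
  refine ⟨fun a => v a.1, fun i hi => ?_, fun i hi => h2 i.1 hi, fun a => ?_⟩
  · show v i.1 = _
    rw [h1 i.1 (Finset.mem_filter.1 hi).2]
    by_cases hac : i = j
    · rw [if_pos hac, if_pos (congrArg Subtype.val hac)]
    · rw [if_neg hac, if_neg (fun h => hac (Subtype.ext h))]
  · have := h3 a.1
    rw [sum_U U _ (fun b hb => by rw [A_zero hB a.2 hb]; simp)] at this
    exact this

theorem dv_s : (sG G U).dv univ = G.dv U := by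
  unfold GT.dv
  let e : (univ : Finset U) ≃ U := ⟨fun x => x.1, fun x => ⟨x, Finset.mem_univ _⟩, fun _ => rfl,
    fun _ => rfl⟩
  have := Matrix.det_submatrix_equiv_self e
    (G.B.submatrix (Subtype.val : U → ι) (Subtype.val : U → ι))
  rw [← this]
  rfl

theorem mn_s (T : AT ι) : (sG G T.U).mn (sT T).sg (sT T).U = G.mn T.sg T.U := by
  unfold GT.mn
  show (sG G T.U).dv univ * ∏ a : T.U, (T.sg a.1)⁻¹ = _
  rw [dv_s, Finset.prod_coe_sort T.U (fun a => (T.sg a)⁻¹)]

/-- lattice points -/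
def eL (U : Finset ι) : Lat (univ : Finset U) ≃ Lat U where
  toFun k := ⟨ext0 U k.1, fun _ ha => ext0_not k.1 ha⟩
  invFun z := ⟨fun a => z.1 a.1, fun a ha => absurd (Finset.mem_univ a) ha⟩
  left_inv k := Subtype.ext (funext fun a => ext0_val k.1 a)
  right_inv z := Subtype.ext (funext fun a => by
    by_cases h : a ∈ U
    · exact ext0_val (fun a : U => z.1 a.1) ⟨a, h⟩
    · exact (ext0_not _ h).trans (z.2 a h).symm)

theorem eval_rn (k : U → ℤ) (F : MvPolynomial U ℝ) :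
    eval (cz (ext0 U k)) (rn U F) = eval (cz k) F := by
  unfold rn
  rw [eval_rename]
  congr 2
  funext a
  simp [cz, ext0_val]

theorem ch_rn {T : AT ι} {P : ℝ} (hA : G.AOk T P) (a : T.U) :
    G.ch T a.1 = rn T.U ((sG G T.U).ch (sT T) a) := by
  unfold GT.ch
  rw [th_rn hA.bk hA.qv a]
  conv_lhs => rw [← rn_kl (hA.pv a.1 a.2)]
  unfold rn
  rw [map_add]
  rfl

theorem nu_s {T : AT ι} {P : ℝ} (hA : G.AOk T P) (k : T.U → ℤ) :
    G.nu T (ext0 T.U k) = (sG G T.U).nu (sT T) k := by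
  unfold GT.nu
  congr 2
  rw [← Finset.sum_coe_sort T.U]
  refine Finset.sum_congr rfl fun a _ => ?_
  rw [ch_rn hA a, eval_rn]
  rfl

theorem sm_s {T : AT ι} {P : ℝ} (hA : G.AOk T P) (Q : MvPolynomial T.U ℝ) :
    G.Sm T (rn T.U Q) = (sG G T.U).Sm (sT T) Q := by
  unfold GT.Sm
  rw [← (eL T.U).tsum_eq]
  refine tsum_congr fun k => ?_
  show (G.nu T (ext0 T.U k.1) : ℂ) * Complex.exp (2 * π * Complex.I *
    (eval (cz (ext0 T.U k.1)) (rn T.U Q) : ℝ)) = _
  rw [nu_s hA, eval_rn]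

theorem aok_s {T : AT ι} {P : ℝ} (hA : G.AOk T P) : (sG G T.U).AOk (sT T) P where
  bk := fun a b _ => ⟨fun _ => Finset.mem_univ _, fun _ => Finset.mem_univ _⟩
  qv := fun _ _ => Finset.subset_univ _
  pv := fun _ _ => Finset.subset_univ _
  pd := fun a _ => dl_rn (by
    show G.Dl (G.w a.1) (rn T.U (kl T.U (T.p a.1)))
    rw [rn_kl (hA.pv a.1 a.2)]; exact hA.pd a.1 a.2)
  pl := fun a _ => lo_rn.1 (by
    show G.Lo (G.g a.1 + 1) (rn T.U (kl T.U (T.p a.1)))
    rw [rn_kl (hA.pv a.1 a.2)]; exact hA.pl a.1 a.2)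
  s1 := fun a => hA.s1 a.1
  s2 := fun a => hA.s2 a.1

theorem cnt_s (d g0 : ℕ) : (sG G U).cnt d g0 univ ≤ G.cnt d g0 U := by
  unfold GT.cnt
  refine Finset.card_le_card fun x hx => ?_
  obtain ⟨a, ha, rfl⟩ := Finset.mem_image.1 hx
  exact Finset.mem_image.2 ⟨a.1, Finset.mem_filter.2 ⟨a.2, (Finset.mem_filter.1 ha).2⟩, rfl⟩

theorem ap_rn (hB : G.Bk U) (hq : ∀ a ∈ U, (G.q a).vars ⊆ U) {g d : ℕ} {F : MvPolynomial U ℝ}
    {H : ℝ} (h : (sG G U).Ap g d F H) : G.Ap g d (rn U F) H := by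
  obtain ⟨n, I, h1, h2, h3, h4, h5, h6⟩ := h
  refine ⟨n, rn U I, h1, h2, isZ_rn h3, lo_rn.2 h4, hm_rn.2 h5, ?_⟩
  have := bd_rn hB hq h6
  unfold rn at this ⊢
  rwa [map_sub, map_mul, rename_C] at this

theorem bk_map (hB : G.Bk U) {V : Finset U} (hV : (sG G U).Bk V) :
    G.Bk (V.map (Function.Embedding.subtype _)) := by
  intro a b hab
  have key : ∀ x : U, x.1 ∈ V.map (Function.Embedding.subtype _) ↔ x ∈ V := fun x =>
    Finset.mem_map' (Function.Embedding.subtype _)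
  have out : ∀ x : ι, x ∈ V.map (Function.Embedding.subtype _) → x ∈ U := fun x hx => by
    obtain ⟨y, _, rfl⟩ := Finset.mem_map.1 hx
    exact y.2
  by_cases ha : a ∈ U
  · have hb : b ∈ U := (hB a b hab).1 ha
    exact (key ⟨a, ha⟩).trans ((hV ⟨a, ha⟩ ⟨b, hb⟩ hab).trans (key ⟨b, hb⟩).symm)
  · have hb : b ∉ U := fun h => ha ((hB a b hab).2 h)
    exact ⟨fun h => absurd (out a h) ha, fun h => absurd (out b h) hb⟩

theorem wd_s (hB : G.Bk U) {WW : ℕ → ℝ} (hW : G.Wd WW) : (sG G U).Wd WW := by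
  obtain ⟨Um, Vm, h1, h2, h3⟩ := hW.bd
  have hz : ∀ a b : ι, a ∈ U → b ∉ U → Um a b = 0 := fun a b ha hb => by
    by_contra h
    exact hb ((h2 U hB a b (Or.inl h)).1 ha)
  refine ⟨hW.anti, hW.nn, Um.submatrix Subtype.val Subtype.val,
    Vm.submatrix Subtype.val Subtype.val, ?_, fun V hV a b hab => ?_, fun a b => ?_⟩
  · ext a c
    have h := congrFun (congrFun h1 a.1) c.1
    rw [Matrix.mul_apply, sum_U U _ (fun b hb => by rw [hz a.1 b a.2 hb]; simp)] at h
    rw [Matrix.mul_apply]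
    refine h.trans ?_
    rw [Matrix.one_apply, Matrix.one_apply]
    by_cases hac : a = c
    · rw [if_pos hac, if_pos (congrArg Subtype.val hac)]
    · rw [if_neg hac, if_neg (fun h => hac (Subtype.ext h))]
  · have key : ∀ x : U, x.1 ∈ V.map (Function.Embedding.subtype _) ↔ x ∈ V := fun x =>
      Finset.mem_map' (Function.Embedding.subtype _)
    exact (key a).symm.trans ((h2 _ (bk_map hB hV) a.1 b.1 hab).trans (key b))
  · have := h3 a.1 b.1
    rw [sum_U U _ (fun c hc => by rw [A_zero hB a.2 hc]; simp)] at this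
    exact this

end SubH1

open SubH1 in
theorem sub (s d μ t : ℕ) (h : EQT s d μ t true) : EQT s d μ t false := by
  obtain ⟨c, hc⟩ := h
  refine ⟨c, fun ι _ _ G T WW P Y g0 Q hO hW hS hA hg _ hR hI hC ht hQ hD hL hb => ?_⟩
  have hQ' := rn_kl hQ
  rw [← hQ'] at hD hL hb ⊢
  rw [top_rn] at hL ⊢
  refine ap_rn hA.bk hA.qv (hc T.U (sG G T.U) (sT T) WW P Y g0 (kl T.U Q) (ok_s hO hA.bk hA.qv)
    (wd_s hA.bk hW) ⟨?_, hS.P2, hS.Y1⟩ (aok_s hA) hg (fun _ => rfl)
    (fun g hg => ⟨big_s hA.bk hA.qv (hR g hg).1, small_s hA.bk (hR g hg).2⟩)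
    (fun a _ ha => hI a.1 a.2 ha) ((cnt_s d g0).trans hC) (fun a _ ha => ht a.1 a.2 ha)
    (Finset.subset_univ _) (dl_rn hD) (lo_rn.1 hL) ?_)
  · refine le_trans ?_ hS.cd
    exact_mod_cast Fintype.card_subtype_le _
  · rw [mn_s, ← sm_s hA]; exact hb

end

end Vale.Agent.P057T.Eq
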