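import Vale.Agent.P057T.Eq.Pois

/-! Crude bounds for dual Gaussian sums. -/

open MvPolynomial Finset Matrix
open scoped Real
open Vale.Agent.P267.H775 Vale.Agent.P057T.Poi

namespace Vale.Agent.P057T.Eq

noncomputable section

set_option linter.unusedSectionVars false

variable {ι : Type} [Fintype ι] [DecidableEq ι]

namespace Br

theorem num_p1 {P W : ℝ} {d : ℕ} (hP : 2 ≤ P) (hd : (d : ℝ) ≤ P) (hW : 0 ≤ W) :
    (2 * (1 + d * (2 * P * Real.exp W))) ^ d ≤ Real.exp (P ^ 4 * (1 + W)) := by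
  have h1 : 1 ≤ Real.exp W := Real.one_le_exp hW
  have h0 : (0 : ℝ) ≤ d := Nat.cast_nonneg d
  have h2 : 2 + 4 * P ^ 2 ≤ Real.exp (P ^ 3) := by
    have h3 := Real.quadratic_le_exp_of_nonneg (x := P ^ 3) (by positivity)
    have h4 : 8 ≤ P ^ 3 := by nlinarith [mul_nonneg (sub_nonneg.2 hP) (sq_nonneg (P + 1))]
    have h5 : 2 * P ^ 2 ≤ P ^ 3 := by nlinarith [sq_nonneg P]
    nlinarith
  have h6 : 2 * (1 + d * (2 * P * Real.exp W)) ≤ Real.exp (P ^ 3 + W) := by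
    rw [Real.exp_add]
    have h7 : d * (2 * P * Real.exp W) ≤ P * (2 * P * Real.exp W) :=
      mul_le_mul_of_nonneg_right hd (by positivity)
    nlinarith [mul_le_mul_of_nonneg_right h2 (Real.exp_pos W).le]
  refine (pow_le_pow_left₀ (by positivity) h6 d).trans ?_
  rw [← Real.exp_nat_mul, Real.exp_le_exp]
  have h8 : (d : ℝ) * (P ^ 3 + W) ≤ P * (P ^ 3 + W) := mul_le_mul_of_nonneg_right hd (by positivity)
  have h9 : P ≤ P ^ 4 := le_self_pow₀ (by linarith) (by norm_num)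
  nlinarith [mul_le_mul_of_nonneg_right h9 hW]

variable {G : GT ι} {s : ℕ}

theorem uni_sub {Um Vm : Matrix ι ι ℤ} (h : Um * Vm = 1) {S : Finset ι}
    (hS : ∀ a b, (Um a b ≠ 0 ∨ Vm a b ≠ 0) → (a ∈ S ↔ b ∈ S)) :
    Um.submatrix (Subtype.val : S → ι) (Subtype.val : S → ι) *
      Vm.submatrix (Subtype.val : S → ι) (Subtype.val : S → ι) = 1 := by
  ext a c
  have h1 := congrFun (congrFun h a) c
  rw [mul_apply] at h1 ⊢
  simp only [submatrix_apply]
  rw [Finset.sum_coe_sort S fun b => Um a b * Vm b c,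
    Finset.sum_subset (subset_univ S) fun b _ hb => ?_, h1, one_apply, one_apply]
  · simp only [Subtype.ext_iff]
  · by_contra h0
    exact hb ((hS a b (Or.inl (left_ne_zero_of_mul h0))).1 a.2)

theorem th_dual_bd (hG : G.Ok s) {WW : ℕ → ℝ} (hW : G.Wd WW) {P : ℝ} (hz : Sz ι P 1) {σ : ι → ℝ}
    (hσ : ∀ a, P⁻¹ ≤ σ a ∧ σ a ≤ P) {S : Finset ι} (hB : G.Bk S) {g : ℕ}
    (hg : ∀ a ∈ S, g ≤ G.g a) {r : ℝ} (hr : 0 < r) (hr2 : r ≤ 2) (x : S → ℝ) :
    th (r⁻¹ • ((mM G σ S)⁻¹)ᵀ) x ≤ Real.exp (P ^ 4 * (1 + WW g)) := by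
  have hP : 0 < P := by linarith [hz.P2]
  have hσ0 : ∀ a, 0 < σ a := fun a => (inv_pos.2 hP).trans_le (hσ a).1
  have hd := det_smul_ne hr.ne' (mM_det hG hB hσ0)
  obtain ⟨Um, Vm, hUV, hb, hA⟩ := hW.bd
  have h1 := uni_sub hUV (hb S hB)
  set U := Um.submatrix (Subtype.val : S → ι) (Subtype.val : S → ι) with hU
  set V := Vm.submatrix (Subtype.val : S → ι) (Subtype.val : S → ι) with hV
  have h2 : V * U = 1 := mul_eq_one_comm.1 h1
  have hdU : (mR U).det ≠ 0 := by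
    rw [← abs_pos, abs_det_mR h1]
    exact one_pos
  have hd2 : (r • mM G σ S * mR U).det ≠ 0 := by
    rw [det_mul]
    exact mul_ne_zero hd hdU
  have hi : (mR U)⁻¹ = mR V := Matrix.inv_eq_right_inv (by rw [← mR_mul, h1, mR_one])
  have h3 : ((r • mM G σ S * mR U)⁻¹)ᵀ = ((r • mM G σ S)⁻¹)ᵀ * mR Vᵀ := by
    rw [Matrix.mul_inv_rev, transpose_mul, hi]
    rfl
  have h4 := th_uni ((r • mM G σ S)⁻¹)ᵀ (U := Vᵀ) (V := Uᵀ)
    (by rw [← transpose_mul, h1, transpose_one]) (by rw [← transpose_mul, h2, transpose_one]) 0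
  rw [mulVec_zero, ← h3] at h4
  rw [← dual_smul hr.ne' (mM_det hG hB hσ0)]
  refine (th_le (det_dual hd) x).trans ?_
  rw [← h4]
  have h5 := th_dual_le hd2 (b := 2 * P * Real.exp (WW g)) (by positivity)
    (fun a b => by
      have e : (r • mM G σ S * mR U) a b = r * (σ a * ∑ c, G.A a c * (Um c b : ℝ)) := by
        rw [sum_bk (V := S) _ fun c hc => by rw [A_zero hB a.2 hc, zero_mul], mul_apply,
          Finset.mul_sum, Finset.mul_sum]
        refine Finset.sum_congr rfl fun c _ => ?_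
        simp only [Matrix.smul_apply, mM, of_apply, smul_eq_mul, mR, map_apply, hU,
          submatrix_apply]
        ring
      rw [e, abs_mul, abs_mul, abs_of_pos hr, abs_of_pos (hσ0 a), mul_assoc]
      have h6 := (hA a b).trans (Real.exp_le_exp.2 (hW.anti (hg a a.2)))
      exact mul_le_mul hr2 (mul_le_mul (hσ a).2 h6 (abs_nonneg _) hP.le)
        (mul_nonneg (hσ0 a).le (abs_nonneg _)) (by norm_num)) 0
  refine h5.trans (num_p1 hz.P2 (le_trans ?_ hz.cd) (hW.nn g))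
  exact_mod_cast Fintype.card_subtype_le _

theorem th_bd (hG : G.Ok s) {WW : ℕ → ℝ} (hW : G.Wd WW) {P : ℝ} (hz : Sz ι P 1) {σ : ι → ℝ}
    (hσ : ∀ a, P⁻¹ ≤ σ a ∧ σ a ≤ P) {S : Finset ι} (hB : G.Bk S) {g : ℕ}
    (hg : ∀ a ∈ S, g ≤ G.g a) (x : S → ℝ) :
    th (mM G σ S) x ≤ Real.exp (P ^ 4 * (1 + WW g)) * G.mn σ S := by
  have hP : 0 < P := by linarith [hz.P2]
  have hσ0 : ∀ a, 0 < σ a := fun a => (inv_pos.2 hP).trans_le (hσ a).1
  have hd := mM_det hG hB hσ0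
  have h1 := th_dual_bd hG hW hz hσ hB hg one_pos (by norm_num) 0
  rw [inv_one, one_smul] at h1
  have h2 := (det_th_le hd x).trans h1
  rw [mn_eq hG hB hσ0, ← div_eq_mul_inv, le_div_iff₀ (abs_pos.2 hd), mul_comm]
  exact h2

end Br

open Br in
theorem gw : GW := by
  refine ⟨4, fun s ι _ _ G WW P σ S g θ hG hW hz hσ hB hg => ?_⟩
  have hP : 0 < P := by linarith [hz.P2]
  have hσ0 : ∀ a, 0 < σ a := fun a => (inv_pos.2 hP).trans_le (hσ a).1
  have h2 : (0 : ℝ) < √2 := by positivity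
  have h := summable_dq hG hB hσ0 θ (inv_pos.2 h2)
  rw [inv_pow, Real.sq_sqrt (by norm_num), ← div_eq_mul_inv] at h
  refine ⟨h.summable, ?_⟩
  rw [h.tsum_eq]
  refine th_dual_bd hG hW hz hσ hB hg h2 ?_ _
  rw [Real.sqrt_le_left (by norm_num)]
  norm_num

end

end Vale.Agent.P057T.Eq
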