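import Vale.Agent.P057T.Eq.JbS
import Vale.Agent.P057T.Eq.Bdw

/-! The leading part of a bounded relation is bounded, and there are few leading parts. -/

set_option linter.all false

open MvPolynomial Finset

namespace Vale.Agent.P057T.Eq

namespace Jb0

variable {ι : Type} [Fintype ι] [DecidableEq ι] {s : ℕ} {G : GT ι}

theorem BA (hG : G.Ok s) (b d : ι) : ∑ a, G.B b a * G.A a d = if b = d then 1 else 0 := by
  have h : G.B * G.A = 1 := mul_eq_one_comm.1 hG.AB
  have := congrFun (congrFun h b) d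
  rwa [Matrix.mul_apply, Matrix.one_apply] at this

theorem lin_th (hG : G.Ok s) (k : ι → ℝ) :
    ∑ a, C (∑ b, k b * G.B b a) * G.th a = lin k - ∑ b, C (k b) * G.q b := by
  have h1 : ∀ b, ∑ a, C (G.B b a) * G.th a = X b - G.q b := by
    intro b
    simp only [GT.th, mul_sum, ← mul_assoc, ← C_mul]
    rw [sum_comm]
    simp only [← sum_mul, ← map_sum, BA hG]
    rw [sum_eq_single b]
    · simp
    · intro d _ hd
      rw [if_neg (Ne.symm hd)]; simp
    · simp
  simp only [map_sum, sum_mul, C_mul, mul_assoc]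
  rw [sum_comm, lin, ← sum_sub_distrib]
  refine sum_congr rfl fun b _ => ?_
  rw [← mul_sum, h1 b, mul_sub]

theorem grp (hG : G.Ok s) {g : ℕ} {k : ι → ℝ} (hk : ∀ a, k a ≠ 0 → G.g a = g) {a : ι}
    (ha : ∑ b, k b * G.B b a ≠ 0) : G.g a = g := by
  obtain ⟨b, -, hb⟩ := exists_ne_zero_of_sum_ne_zero ha
  rw [← (hG.blk b a (Or.inr (right_ne_zero_of_mul hb))).1]
  exact hk b (left_ne_zero_of_mul hb)

theorem lo_kq (hG : G.Ok s) {g : ℕ} {k : ι → ℝ} (hk : ∀ a, k a ≠ 0 → G.g a = g) :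
    G.Lo g (∑ b, C (k b) * G.q b) := by
  refine Chart.vars_sum' (P := fun j => G.g j < g) fun b _ => ?_
  by_cases hb : k b = 0
  · simp [hb]
  · exact Chart.vars_mul' (Chart.vars_C' _) (hk b hb ▸ hG.ql b)

theorem coeff_lin (c : ι → ℝ) (a : ι) : coeff (Finsupp.single a 1) (lin c) = c a := by
  rw [lin, coeff_sum, sum_eq_single a]
  · simp [coeff_X]
  · intro b _ hb
    rw [coeff_C_mul, coeff_X', if_neg, mul_zero]
    exact fun h => hb (Finsupp.single_left_injective one_ne_zero h)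
  · simp

end Jb0

open Jb0 in
theorem jco : JCO := by
  intro s ι _ _ G g k I H hG hk hI hB a
  by_cases ha : ∑ b, k b * G.B b a = 0
  · rw [ha, abs_zero]; exact hB.nonneg
  obtain ⟨b, hb, hn⟩ := hB
  have e : aeval G.th (b - lin fun a => ∑ b, k b * G.B b a) = I + ∑ b, C (k b) * G.q b := by
    have e1 : aeval G.th (lin fun a => ∑ b, k b * G.B b a) =
        ∑ a, C (∑ b, k b * G.B b a) * G.th a := by
      rw [lin, map_sum]
      exact sum_congr rfl fun a _ => by rw [map_mul, aeval_C, aeval_X, algebraMap_eq]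
    rw [map_sub, hb, e1, lin_th hG]
    ring
  have hl : G.Lo g (b - lin fun a => ∑ b, k b * G.B b a) := by
    rw [lo_iff hG, e]
    exact Chart.vars_add' (P := fun j => G.g j < g) hI (lo_kq hG hk)
  have h0 : coeff (Finsupp.single a 1) (b - lin fun a => ∑ b, k b * G.B b a) = 0 := by
    by_contra h
    have := hl a ((mem_vars_iff_mem_support a).2 ⟨_, mem_support_iff.2 h, by simp⟩)
    rw [grp hG hk ha] at this
    exact lt_irrefl _ this
  rw [coeff_sub, coeff_lin, sub_eq_zero] at h0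
  rw [← h0]
  exact (L1.abs_coeff_le b _).trans hn

open Jb0 in
theorem jcnt : JCNT := by
  intro s ι _ _ G WW g H hG hW hH
  obtain ⟨Um, Vm, hUV, -, hA⟩ := hW.bd
  set T : ℝ := Fintype.card ι * H * Real.exp (WW g) with hT
  have hT0 : 0 ≤ T := by positivity
  refine ⟨(Fintype.piFinset fun _ : ι => Icc (-(⌊T⌋₊ : ℤ)) ⌊T⌋₊).image fun v => Matrix.vecMul v Vm,
    ?_, fun k hk hb => ?_⟩
  · have h1 : ((Icc (-(⌊T⌋₊ : ℤ)) ⌊T⌋₊).card : ℝ) ≤ 2 * T + 1 := by
      have h2 : (Icc (-(⌊T⌋₊ : ℤ)) ⌊T⌋₊).card = 2 * ⌊T⌋₊ + 1 := by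
        rw [Int.card_Icc]; omega
      rw [h2]
      push_cast
      linarith [Nat.floor_le hT0]
    refine le_trans (Nat.cast_le.2 card_image_le) ?_
    rw [Fintype.card_piFinset, prod_const, card_univ, Nat.cast_pow]
    exact pow_le_pow_left₀ (Nat.cast_nonneg _) h1 _
  · refine mem_image.2 ⟨Matrix.vecMul k Um, ?_, by rw [Matrix.vecMul_vecMul, hUV, Matrix.vecMul_one]⟩
    rw [Fintype.mem_piFinset]
    intro d
    have e : ((Matrix.vecMul k Um d : ℤ) : ℝ) =
        ∑ a, (∑ b, (k b : ℝ) * G.B b a) * ∑ c, G.A a c * (Um c d : ℝ) := by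
      have e1 : ∀ b, ∑ a, G.B b a * ∑ c, G.A a c * (Um c d : ℝ) = Um b d := by
        intro b
        simp only [mul_sum, ← mul_assoc]
        rw [sum_comm]
        simp only [← sum_mul, BA hG]
        simp
      simp only [sum_mul, mul_assoc]
      rw [sum_comm]
      simp only [← mul_sum, e1, Matrix.vecMul, dotProduct]
      push_cast
      rfl
    have hb' : |((Matrix.vecMul k Um d : ℤ) : ℝ)| ≤ T := by
      rw [e]
      refine (abs_sum_le_sum_abs _ _).trans ?_
      refine (sum_le_card_nsmul _ _ (H * Real.exp (WW g)) fun a _ => ?_).trans ?_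
      · by_cases ha : ∑ b, (k b : ℝ) * G.B b a = 0
        · rw [ha, zero_mul, abs_zero]; positivity
        · have hg := grp hG (k := fun b => (k b : ℝ)) (fun b h => hk b (by exact_mod_cast h)) ha
          rw [abs_mul]
          exact mul_le_mul (hb a) (hg ▸ hA a d) (abs_nonneg _) hH
      · rw [nsmul_eq_mul, card_univ, hT, mul_assoc]
    have h3 : (Matrix.vecMul k Um d).natAbs ≤ ⌊T⌋₊ := by
      refine Nat.le_floor ?_
      rw [Nat.cast_natAbs, Int.cast_abs]
      exact hb'
    rw [mem_Icc]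
    omega

end Vale.Agent.P057T.Eq
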