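import Vale.Agent.P057T.Eq.Defs

/-! The pieces of row JB. -/

open MvPolynomial Finset

namespace Vale.Agent.P057T.Eq

noncomputable section

variable {ι : Type} [Fintype ι] [DecidableEq ι]

/-- a bounded integer relation with leading part `k` -/
def GT.Rel (G : GT ι) (g e : ℕ) (k : ι → ℤ) (H : ℝ) (I : MvPolynomial ι ℝ) : Prop :=
  IsZ I ∧ G.Lo g I ∧ G.Hm e I ∧ G.Bd (lin (cz k) + I) H

/-- the form whose differential occurs in copy `j` -/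
def GT.Fk (G : GT ι) {κ : Type} (k : G.TV κ → ℤ) (j : κ) : MvPolynomial ι ℝ :=
  ∑ a : {a : ι // 2 ≤ G.w a}, C (k (Sum.inr (j, a)) : ℝ) * G.q a.1

def JCO : Prop := ∀ (s : ℕ) (ι : Type) [Fintype ι] [DecidableEq ι] (G : GT ι) (g : ℕ) (k : ι → ℝ)
  (I : MvPolynomial ι ℝ) (H : ℝ), G.Ok s → (∀ a, k a ≠ 0 → G.g a = g) → G.Lo g I →
    G.Bd (lin k + I) H → ∀ a, |∑ b, k b * G.B b a| ≤ H

def JCNT : Prop := ∀ (s : ℕ) (ι : Type) [Fintype ι] [DecidableEq ι] (G : GT ι) (WW : ℕ → ℝ) (g : ℕ)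
  (H : ℝ), G.Ok s → G.Wd WW → 0 ≤ H → ∃ K : Finset (ι → ℤ),
    (K.card : ℝ) ≤ (2 * (Fintype.card ι * H * Real.exp (WW g)) + 1) ^ Fintype.card ι ∧
    ∀ k : ι → ℤ, (∀ a, k a ≠ 0 → G.g a = g) → (∀ a, |∑ b, (k b : ℝ) * G.B b a| ≤ H) → k ∈ K

/-- all copies exact -/
def JB1 : Prop := ∀ (s : ℕ) (ι κ : Type) [Fintype ι] [DecidableEq ι] [Fintype κ] [DecidableEq κ]
  (G : GT ι) (g e : ℕ) (H : ℝ) (k : G.TV κ → ℤ) (h h' : κ → ι → ℤ)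
  (I I' : MvPolynomial (G.TV κ) ℝ), G.Ok s → 1 ≤ e → e ≤ s →
    (∀ x, k x ≠ 0 → (G.tan h).g x = g ∧ (G.tan h).w x = e) →
    (∀ x, k (Sum.inr x) ≠ 0 → x.2.1 ∈ G.ex) →
    (G.tan h).Rel g e k H I → (G.tan h').Rel g e k H I' →
    (G.tan (Sum.elim h h')).Zr s g (2 * ((Fintype.card (G.TV κ) + 1) * H)) →
    ∃ I0, G.Rel g e (fun a => k (Sum.inl a)) ((Fintype.card (G.TV κ) + 1) * H) I0

/-- two pairs with the same difference in the copy `j0` -/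
def JB2 : Prop := ∀ (s : ℕ) (ι κ : Type) [Fintype ι] [DecidableEq ι] [Fintype κ] [DecidableEq κ]
  (G : GT ι) (g e : ℕ) (H : ℝ) (k : G.TV κ → ℤ) (j0 : κ) (x : ι → ℤ) (h1 h2 : κ → ι → ℤ)
  (I1 I1' I2 I2' : MvPolynomial (G.TV κ) ℝ), G.Ok s → 1 ≤ e → e ≤ s →
    (∀ y, k y ≠ 0 → (G.tan h1).g y = g ∧ (G.tan h1).w y = e) →
    (G.tan (Function.update h1 j0 (h1 j0 + x))).Rel g e k H I1 → (G.tan h1).Rel g e k H I1' →
    (G.tan (Function.update h2 j0 (h2 j0 + x))).Rel g e k H I2 → (G.tan h2).Rel g e k H I2' →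
    (G.tan (Sum.elim (fun _ : Unit => x) (Sum.elim h1 h2))).Zr s g
      (2 * ((2 ^ s + 1) * ((Fintype.card (G.TV κ) + 1) * H))) →
    ∃ J, IsZ J ∧ (G.tan fun _ : Unit => x).Lo g J ∧ (G.tan fun _ : Unit => x).Hm e J ∧
      (G.tan fun _ : Unit => x).Bd (G.dd (fun _ : Unit => x) () (G.Fk k j0) - J)
        ((2 ^ s + 1) * ((Fintype.card (G.TV κ) + 1) * H))

/-- the end of the case of a non exact copy -/
def JB3 : Prop := ∀ (s : ℕ) (ι κ : Type) [Fintype ι] [DecidableEq ι] [Fintype κ] [DecidableEq κ]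
  (G : GT ι) (g e : ℕ) (H H' : ℝ) (k : G.TV κ → ℤ) (j0 : κ) (h : κ → ι → ℤ)
  (I : MvPolynomial (G.TV κ) ℝ), G.Ok s →
    (∀ y, k y ≠ 0 → (G.tan h).g y = g ∧ (G.tan h).w y = e) → (G.tan h).Rel g e k H I →
    (G.Hm (e + 1) (G.Fk k j0) ∧ G.Lo g (G.Fk k j0)) ∧
    (G.Ap g (e + 1) (G.Fk k j0) H' → G.Big g (H' + H' * (Fintype.card ι * H)) →
      ∀ a : {a : ι // 2 ≤ G.w a}, k (Sum.inr (j0, a)) ≠ 0 → a.1 ∈ G.ex)

end

end Vale.Agent.P057T.Eq
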