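import Vale.Agent.P057T.Eq.Jb1H92
import Vale.Agent.P057T.Eq.JbS
import Vale.Agent.P057T.Eq.Bdw
import Vale.Agent.P057T.Eq.Tanok

/-! The piece JB1. -/

set_option linter.all false

open MvPolynomial Finset

namespace Vale.Agent.P057T.Eq

open J1 Vale.Agent.P057T.Chart Vale.Agent.P057T.L1

theorem jb1' : JB1 := by
  intro s ι κ _ _ _ _ G g e H k h h' I I' hG he1 hes hk hl ⟨z, l, m, b⟩ ⟨z', l', m', b'⟩ hZ
  have hH : H ≤ (Fintype.card (G.TV κ) + 1) * H := by
    have h0 := b.nonneg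
    have h1 : (0 : ℝ) ≤ Fintype.card (G.TV κ) := Nat.cast_nonneg _
    nlinarith
  have d := drop bd0 tanok hG h k hk hl l (b.mono hH)
  have d' := drop bd0 tanok hG h' k hk hl l' (b'.mono hH)
  generalize (Fintype.card (G.TV κ) + 1 : ℝ) * H = H1 at *
  obtain ⟨c, e1, hc⟩ := cpy_bd tanok hG Sum.inl (Sum.elim h h') d
  obtain ⟨c', e2, hc'⟩ := cpy_bd tanok hG Sum.inr (Sum.elim h h') d'
  rw [map_add, cpy_inl] at e1 e2
  have h0 : rename (cpy G (Sum.inl : κ → κ ⊕ κ)) I - rename (cpy G Sum.inr) I' = 0 := by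
    refine hZ e _ he1 hes (IsInt.sub (IsInt.rename z _) (IsInt.rename z' _))
      (vars_sub' (P := fun x => (G.tan (Sum.elim h h')).g x < g) (cpy_lo _ h _ l) (cpy_lo _ h' _ l'))
      ((cpy_hm _ h _ m).sub (cpy_hm _ h' _ m')) ⟨c - c', ?_, ?_⟩
    · rw [map_sub, e1, e2]; ring
    · exact (nrm_sub_le c c').trans
        (by have : nrm c ≤ H1 := hc; have : nrm c' ≤ H1 := hc'; linarith)
  let π0 : G.TV κ → MvPolynomial ι ℝ := Sum.elim X fun _ => 0
  let π1 : G.TV (κ ⊕ κ) → MvPolynomial (G.TV κ) ℝ := Sum.elim (fun a => X (Sum.inl a))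
    fun y => Sum.elim (fun j => X (Sum.inr (j, y.2))) (fun _ => 0) y.1
  have h1 : I = rename Sum.inl (aeval π0 I') := by
    have := congrArg (aeval π1) (sub_eq_zero.1 h0)
    rw [aeval_rename, aeval_rename, fix (F := I) (by rintro (a | y) _ <;> rfl)] at this
    rw [this, rename_eq_aeval, aeval_aeval]
    refine aeval_congr_vars ?_
    rintro (a | y) _ <;> simp [π0, π1, cpy]
  rw [h1, ← map_add] at d
  refine ⟨aeval π0 I', ?_, ?_, ?_, bd_inl bd0 tanok hG h d⟩
  · refine IsInt.aeval z' ?_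
    rintro (a | y)
    · exact isInt_X a
    · exact isInt_zero
  · refine vars_aeval (P := fun a => G.g a < g) ?_
    rintro (a | y) hy
    · exact vars_X' (P := fun a => G.g a < g) (l' _ hy)
    · simp [π0]
  · refine hom_aeval m' ?_
    rintro (a | y)
    · exact isWeightedHomogeneous_X ℝ G.w a
    · exact isWeightedHomogeneous_zero ℝ G.w _

end Vale.Agent.P057T.Eq
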