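import Vale.Agent.P057T.Eq.JbS
import Vale.Agent.P057T.Eq.Bdw
import Vale.Agent.P057T.Eq.Tanok

/-! Linear substitutions between tangent towers and the piece JB2. -/

set_option linter.all false

open MvPolynomial Finset

namespace Vale.Agent.P057T.Eq

namespace J2

noncomputable section

variable {ι κ κ' κ'' : Type} [Fintype ι] [DecidableEq ι] [Fintype κ] [DecidableEq κ]
  [Fintype κ'] [DecidableEq κ'] [Fintype κ''] [DecidableEq κ''] (G : GT ι)

/-- linear substitution of the copies -/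
def ph (M : Matrix κ κ' ℤ) : G.TV κ → MvPolynomial (G.TV κ') ℝ
  | Sum.inl a => X (Sum.inl a)
  | Sum.inr x => ∑ j', C (M x.1 j' : ℝ) * X (Sum.inr (j', x.2))

theorem ph_ph (M : Matrix κ κ' ℤ) (M' : Matrix κ' κ'' ℤ) (p : MvPolynomial (G.TV κ) ℝ) :
    aeval (ph G M') (aeval (ph G M) p) = aeval (ph G (M * M')) p := by
  rw [Chart.aeval_aeval]
  have : (fun i => aeval (ph G M') (ph G M i)) = ph G (M * M') := by
    funext y
    rcases y with a | x
    · simp [ph]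
    · simp only [ph, map_sum, map_mul, aeval_C, aeval_X, Matrix.mul_apply, algebraMap_eq,
        Finset.mul_sum, Finset.sum_mul, Int.cast_sum, Int.cast_mul]
      rw [Finset.sum_comm]
      refine Finset.sum_congr rfl fun j _ => Finset.sum_congr rfl fun j' _ => ?_
      ring
  rw [this]

theorem ph_one (p : MvPolynomial (G.TV κ) ℝ) : aeval (ph G (1 : Matrix κ κ ℤ)) p = p := by
  have : ph G (1 : Matrix κ κ ℤ) = X := by
    funext y
    rcases y with a | x
    · rfl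
    · simp only [ph]
      rw [Finset.sum_eq_single x.1]
      · simp
      · intro j _ hj
        simp [Matrix.one_apply, Ne.symm hj]
      · simp
  rw [this, aeval_X_left_apply]

theorem ph_ren (M : Matrix κ κ' ℤ) (F : MvPolynomial ι ℝ) :
    aeval (ph G M) (rename Sum.inl F : MvPolynomial (G.TV κ) ℝ) = rename Sum.inl F := by
  rw [aeval_rename, Tk.ren_eq]
  rfl

theorem ph_int (M : Matrix κ κ' ℤ) {F : MvPolynomial (G.TV κ) ℝ} (hF : IsZ F) :
    IsZ (aeval (ph G M) F) := by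
  refine L1.IsInt.aeval hF fun y => ?_
  rcases y with a | x
  · exact L1.isInt_X _
  · exact L1.isInt_sum fun j _ => (L1.isInt_C _).mul (L1.isInt_X _)

theorem ph_lo (M : Matrix κ κ' ℤ) (h : κ → ι → ℤ) (h' : κ' → ι → ℤ) {g : ℕ}
    {F : MvPolynomial (G.TV κ) ℝ} (hF : (G.tan h).Lo g F) : (G.tan h').Lo g (aeval (ph G M) F) := by
  refine Chart.vars_aeval (P := fun y => (G.tan h').g y < g) fun y hy => ?_
  have := hF y hy
  rcases y with a | x
  · exact Chart.vars_X' this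
  · exact Chart.vars_sum' fun j _ => Chart.vars_mul' (Chart.vars_C' _) (Chart.vars_X' this)

theorem ph_hm (M : Matrix κ κ' ℤ) (h : κ → ι → ℤ) (h' : κ' → ι → ℤ) {e : ℕ}
    {F : MvPolynomial (G.TV κ) ℝ} (hF : (G.tan h).Hm e F) : (G.tan h').Hm e (aeval (ph G M) F) := by
  refine Chart.hom_aeval hF fun y => ?_
  rcases y with a | x
  · exact isWeightedHomogeneous_X ℝ _ _
  · refine IsWeightedHomogeneous.sum _ _ _ fun j _ => ?_
    have h1 := (isWeightedHomogeneous_C (G.tan h').w (M x.1 j : ℝ)).mul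
      (isWeightedHomogeneous_X ℝ (G.tan h').w (Sum.inr (j, x.2)))
    rw [zero_add] at h1
    exact h1

theorem ph_nrm (M : Matrix κ κ' ℤ) {N : ℝ} (h1 : 1 ≤ N) (hN : ∀ j, ∑ j', |(M j j' : ℝ)| ≤ N)
    (y : G.TV κ) : L1.nrm (ph G M y) ≤ N := by
  have hX : ∀ z : G.TV κ', L1.nrm (X z : MvPolynomial (G.TV κ') ℝ) = 1 := fun z => by
    rw [X, L1.nrm_monomial, abs_one]
  rcases y with a | x
  · simp only [ph, hX]
    exact h1
  · refine (L1.nrm_sum_le _ _).trans (le_trans (le_of_eq ?_) (hN x.1))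
    refine Finset.sum_congr rfl fun j _ => ?_
    rw [L1.nrm_C_mul, hX, mul_one]

variable {G} {M : Matrix κ κ' ℤ} {h : κ → ι → ℤ} {h' : κ' → ι → ℤ}

theorem ph_wv (hh : ∀ j b, h j b = ∑ j', M j j' * h' j' b) (j : κ) (b : ι) :
    aeval (ph G M) (G.wv h j b) = ∑ j', C (M j j' : ℝ) * G.wv h' j' b := by
  by_cases hb : 2 ≤ G.w b
  · simp [GT.wv, hb, ph]
  · simp only [GT.wv, hb, dif_neg, not_false_iff, aeval_C, algebraMap_eq, hh, Int.cast_sum,
      Int.cast_mul, map_sum, map_mul]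

theorem ph_dd (hh : ∀ j b, h j b = ∑ j', M j j' * h' j' b) (j : κ) (F : MvPolynomial ι ℝ) :
    aeval (ph G M) (G.dd h j F) = ∑ j', C (M j j' : ℝ) * G.dd h' j' F := by
  simp only [GT.dd, map_sum, map_mul, ph_wv hh, ph_ren, Finset.mul_sum, Finset.sum_mul]
  rw [Finset.sum_comm]
  refine Finset.sum_congr rfl fun j' _ => Finset.sum_congr rfl fun b _ => ?_
  ring

theorem ph_th {s : ℕ} (hG : G.Ok s) (hh : ∀ j b, h j b = ∑ j', M j j' * h' j' b) (y : G.TV κ) :
    aeval (ph G M) ((G.tan h).th y) = aeval (G.tan h').th (ph G M y) := by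
  rcases y with a | x
  · rw [Tk.th_inl, ph_ren]
    simp [ph, Tk.th_inl]
  · rw [Tk.th_inr G h hG, ph_dd hh]
    simp only [ph, map_sum, map_mul, aeval_C, aeval_X, algebraMap_eq, Tk.th_inr G h' hG]

theorem ph_chart {s : ℕ} (hG : G.Ok s) (hh : ∀ j b, h j b = ∑ j', M j j' * h' j' b)
    (b : MvPolynomial (G.TV κ) ℝ) :
    aeval (ph G M) (aeval (G.tan h).th b) = aeval (G.tan h').th (aeval (ph G M) b) := by
  rw [Chart.aeval_aeval, Chart.aeval_aeval]
  simp only [ph_th hG hh]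

/-- bounded forms are pushed forward -/
theorem ph_bd {s : ℕ} (hG : G.Ok s) (hh : ∀ j b, h j b = ∑ j', M j j' * h' j' b) {N : ℝ}
    (h1 : 1 ≤ N) (hN : ∀ j, ∑ j', |(M j j' : ℝ)| ≤ N) {e : ℕ} (he : e ≤ s)
    {F : MvPolynomial (G.TV κ) ℝ} {H : ℝ} (hF : (G.tan h).Hm e F) (hb : (G.tan h).Bd F H) :
    (G.tan h').Bd (aeval (ph G M) F) (N ^ s * H) := by
  have hH := hb.nonneg
  obtain ⟨b, rfl, hb⟩ := hb
  have hT := Tk.ok G h hG
  have hd : b.totalDegree ≤ s :=
    (Chart.totalDegree_le_of_hom hT.w1 ((hm_iff hT e b).2 hF)).trans he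
  refine ⟨aeval (ph G M) b, (ph_chart hG hh b).symm, ?_⟩
  rw [l1_eq] at hb ⊢
  refine (L1.nrm_aeval_le h1 (ph_nrm G M h1 hN) hd).trans ?_
  rw [mul_comm]
  exact mul_le_mul_of_nonneg_left hb (by positivity)

/-- and pulled back along an embedding -/
theorem ph_bd_back {s : ℕ} (hG : G.Ok s) (hh : ∀ j b, h j b = ∑ j', M j j' * h' j' b)
    (K : Matrix κ' κ ℤ) (hK : M * K = 1) (hN : ∀ j, ∑ j', |(K j j' : ℝ)| ≤ 1)
    {F : MvPolynomial (G.TV κ) ℝ} {H : ℝ} (hb : (G.tan h').Bd (aeval (ph G M) F) H) :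
    (G.tan h).Bd F H := by
  obtain ⟨b, hb1, hb2⟩ := hb
  obtain ⟨b0, rfl⟩ := th_surj (Tk.ok G h hG) F
  rw [ph_chart hG hh] at hb1
  have hb3 := th_inj (Tk.ok G h' hG) hb1
  refine ⟨b0, rfl, ?_⟩
  have : b0 = aeval (ph G K) b := by rw [hb3, ph_ph, hK, ph_one]
  rw [l1_eq] at hb2 ⊢
  rw [this]
  exact (L1.nrm_aeval_le_one (ph_nrm G K le_rfl hN) b).trans hb2

/-- the leading part in the chart -/
theorem lin_eq {ι : Type} [Fintype ι] [DecidableEq ι] {G : GT ι} {s : ℕ} (hG : G.Ok s) (k : ι → ℝ) :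
    lin k = ∑ b, C (k b) * G.q b + ∑ a, C (∑ b, k b * G.B b a) * G.th a := by
  have hBA : G.B * G.A = 1 := mul_eq_one_comm.1 hG.AB
  have : ∑ a, C (∑ b, k b * G.B b a) * G.th a = ∑ b, C (k b) * (X b - G.q b) := by
    simp only [GT.th, Finset.mul_sum, ← mul_assoc, ← map_mul]
    rw [Finset.sum_comm]
    refine Finset.sum_congr rfl fun c _ => ?_
    rw [← Finset.sum_mul, ← map_sum]
    congr 2
    simp only [Finset.sum_mul]
    rw [Finset.sum_comm]
    have : ∀ b, ∑ a, k b * G.B b a * G.A a c = k b * (1 : Matrix ι ι ℝ) b c := by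
      intro b
      rw [← hBA, Matrix.mul_apply, Finset.mul_sum]
      exact Finset.sum_congr rfl fun a _ => mul_assoc _ _ _
    simp only [this, Matrix.one_apply]
    simp
  rw [this, lin, ← Finset.sum_add_distrib]
  exact Finset.sum_congr rfl fun b _ => by ring

/-- the bracket of a relation is bounded -/
theorem brk (hJ : JCO) {ι : Type} [Fintype ι] [DecidableEq ι] {G : GT ι} {s : ℕ} (hG : G.Ok s)
    {g e : ℕ} {k : ι → ℤ} {H : ℝ} {I : MvPolynomial ι ℝ}
    (hk : ∀ y, k y ≠ 0 → G.g y = g ∧ G.w y = e) (hR : G.Rel g e k H I) :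
    G.Hm e (∑ b, C (k b : ℝ) * G.q b + I) ∧
      G.Bd (∑ b, C (k b : ℝ) * G.q b + I) ((Fintype.card ι + 1) * H) := by
  obtain ⟨-, h2, h3, h4⟩ := hR
  constructor
  · refine IsWeightedHomogeneous.add (IsWeightedHomogeneous.sum _ _ _ fun b _ => ?_) h3
    by_cases hb : k b = 0
    · simp only [hb, Int.cast_zero, map_zero, zero_mul]
      exact isWeightedHomogeneous_zero _ _ _
    · have h1 := (isWeightedHomogeneous_C G.w (k b : ℝ)).mul (hG.qh b)
      rw [zero_add, (hk b hb).2] at h1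
      exact h1
  · have hc := hJ s ι G g (cz k) I H hG (fun a ha => (hk a (by simpa [cz] using ha)).1) h2 h4
    have h5 : G.Bd (∑ a, C (∑ b, cz k b * G.B b a) * G.th a) (∑ _a : ι, H) :=
      G.bd_sum fun a _ => ((G.bd_th a).C_mul _).mono (by rw [mul_one]; exact hc a)
    have h6 := h4.sub h5
    have h7 : lin (cz k) + I - ∑ a, C (∑ b, cz k b * G.B b a) * G.th a =
        ∑ b, C (k b : ℝ) * G.q b + I := by
      rw [lin_eq hG (cz k)]
      simp only [cz]
      ring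
    rw [h7] at h6
    refine h6.mono (le_of_eq ?_)
    simp only [Finset.sum_const, Finset.card_univ, nsmul_eq_mul]
    ring

theorem brk_tan (G : GT ι) (h : κ → ι → ℤ) (k : G.TV κ → ℤ) :
    ∑ b, C (k b : ℝ) * (G.tan h).q b =
      rename Sum.inl (∑ a, C (k (Sum.inl a) : ℝ) * G.q a) + ∑ j, G.dd h j (G.Fk k j) := by
  rw [Tk.sum_tv]
  congr 1
  · simp only [map_sum, map_mul, rename_C]
    rfl
  · refine Finset.sum_congr rfl fun j _ => ?_
    simp only [GT.Fk, Tk.dd_sum, Tk.dd_C_mul]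
    rfl

/-- the matrix of an embedding of the copies -/
def emb (f : κ → κ') : Matrix κ κ' ℤ := fun j j' => if j' = f j then 1 else 0

/-- the embedding with one more term in the copy `j0` -/
def ep (f : κ → κ') (j0 : κ) (o : κ') : Matrix κ κ' ℤ :=
  fun j j' => emb f j j' + if j = j0 ∧ j' = o then 1 else 0

theorem em_sum {A : Type*} [AddCommGroup A] [Module ℝ A] (f : κ → κ') (j : κ) (v : κ' → A) :
    ∑ j', ((emb f j j' : ℤ) : ℝ) • v j' = v (f j) := by
  rw [Finset.sum_eq_single (f j)] <;> simp +contextual [emb]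

/-- one pair: the difference of the brackets -/
theorem pair (hJ : JCO) {s : ℕ} (hG : G.Ok s) {g e : ℕ} (he : e ≤ s) {H : ℝ} {k : G.TV κ → ℤ}
    {j0 : κ} {x : ι → ℤ} {h : κ → ι → ℤ} {I I' : MvPolynomial (G.TV κ) ℝ}
    (hk : ∀ y, k y ≠ 0 → (G.tan h).g y = g ∧ (G.tan h).w y = e)
    (hR : (G.tan (Function.update h j0 (h j0 + x))).Rel g e k H I) (hR' : (G.tan h).Rel g e k H I')
    (u : κ' → ι → ℤ) (f : κ → κ') (o : κ') (hf : ∀ j, u (f j) = h j) (ho : u o = x) :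
    (G.tan u).Bd (G.dd u o (G.Fk k j0) + (aeval (ph G (ep f j0 o)) I - aeval (ph G (emb f)) I'))
      ((2 ^ s + 1) * ((Fintype.card (G.TV κ) + 1) * H)) := by
  have hh' : ∀ j b, h j b = ∑ j', emb f j j' * u j' b := by
    intro j b
    rw [Finset.sum_eq_single (f j)] <;> simp +contextual [emb, hf]
  have hh : ∀ j b, Function.update h j0 (h j0 + x) j b = ∑ j', ep f j0 o j j' * u j' b := by
    intro j b
    simp only [ep, add_mul, Finset.sum_add_distrib, ← hh']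
    by_cases hj : j = j0
    · subst hj
      simp [ho]
    · simp [hj]
  have hem : ∀ j, ∑ j', |(emb f j j' : ℝ)| ≤ 1 := by
    intro j
    rw [Finset.sum_eq_single (f j)] <;> simp +contextual [emb]
  have hep : ∀ j, ∑ j', |(ep f j0 o j j' : ℝ)| ≤ 2 := by
    intro j
    have h1 : ∑ j', |(((if j = j0 ∧ j' = o then 1 else 0 : ℤ)) : ℝ)| ≤ 1 := by
      rw [Finset.sum_eq_single o]
      · split_ifs <;> simp
      · intro b _ hb
        simp [hb]
      · simp
    have h2 := hem j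
    refine le_trans (Finset.sum_le_sum fun j' _ => ?_)
      (le_trans (le_of_eq Finset.sum_add_distrib) (add_le_add h2 h1) |>.trans (by norm_num))
    simp only [ep, Int.cast_add]
    exact abs_add_le _ _
  obtain ⟨a1, a2⟩ := brk hJ (Tk.ok G _ hG) (G := G.tan (Function.update h j0 (h j0 + x))) hk hR
  obtain ⟨b1, b2⟩ := brk hJ (Tk.ok G _ hG) hk hR'
  have c1 := ph_bd hG hh one_le_two hep he a1 a2
  have c2 := ph_bd hG hh' le_rfl hem he b1 b2
  have c3 := c1.sub c2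
  rw [brk_tan, brk_tan] at c3
  simp only [map_add, map_sum, ph_ren, ph_dd hh, ph_dd hh'] at c3
  have e1 : ∑ j, ∑ j', C (ep f j0 o j j' : ℝ) * G.dd u j' (G.Fk k j) =
      ∑ j, ∑ j', C (emb f j j' : ℝ) * G.dd u j' (G.Fk k j) + G.dd u o (G.Fk k j0) := by
    simp only [ep, Int.cast_add, map_add, add_mul, Finset.sum_add_distrib]
    congr 1
    rw [Finset.sum_eq_single j0]
    · rw [Finset.sum_eq_single o] <;> simp +contextual
    · intro j _ hj
      simp [hj]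
    · simp
  rw [e1] at c3
  refine (congrArg (fun F => (G.tan u).Bd F _) ?_).mp (c3.mono (le_of_eq (by ring)))
  ring

end

end J2

open J2 in
theorem jb2 (hJ : JCO) : JB2 := by
  intro s ι κ _ _ _ _ G g e H k j0 x h1 h2 I1 I1' I2 I2' hG he1 he hk R1 R1' R2 R2' hZ
  set u : Unit ⊕ (κ ⊕ κ) → ι → ℤ := Sum.elim (fun _ : Unit => x) (Sum.elim h1 h2) with hu
  have p1 := pair hJ hG he hk R1 R1' u (fun j => Sum.inr (Sum.inl j)) (Sum.inl ())
    (fun _ => rfl) rfl
  have p2 := pair hJ hG he (h := h2) hk R2 R2' u (fun j => Sum.inr (Sum.inr j)) (Sum.inl ())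
    (fun _ => rfl) rfl
  set J1 := aeval (ph G (ep (fun j => (Sum.inr (Sum.inl j) : Unit ⊕ (κ ⊕ κ))) j0 (Sum.inl ()))) I1 -
    aeval (ph G (emb fun j => (Sum.inr (Sum.inl j) : Unit ⊕ (κ ⊕ κ)))) I1' with hJ1
  set J2 := aeval (ph G (ep (fun j => (Sum.inr (Sum.inr j) : Unit ⊕ (κ ⊕ κ))) j0 (Sum.inl ()))) I2 -
    aeval (ph G (emb fun j => (Sum.inr (Sum.inr j) : Unit ⊕ (κ ⊕ κ)))) I2' with hJ2
  have z1 : IsZ J1 := L1.IsInt.sub (ph_int G _ R1.1) (ph_int G _ R1'.1)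
  have z2 : IsZ J2 := L1.IsInt.sub (ph_int G _ R2.1) (ph_int G _ R2'.1)
  have l1' : (G.tan u).Lo g J1 :=
    Chart.vars_sub' (ph_lo G _ _ u R1.2.1) (ph_lo G _ _ u R1'.2.1)
  have l2' : (G.tan u).Lo g J2 :=
    Chart.vars_sub' (ph_lo G _ _ u R2.2.1) (ph_lo G _ _ u R2'.2.1)
  have hsub : ∀ {p q : MvPolynomial (G.TV (Unit ⊕ (κ ⊕ κ))) ℝ}, (G.tan u).Hm e p →
      (G.tan u).Hm e q → (G.tan u).Hm e (p - q) := fun {p q} hp hq =>
    (weightedHomogeneousSubmodule ℝ (G.tan u).w e).sub_mem hp hq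
  have m1 : (G.tan u).Hm e J1 := hsub (ph_hm G _ _ u R1.2.2.1) (ph_hm G _ _ u R1'.2.2.1)
  have m2 : (G.tan u).Hm e J2 := hsub (ph_hm G _ _ u R2.2.2.1) (ph_hm G _ _ u R2'.2.2.1)
  have hz : J1 - J2 = 0 := by
    refine hZ e _ he1 he (L1.IsInt.sub z1 z2) (Chart.vars_sub' l1' l2') (hsub m1 m2) ?_
    refine (congrArg (fun F => (G.tan u).Bd F _) ?_).mp ((p1.sub p2).mono (le_of_eq (by ring)))
    ring
  have heq : J1 = J2 := sub_eq_zero.1 hz
  let P1 : Matrix (Unit ⊕ (κ ⊕ κ)) (Unit ⊕ (κ ⊕ κ)) ℤ :=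
    Matrix.diagonal (Sum.elim (fun _ => 1) (Sum.elim (fun _ => 1) (fun _ => 0)))
  let P2 : Matrix (Unit ⊕ (κ ⊕ κ)) (Unit ⊕ (κ ⊕ κ)) ℤ :=
    Matrix.diagonal (Sum.elim (fun _ => 1) (Sum.elim (fun _ => 0) (fun _ => 1)))
  let N : Matrix Unit (Unit ⊕ (κ ⊕ κ)) ℤ := emb fun _ => Sum.inl ()
  let K : Matrix (Unit ⊕ (κ ⊕ κ)) Unit ℤ := fun j _ => Sum.elim (fun _ => 1) (fun _ => 0) j
  have f1 : aeval (ph G P1) J1 = J1 := by
    rw [hJ1, map_sub, ph_ph, ph_ph]
    have a1 : ep (fun j => (Sum.inr (Sum.inl j) : Unit ⊕ (κ ⊕ κ))) j0 (Sum.inl ()) * P1 =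
        ep (fun j => (Sum.inr (Sum.inl j) : Unit ⊕ (κ ⊕ κ))) j0 (Sum.inl ()) := by
      ext j j'
      rcases j' with j' | j' | j' <;> simp [P1, ep, emb, Matrix.mul_diagonal]
    have a2 : emb (fun j => (Sum.inr (Sum.inl j) : Unit ⊕ (κ ⊕ κ))) * P1 =
        emb (fun j => (Sum.inr (Sum.inl j) : Unit ⊕ (κ ⊕ κ))) := by
      ext j j'
      rcases j' with j' | j' | j' <;> simp [P1, emb, Matrix.mul_diagonal]
    rw [a1, a2]
  have f2 : aeval (ph G P2) J2 = J2 := by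
    rw [hJ2, map_sub, ph_ph, ph_ph]
    have a1 : ep (fun j => (Sum.inr (Sum.inr j) : Unit ⊕ (κ ⊕ κ))) j0 (Sum.inl ()) * P2 =
        ep (fun j => (Sum.inr (Sum.inr j) : Unit ⊕ (κ ⊕ κ))) j0 (Sum.inl ()) := by
      ext j j'
      rcases j' with j' | j' | j' <;> simp [P2, ep, emb, Matrix.mul_diagonal]
    have a2 : emb (fun j => (Sum.inr (Sum.inr j) : Unit ⊕ (κ ⊕ κ))) * P2 =
        emb (fun j => (Sum.inr (Sum.inr j) : Unit ⊕ (κ ⊕ κ))) := by
      ext j j'
      rcases j' with j' | j' | j' <;> simp [P2, emb, Matrix.mul_diagonal]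
    rw [a1, a2]
  have f3 : P2 * P1 = K * N := by
    ext j j'
    rw [Matrix.mul_apply, Matrix.mul_apply]
    rcases j with j | j | j <;> rcases j' with j' | j' | j' <;>
      simp [P1, P2, K, N, emb, Matrix.diagonal_apply]
  have f4 : aeval (ph G N) (aeval (ph G K) J1) = J1 := by
    rw [ph_ph, ← f3, ← ph_ph, heq, f2, ← heq, f1]
  have hh : ∀ (j : Unit) b, (fun _ : Unit => x) j b = ∑ j', N j j' * u j' b := by
    intro j b
    rw [Finset.sum_eq_single (Sum.inl ())] <;> simp +contextual [N, emb, hu]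
  have hNK : N * K = 1 := by
    ext j j'
    rw [Matrix.mul_apply]
    simp [N, K, emb]
  have hK : ∀ j, ∑ j', |(K j j' : ℝ)| ≤ 1 := by
    intro j
    rcases j with j | j <;> simp [K]
  refine ⟨-aeval (ph G K) J1, L1.IsInt.neg (ph_int G _ z1), ?_, ?_, ?_⟩
  · have := ph_lo G K u (fun _ : Unit => x) l1'
    intro b hb
    rw [vars_neg] at hb
    exact this b hb
  · exact (weightedHomogeneousSubmodule ℝ _ e).neg_mem (ph_hm G K u (fun _ : Unit => x) m1)
  · refine ph_bd_back hG hh K hNK hK ?_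
    rw [sub_neg_eq_add, map_add, f4, ph_dd hh]
    have : ∑ j', C (N () j' : ℝ) * G.dd u j' (G.Fk k j0) = G.dd u (Sum.inl ()) (G.Fk k j0) := by
      rw [Finset.sum_eq_single (Sum.inl ())] <;> simp +contextual [N, emb]
    rw [this]
    exact p1

end Vale.Agent.P057T.Eq
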