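import Vale.Agent.P057T.Eq.Jb0

/-! The end of the case of a non exact copy. -/

set_option linter.all false

open MvPolynomial Finset

namespace Vale.Agent.P057T.Eq

namespace Jb3

variable {ι : Type} [Fintype ι] [DecidableEq ι] {G : GT ι}

theorem hi {M : Type*} [AddCommMonoid M] (f : ι → M) (hf : ∀ b, ¬ 2 ≤ G.w b → f b = 0) :
    ∑ b : {a : ι // 2 ≤ G.w a}, f b.1 = ∑ b, f b := by
  rw [← sum_subtype (univ.filter fun a => 2 ≤ G.w a) (by simp) f, sum_filter]
  refine sum_congr rfl fun b _ => ?_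
  split_ifs with h
  · rfl
  · exact (hf b h).symm

end Jb3

open Jb0 Jb3 in
theorem jb3 (hT : TANOK) : JB3 := by
  intro s ι κ _ _ _ _ G g e H H' k j0 h I hG hk hR
  let l : ι → ℤ := fun a => if ha : 2 ≤ G.w a then k (Sum.inr (j0, ⟨a, ha⟩)) else 0
  have l1 : ∀ a : {a : ι // 2 ≤ G.w a}, l a.1 = k (Sum.inr (j0, a)) := fun a => dif_pos a.2
  have l0 : ∀ a, ¬ 2 ≤ G.w a → l a = 0 := fun a ha => dif_neg ha
  have hl : ∀ a, l a ≠ 0 → G.g a = g ∧ G.w a = e + 1 := by
    intro a ha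
    by_cases h2 : 2 ≤ G.w a
    · have h3 := hk (Sum.inr (j0, ⟨a, h2⟩)) (l1 ⟨a, h2⟩ ▸ ha)
      have h4 : G.w a - 1 = e := h3.2
      exact ⟨h3.1, by omega⟩
    · exact absurd (l0 a h2) ha
  have hlr : ∀ a, (l a : ℝ) ≠ 0 → G.g a = g := fun a ha => (hl a (by exact_mod_cast ha)).1
  have hF : G.Fk k j0 = ∑ a, C (l a : ℝ) * G.q a := by
    rw [GT.Fk, ← hi (G := G) (fun a => C (l a : ℝ) * G.q a) fun b hb => by simp [l0 b hb]]
    exact sum_congr rfl fun a _ => by rw [l1 a]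
  refine ⟨⟨?_, hF ▸ lo_kq hG hlr⟩, ?_⟩
  · rw [hF]
    refine IsWeightedHomogeneous.sum _ _ _ fun a _ => ?_
    by_cases ha : l a = 0
    · rw [ha, Int.cast_zero, C_0, zero_mul]; exact isWeightedHomogeneous_zero _ _ _
    · have := (isWeightedHomogeneous_C G.w (l a : ℝ)).mul (hG.qh a)
      rwa [zero_add, (hl a ha).2] at this
  rintro ⟨n, J, hn1, hn, hJ1, hJ2, hJ3, hJ4⟩ hbig a ha
  have hH : 0 ≤ H := hR.2.2.2.nonneg
  have hco := jco s _ (G.tan h) g (cz k) I H (hT s ι κ G h hG).1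
    (fun y hy => (hk y (by simpa [cz] using hy)).1) hR.2.1 hR.2.2.2
  have hB : ∀ c, |∑ b, (l b : ℝ) * G.B b c| ≤ H := by
    intro c
    by_cases hc : 2 ≤ G.w c
    · have h1 := hco (Sum.inr (j0, ⟨c, hc⟩))
      rw [Fintype.sum_sum_type, Fintype.sum_prod_type, sum_eq_single j0] at h1
      · rw [← hi (G := G) (fun b => (l b : ℝ) * G.B b c) fun b hb => by simp [l0 b hb]]
        simpa [GT.tan, GT.tm, cz, l1] using h1
      · intro j _ hj
        simp [GT.tan, GT.tm, hj]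
      · simp
    · rw [sum_eq_zero, abs_zero]
      · exact hH
      · intro b _
        by_contra h0
        have h1 := (hG.blk b c (Or.inr (right_ne_zero_of_mul h0))).2
        have h2 : l b ≠ 0 := by exact_mod_cast left_ne_zero_of_mul h0
        exact h2 (l0 b (h1 ▸ hc))
  have hn0 : (n : ℤ) ≠ 0 := by exact_mod_cast (by omega : n ≠ 0)
  refine hbig (e + 1) (fun b => n * l b) (-J) (fun b hb => hl b (right_ne_zero_of_mul hb))
    (L1.IsInt.neg hJ1) (fun b hb => hJ2 b (by rwa [vars_neg] at hb)) hJ3.neg ?_ a.1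
    (mul_ne_zero hn0 (l1 a ▸ ha))
  have e1 : lin (cz fun b => n * l b) + -J = (C (n : ℝ) * G.Fk k j0 - J) +
      C (n : ℝ) * ∑ c, C (∑ b, (l b : ℝ) * G.B b c) * G.th c := by
    have e2 : lin (cz fun b => n * l b) = C (n : ℝ) * lin fun b => (l b : ℝ) := by
      rw [lin, lin, mul_sum]
      refine sum_congr rfl fun b _ => ?_
      rw [cz, Int.cast_mul, Int.cast_natCast, C_mul, mul_assoc]
    rw [lin_th hG fun b => (l b : ℝ), e2, hF]
    ring
  rw [e1]
  refine (hJ4.add ((G.bd_sum (K := fun _ => H) fun c _ =>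
    (((G.bd_th c).C_mul _).mono (by rw [mul_one]; exact hB c))).C_mul _)).mono ?_
  rw [sum_const, nsmul_eq_mul, card_univ, abs_of_nonneg (Nat.cast_nonneg n)]
  have : 0 ≤ (Fintype.card ι : ℝ) * H := by positivity
  linarith [mul_le_mul_of_nonneg_right hn this]

end Vale.Agent.P057T.Eq
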