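import Vale.Agent.P057T.Eq.JbH38
import Vale.Agent.P057T.Eq.Jb0
import Vale.Agent.P057T.Eq.Jb1
import Vale.Agent.P057T.Eq.Jb2
import Vale.Agent.P057T.Eq.Jb3

/-! Row JB with its pieces discharged. -/

namespace Vale.Agent.P057T.Eq

theorem jb (s g : ℕ) (_h1 : INV) (_h2 : BD) (hT : TANOK) (hBa : BALL) (hD : DET) (hI : INT)
    (hZ : ZERO) (hJ : JZ s g) : JB s g :=
  JbH38.jb s g jco jcnt jb1' (jb2 jco) (jb3 hT) hT hBa hD hI hZ hJ

end Vale.Agent.P057T.Eq
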