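import Vale.Agent.P057T.Eq.Sel0

set_option linter.all false

open MvPolynomial Finset
open scoped Real

namespace Vale.Agent.P057T.Eq

namespace SelH29

variable {ι : Type} [Fintype ι] [DecidableEq ι]

theorem tanRg (hT : TANOK) {s : ℕ} {G : GT ι} {WW : ℕ → ℝ} {P Y : ℝ} (hG : G.Ok s) (hW : G.Wd WW)
    (hP : 2 ≤ P) (hY : 1 ≤ Y) {c c3 g0 g : ℕ} (hR : G.Rg WW (P ^ c) Y g0) (hc : c3 ≤ c)
    (hg : g ≤ g0) (h : ι → ℤ)
    (hb : ∀ x < g, (G.tan fun _ : Unit => h).Big x (Real.exp (P ^ c3 * (Y + WW x)))) :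
    (G.tan fun _ : Unit => h).Rg WW (P ^ c3) Y g := by
  intro x hx
  refine ⟨hb x hx, ?_⟩
  have h1 := (rg_pw hW hP hY hR hg (by positivity) (pw_mono hP hc) x hx).2
  refine (hT s ι Unit G (fun _ => h) hG).2.2.2.2.1 x _ ?_ h1
  have := hW.nn x
  exact le_min (Real.exp_pos _).le (by positivity)

theorem sz_tan {G : GT ι} {P Y : ℝ} (hS : Sz ι P Y) : Sz (G.TV Unit) (2 * P) Y := by
  refine ⟨?_, by linarith [hS.P2], hS.Y1⟩
  have h1 : Fintype.card {a : ι // 2 ≤ G.w a} ≤ Fintype.card ι := Fintype.card_subtype_le _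
  have h2 : (Fintype.card {a : ι // 2 ≤ G.w a} : ℝ) ≤ Fintype.card ι := by exact_mod_cast h1
  have h3 := hS.cd
  simp only [GT.TV, Fintype.card_sum, Fintype.card_prod, Fintype.card_unit, one_mul]
  push_cast
  linarith

theorem inv_tan {G : GT ι} {T : AT ι} {d g0 g : ℕ} (hI : G.Inv d g0 T.U) (hg : g ≤ g0)
    (h : ι → ℤ) : (G.tan fun _ : Unit => h).Inv d g (G.der T h).U := by
  intro x hx hxg
  have h1 : G.base x ∈ T.U := (Finset.mem_filter.1 hx).2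
  have h2 : G.g (G.base x) < g := hxg
  have h3 := hI _ h1 (lt_of_lt_of_le h2 hg)
  rcases x with a | a
  · exact h3
  · show G.w a.2.1 - 1 ≤ d
    have : G.w a.2.1 ≤ d := h3
    omega

theorem cnt_tan {G : GT ι} {T : AT ι} {d g0 g : ℕ} (hI : G.Inv d g0 T.U) (hg : g ≤ g0)
    (h : ι → ℤ) : (G.tan fun _ : Unit => h).cnt d g (G.der T h).U ≤ G.cnt d g0 T.U := by
  refine Finset.card_le_card fun y hy => ?_
  obtain ⟨x, hx, rfl⟩ := Finset.mem_image.1 hy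
  obtain ⟨hx1, hx2, hx3⟩ := Finset.mem_filter.1 hx
  have h1 : G.base x ∈ T.U := (Finset.mem_filter.1 hx1).2
  have h2 : G.g (G.base x) < g := hx3
  have h3 := hI _ h1 (lt_of_lt_of_le h2 hg)
  refine Finset.mem_image.2 ⟨G.base x, Finset.mem_filter.2 ⟨h1, ?_, lt_of_lt_of_le h2 hg⟩, rfl⟩
  rcases x with a | a
  · exact hx2
  · have h4 : G.w a.2.1 - 1 = d := hx2
    have h5 : G.w a.2.1 ≤ d := h3
    have h6 := a.2.2
    omega

theorem cnt_mono {G : GT ι} {U : Finset ι} {d g0 g : ℕ} (hg : g ≤ g0) :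
    G.cnt d g U ≤ G.cnt d g0 U := by
  refine Finset.card_le_card (Finset.image_subset_image fun a ha => ?_)
  obtain ⟨h1, h2, h3⟩ := Finset.mem_filter.1 ha
  exact Finset.mem_filter.2 ⟨h1, h2, lt_of_lt_of_le h3 hg⟩

theorem aok_sc {G : GT ι} {T : AT ι} {P : ℝ} (hP : 0 < P) (hA : G.AOk T P) :
    G.AOk (T.sc (1 / 2)) (2 * P) := by
  refine ⟨hA.bk, hA.qv, hA.pv, hA.pd, hA.pl, fun a => ?_, fun a => ?_⟩
  · show (2 * P)⁻¹ ≤ 1 / 2 * T.sg a
    have := hA.s1 a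
    rw [mul_inv]
    linarith
  · show 1 / 2 * T.sg a ≤ 2 * P
    have := hA.s2 a
    linarith

theorem mn_sc (G : GT ι) (T : AT ι) :
    G.mn (T.sc (1 / 2)).sg (T.sc (1 / 2)).U = 2 ^ T.U.card * G.mn T.sg T.U := by
  show G.dv T.U * ∏ a ∈ T.U, (1 / 2 * T.sg a)⁻¹ = 2 ^ T.U.card * (G.dv T.U * ∏ a ∈ T.U, (T.sg a)⁻¹)
  simp only [mul_inv, Finset.prod_mul_distrib, Finset.prod_const]
  norm_num
  ring

theorem pow_card_le {P x : ℝ} (V : Finset ι) (hc : (Fintype.card ι : ℝ) ≤ P) (hx : 0 ≤ x) :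
    x ^ V.card ≤ Real.exp (x * P) := by
  have h1 : (V.card : ℝ) ≤ P := le_trans (by exact_mod_cast Finset.card_le_univ V) hc
  have h2 : x ≤ Real.exp x := by have := Real.add_one_le_exp x; linarith
  calc x ^ V.card ≤ Real.exp x ^ V.card := pow_le_pow_left₀ hx h2 _
    _ = Real.exp (V.card * x) := (Real.exp_nat_mul _ _).symm
    _ ≤ _ := Real.exp_le_exp.2 (by nlinarith)

theorem gw_le (G : GT ι) (T : AT ι) (h : ι → ℤ) : G.gw T h ≤ 1 := by
  unfold GT.gw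
  rw [Real.exp_le_one_iff]
  have h1 : 0 ≤ ∑ a ∈ G.V1 T, (T.sg a * eval (cz h) (G.th a)) ^ 2 :=
    Finset.sum_nonneg fun _ _ => sq_nonneg _
  have := Real.pi_pos
  nlinarith

theorem split_sum {α : Type} (F : Finset α) (f : α → ℝ) (hf : ∀ x, 0 ≤ f x) (A C : α → Prop)
    (B : ℕ → α → Prop) (n : ℕ) [DecidablePred A] [DecidablePred C] [∀ g, DecidablePred (B g)] :
    ∑ x ∈ F, f x ≤ ∑ x ∈ F.filter (fun x => ¬ A x), f x +
      ∑ g ∈ range n, ∑ x ∈ F.filter (fun x => A x ∧ ¬ B g x ∧ ∀ y < g, B y x), f x +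
      ∑ x ∈ F.filter (fun x => A x ∧ (∀ y < n, B y x) ∧ ¬ C x), f x +
      ∑ x ∈ F.filter (fun x => A x ∧ (∀ y < n, B y x) ∧ C x), f x := by
  simp only [Finset.sum_filter]
  rw [Finset.sum_comm, ← Finset.sum_add_distrib, ← Finset.sum_add_distrib,
    ← Finset.sum_add_distrib]
  refine Finset.sum_le_sum fun x _ => ?_
  have h0 := hf x
  have hnn : 0 ≤ ∑ g ∈ range n, (if A x ∧ ¬ B g x ∧ ∀ y < g, B y x then f x else 0) :=
    Finset.sum_nonneg fun g _ => by split_ifs <;> simp [h0]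
  by_cases hA : A x
  · by_cases hB : ∀ y < n, B y x
    · by_cases hC : C x
      · rw [if_neg (by simp [hA]), if_neg (by simp [hC]), if_pos ⟨hA, hB, hC⟩]; linarith
      · rw [if_neg (by simp [hA]), if_pos ⟨hA, hB, hC⟩, if_neg (by simp [hC])]; linarith
    · have hex : ∃ y, y < n ∧ ¬ B y x := by
        by_contra h
        push Not at h
        exact hB h
      classical
      have h1 := Nat.find_spec hex
      have h2 : ∀ y < Nat.find hex, B y x := fun y hy => by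
        by_contra h
        exact Nat.find_min hex hy ⟨lt_trans hy h1.1, h⟩
      have h3 := Finset.single_le_sum
        (f := fun g => if A x ∧ ¬ B g x ∧ ∀ y < g, B y x then f x else 0)
        (fun g _ => by split_ifs <;> simp [h0]) (Finset.mem_range.2 h1.1)
      rw [if_pos ⟨hA, h1.2, h2⟩] at h3
      rw [if_neg (by simp [hA]), if_neg (fun h => hB h.2.1), if_neg (fun h => hB h.2.1)]
      linarith
  · rw [if_pos hA, if_neg (fun h => hA h.1), if_neg (fun h => hA h.1)]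
    linarith

theorem sum_le_card {α : Type} (F : Finset α) (f : α → ℝ) (b : ℝ) (h : ∀ x ∈ F, f x ≤ b) :
    ∑ x ∈ F, f x ≤ F.card * b := by
  have := Finset.sum_le_card_nsmul F f b h
  simpa using this

theorem eight_le : (8 : ℝ) ≤ Real.exp 3 := by
  have h1 : (2 : ℝ) ≤ Real.exp 1 := by have := Real.add_one_le_exp (1 : ℝ); linarith
  have h2 : Real.exp 3 = Real.exp 1 ^ 3 := by rw [← Real.exp_nat_mul]; norm_num
  rw [h2]
  calc (8 : ℝ) = 2 ^ 3 := by norm_num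
    _ ≤ _ := pow_le_pow_left₀ (by norm_num) h1 3

theorem le8 {a b M : ℝ} (hM : 0 ≤ M) (h : a + 3 ≤ b) :
    Real.exp a * M ≤ Real.exp b * M / 8 := by
  have h1 : Real.exp a * 8 ≤ Real.exp b := by
    calc Real.exp a * 8 ≤ Real.exp a * Real.exp 3 := by gcongr; exact eight_le
      _ = Real.exp (a + 3) := (Real.exp_add _ _).symm
      _ ≤ _ := Real.exp_le_exp.2 h
  nlinarith

theorem ball_le {P X w R2 : ℝ} (hP : 2 ≤ P) (hX : 1 + w ≤ X) (hw : 0 ≤ w) {k l m : ℕ}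
    (hR : R2 ≤ P ^ k * X) (hm : l + k + 1 ≤ m) : P ^ l * (1 + R2 + w) ≤ P ^ m * X := by
  have hX0 : 0 ≤ X := by linarith
  have r1 := pw_succ hP k
  have r2 := pw_one hP k
  have r3 : 2 * P ^ k * X ≤ P ^ (k + 1) * X := by gcongr
  have r4 : X ≤ P ^ k * X := by nlinarith
  have q1 : 1 + R2 + w ≤ P ^ (k + 1) * X := by linarith
  calc _ ≤ P ^ l * (P ^ (k + 1) * X) := mul_le_mul_of_nonneg_left q1 (by positivity)
    _ = P ^ (l + (k + 1)) * X := by rw [pow_add P l]; ring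
    _ ≤ _ := mul_le_mul_of_nonneg_right (pw_mono hP (by omega)) hX0

theorem pwX {P X : ℝ} (hP : 2 ≤ P) (hX : 1 ≤ X) {k l : ℕ} (h : k ≤ l) : P ^ k * X ≤ P ^ l * X :=
  mul_le_mul_of_nonneg_right (pw_mono hP h) (by linarith)

theorem sqX {P X : ℝ} (hP : 2 ≤ P) (hX : 1 ≤ X) : P ^ 2 ≤ P ^ 2 * X ∧ 4 * X ≤ P ^ 2 * X ∧
    2 * P ≤ P ^ 2 := by
  have h1 : 4 ≤ P ^ 2 := by nlinarith
  exact ⟨by nlinarith, by nlinarith, by nlinarith⟩

theorem numA {P X Y R2 : ℝ} (hP : 2 ≤ P) (hX : 1 ≤ X) (hYX : Y ≤ X) {c : ℕ}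
    (hR : R2 = P ^ (2 * c + 8) * X) :
    -(R2 / (4 * P ^ 2)) + 2 * (P ^ (2 * c) * X + 2 * P) + 3 ≤ -(2 * Y) := by
  have h5 : P ^ (2 * c + 4) * X ≤ R2 / (4 * P ^ 2) := by
    rw [hR, le_div_iff₀ (by positivity)]
    have h6 : 4 ≤ P ^ 2 := by nlinarith
    calc P ^ (2 * c + 4) * X * (4 * P ^ 2) ≤ P ^ (2 * c + 4) * X * (P ^ 2 * P ^ 2) := by
          gcongr
      _ = _ := by ring
  have q1 := pw_add2 hP (2 * c + 2)
  have q2 := pw_add2 hP (2 * c)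
  have q5 : 4 * P ^ (2 * c + 2) * X ≤ P ^ (2 * c + 4) * X := by gcongr
  have q6 : 4 * P ^ (2 * c) * X ≤ P ^ (2 * c + 2) * X := by gcongr
  have q7 : P ^ 2 * X ≤ P ^ (2 * c + 2) * X := pwX hP hX (by omega)
  obtain ⟨q9, q10, q8⟩ := sqX hP hX
  have q11 : 0 ≤ P ^ (2 * c) * X := by positivity
  linarith

theorem numB {P Z Y w R2 : ℝ} (hP : 2 ≤ P) (hY : 1 ≤ Y) (hw : 0 ≤ w) (hZ : Z = Y + w)
    {cF cR cS c3 s : ℕ} (hR : R2 ≤ P ^ cR * Z) (h1 : 2 * cS + 2 ≤ cR) (h2 : cF + cR + s + 4 ≤ c3) :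
    P ^ cF * (1 + R2 + w) + -(P ^ c3 * Z) + P ^ (2 * cS) * Z + P ^ 2 + 3 ≤ -(2 * Y) - s := by
  have hZ1 : 1 ≤ Z := by linarith
  obtain ⟨k, hk⟩ : ∃ k, k = cF + cR + s + 1 := ⟨_, rfl⟩
  have q0 : 8 * P ^ k * Z ≤ P ^ c3 * Z :=
    mul_le_mul_of_nonneg_right ((pw_add3 hP k).trans (pw_mono hP (by omega))) (by linarith)
  have q2 : P ^ cF * (1 + R2 + w) ≤ P ^ k * Z := ball_le hP (by linarith) hw hR (by omega)
  have q3 : P ^ (2 * cS) * Z ≤ P ^ k * Z := pwX hP hZ1 (by omega)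
  have q4 : P ^ 2 * Z ≤ P ^ k * Z := pwX hP hZ1 (by omega)
  obtain ⟨q5, q6, -⟩ := sqX hP hZ1
  have q7 : (s : ℝ) ≤ P ^ k * Z := by
    have r1 : (s : ℝ) ≤ 2 ^ s := by exact_mod_cast (Nat.lt_two_pow_self).le
    have r2 : (2 : ℝ) ^ s ≤ P ^ s := pow_le_pow_left₀ (by norm_num) hP s
    have r3 : P ^ s ≤ P ^ k := pw_mono hP (by omega)
    have r4 := pw_one hP k
    nlinarith
  have q8 : 0 ≤ P ^ k * Z := by positivity
  linarith

theorem numC {P X Y w R2 : ℝ} (hP : 2 ≤ P) (hY : 1 ≤ Y) (hw : 0 ≤ w) (hX : X = Y + w)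
    {cB cR c1 : ℕ} (hR : R2 ≤ P ^ cR * X) (h1 : 2 ≤ cR) (h2 : cB + cR + 3 ≤ c1) :
    P ^ cB * (1 + R2 + w) + -(P ^ c1 * X) + P ^ 2 + 3 ≤ -(2 * Y) := by
  have hX1 : 1 ≤ X := by linarith
  obtain ⟨k, hk⟩ : ∃ k, k = cB + cR + 1 := ⟨_, rfl⟩
  have q0 : 4 * P ^ k * X ≤ P ^ c1 * X :=
    mul_le_mul_of_nonneg_right ((pw_add2 hP k).trans (pw_mono hP (by omega))) (by linarith)
  have q2 : P ^ cB * (1 + R2 + w) ≤ P ^ k * X := ball_le hP (by linarith) hw hR (by omega)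
  have q4 : P ^ 2 * X ≤ P ^ k * X := pwX hP hX1 (by omega)
  obtain ⟨q5, q6, -⟩ := sqX hP hX1
  linarith

theorem numD {P X Y : ℝ} (hP : 2 ≤ P) (hX1 : 1 ≤ X) (hYX : Y ≤ X) {cS c1 : ℕ}
    (h2 : 2 * cS + 4 ≤ c1) :
    -(P ^ c1 * X) + P ^ (2 * cS) * X + P ^ 2 + 3 ≤ -(2 * Y) := by
  obtain ⟨k, hk⟩ : ∃ k, k = 2 * cS + 2 := ⟨_, rfl⟩
  have q0 : 4 * P ^ k * X ≤ P ^ c1 * X :=
    mul_le_mul_of_nonneg_right ((pw_add2 hP k).trans (pw_mono hP (by omega))) (by linarith)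
  have q3 : P ^ (2 * cS) * X ≤ P ^ k * X := pwX hP hX1 (by omega)
  have q4 : P ^ 2 * X ≤ P ^ k * X := pwX hP hX1 (by omega)
  obtain ⟨q5, q6, -⟩ := sqX hP hX1
  linarith

theorem numE {P X Y w : ℝ} (hP : 2 ≤ P) (hY : 1 ≤ Y) (hw : 0 ≤ w) (hX0 : 0 ≤ X) (hX : X ≤ Y + w)
    {c0 c1 c3 : ℕ} (h : 2 * c0 + c1 + 1 ≤ c3) :
    (2 * P) ^ c0 * (P ^ c1 * X + w) ≤ P ^ c3 * (Y + w) := by
  have r1 := pw_succ hP c1
  have r2 := pw_one hP c1
  have r3 : P ^ c1 * X + w ≤ P ^ (c1 + 1) * (Y + w) := by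
    have r4 : P ^ c1 * X ≤ P ^ c1 * (Y + w) := by gcongr
    have r5 : 2 * P ^ c1 * (Y + w) ≤ P ^ (c1 + 1) * (Y + w) := by gcongr
    have r6 : Y + w ≤ P ^ c1 * (Y + w) := by nlinarith
    linarith
  calc (2 * P) ^ c0 * (P ^ c1 * X + w) ≤ P ^ (2 * c0) * (P ^ (c1 + 1) * (Y + w)) :=
        mul_le_mul (two_pw hP c0) r3 (by positivity) (by positivity)
    _ = P ^ (2 * c0 + (c1 + 1)) * (Y + w) := by rw [pow_add P (2 * c0)]; ring
    _ ≤ _ := pwX hP (by linarith) (by omega)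

theorem fin3 {n a b c d m M e : ℝ} (hd : 0 ≤ d) (hm : 0 ≤ m) (h1 : n ≤ Real.exp a * d)
    (h2 : d * m ≤ Real.exp c * M) (hM : 0 ≤ M) (h : a + b + c + 3 ≤ e) :
    n * (Real.exp b * m) ≤ Real.exp e * M / 8 := by
  calc n * (Real.exp b * m) ≤ (Real.exp a * d) * (Real.exp b * m) := by gcongr
    _ = Real.exp a * Real.exp b * (d * m) := by ring
    _ ≤ Real.exp a * Real.exp b * (Real.exp c * M) := by gcongr
    _ = Real.exp (a + b + c) * M := by simp only [Real.exp_add]; ring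
    _ ≤ _ := le8 hM h

end SelH29

open SelH29 in
theorem sel (s d μ : ℕ) (hT : TANOK) (hDer : DEROK) (hL : LOC) (hD : DET) (hSu : SUMM) (hQ : SQ)
    (hP1 : P1M) (hB : BALL) (hF : FIB) (hZ : ZERO) (hJ : ∀ g, JB s g) (hM : MASS s d μ) :
    SEL s d μ := by
  classical
  intro c0
  obtain ⟨cS, hMS⟩ := msb hD hP1 hM
  obtain ⟨cB, hB'⟩ := cntb hD hF hB hZ s
  obtain ⟨cF, hF'⟩ := badb hD hF hL s hJ
  obtain ⟨cR, hcR⟩ : ∃ n, n = 2 * cS + 8 := ⟨_, rfl⟩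
  obtain ⟨c1, hc1⟩ : ∃ n, n = cB + cR + 3 := ⟨_, rfl⟩
  obtain ⟨c3, hc3⟩ : ∃ n, n = cF + cR + s + 4 + (2 * c0 + c1 + 1) := ⟨_, rfl⟩
  obtain ⟨cJ, hJ'⟩ := hF' c3
  refine ⟨c1, cJ + c3 + cB, ?_⟩
  intro ι _ _ G T WW P Y g0 Q hG hW hS hA hg0 hU hR hI hc hbias
  have hP := hS.P2
  have hY := hS.Y1
  have hP0 : 0 < P := by linarith
  have hw0 := hW.nn g0
  have hV1 : G.V1 T = W1 G := by simp [GT.V1, W1, hU]
  have hQv : Q.vars ⊆ T.U := by rw [hU]; exact Finset.subset_univ _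
  set X := Y + WW g0 with hX
  have hX1 : 1 ≤ X := by linarith
  set M := G.mn T.sg T.U with hMdef
  have hσ := sg_pos hP0 hA
  have hM0 : 0 < M := mn_pos hD hG hσ hA.bk
  have hdv : 0 < G.dv (W1 G) := (hD s ι G hG).1 _ (W1_bk hG)
  have hm1 : 0 < G.mn T.sg (W1 G) := mn_pos hD hG hσ (W1_bk hG)
  have hr1 : 1 ≤ √2 ^ (W1 G).card := one_le_pow₀ (Real.one_le_sqrt.2 (by norm_num))
  obtain ⟨mh, hmhdef⟩ : ∃ x, x = M ^ 2 / (√2 ^ (W1 G).card * G.mn T.sg (W1 G)) := ⟨_, rfl⟩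
  have hmh0 : 0 < mh := by rw [hmhdef]; positivity
  have hmh : ∀ h, (G.tan fun _ : Unit => h).mn (G.der T h).sg (G.der T h).U = mh := by
    intro h
    have h1 := (hD s ι G hG).2.2.2 T h P hP0 hA
    rw [hV1] at h1
    rw [hmhdef, eq_div_iff (by positivity)]
    rw [← hMdef] at h1
    rw [h1]
    ring
  have hkey : G.dv (W1 G) * mh ≤ Real.exp (P ^ 2) * M ^ 2 := by
    have h1 : M ^ 2 = √2 ^ (W1 G).card * G.mn T.sg (W1 G) * mh := by
      rw [hmhdef]; field_simp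
    have h2 : ∏ a ∈ W1 G, T.sg a ≤ Real.exp (P ^ 2) := by
      calc ∏ a ∈ W1 G, T.sg a ≤ ∏ _a ∈ W1 G, P :=
            Finset.prod_le_prod (fun a _ => (hσ a).le) (fun a _ => hA.s2 a)
        _ = P ^ (W1 G).card := by simp
        _ ≤ Real.exp (P * P) := pow_card_le _ hS.cd hP0.le
        _ = _ := by rw [sq]
    have h3 : 0 < ∏ a ∈ W1 G, T.sg a := Finset.prod_pos fun a _ => hσ a
    have h4 : G.dv (W1 G) = G.mn T.sg (W1 G) * ∏ a ∈ W1 G, T.sg a := by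
      unfold GT.mn
      rw [Finset.prod_inv_distrib]; field_simp
    rw [h1, h4]
    calc G.mn T.sg (W1 G) * (∏ a ∈ W1 G, T.sg a) * mh
        = (∏ a ∈ W1 G, T.sg a) * (1 * G.mn T.sg (W1 G) * mh) := by ring
      _ ≤ _ := by gcongr
  -- the radius
  have hRX : 1 ≤ P ^ cR * X := by have := pw_one hP cR; nlinarith
  set R := √(P ^ cR * X) with hRdef
  have hR2 : R ^ 2 = P ^ cR * X := Real.sq_sqrt (by linarith)
  have hR1 : 1 ≤ R := Real.one_le_sqrt.2 hRX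
  -- tangent towers
  have hTok : ∀ h : ι → ℤ, (G.tan fun _ : Unit => h).Ok s := fun h => (hT s ι Unit G _ hG).1
  have hTwd : ∀ h : ι → ℤ, (G.tan fun _ : Unit => h).Wd WW :=
    fun h => (hT s ι Unit G _ hG).2.2.2.1 WW hW
  have hTa : ∀ h : ι → ℤ, (G.tan fun _ : Unit => h).AOk (G.der T h) (2 * P) :=
    fun h => (hDer s ι G T P h hG hP0 hA).1
  have hnorm : ∀ h : ι → ℤ, ‖(G.tan fun _ : Unit => h).Sm (G.der T h) (G.df h Q)‖ ≤
      (G.tan fun _ : Unit => h).ms (G.der T h) :=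
    fun h => norm_Sm_le hSu (hTok h) (by linarith) (hTa h) _
  have hms : ∀ (h : ι → ℤ) (g : ℕ), g ≤ g0 →
      (∀ x < g, (G.tan fun _ : Unit => h).Big x (Real.exp (P ^ c3 * (Y + WW x)))) →
      (G.tan fun _ : Unit => h).ms (G.der T h) ≤ Real.exp (P ^ (2 * cS) * (Y + WW g)) * mh := by
    intro h g hg hb
    have h1 := tanRg hT hG hW hP hY hR (by omega) hg h hb
    have h2 := hMS _ (G.tan fun _ : Unit => h) (G.der T h) WW (2 * P) Y g (hTok h) (hTwd h)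
      (sz_tan hS) (hTa h) (hg.trans hg0)
      (rg_pw (hTwd h) hP hY h1 le_rfl (by positivity)
        ((two_pw hP cS).trans (pw_mono hP (by omega))))
      (inv_tan hI hg h) ((cnt_tan hI hg h).trans hc)
    rw [hmh] at h2
    refine h2.trans ?_
    have := hW.nn g
    gcongr
    exact two_pw hP cS
  -- a finite part of the sum
  set τ := Real.exp (-(2 * Y)) * M ^ 2 with hτ
  have hτ0 : 0 < τ := by positivity
  have htot : τ ≤ ‖G.Sm T Q‖ ^ 2 := by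
    have : τ = (Real.exp (-Y) * M) ^ 2 := by
      rw [hτ, mul_pow, ← Real.exp_nat_mul]; congr 2; push_cast; ring
    rw [this]
    exact pow_le_pow_left₀ (by positivity) hbias 2
  obtain ⟨hQ1, hQ2⟩ := hQ s ι G T P hG hP0 hA
  obtain ⟨F, hFn⟩ := ((hQ1 Q hQv).eventually (Metric.ball_mem_nhds _ (half_pos hτ0))).exists
  let f : Lat (G.V1 T) → ℝ := fun h =>
    G.gw T h.1 * ‖(G.tan fun _ : Unit => h.1).Sm (G.der T h.1) (G.df h.1 Q)‖
  have hgw : ∀ h, 0 < G.gw T h := fun h => Real.exp_pos _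
  have hf0 : ∀ h, 0 ≤ f h := fun h => mul_nonneg (hgw _).le (norm_nonneg _)
  have hf1 : ∀ h, f h ≤ ‖(G.tan fun _ : Unit => h.1).Sm (G.der T h.1) (G.df h.1 Q)‖ := fun h =>
    mul_le_of_le_one_left (norm_nonneg _) (gw_le G T h.1)
  have hFsum : τ / 2 ≤ ∑ h ∈ F, f h := by
    rw [dist_eq_norm] at hFn
    beta_reduce at hFn
    have h1 : ‖∑ h ∈ F, (G.gw T h.1 : ℂ) *
        (G.tan fun _ : Unit => h.1).Sm (G.der T h.1) (G.df h.1 Q)‖ ≤ ∑ h ∈ F, f h := by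
      refine (norm_sum_le _ _).trans (Finset.sum_le_sum fun h _ => ?_)
      rw [norm_mul, Complex.norm_real, Real.norm_of_nonneg (hgw _).le]
    have h2 := norm_sub_norm_le ((‖G.Sm T Q‖ ^ 2 : ℝ) : ℂ) (∑ h ∈ F, (G.gw T h.1 : ℂ) *
        (G.tan fun _ : Unit => h.1).Sm (G.der T h.1) (G.df h.1 Q))
    rw [norm_sub_rev, Complex.norm_real, Real.norm_of_nonneg (by positivity)] at h2
    linarith
  have hsp := split_sum F f hf0 (fun h => G.InL (G.V1 T) R h.1)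
    (fun h => Real.exp (-(P ^ c1 * X)) * mh ≤
      ‖(G.tan fun _ : Unit => h.1).Sm (G.der T h.1) (G.df h.1 Q)‖)
    (fun g h => (G.tan fun _ : Unit => h.1).Big g (Real.exp (P ^ c3 * (Y + WW g)))) g0
  have hYX : Y ≤ X := by linarith
  -- (a)
  have ha : ∑ h ∈ F.filter (fun h => ¬ G.InL (G.V1 T) R h.1), f h ≤ τ / 8 := by
    have h1 := hQ2 R (F.filter (fun h => ¬ G.InL (G.V1 T) R h.1)) (by linarith)
      (fun h hh => (Finset.mem_filter.1 hh).2)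
    have h2 := hMS ι G (T.sc (1 / 2)) WW (2 * P) Y g0 hG hW ⟨by linarith [hS.cd], by linarith, hY⟩
      (aok_sc hP0 hA) hg0
      (rg_pw hW hP hY hR le_rfl (by positivity) ((two_pw hP cS).trans (pw_mono hP (by omega))))
      hI hc
    rw [mn_sc, ← hMdef] at h2
    have h3 : G.ms (T.sc (1 / 2)) ≤ Real.exp (P ^ (2 * cS) * X + 2 * P) * M := by
      refine h2.trans ?_
      rw [Real.exp_add, mul_assoc]
      gcongr
      · exact two_pw hP cS
      · linarith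
      · exact pow_card_le _ hS.cd (by norm_num)
    have h4 : G.ms (T.sc (1 / 2)) ^ 2 ≤ Real.exp (2 * (P ^ (2 * cS) * X + 2 * P)) * M ^ 2 := by
      calc _ ≤ (Real.exp (P ^ (2 * cS) * X + 2 * P) * M) ^ 2 :=
            pow_le_pow_left₀ (ms_nonneg _ _) h3 2
        _ = _ := by rw [mul_pow, ← Real.exp_nat_mul]; norm_num
    calc _ ≤ ∑ h ∈ F.filter (fun h => ¬ G.InL (G.V1 T) R h.1),
          G.gw T h.1 * (G.tan fun _ : Unit => h.1).ms (G.der T h.1) :=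
          Finset.sum_le_sum fun h _ => mul_le_mul_of_nonneg_left (hnorm _) (hgw _).le
      _ ≤ Real.exp (-(R ^ 2 / (4 * P ^ 2))) *
          (Real.exp (2 * (P ^ (2 * cS) * X + 2 * P)) * M ^ 2) := h1.trans (by gcongr)
      _ = Real.exp (-(R ^ 2 / (4 * P ^ 2)) + 2 * (P ^ (2 * cS) * X + 2 * P)) * M ^ 2 := by
          rw [Real.exp_add]; ring
      _ ≤ τ / 8 := le8 (sq_nonneg _) (numA hP hX1 hYX (hR2.trans (by rw [hcR])))
  -- cardinalities through the coercion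
  have hcard : ∀ E : Finset (Lat (G.V1 T)), ((E.image Subtype.val).card : ℝ) = E.card :=
    fun E => by rw [Finset.card_image_of_injective _ Subtype.val_injective]
  -- (b)
  have hb : ∑ g ∈ range g0, ∑ h ∈ F.filter (fun h => G.InL (G.V1 T) R h.1 ∧
      ¬ (G.tan fun _ : Unit => h.1).Big g (Real.exp (P ^ c3 * (Y + WW g))) ∧
      ∀ y < g, (G.tan fun _ : Unit => h.1).Big y (Real.exp (P ^ c3 * (Y + WW y)))), f h ≤
      τ / 8 := by
    have hone : ∀ g ∈ range g0, ∑ h ∈ F.filter (fun h => G.InL (G.V1 T) R h.1 ∧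
        ¬ (G.tan fun _ : Unit => h.1).Big g (Real.exp (P ^ c3 * (Y + WW g))) ∧
        ∀ y < g, (G.tan fun _ : Unit => h.1).Big y (Real.exp (P ^ c3 * (Y + WW y)))), f h ≤
        Real.exp (-(2 * Y) - s) * M ^ 2 / 8 := by
      intro g hg
      have hg' := Finset.mem_range.1 hg
      have hwg := hW.nn g
      have hXg : X ≤ Y + WW g := by have := hW.anti hg'.le; linarith
      have hRg : R ^ 2 ≤ P ^ cR * (Y + WW g) := by
        rw [hR2]; exact mul_le_mul_of_nonneg_left hXg (by positivity)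
      set E := F.filter (fun h => G.InL (G.V1 T) R h.1 ∧
        ¬ (G.tan fun _ : Unit => h.1).Big g (Real.exp (P ^ c3 * (Y + WW g))) ∧
        ∀ y < g, (G.tan fun _ : Unit => h.1).Big y (Real.exp (P ^ c3 * (Y + WW y)))) with hE
      have h1 := hJ' ι G WW P Y R g g0 (E.image Subtype.val) hG hW hS hg' hg0
        (rg_pw hW hP hY hR le_rfl (by positivity) (pw_mono hP (by omega)))
        (hRg.trans (pwX hP (by linarith) (by omega)))
        (fun h hh => by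
          obtain ⟨x, hx, rfl⟩ := Finset.mem_image.1 hh
          have := (Finset.mem_filter.1 hx).2
          exact ⟨hV1 ▸ this.1, this.2.1⟩)
      rw [hcard] at h1
      have h2 := sum_le_card E f (Real.exp (P ^ (2 * cS) * (Y + WW g)) * mh) (fun h hh =>
        (hf1 h).trans ((hnorm _).trans (hms _ g hg'.le (Finset.mem_filter.1 hh).2.2.2)))
      rw [← Real.exp_add] at h1
      exact h2.trans (fin3 hdv.le hmh0.le h1 hkey (sq_nonneg _)
        (numB hP hY hwg rfl hRg (by omega) (by omega)))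
    have h3 := sum_le_card _ _ _ hone
    refine h3.trans ?_
    rw [Finset.card_range, hτ, Real.exp_sub]
    have h4 : (g0 : ℝ) ≤ Real.exp s := by
      have h5 : (g0 : ℝ) ≤ s := by exact_mod_cast hg0
      have := Real.add_one_le_exp (s : ℝ)
      linarith
    calc (g0 : ℝ) * (Real.exp (-(2 * Y)) / Real.exp s * M ^ 2 / 8)
        ≤ Real.exp s * (Real.exp (-(2 * Y)) / Real.exp s * M ^ 2 / 8) := by gcongr
      _ = _ := by field_simp
  -- (c)
  have hcc : ∑ h ∈ F.filter (fun h => G.InL (G.V1 T) R h.1 ∧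
      (∀ y < g0, (G.tan fun _ : Unit => h.1).Big y (Real.exp (P ^ c3 * (Y + WW y)))) ∧
      ¬ Real.exp (-(P ^ c1 * X)) * mh ≤
        ‖(G.tan fun _ : Unit => h.1).Sm (G.der T h.1) (G.df h.1 Q)‖), f h ≤ τ / 8 := by
    set E := F.filter (fun h => G.InL (G.V1 T) R h.1 ∧
      (∀ y < g0, (G.tan fun _ : Unit => h.1).Big y (Real.exp (P ^ c3 * (Y + WW y)))) ∧
      ¬ Real.exp (-(P ^ c1 * X)) * mh ≤
        ‖(G.tan fun _ : Unit => h.1).Sm (G.der T h.1) (G.df h.1 Q)‖) with hE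
    have h1 := hB' ι G WW P Y R g0 (E.image Subtype.val) hG hW hS hg0
      (rg_pw hW hP hY hR le_rfl (by positivity) (pw_mono hP (by omega)))
      (fun h hh => by
        obtain ⟨x, hx, rfl⟩ := Finset.mem_image.1 hh
        exact hV1 ▸ (Finset.mem_filter.1 hx).2.1)
    rw [hcard] at h1
    have h2 := sum_le_card E f (Real.exp (-(P ^ c1 * X)) * mh) (fun h hh =>
      (hf1 h).trans (not_le.1 (Finset.mem_filter.1 hh).2.2.2).le)
    exact h2.trans (fin3 hdv.le hmh0.le h1 hkey (sq_nonneg _)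
      (numC hP hY hw0 hX hR2.le (by omega) (by omega)))
  -- (d)
  set E := F.filter (fun h => G.InL (G.V1 T) R h.1 ∧
      (∀ y < g0, (G.tan fun _ : Unit => h.1).Big y (Real.exp (P ^ c3 * (Y + WW y)))) ∧
      Real.exp (-(P ^ c1 * X)) * mh ≤
        ‖(G.tan fun _ : Unit => h.1).Sm (G.der T h.1) (G.df h.1 Q)‖) with hE
  have hd := sum_le_card E f (Real.exp (P ^ (2 * cS) * X) * mh) (fun h hh =>
    (hf1 h).trans ((hnorm _).trans (hms _ g0 le_rfl (Finset.mem_filter.1 hh).2.2.1)))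
  have hlow : τ / 8 ≤ E.card * (Real.exp (P ^ (2 * cS) * X) * mh) := by linarith
  refine ⟨R, E.image Subtype.val, hR1, ?_, ?_, ?_⟩
  · rw [hR2]; exact pwX hP hX1 (by omega)
  · rw [hcard, show G.dv (G.V1 T) = G.dv (W1 G) by rw [hV1]]
    have h1 : (Real.exp (-(P ^ c1 * X)) * G.dv (W1 G)) * (Real.exp (P ^ (2 * cS) * X) * mh) ≤
        τ / 8 := fin3 hdv.le hmh0.le le_rfl hkey (sq_nonneg _) (numD hP hX1 hYX (by omega))
    exact le_of_mul_le_mul_right (h1.trans hlow) (by positivity)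
  · intro h hh
    obtain ⟨x, hx, rfl⟩ := Finset.mem_image.1 hh
    obtain ⟨h1, h2, h3⟩ := (Finset.mem_filter.1 hx).2
    refine ⟨h1, ?_, by rw [hmh]; exact h3⟩
    have h4 := tanRg hT hG hW hP hY hR (by omega) le_rfl x.1 h2
    refine rg_mono h4 le_rfl (fun y hy => ?_) (fun y => ?_)
    · have hwy := hW.nn y
      have hXy : X ≤ Y + WW y := by have := hW.anti hy; linarith
      exact numE hP hY hwy (by linarith) hXy (by omega)
    · have hwy := hW.nn y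
      positivity

end Vale.Agent.P057T.Eq
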