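import Vale.Agent.P057T.Eq.All1
import Vale.Agent.P057T.Eq.Jb
import Vale.Agent.P057T.Eq.Sel

/-! All rows closed. -/

namespace Vale.Agent.P057T.Eq

namespace All

theorem hjbc (s g : ℕ) (h : JZ s g) : JB s g :=
  Eq.jb s g inv bd0 tanok ballc detc intc zeroc h

theorem hselc (s d μ : ℕ) (hb : ∀ g, JB s g) (hm : MASS s d μ) : SEL s d μ :=
  Eq.sel s d μ tanok derc locc detc summ sqc p1m ballc fibc zeroc hb hm

theorem jzc (s g : ℕ) : JZ s g := (jzb hjbc s).1 g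

theorem jbc (s g : ℕ) : JB s g := (jzb hjbc s).2 g

theorem eqs {s d : ℕ} (h1 : 1 ≤ d) (h2 : d ≤ s) (μ : ℕ) : EQS s d μ :=
  (eqs1 hjbc hselc s).1 d h1 h2 μ

theorem massc {s d : ℕ} (h2 : d ≤ s) (μ : ℕ) : MASS s d μ :=
  ((eqs1 hjbc hselc s).2 d h2 μ).elim (fun h => h.1) (fun h => h.2)

theorem masss (s : ℕ) : MASS s s s := massc le_rfl s

theorem margsc {s d : ℕ} (h1 : 1 ≤ d) (h2 : d ≤ s) (μ : ℕ) : MARGS s d μ :=
  ((eqs1 hjbc hselc s).2 d h2 μ).elim (fun h => h.2) (fun h => absurd h.1 (by omega))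

theorem selc {s d : ℕ} (h2 : d ≤ s) (μ : ℕ) : SEL s d μ :=
  hselc s d μ (jbc s) (massc h2 μ)

end All

end Vale.Agent.P057T.Eq
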