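import Vale.Agent.P057T.Eq.Defs
import Vale.Agent.P057T.Chart

/-! The linear chart on a closed set of weight one variables. -/

open MvPolynomial Finset Matrix

namespace Vale.Agent.P057T.Eq.A1H41

open Vale.Agent.P057T.L1

variable {ι : Type} [Fintype ι] [DecidableEq ι]

/-- a closed set of weight one variables -/
structure W1 (G : GT ι) (V : Finset ι) : Prop where
  bk : G.Bk V
  w : ∀ a ∈ V, G.w a = 1
  qv : ∀ a ∈ V, (G.q a).vars ⊆ V

omit [Fintype ι] [DecidableEq ι] in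
theorem single_of_wt {w : ι → ℕ} (hw : ∀ a, 1 ≤ w a) {m : ι →₀ ℕ} (h : Finsupp.weight w m = 1) :
    ∃ b, m = Finsupp.single b 1 ∧ w b = 1 := by
  have h1 : m.sum (fun _ n => n) ≤ 1 := by
    rw [← h, Finsupp.weight_apply]
    exact sum_le_sum fun i _ => by simpa using Nat.le_mul_of_pos_right (m i) (hw i)
  have h2 : m.sum (fun _ n => n) ≠ 0 := by
    intro h0
    have : m = 0 := by
      ext i
      by_contra hi
      exact hi (sum_eq_zero_iff.1 h0 i (Finsupp.mem_support_iff.2 hi))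
    rw [this, map_zero] at h; exact zero_ne_one h
  obtain ⟨b, rfl⟩ := (Finsupp.sum_eq_one_iff m).1 (by omega)
  exact ⟨b, rfl, by simpa [Finsupp.weight_apply, Finsupp.sum_single_index] using h⟩

omit [Fintype ι] in
theorem vars_wt {w : ι → ℕ} (hw : ∀ a, 1 ≤ w a) {F : MvPolynomial ι ℝ}
    (hF : IsWeightedHomogeneous w F 1) {b : ι} (hb : b ∈ F.vars) : w b = 1 := by
  obtain ⟨m, hm, hbm⟩ := (mem_vars_iff_mem_support b).1 hb
  obtain ⟨c, rfl, hc⟩ := single_of_wt hw (hF (mem_support_iff.1 hm))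
  have : b = c := by simpa using hbm
  exact this ▸ hc

/-- the linear form with coefficients `x` on `V` -/
noncomputable def lv (V : Finset ι) (x : V → ℝ) : MvPolynomial ι ℝ := ∑ b : V, C (x b) * X b.1

omit [Fintype ι] in
theorem coeff_lv (V : Finset ι) (x : V → ℝ) (b : V) :
    coeff (Finsupp.single b.1 1) (lv V x) = x b := by
  rw [lv, coeff_sum, sum_eq_single b]
  · simp [coeff_X]
  · intro c _ hc
    have : ¬ Finsupp.single c.1 1 = Finsupp.single b.1 1 := fun h =>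
      hc (Subtype.ext (Finsupp.single_left_injective one_ne_zero h))
    simp [coeff_X, this]
  · simp

omit [Fintype ι] in
theorem eq_lv {w : ι → ℕ} (hw : ∀ a, 1 ≤ w a) {F : MvPolynomial ι ℝ}
    (hF : IsWeightedHomogeneous w F 1) {V : Finset ι} (hV : F.vars ⊆ V) :
    F = lv V fun b => coeff (Finsupp.single b.1 1) F := by
  ext m
  by_cases hm : ∃ b : V, m = Finsupp.single b.1 1
  · obtain ⟨b, rfl⟩ := hm
    rw [coeff_lv]
  · have h1 : coeff m F = 0 := by
      by_contra h0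
      obtain ⟨b, rfl, -⟩ := single_of_wt hw (hF h0)
      exact hm ⟨⟨b, hV ((mem_vars_iff_mem_support b).2 ⟨_, mem_support_iff.2 h0, by simp⟩)⟩, rfl⟩
    rw [h1, lv, coeff_sum]
    refine (sum_eq_zero fun b _ => ?_).symm
    have : ¬ Finsupp.single b.1 1 = m := fun h => hm ⟨b, h.symm⟩
    simp [coeff_X, this]

omit [Fintype ι] [DecidableEq ι] in
theorem eval_lv (V : Finset ι) (x : V → ℝ) (y : ι → ℝ) :
    eval y (lv V x) = ∑ b : V, x b * y b.1 := by simp [lv]

omit [Fintype ι] [DecidableEq ι] in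
theorem nrm_lv_le (V : Finset ι) (x : V → ℝ) : nrm (lv V x) ≤ ∑ b, |x b| :=
  (nrm_sum_le _ _).trans (sum_le_sum fun j _ => by rw [nrm_C_mul, nrm_X, mul_one])

theorem w1_U1 {G : GT ι} {s : ℕ} (hG : G.Ok s) (g : ℕ) : W1 G (G.U1 g) where
  bk a b h := by
    obtain ⟨h1, h2⟩ := hG.blk a b h
    simp [GT.U1, h1, h2]
  w a ha := (mem_filter.1 ha).2.1
  qv a ha b hb := by
    obtain ⟨-, h1, h2⟩ := mem_filter.1 ha
    have h3 := hG.qh a
    rw [h1] at h3
    exact mem_filter.2 ⟨mem_univ _, vars_wt hG.w1 h3 hb, (hG.ql a b hb).trans h2⟩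

noncomputable def AV (G : GT ι) (V : Finset ι) : Matrix V V ℝ := G.A.submatrix Subtype.val Subtype.val
noncomputable def BV (G : GT ι) (V : Finset ι) : Matrix V V ℝ := G.B.submatrix Subtype.val Subtype.val
noncomputable def Q1 (G : GT ι) (V : Finset ι) : Matrix V V ℝ :=
  Matrix.of fun b c => coeff (Finsupp.single c.1 1) (G.q b.1)
/-- matrix of the top chart on `V` -/
noncomputable def A1 (G : GT ι) (V : Finset ι) : Matrix V V ℝ := AV G V * (1 - Q1 G V)

theorem sum_blk {G : GT ι} {V : Finset ι} (hV : G.Bk V) {M : Type*} [AddCommMonoid M] (a : V)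
    (f : ι → M) (hf : ∀ b, G.A a.1 b = 0 → f b = 0) : ∑ b, f b = ∑ b : V, f b.1 := by
  rw [sum_coe_sort V f]
  refine (sum_subset (subset_univ V) fun b _ hb => hf b ?_).symm
  by_contra h
  exact hb ((hV a.1 b (Or.inl h)).1 a.2)

theorem AV_BV {G : GT ι} {s : ℕ} (hG : G.Ok s) {V : Finset ι} (hV : G.Bk V) :
    AV G V * BV G V = 1 := by
  ext a c
  have h := congrFun (congrFun hG.AB a.1) c.1
  rw [mul_apply, sum_blk hV a _ (fun b hb => by rw [hb, zero_mul])] at h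
  rw [mul_apply]
  refine h.trans ?_
  rw [one_apply, one_apply]
  exact if_congr Subtype.ext_iff.symm rfl rfl

theorem det_Q1 {G : GT ι} {s : ℕ} (hG : G.Ok s) (V : Finset ι) : (1 - Q1 G V).det = 1 := by
  have hQ : ∀ b c : V, ¬ G.g c.1 < G.g b.1 → Q1 G V b c = 0 := by
    intro b c h
    by_contra h0
    exact h (hG.ql b.1 c.1 ((mem_vars_iff_mem_support c.1).2 ⟨_, mem_support_iff.2 h0, by simp⟩))
  have hT : BlockTriangular (1 - Q1 G V)ᵀ fun a : V => G.g a.1 := by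
    intro i j h
    have hne : j ≠ i := fun e => by rw [e] at h; exact lt_irrefl _ h
    rw [transpose_apply, Matrix.sub_apply, one_apply_ne hne, hQ j i (not_lt.2 (le_of_lt h)), sub_zero]
  rw [← det_transpose, hT.det]
  refine prod_eq_one fun k _ => ?_
  have : (1 - Q1 G V)ᵀ.toSquareBlock (fun a : V => G.g a.1) k = 1 := by
    ext i j
    have h := i.2.trans j.2.symm
    rw [toSquareBlock_def, of_apply, transpose_apply, Matrix.sub_apply, hQ j.1 i.1 (not_lt.2 (le_of_eq h.symm)),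
      sub_zero]
    rw [one_apply, one_apply]
    exact if_congr ⟨fun e => Subtype.ext e.symm, fun e => (congrArg Subtype.val e).symm⟩ rfl rfl
  rw [this, det_one]

theorem det_A1 {G : GT ι} {s : ℕ} (hG : G.Ok s) {V : Finset ι} (hV : G.Bk V) :
    |(A1 G V).det| * G.dv V = 1 := by
  have h := congrArg det (AV_BV hG hV)
  rw [det_mul, det_one] at h
  rw [A1, det_mul, det_Q1 hG, mul_one, GT.dv, ← abs_mul]
  exact (congrArg abs h).trans abs_one

theorem det_A1_ne {G : GT ι} {s : ℕ} (hG : G.Ok s) {V : Finset ι} (hV : G.Bk V) :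
    (A1 G V).det ≠ 0 := fun h => by
  have := det_A1 hG hV
  rw [h, abs_zero, zero_mul] at this
  exact zero_ne_one this

theorem th_eq {G : GT ι} {s : ℕ} (hG : G.Ok s) {V : Finset ι} (hV : W1 G V) (a : V) :
    G.th a.1 = lv V (A1 G V a) := by
  have hq : ∀ b : V, G.q b.1 = lv V (Q1 G V b) := fun b => by
    have h3 := hG.qh b.1
    rw [hV.w b.1 b.2] at h3
    exact eq_lv hG.w1 h3 (hV.qv b.1 b.2)
  have hx : ∀ b : V, X b.1 - G.q b.1 = lv V ((1 - Q1 G V) b) := fun b => by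
    rw [hq, lv, lv]
    simp only [Matrix.sub_apply, map_sub, sub_mul, sum_sub_distrib]
    congr 1
    rw [sum_eq_single b]
    · simp
    · intro c _ hc; simp [one_apply_ne hc.symm]
    · simp
  rw [GT.th, sum_blk hV.bk a _ (fun b hb => by rw [hb, map_zero, zero_mul])]
  simp only [hx, lv, A1, mul_apply, map_sum, map_mul, mul_sum, sum_mul]
  rw [sum_comm]
  exact sum_congr rfl fun _ _ => sum_congr rfl fun _ _ => by rw [mul_assoc]; rfl

theorem eval_th {G : GT ι} {s : ℕ} (hG : G.Ok s) {V : Finset ι} (hV : W1 G V) (y : ι → ℝ) (a : V) :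
    eval y (G.th a.1) = (A1 G V *ᵥ fun b : V => y b.1) a := by
  rw [th_eq hG hV, eval_lv]; rfl

/-- a linear form in the top chart -/
theorem aeval_lv {G : GT ι} {s : ℕ} (hG : G.Ok s) {V : Finset ι} (hV : W1 G V) (r : V → ℝ) :
    aeval G.th (lv V r) = lv V (r ᵥ* A1 G V) := by
  rw [lv, map_sum]
  simp only [map_mul, aeval_C, aeval_X, algebraMap_eq, th_eq hG hV, lv, vecMul, dotProduct,
    map_sum, mul_sum, sum_mul]
  rw [sum_comm]
  exact sum_congr rfl fun _ _ => sum_congr rfl fun _ _ => by rw [mul_assoc]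

theorem bd_lv {G : GT ι} {s : ℕ} (hG : G.Ok s) {V : Finset ι} (hV : W1 G V) (k : V → ℝ) :
    G.Bd (lv V k) (∑ a, |(k ᵥ* (A1 G V)⁻¹) a|) := by
  refine ⟨lv V (k ᵥ* (A1 G V)⁻¹), ?_, nrm_lv_le _ _⟩
  rw [aeval_lv hG hV, vecMul_vecMul,
    nonsing_inv_mul _ (isUnit_iff_ne_zero.2 (det_A1_ne hG hV.bk)), vecMul_one]

theorem X_eq {G : GT ι} {s : ℕ} (hG : G.Ok s) {V : Finset ι} (hV : W1 G V) (j : V) :
    (X j.1 : MvPolynomial ι ℝ) = ∑ b : V, C ((A1 G V)⁻¹ j b) * G.th b.1 := by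
  have h := aeval_lv hG hV ((A1 G V)⁻¹ j)
  have h1 : (A1 G V)⁻¹ j ᵥ* A1 G V = (1 : Matrix V V ℝ) j := by
    rw [← nonsing_inv_mul _ (isUnit_iff_ne_zero.2 (det_A1_ne hG hV.bk))]; rfl
  rw [h1] at h
  have h2 : lv V ((1 : Matrix V V ℝ) j) = X j.1 := by
    rw [lv, sum_eq_single j]
    · simp
    · intro c _ hc; simp [one_apply_ne hc.symm]
    · simp
  rw [← h2, ← h, lv, map_sum]
  simp only [map_mul, aeval_C, aeval_X, algebraMap_eq]

omit [Fintype ι] [DecidableEq ι] in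
theorem isZ_lv (V : Finset ι) (k : V → ℤ) : IsInt (lv V fun b => (k b : ℝ)) :=
  isInt_sum fun b _ => (isInt_C (k b)).mul (isInt_X _)

theorem hm_lv {G : GT ι} {V : Finset ι} (hV : ∀ a ∈ V, G.w a = 1) (x : V → ℝ) :
    G.Hm 1 (lv V x) := by
  refine IsWeightedHomogeneous.sum _ _ _ fun b _ => ?_
  have h := (isWeightedHomogeneous_C G.w (x b)).mul (isWeightedHomogeneous_X ℝ G.w b.1)
  rwa [zero_add, hV b.1 b.2] at h

theorem lo_lv {G : GT ι} {V : Finset ι} {g : ℕ} (hV : ∀ a ∈ V, G.g a < g) (x : V → ℝ) :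
    G.Lo g (lv V x) :=
  Chart.vars_sum' (P := fun b => G.g b < g) fun b _ =>
    Chart.vars_mul' (Chart.vars_C' _) (Chart.vars_X' (hV b.1 b.2))

/-- no short dual vector -/
theorem dual_long {G : GT ι} {s g : ℕ} {H : ℝ} (hG : G.Ok s) (hs : 1 ≤ s) (hz : G.Zr s g H)
    (k : G.U1 g → ℤ) (hk : k ≠ 0) :
    H < ∑ a, |((fun b => (k b : ℝ)) ᵥ* (A1 G (G.U1 g))⁻¹) a| := by
  by_contra hc
  push Not at hc
  obtain ⟨b, hb, hl⟩ := bd_lv hG (w1_U1 hG g) fun b => (k b : ℝ)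
  have h0 := hz 1 _ le_rfl hs (isZ_lv _ k) (lo_lv (fun a ha => (mem_filter.1 ha).2.2) _)
    (hm_lv (fun a ha => (mem_filter.1 ha).2.1) _) ⟨b, hb, hl.trans hc⟩
  refine hk (funext fun j => ?_)
  have h1 := coeff_lv (G.U1 g) (fun b => (k b : ℝ)) j
  rw [h0, coeff_zero] at h1
  exact_mod_cast h1.symm

theorem bd_iff {G : GT ι} {ψ : ι → MvPolynomial ι ℝ} (h1 : ∀ a, aeval G.th (ψ a) = X a)
    (h2 : ∀ a, aeval ψ (G.th a) = X a) (F : MvPolynomial ι ℝ) (H : ℝ) :
    G.Bd F H ↔ nrm (aeval ψ F) ≤ H := by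
  constructor
  · rintro ⟨b, rfl, hb⟩
    rw [← AlgHom.comp_apply, comp_aeval, funext h2, aeval_X_left_apply]
    exact hb
  · intro h
    refine ⟨aeval ψ F, ?_, h⟩
    rw [← AlgHom.comp_apply, comp_aeval, funext h1, aeval_X_left_apply]

end Vale.Agent.P057T.Eq.A1H41
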