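import Vale.Agent.P057T.PoiH52
import Vale.Agent.P057T.Eq.A1H41

/-!
Lattice points in an ellipsoid when the dual lattice has no short vector.
-/

open Matrix
open scoped Real
open Vale.Agent.P267.H775 Vale.Agent.P057T.Poi

namespace Vale.Agent.P057T.BallH84

variable {V : Type*} [Fintype V] [DecidableEq V]

theorem far_sq (M : Matrix V V ℝ) {P : ℝ} (hP : 2 ≤ P) (hc : (Fintype.card V : ℝ) ≤ P)
    (k : V → ℤ) (hk : P ^ 2 < ∑ a, |(toR k ᵥ* M⁻¹) a|) : P ^ 3 ≤ qf (M⁻¹)ᵀ (toR k) := by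
  have hP0 : 0 < P := by linarith
  have hq : qf (M⁻¹)ᵀ (toR k) = ∑ a, |(toR k ᵥ* M⁻¹) a| ^ 2 := by
    unfold qf
    rw [mulVec_transpose]
    simp only [sq_abs]
  have hcs : (∑ a, |(toR k ᵥ* M⁻¹) a|) ^ 2 ≤
      (Fintype.card V : ℝ) * ∑ a, |(toR k ᵥ* M⁻¹) a| ^ 2 := by
    have h := sq_sum_le_card_mul_sum_sq (s := (Finset.univ : Finset V))
      (f := fun a => |(toR k ᵥ* M⁻¹) a|)
    simpa only [Finset.card_univ] using h
  rw [← hq] at hcs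
  have h0 := qf_nonneg (M⁻¹)ᵀ (toR k)
  have h1 : (P ^ 2) ^ 2 ≤ (∑ a, |(toR k ᵥ* M⁻¹) a|) ^ 2 :=
    pow_le_pow_left₀ (by positivity) hk.le 2
  have h2 : P * P ^ 3 ≤ P * qf (M⁻¹)ᵀ (toR k) := by
    have h3 := mul_le_mul_of_nonneg_right hc h0
    nlinarith
  exact le_of_mul_le_mul_left h2 hP0

theorem exp_small {P : ℝ} (hP : 2 ≤ P) {n : ℕ} (hc : (n : ℝ) ≤ P) :
    Real.exp (-(3 / 4 * π * P ^ 3)) * 2 ^ n ≤ 1 / 2 := by
  have he : (2 : ℝ) ≤ Real.exp 1 := by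
    have := Real.add_one_le_exp (1 : ℝ)
    linarith
  have h1 : (2 : ℝ) ^ (n + 1) ≤ Real.exp ((n + 1 : ℕ) : ℝ) := by
    rw [← Real.exp_one_pow]
    exact pow_le_pow_left₀ (by norm_num) he _
  have h2 : ((n + 1 : ℕ) : ℝ) ≤ 3 / 4 * π * P ^ 3 := by
    have h3 := Real.pi_gt_three
    have h4 : 4 * P ≤ P ^ 3 := by nlinarith [mul_nonneg (sub_nonneg.2 hP) (sub_nonneg.2 hP)]
    have h5 : 3 * P ^ 3 ≤ π * P ^ 3 := mul_le_mul_of_nonneg_right h3.le (by positivity)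
    push_cast
    nlinarith
  have h6 : (2 : ℝ) ^ (n + 1) ≤ Real.exp (3 / 4 * π * P ^ 3) := h1.trans (Real.exp_le_exp.2 h2)
  have h7 := Real.exp_pos (3 / 4 * π * P ^ 3)
  rw [Real.exp_neg, inv_mul_le_iff₀ h7]
  rw [pow_succ] at h6
  linarith

/-- No short dual vector: the theta value is at most twice the inverse covolume. -/
theorem th_le_two {M : Matrix V V ℝ} (hM : M.det ≠ 0) {P : ℝ} (hP : 2 ≤ P)
    (hc : (Fintype.card V : ℝ) ≤ P)
    (hfar : ∀ k : V → ℤ, k ≠ 0 → P ^ 2 < ∑ a, |(toR k ᵥ* M⁻¹) a|) :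
    th M 0 ≤ 2 * |M.det|⁻¹ := by
  have h1 := th_sub_one_le (det_dual hM) (K := P ^ 3) (δ := 1 / 2)
    (fun k hk => far_sq M hP hc k (hfar k hk)) (exp_small hP hc) le_rfl
  rw [th_dual hM] at h1
  have h2 : 0 < |M.det| := abs_pos.2 hM
  rw [← div_eq_mul_inv, le_div_iff₀ h2]
  linarith

/-- Number of integer points in the ellipsoid `|M n| ≤ R`. -/
theorem card_le_dual (M : Matrix V V ℝ) (hM : M.det ≠ 0) (P R : ℝ) (hP : 2 ≤ P)
    (hc : (Fintype.card V : ℝ) ≤ P)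
    (hfar : ∀ k : V → ℤ, k ≠ 0 → P ^ 2 < ∑ a, |(toR k ᵥ* M⁻¹) a|) (S : Finset (V → ℤ))
    (hS : ∀ n ∈ S, ∑ a, ((M *ᵥ toR n) a) ^ 2 ≤ R ^ 2) :
    (S.card : ℝ) ≤ Real.exp (4 * R ^ 2 + 1) * |M.det|⁻¹ := by
  have h1 := card_le hM 0 (K := R ^ 2) S (fun n hn => by
    rw [zero_add]
    exact hS n hn)
  have h2 := th_le_two hM hP hc hfar
  have he : (2 : ℝ) ≤ Real.exp 1 := by
    have := Real.add_one_le_exp (1 : ℝ)
    linarith
  have h3 : Real.exp (π * R ^ 2) ≤ Real.exp (4 * R ^ 2) :=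
    Real.exp_le_exp.2 (mul_le_mul_of_nonneg_right Real.pi_le_four (sq_nonneg R))
  have h4 : 0 ≤ |M.det|⁻¹ := by positivity
  calc (S.card : ℝ) ≤ Real.exp (π * R ^ 2) * th M 0 := h1
    _ ≤ Real.exp (4 * R ^ 2) * (Real.exp 1 * |M.det|⁻¹) :=
        mul_le_mul h3 (h2.trans (mul_le_mul_of_nonneg_right he h4)) (th_pos hM 0).le
          (Real.exp_pos _).le
    _ = Real.exp (4 * R ^ 2 + 1) * |M.det|⁻¹ := by rw [Real.exp_add, mul_assoc]

end Vale.Agent.P057T.BallH84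

namespace Vale.Agent.P057T.Eq

open Finset MvPolynomial

/-- Row `BALL` without hypotheses. -/
theorem ball0 : BALL := by
  intro s hs
  refine ⟨2, fun ι _ _ G P R g E hG hS hz hE => ?_⟩
  have hV := A1H41.w1_U1 hG g
  have hd := A1H41.det_A1 hG hV.bk
  have hne := A1H41.det_A1_ne hG hV.bk
  have hc : (Fintype.card (G.U1 g) : ℝ) ≤ P :=
    le_trans (by exact_mod_cast Fintype.card_subtype_le _) hS.cd
  have hinj : Set.InjOn (fun (h : ι → ℤ) (b : G.U1 g) => h b.1) (E : Set (ι → ℤ)) := by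
    intro h hh h' hh' e
    funext a
    by_cases ha : a ∈ G.U1 g
    · exact congrFun e ⟨a, ha⟩
    · rw [(hE h hh).1 a ha, (hE h' hh').1 a ha]
  have h1 := BallH84.card_le_dual (A1H41.A1 G (G.U1 g)) hne P R hS.P2 hc
    (fun k hk => A1H41.dual_long hG hs hz k hk)
    (E.image (fun (h : ι → ℤ) (b : G.U1 g) => h b.1)) (fun n hn => by
      obtain ⟨h, hh, rfl⟩ := mem_image.1 hn
      have h2 := (hE h hh).2
      rw [← sum_coe_sort (G.U1 g) (fun a => (eval (cz h) (G.th a)) ^ 2)] at h2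
      refine le_of_eq_of_le (sum_congr rfl fun a _ => ?_) h2
      rw [A1H41.eval_th hG hV]
      rfl)
  rw [card_image_of_injOn hinj] at h1
  have h3 : |(A1H41.A1 G (G.U1 g)).det|⁻¹ = G.dv (G.U1 g) := inv_eq_of_mul_eq_one_right hd
  rwa [h3] at h1

theorem ball (_ : INV) (_ : BD) : BALL := ball0

end Vale.Agent.P057T.Eq
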