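import Vale.Agent.P057T.Eq.Mono
import Vale.Agent.P057T.PoiH52
import Vale.Agent.P057T.L1

/-! Equidistribution in degree one. -/

open MvPolynomial Finset Matrix
open scoped Real
open Vale.Agent.P267.H775

namespace Vale.Agent.P057T.Eq

noncomputable section

set_option linter.unusedSectionVars false

namespace E1

variable {ι : Type} [Fintype ι] [DecidableEq ι]

/-- extension by zero -/
def ext (U : Finset ι) (z : U → ℤ) : ι → ℤ := fun a => if h : a ∈ U then z ⟨a, h⟩ else 0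

theorem ext_val (U : Finset ι) (z : U → ℤ) (a : U) : ext U z a.1 = z a := by
  simp [ext, a.2]

def latE (U : Finset ι) : (U → ℤ) ≃ Lat U where
  toFun z := ⟨ext U z, fun a ha => by simp [ext, ha]⟩
  invFun z := fun a => z.1 a.1
  left_inv z := by funext a; exact ext_val U z a
  right_inv z := by
    apply Subtype.ext
    funext a
    by_cases h : a ∈ U
    · simp [ext, h]
    · simp only [ext, h, dif_neg, not_false_eq_true]
      exact (z.2 a h).symm

/-- linear form in the variables of `U` -/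
def lU (U : Finset ι) (θ : U → ℝ) : MvPolynomial ι ℝ := ∑ c : U, C (θ c) * X c.1

theorem coeff_lU (U : Finset ι) (θ : U → ℝ) (m : ι →₀ ℕ) :
    coeff m (lU U θ) = ∑ c : U, if Finsupp.single c.1 1 = m then θ c else 0 := by
  unfold lU
  rw [coeff_sum]
  refine sum_congr rfl fun c _ => ?_
  rw [coeff_C_mul, coeff_X]
  split_ifs <;> simp

theorem coeff_lU_single (U : Finset ι) (θ : U → ℝ) (a : U) :
    coeff (Finsupp.single a.1 1) (lU U θ) = θ a := by
  rw [coeff_lU, sum_eq_single a]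
  · simp
  · intro b _ hb
    rw [if_neg]
    intro h
    exact hb (Subtype.ext (Finsupp.single_left_injective one_ne_zero h))
  · simp

theorem lU_eq_zero {U : Finset ι} {θ : U → ℝ} (h : lU U θ = 0) : θ = 0 := by
  funext a
  rw [← coeff_lU_single U θ a, h]
  simp

theorem lU_sub (U : Finset ι) (θ η : U → ℝ) : lU U (θ - η) = lU U θ - lU U η := by
  unfold lU
  rw [← sum_sub_distrib]
  refine sum_congr rfl fun c _ => ?_
  simp only [Pi.sub_apply, C_sub]
  ring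

theorem eval_lU (U : Finset ι) (θ : U → ℝ) (z : U → ℤ) :
    eval (cz (ext U z)) (lU U θ) = ∑ c : U, θ c * (z c : ℝ) := by
  unfold lU
  rw [map_sum]
  refine sum_congr rfl fun c _ => ?_
  rw [map_mul, eval_C, eval_X, cz, ext_val]

theorem isZ_lU (U : Finset ι) (k : U → ℤ) : IsZ (lU U (toR k)) :=
  L1.isInt_sum fun c _ => (L1.isInt_C (k c)).mul (L1.isInt_X _)

theorem l1_lU (U : Finset ι) (θ : U → ℝ) : l1 (lU U θ) ≤ ∑ c : U, |θ c| := by
  refine (L1.nrm_sum_le _ _).trans (sum_le_sum fun c _ => ?_)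
  rw [L1.nrm_C_mul, X, L1.nrm_monomial]
  simp

theorem vars_lU (U : Finset ι) (θ : U → ℝ) : ∀ b ∈ (lU U θ).vars, b ∈ U := by
  intro b hb
  obtain ⟨m, hm, hbm⟩ := (mem_vars_iff_mem_support b).1 hb
  rw [mem_support_iff, coeff_lU] at hm
  obtain ⟨c, -, hc⟩ := exists_ne_zero_of_sum_ne_zero hm
  have h : Finsupp.single c.1 1 = m := by
    by_contra h
    exact hc (if_neg h)
  rw [← h, Finsupp.support_single _ one_ne_zero, mem_singleton] at hbm
  exact hbm ▸ c.2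

theorem hm_lU (G : GT ι) {U : Finset ι} (hw : ∀ a ∈ U, G.w a = 1) (θ : U → ℝ) :
    G.Hm 1 (lU U θ) := by
  intro m hm
  rw [coeff_lU] at hm
  obtain ⟨c, -, hc⟩ := exists_ne_zero_of_sum_ne_zero hm
  have h : Finsupp.single c.1 1 = m := by
    by_contra h
    exact hc (if_neg h)
  rw [← h, Finsupp.weight_single, hw c.1 c.2]
  simp

theorem deg_le {w : ι → ℕ} (hw : ∀ a, 1 ≤ w a) (m : ι →₀ ℕ) :
    Finsupp.degree m ≤ Finsupp.weight w m := by
  rw [Finsupp.weight_eq_sum, Finsupp.degree_eq_sum]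
  refine sum_le_sum fun a _ => ?_
  rw [smul_eq_mul]
  exact Nat.le_mul_of_pos_right _ (hw a)

theorem wt_zero {w : ι → ℕ} (hw : ∀ a, 1 ≤ w a) {m : ι →₀ ℕ} (h : Finsupp.weight w m = 0) :
    m = 0 := by
  have := deg_le hw m
  rw [h] at this
  exact (Finsupp.degree_eq_zero_iff m).1 (Nat.le_zero.1 this)

theorem wt_one {w : ι → ℕ} (hw : ∀ a, 1 ≤ w a) {m : ι →₀ ℕ} (h : Finsupp.weight w m = 1) :
    ∃ c, Finsupp.single c 1 = m := by
  have h1 := deg_le hw m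
  have h2 : Finsupp.degree m ≠ 0 := by
    intro h0
    rw [(Finsupp.degree_eq_zero_iff m).1 h0] at h
    simp at h
  have h3 : m ∈ {d : ι →₀ ℕ | d.degree = 1} := by
    show Finsupp.degree m = 1
    omega
  rw [← Finsupp.range_single_one] at h3
  exact h3

theorem eq_lU {G : GT ι} (hw : ∀ a, 1 ≤ G.w a) {U : Finset ι} {F : MvPolynomial ι ℝ}
    (hF : G.Hm 1 F) (hU : F.vars ⊆ U) :
    F = lU U (fun c => coeff (Finsupp.single c.1 1) F) := by
  ext m
  by_cases hm : ∃ c : U, Finsupp.single c.1 1 = m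
  · obtain ⟨c, rfl⟩ := hm
    rw [coeff_lU_single]
  · rw [coeff_lU, sum_eq_zero fun c _ => if_neg fun h => hm ⟨c, h⟩]
    by_contra h0
    obtain ⟨c, rfl⟩ := wt_one hw (hF h0)
    refine hm ⟨⟨c, hU ?_⟩, rfl⟩
    exact (mem_vars_iff_mem_support c).2 ⟨_, mem_support_iff.2 h0, by simp⟩

theorem eq_C {G : GT ι} (hw : ∀ a, 1 ≤ G.w a) {F : MvPolynomial ι ℝ} (hF : G.Dl 1 F) :
    F = C (coeff 0 F) := by
  ext m
  rw [coeff_C]
  split_ifs with h
  · rw [h]
  · by_contra h0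
    have := hF m (mem_support_iff.2 h0)
    exact h (wt_zero hw (by omega)).symm

theorem eq_C_add {G : GT ι} (hw : ∀ a, 1 ≤ G.w a) {F : MvPolynomial ι ℝ} (hF : G.Dl 2 F) :
    F = C (coeff 0 F) + G.top 1 F := by
  ext m
  rw [coeff_add, coeff_C, GT.top, coeff_weightedHomogeneousComponent]
  by_cases h : 0 = m
  · subst h
    simp
  · rw [if_neg h, zero_add]
    split_ifs with h1
    · rfl
    · by_contra h0
      have := hF m (mem_support_iff.2 h0)
      exact h (wt_zero hw (by omega)).symm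

theorem vars_top (G : GT ι) (e : ℕ) (F : MvPolynomial ι ℝ) : (G.top e F).vars ⊆ F.vars := by
  intro b hb
  obtain ⟨m, hm, hbm⟩ := (mem_vars_iff_mem_support b).1 hb
  refine (mem_vars_iff_mem_support b).2 ⟨m, ?_, hbm⟩
  rw [mem_support_iff, GT.top, coeff_weightedHomogeneousComponent] at hm
  rw [mem_support_iff]
  intro h0
  rw [h0] at hm
  simp at hm

/-- restriction of a matrix -/
def rs (U : Finset ι) (M : Matrix ι ι ℝ) : Matrix U U ℝ :=
  M.submatrix (Subtype.val : U → ι) (Subtype.val : U → ι)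

/-- linear parts of the top polynomials -/
def nl (G : GT ι) (U : Finset ι) : Matrix U U ℝ :=
  fun b c => coeff (Finsupp.single c.1 1) (G.q b.1)

/-- the linear chart -/
def a1 (G : GT ι) (U : Finset ι) : Matrix U U ℝ := rs U G.A * (1 - nl G U)

variable {G : GT ι} {s : ℕ} {U : Finset ι}

theorem sum_blk (hU : G.Bk U) (a : U) {E : Type} [AddCommMonoid E] (f : ι → E)
    (hf : ∀ b, G.A a.1 b = 0 → f b = 0) : ∑ b, f b = ∑ b : U, f b.1 := by
  rw [sum_coe_sort U f]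
  refine (sum_subset (subset_univ _) fun b _ hb => hf b ?_).symm
  by_contra h
  exact hb ((hU a.1 b (Or.inl h)).1 a.2)

theorem rs_mul (hG : G.Ok s) (hU : G.Bk U) : rs U G.A * rs U G.B = 1 := by
  ext a b
  have h := congrFun (congrFun hG.AB a.1) b.1
  rw [mul_apply, sum_blk hU a _ fun c hc => by rw [hc, zero_mul]] at h
  rw [mul_apply]
  refine h.trans ?_
  simp only [one_apply, Subtype.ext_iff]

theorem det_nl (hG : G.Ok s) : (1 - nl G U).det = 1 := by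
  have hz : ∀ b c : U, ¬ G.g c.1 < G.g b.1 → nl G U b c = 0 := by
    intro b c h
    by_contra h0
    exact h (hG.ql b.1 c.1 ((mem_vars_iff_mem_support c.1).2 ⟨_, mem_support_iff.2 h0, by simp⟩))
  have ht : BlockTriangular (1 - nl G U)ᵀ (fun a : U => G.g a.1) := by
    intro i j hij
    have hne : j ≠ i := fun h => by rw [h] at hij; exact lt_irrefl _ hij
    rw [transpose_apply, Matrix.sub_apply, one_apply_ne hne, hz j i (not_lt.2 hij.le), sub_zero]
  rw [← det_transpose, ht.det]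
  refine prod_eq_one fun g _ => ?_
  have : toSquareBlock (1 - nl G U)ᵀ (fun a : U => G.g a.1) g = 1 := by
    ext i j
    rw [toSquareBlock_def, of_apply, transpose_apply, Matrix.sub_apply,
      hz j.1 i.1 (by rw [i.2, j.2]; exact lt_irrefl _), sub_zero]
    simp only [one_apply, Subtype.ext_iff, eq_comm]
  rw [this, det_one]

theorem det_a1 (hG : G.Ok s) (hU : G.Bk U) : |(a1 G U).det| * G.dv U = 1 := by
  have h := congrArg det (rs_mul hG hU)
  rw [det_mul, det_one] at h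
  rw [a1, det_mul, det_nl hG, mul_one, GT.dv, ← abs_mul]
  exact (congrArg abs h).trans abs_one

theorem th_eq (hG : G.Ok s) (hU : G.Bk U) (hw : ∀ a ∈ U, G.w a = 1)
    (hq : ∀ a ∈ U, (G.q a).vars ⊆ U) (a : U) : G.th a.1 = lU U (a1 G U a) := by
  have h1 : ∀ b : U, X b.1 - G.q b.1 = lU U ((1 - nl G U) b) := by
    intro b
    have h2 : G.q b.1 = lU U (nl G U b) :=
      eq_lU hG.w1 (by have := hG.qh b.1; rwa [hw b.1 b.2] at this) (hq b.1 b.2)
    have h3 : (X b.1 : MvPolynomial ι ℝ) = lU U ((1 : Matrix U U ℝ) b) := by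
      unfold lU
      rw [sum_eq_single b]
      · simp
      · intro c _ hc
        rw [one_apply_ne' hc]
        simp
      · simp
    rw [h2, h3, ← lU_sub]
    rfl
  rw [GT.th, sum_blk hU a _ fun c hc => by rw [hc]; simp]
  simp only [h1, lU, mul_sum]
  rw [sum_comm]
  refine sum_congr rfl fun c _ => ?_
  rw [a1, mul_apply, map_sum, sum_mul]
  refine sum_congr rfl fun b _ => ?_
  rw [C_mul, mul_assoc]
  rfl

theorem aeval_lU (hG : G.Ok s) (hU : G.Bk U) (hw : ∀ a ∈ U, G.w a = 1)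
    (hq : ∀ a ∈ U, (G.q a).vars ⊆ U) (β : U → ℝ) :
    aeval G.th (lU U β) = lU U (β ᵥ* a1 G U) := by
  conv_lhs => rw [lU, map_sum]
  simp only [map_mul, aeval_C, aeval_X, algebraMap_eq, th_eq hG hU hw hq, lU, mul_sum]
  rw [sum_comm]
  refine sum_congr rfl fun c _ => ?_
  rw [vecMul, dotProduct, map_sum, sum_mul]
  refine sum_congr rfl fun b _ => ?_
  rw [C_mul, mul_assoc]

/-- the scaled chart -/
def mm (G : GT ι) (U : Finset ι) (σ : ι → ℝ) : Matrix U U ℝ :=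
  diagonal (fun a : U => σ a.1) * a1 G U

theorem det_mm (hG : G.Ok s) (hU : G.Bk U) {σ : ι → ℝ} (hσ : ∀ a, 0 < σ a) :
    |(mm G U σ).det| * G.mn σ U = 1 := by
  have h := det_a1 hG hU
  have h2 : (∏ a : U, σ a.1) * ∏ a ∈ U, (σ a)⁻¹ = 1 := by
    rw [prod_coe_sort U σ, ← prod_mul_distrib]
    exact prod_eq_one fun a _ => mul_inv_cancel₀ (hσ a).ne'
  rw [mm, det_mul, det_diagonal, abs_mul, abs_of_pos (prod_pos fun a _ => hσ a.1), GT.mn]
  calc _ = (|(a1 G U).det| * G.dv U) * ((∏ a : U, σ a.1) * ∏ a ∈ U, (σ a)⁻¹) := by ring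
    _ = 1 := by rw [h, h2, mul_one]

theorem bd_lU (hG : G.Ok s) (hU : G.Bk U) (hw : ∀ a ∈ U, G.w a = 1)
    (hq : ∀ a ∈ U, (G.q a).vars ⊆ U) {σ : ι → ℝ} {P H : ℝ} (hσ : ∀ a, 0 < σ a)
    (hP : ∀ a, σ a ≤ P) (hc : (Fintype.card ι : ℝ) ≤ P) (ξ : U → ℝ)
    (hH : P ^ 3 * qf ((mm G U σ)⁻¹)ᵀ ξ + 1 ≤ H) : G.Bd (lU U ξ) H := by
  have hd : (mm G U σ).det ≠ 0 := by
    intro h
    have := det_mm hG hU hσ
    rw [h] at this
    simp at this
  set γ : U → ℝ := ((mm G U σ)⁻¹)ᵀ *ᵥ ξ with hγ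
  refine ⟨lU U (γ ᵥ* diagonal (fun a : U => σ a.1)), ?_, ?_⟩
  · rw [aeval_lU hG hU hw hq, vecMul_vecMul, hγ, mulVec_transpose, vecMul_vecMul]
    change lU U (ξ ᵥ* ((mm G U σ)⁻¹ * mm G U σ)) = _
    rw [nonsing_inv_mul _ (isUnit_iff_ne_zero.2 hd), vecMul_one]
  · refine (l1_lU _ _).trans (le_trans ?_ hH)
    have h1 : ∑ c : U, |(γ ᵥ* diagonal (fun a : U => σ a.1)) c| ≤ P * ∑ c : U, |γ c| := by
      rw [mul_sum]
      refine sum_le_sum fun c _ => ?_
      rw [vecMul_diagonal, abs_mul, abs_of_pos (hσ _), mul_comm]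
      exact mul_le_mul_of_nonneg_right (hP _) (abs_nonneg _)
    have h2 : (∑ c : U, |γ c|) ^ 2 ≤ P * qf ((mm G U σ)⁻¹)ᵀ ξ := by
      refine sq_sum_le_card_mul_sum_sq.trans ?_
      have h3 : (#(univ : Finset U) : ℝ) ≤ P := by
        refine le_trans ?_ hc
        rw [card_univ]
        exact_mod_cast Fintype.card_subtype_le _
      simp only [sq_abs]
      exact mul_le_mul_of_nonneg_right h3 (qf_nonneg _ _)
    have h4 : (P * ∑ c : U, |γ c|) ^ 2 ≤ P ^ 3 * qf ((mm G U σ)⁻¹)ᵀ ξ := by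
      rw [mul_pow]
      calc _ ≤ P ^ 2 * (P * qf ((mm G U σ)⁻¹)ᵀ ξ) := mul_le_mul_of_nonneg_left h2 (by positivity)
        _ = _ := by ring
    nlinarith [sq_nonneg ((P * ∑ c : U, |γ c|) - 1)]

theorem num1 {P K : ℝ} {n : ℕ} (hn : (n : ℝ) ≤ P) (hP : 2 ≤ P) (hK : 0 ≤ K) :
    Real.exp (-(3 / 4 * π * (K + P))) * 2 ^ n ≤ Real.exp (-K) / 3 := by
  have h1 : (2 : ℝ) ^ n ≤ Real.exp P := by
    have h2 : (2 : ℝ) ≤ Real.exp 1 := by linarith [Real.add_one_le_exp (1 : ℝ)]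
    calc (2 : ℝ) ^ n ≤ Real.exp 1 ^ n := pow_le_pow_left₀ (by norm_num) h2 n
      _ = Real.exp n := by rw [← Real.exp_nat_mul, mul_one]
      _ ≤ _ := Real.exp_le_exp.2 hn
  have hp := Real.pi_gt_three
  have h3 : Real.exp (-(3 / 4 * π * (K + P))) * Real.exp P * Real.exp 2 ≤ Real.exp (-K) := by
    rw [← Real.exp_add, ← Real.exp_add, Real.exp_le_exp]
    nlinarith
  have h4 : (3 : ℝ) ≤ Real.exp 2 := by linarith [Real.add_one_le_exp (2 : ℝ)]
  have h5 := Real.exp_pos (-(3 / 4 * π * (K + P)))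
  have h6 := Real.exp_pos P
  have h7 := mul_le_mul_of_nonneg_left h1 h5.le
  have h8 := mul_le_mul_of_nonneg_left h4 (mul_pos h5 h6).le
  linarith

theorem norm_sm (hG : G.Ok s) {T : AT ι} {P : ℝ} (hP : 0 < P) (hT : G.AOk T P)
    (hw : ∀ a ∈ T.U, G.w a = 1) (c : ℝ) (θ : T.U → ℝ) :
    ‖G.Sm T (C c + lU T.U θ)‖ ≤
      G.mn T.sg T.U * Poi.th ((mm G T.U T.sg)⁻¹)ᵀ (-θ) := by
  have hσ : ∀ a, 0 < T.sg a := fun a => (inv_pos.2 hP).trans_le (hT.s1 a)
  have hdm := det_mm hG hT.bk hσ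
  have hd : (mm G T.U T.sg).det ≠ 0 := by
    intro h
    rw [h] at hdm
    simp at hdm
  have hd1 : (a1 G T.U).det ≠ 0 := by
    intro h
    have := det_a1 hG hT.bk
    rw [h] at this
    simp at this
  set p : T.U → ℝ := fun a => coeff 0 (T.p a.1) with hp
  set x : T.U → ℝ := (a1 G T.U)⁻¹ *ᵥ p with hx
  have hnu : ∀ z : T.U → ℤ, G.nu T (ext T.U z) = Poi.gq (mm G T.U T.sg) (x + toR z) := by
    intro z
    unfold GT.nu Poi.gq qf
    rw [← sum_coe_sort T.U]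
    congr 2
    refine sum_congr rfl fun a _ => ?_
    congr 1
    have h1 : T.p a.1 = C (p a) :=
      eq_C hG.w1 (by have := hT.pd a.1 a.2; rwa [hw a.1 a.2] at this)
    rw [GT.ch, map_add, h1, eval_C, th_eq hG hT.bk hw hT.qv, eval_lU, mm, ← mulVec_mulVec,
      mulVec_diagonal, mulVec_add, hx, mulVec_mulVec,
      mul_nonsing_inv _ (isUnit_iff_ne_zero.2 hd1), one_mulVec, Pi.add_apply, add_comm (p a)]
    rfl
  have hS : G.Sm T (C c + lU T.U θ) =
      (∑' z : T.U → ℤ, (Poi.gq (mm G T.U T.sg) (x + toR z) : ℂ) * Poi.ec θ (x + toR z)) *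
        (Complex.exp (2 * π * Complex.I * (c : ℝ)) * Poi.ec θ (-x)) := by
    rw [GT.Sm, ← (latE T.U).tsum_eq, ← tsum_mul_right]
    refine tsum_congr fun z => ?_
    change (G.nu T (ext T.U z) : ℂ) * Complex.exp (2 * π * Complex.I *
      (eval (cz (ext T.U z)) (C c + lU T.U θ) : ℝ)) = _
    rw [hnu, map_add, eval_C, eval_lU, mul_assoc (Poi.gq _ _ : ℂ)]
    congr 1
    unfold Poi.ec
    rw [← Complex.exp_add, ← Complex.exp_add, ← mul_add, ← mul_add, ← Complex.ofReal_add,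
      ← Complex.ofReal_add]
    congr 3
    simp only [Pi.add_apply, Pi.neg_apply, toR_apply, mul_add, mul_neg, sum_add_distrib,
      sum_neg_distrib]
    ring
  have hn : ‖Complex.exp (2 * π * Complex.I * (c : ℝ))‖ = 1 := by
    rw [Complex.norm_exp]
    simp
  rw [hS, norm_mul, norm_mul, hn, Poi.norm_ec, mul_one, mul_one]
  have h := Poi.norm_tw_le hd θ x
  have h0 : 0 ≤ G.mn T.sg T.U :=
    mul_nonneg (GT.dv_nonneg _) (prod_nonneg fun a _ => (inv_pos.2 (hσ a)).le)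
  calc _ = G.mn T.sg T.U * (|(mm G T.U T.sg).det| * _) := by
        rw [← mul_assoc, mul_comm (G.mn _ _), hdm, one_mul]
    _ ≤ _ := mul_le_mul_of_nonneg_left h h0

end E1

open E1 in
/-- degree one, with denominator one -/
theorem eq1_one (s : ℕ) (hZ : ZERO) : ∃ c : ℕ, ∀ (ι : Type) [Fintype ι] [DecidableEq ι]
    (G : GT ι) (T : AT ι) (WW : ℕ → ℝ) (P Y : ℝ) (g0 : ℕ) (Q : MvPolynomial ι ℝ), G.Ok s → G.Wd WW →
    Sz ι P Y → G.AOk T P → G.Rg WW (P ^ c) Y g0 → G.Inv 1 g0 T.U →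
    (∀ a ∈ T.U, g0 ≤ G.g a → G.w a < 1) → Q.vars ⊆ T.U → G.Dl (1 + 1) Q →
    Real.exp (-Y) * G.mn T.sg T.U ≤ ‖G.Sm T Q‖ →
    ∃ I : MvPolynomial ι ℝ, IsZ I ∧ G.Lo g0 I ∧ G.Hm 1 I ∧ I.vars ⊆ T.U ∧
      G.Bd (G.top 1 Q - I) (P ^ 5 * Y + 1) ∧
      G.Bd (G.top 1 Q - I) (Real.exp (P ^ c * (Y + WW g0))) := by
  obtain ⟨c', hc'⟩ := hZ s 5
  refine ⟨c' + 5, ?_⟩
  intro ι _ _ G T WW P Y g0 Q hG hW hS hT hR hI ht hQ hD hb
  have hP2 := hS.P2
  have hY := hS.Y1
  have hP : 0 < P := by linarith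
  have hW0 := hW.nn g0
  have hZr := hc' ι G WW P Y g0 hG hW hS
    (hR.mono le_rfl hW.nn (pw_pos hP2 _) (by linarith) (pw_le hP2 (Nat.le_add_right _ _)) le_rfl)
  have hg : ∀ a ∈ T.U, G.g a < g0 := by
    intro a ha
    by_contra h
    have h1 := ht a ha (not_lt.1 h)
    have h2 := hG.w1 a
    omega
  have hw : ∀ a ∈ T.U, G.w a = 1 := fun a ha => le_antisymm (hI a ha (hg a ha)) (hG.w1 a)
  have hσ : ∀ a, 0 < T.sg a := fun a => (inv_pos.2 hP).trans_le (hT.s1 a)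
  have hdm := det_mm hG hT.bk hσ
  have hd : (mm G T.U T.sg).det ≠ 0 := by
    intro h
    rw [h] at hdm
    simp at hdm
  have hD' := Poi.det_dual hd
  have hmn : 0 < G.mn T.sg T.U := by
    by_contra h
    nlinarith [abs_nonneg (mm G T.U T.sg).det]
  have hcU : (Fintype.card T.U : ℝ) ≤ P :=
    le_trans (by exact_mod_cast Fintype.card_subtype_le _) hS.cd
  have hnum : ∀ {c : ℕ} {t : ℝ}, 5 ≤ c → t ≤ Y + P →
      P ^ 3 * t + 1 ≤ Real.exp (P ^ c * (Y + WW g0)) := by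
    intro c t h5 ht
    have h1 := Real.add_one_le_exp (P ^ c * (Y + WW g0))
    have h2 := pw_le hP2 h5
    have h3 : Y + P ≤ P ^ 2 * Y := by
      have h8 : 1 + P ≤ P ^ 2 := by nlinarith
      have h9 := mul_le_mul_of_nonneg_right h8 (by linarith : (0 : ℝ) ≤ Y)
      nlinarith
    have h4 : P ^ 3 * t ≤ P ^ 3 * (P ^ 2 * Y) :=
      mul_le_mul_of_nonneg_left (ht.trans h3) (by positivity)
    have h6 : P ^ 5 * Y ≤ P ^ c * (Y + WW g0) :=
      mul_le_mul h2 (by linarith) (by linarith) (by positivity)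
    have h7 : P ^ 3 * (P ^ 2 * Y) = P ^ 5 * Y := by ring
    linarith
  have hlo : ∀ ξ : T.U → ℝ, G.Lo g0 (lU T.U ξ) := fun ξ b hb => hg b (vars_lU _ _ b hb)
  have hth : Poi.th ((mm G T.U T.sg)⁻¹)ᵀ 0 ≤ 2 := by
    have h1 := Poi.th_sub_one_le hD' (K := 0 + P) (δ := 1 / 3) (fun k hk => ?_)
      (by simpa using num1 hcU hP2 le_rfl) (by norm_num)
    · linarith
    · by_contra h
      obtain ⟨a, ha⟩ := Function.ne_iff.1 hk
      have h2 := hZr 1 (lU T.U (toR k)) le_rfl ((hG.w1 a.1).trans (hG.ws a.1)) (isZ_lU _ _)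
        (hlo _) (hm_lU G hw _)
        (bd_lU hG hT.bk hw hT.qv hσ hT.s2 hS.cd _ (hnum le_rfl (by linarith)))
      have h3 := congrFun (lU_eq_zero h2) a
      exact ha (by simpa using h3)
  set θ : T.U → ℝ := fun c => coeff (Finsupp.single c.1 1) (G.top 1 Q) with hθ
  have htop : G.top 1 Q = lU T.U θ :=
    eq_lU hG.w1 (weightedHomogeneousComponent_isWeightedHomogeneous _ _)
      ((vars_top G 1 Q).trans hQ)
  have hQe : Q = C (coeff 0 Q) + lU T.U θ := by rw [← htop]; exact eq_C_add hG.w1 hD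
  rw [hQe] at hb
  have h1 := hb.trans (norm_sm hG hP hT hw _ θ)
  rw [mul_comm] at h1
  have h2 := le_of_mul_le_mul_left h1 hmn
  obtain ⟨k, hk⟩ : ∃ k : T.U → ℤ, qf ((mm G T.U T.sg)⁻¹)ᵀ (-θ + toR k) < Y + P := by
    by_contra h
    have h3 := Poi.th_le_of_far hD' (-θ) (K := Y + P) fun k => not_lt.1 fun h' => h ⟨k, h'⟩
    have h4 := num1 (K := Y) hcU hP2 (by linarith)
    have h5 := mul_le_mul h4 hth (Poi.th_pos hD' 0).le (by positivity)
    have h6 := Real.exp_pos (-Y)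
    linarith
  have h3 : θ - toR k = -(-θ + toR k) := by abel
  refine ⟨lU T.U (toR k), isZ_lU _ _, hlo _, hm_lU G hw _, fun b hb => vars_lU _ _ b hb, ?_, ?_⟩
  · rw [htop, ← lU_sub]
    refine bd_lU hG hT.bk hw hT.qv hσ hT.s2 hS.cd _ ?_
    rw [h3, Poi.qf_neg]
    have h8 : 1 + P ≤ P ^ 2 := by nlinarith
    have h9 := mul_le_mul_of_nonneg_right h8 (by linarith : (0 : ℝ) ≤ Y)
    have h10 : Y + P ≤ P ^ 2 * Y := by nlinarith
    have h4 := mul_le_mul_of_nonneg_left (hk.le.trans h10) (by positivity : 0 ≤ P ^ 3)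
    have h7 : P ^ 3 * (P ^ 2 * Y) = P ^ 5 * Y := by ring
    linarith
  · rw [htop, ← lU_sub]
    refine bd_lU hG hT.bk hw hT.qv hσ hT.s2 hS.cd _ (hnum (Nat.le_add_left _ _) ?_)
    rw [h3, Poi.qf_neg]
    exact hk.le

theorem eq1' (s mu : ℕ) (hZ : ZERO) : EQT s 1 mu 1 false := by
  obtain ⟨c, hc⟩ := eq1_one s hZ
  refine ⟨c, ?_⟩
  intro ι _ _ G T WW P Y g0 Q hG hW hS hT _ _ hR hI _ ht hQ hD _ hb
  obtain ⟨I, h1, h2, h3, -, -, h4⟩ := hc ι G T WW P Y g0 Q hG hW hS hT hR hI ht hQ hD hb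
  have hP2 := hS.P2
  have hY := hS.Y1
  have hW0 := hW.nn g0
  refine ⟨1, I, le_rfl, ?_, h1, h2, h3, ?_⟩
  · rw [Nat.cast_one]
    exact Real.one_le_exp (by positivity)
  · rwa [Nat.cast_one, C_1, one_mul]

theorem eq1 (s mu : ℕ) (_ : INV) (_ : BD) (hZ : ZERO) (_ : DET) : EQT s 1 mu 1 false :=
  eq1' s mu hZ

end

end Vale.Agent.P057T.Eq
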