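import Vale.Agent.P057T.Eq.Defs
import Vale.Agent.P057T.PoiH52

/-!
Row FIB: fibres of the projection to the low groups.
-/

open MvPolynomial Finset
open scoped Real

namespace Vale.Agent.P057T.Eq

noncomputable section

set_option linter.unusedSectionVars false
set_option linter.unusedVariables false

namespace FibP

open Vale.Agent.P267.H775 Vale.Agent.P057T.Poi Matrix

variable {ι : Type} [Fintype ι] [DecidableEq ι]

theorem sub_mul {s : ℕ} {G : GT ι} (hG : G.Ok s) {S : Finset ι} (hS : G.Bk S) :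
    G.A.submatrix (Subtype.val : S → ι) (Subtype.val : S → ι) *
      G.B.submatrix (Subtype.val : S → ι) (Subtype.val : S → ι) = 1 := by
  ext a b
  have h := congrFun (congrFun hG.AB a.1) b.1
  rw [Matrix.mul_apply] at h
  rw [Matrix.mul_apply]
  simp only [Matrix.submatrix_apply]
  rw [Finset.sum_coe_sort S (fun c => G.A a.1 c * G.B c b.1),
    Finset.sum_subset (Finset.subset_univ S), h]
  · by_cases hab : a = b
    · subst hab
      rw [Matrix.one_apply_eq, Matrix.one_apply_eq]
    · rw [Matrix.one_apply_ne hab, Matrix.one_apply_ne fun h => hab (Subtype.ext h)]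
  · intro c _ hc
    by_cases h0 : G.A a.1 c = 0
    · rw [h0, zero_mul]
    · exact absurd ((hS a.1 c (Or.inl h0)).1 a.2) hc

/-- extension by zero -/
def ex0 (S : Finset ι) (n : S → ℤ) : Lat S :=
  ⟨fun a => if h : a ∈ S then n ⟨a, h⟩ else 0, fun a ha => dif_neg ha⟩

theorem ex0_apply (S : Finset ι) (n : S → ℤ) (a : S) : (ex0 S n).1 a.1 = n a := dif_pos a.2

theorem ex0_inj (S : Finset ι) : Function.Injective (ex0 S) := by
  intro n n' h
  funext a
  rw [← ex0_apply S n a, h, ex0_apply]

/-- one block: points in a ball with an arbitrary centre -/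
theorem one {s : ℕ} {G : GT ι} (hG : G.Ok s) {S : Finset ι} (hS : G.Bk S) {Z K : ℝ}
    (h1 : Summable (fun k : Lat S => Real.exp (-(π / 2) * G.dq (fun _ => 1) S (cz k.1 - 0))))
    (h2 : ∑' k : Lat S, Real.exp (-(π / 2) * G.dq (fun _ => 1) S (cz k.1 - 0)) ≤ Z)
    (cc : ι → ℝ) (E : Finset (ι → ℤ))
    (hi : ∀ z ∈ E, ∀ z' ∈ E, (∀ a ∈ S, z a = z' a) → z = z')
    (hK : ∀ z ∈ E, ∑ a ∈ S, (∑ b ∈ S, G.A a b * ((z b : ℝ) - cc b)) ^ 2 ≤ K) :
    (E.card : ℝ) ≤ Real.exp (π * K) * Z * G.dv S := by
  set M := G.A.submatrix (Subtype.val : S → ι) (Subtype.val : S → ι) with hM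
  set N := G.B.submatrix (Subtype.val : S → ι) (Subtype.val : S → ι) with hN
  have hMN : M * N = 1 := sub_mul hG hS
  have hd : M.det * N.det = 1 := by rw [← Matrix.det_mul, hMN, Matrix.det_one]
  have hM0 : M.det ≠ 0 := left_ne_zero_of_mul_eq_one hd
  have hinv : M⁻¹ = N := Matrix.inv_eq_right_inv hMN
  have hc : (E.image (fun z (a : S) => z a.1)).card = E.card :=
    Finset.card_image_of_injOn fun z hz z' hz' h =>
      hi z hz z' hz' fun a ha => congrFun h ⟨a, ha⟩
  have h3 := card_le hM0 (fun a : S => -cc a.1) (K := K) (E.image (fun z (a : S) => z a.1)) (by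
    intro n hn
    obtain ⟨z, hz, rfl⟩ := Finset.mem_image.1 hn
    refine le_trans (le_of_eq ?_) (hK z hz)
    unfold qf
    rw [← Finset.sum_coe_sort S]
    refine Finset.sum_congr rfl fun a _ => ?_
    rw [← Finset.sum_coe_sort S]
    refine congrArg (· ^ 2) ?_
    refine Finset.sum_congr rfl fun b _ => ?_
    show G.A a.1 b.1 * (-cc b.1 + (z b.1 : ℝ)) = _
    ring)
  rw [hc] at h3
  have h4 : th (M⁻¹)ᵀ 0 ≤ Z := by
    refine le_trans ?_ h2
    rw [th_zero]
    refine Summable.tsum_le_tsum_of_inj (ex0 S) (ex0_inj S) (fun _ _ => (Real.exp_pos _).le)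
      (fun n => ?_) (by simpa using summable_gq (det_dual hM0) 0) h1
    have e : G.dq (fun _ => 1) S (cz (ex0 S n).1 - 0) = qf (M⁻¹)ᵀ (toR n) := by
      unfold GT.dq qf
      rw [← Finset.sum_coe_sort S, hinv]
      refine Finset.sum_congr rfl fun a _ => ?_
      rw [← Finset.sum_coe_sort S, div_one]
      refine congrArg (· ^ 2) ?_
      refine Finset.sum_congr rfl fun b _ => ?_
      show (((ex0 S n).1 b.1 : ℝ) - 0) * G.B b.1 a.1 = G.B b.1 a.1 * (n b : ℝ)
      rw [ex0_apply]
      ring
    rw [e]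
    unfold gq
    rw [Real.exp_le_exp]
    have := qf_nonneg (M⁻¹)ᵀ (toR n)
    have := Real.pi_pos
    nlinarith
  rw [th_dual hM0] at h4
  have h5 : |M.det| * G.dv S = 1 := by
    show |M.det| * |N.det| = 1
    rw [← abs_mul, hd, abs_one]
  have h6 : 0 ≤ G.dv S := abs_nonneg _
  have h7 : th M 0 ≤ Z * G.dv S := by
    calc th M 0 = (|M.det| * th M 0) * G.dv S := by
          rw [mul_right_comm, h5, one_mul]
      _ ≤ Z * G.dv S := mul_le_mul_of_nonneg_right h4 h6
  rw [mul_assoc]
  exact h3.trans (mul_le_mul_of_nonneg_left h7 (Real.exp_pos _).le)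

theorem eval_res {G : GT ι} {n : ℕ} {F : MvPolynomial ι ℝ} (hF : G.Lo n F) (h : ι → ℤ) :
    eval (cz (G.res n h)) F = eval (cz h) F := by
  refine MvPolynomial.eval₂Hom_congr' rfl (fun i hi _ => ?_) rfl
  show (((if G.g i < n then h i else 0 : ℤ)) : ℝ) = h i
  rw [if_pos (hF i hi)]

theorem eval_th {G : GT ι} (h : ι → ℤ) (a : ι) :
    eval (cz h) (G.th a) = ∑ b, G.A a b * ((h b : ℝ) - eval (cz h) (G.q b)) := by
  unfold GT.th
  rw [map_sum]
  refine Finset.sum_congr rfl fun b _ => ?_
  rw [map_mul, map_sub, eval_C, eval_X]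
  rfl

theorem eval_th_res {s : ℕ} {G : GT ι} (hG : G.Ok s) {n : ℕ} (h : ι → ℤ) {a : ι}
    (ha : G.g a < n) : eval (cz (G.res n h)) (G.th a) = eval (cz h) (G.th a) := by
  rw [eval_th, eval_th]
  refine Finset.sum_congr rfl fun b _ => ?_
  by_cases h0 : G.A a b = 0
  · rw [h0, zero_mul, zero_mul]
  · have hb : G.g b < n := (hG.blk a b (Or.inl h0)).1 ▸ ha
    rw [eval_res (fun i hi => (hG.ql b i hi).trans hb)]
    have : G.res n h b = h b := if_pos hb
    rw [this]

theorem bk_filter {s : ℕ} {G : GT ι} (hG : G.Ok s) {V : Finset ι} (hV : G.Bk V) (p : ℕ → Prop)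
    [DecidablePred p] : G.Bk (V.filter fun a => p (G.g a)) := by
  intro a b hab
  rw [Finset.mem_filter, Finset.mem_filter, hV a b hab, (hG.blk a b hab).1]

theorem bk_U1 {s : ℕ} {G : GT ι} (hG : G.Ok s) (g : ℕ) : G.Bk (G.U1 g) := by
  intro a b hab
  unfold GT.U1
  simp only [Finset.mem_filter, Finset.mem_univ, true_and]
  rw [(hG.blk a b hab).1, (hG.blk a b hab).2]

theorem card_fib {α β : Type} [DecidableEq β] (E : Finset α) (f : α → β) {X : ℝ}
    (h : ∀ y ∈ E.image f, ((E.filter fun x => f x = y).card : ℝ) ≤ X) :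
    (E.card : ℝ) ≤ X * (E.image f).card := by
  rw [Finset.card_eq_sum_card_image f E, Nat.cast_sum, mul_comm, ← nsmul_eq_mul]
  exact Finset.sum_le_card_nsmul _ _ _ h

/-- one copy -/
theorem copy {s : ℕ} {G : GT ι} (hG : G.Ok s) {V : Finset ι} (hV : G.Bk V) {R X : ℝ} {g : ℕ}
    (hX : 0 ≤ X) (hpos : ∀ V, G.Bk V → 0 < G.dv V) (he : G.dv ∅ = 1)
    (hmul : ∀ U V, G.Bk U → G.Bk V → V ⊆ U → G.dv U = G.dv V * G.dv (U \ V))
    (hone : ∀ S, G.Bk S → (∀ a ∈ S, g ≤ G.g a) → ∀ (cc : ι → ℝ) (E : Finset (ι → ℤ)),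
      (∀ z ∈ E, ∀ z' ∈ E, (∀ a ∈ S, z a = z' a) → z = z') →
      (∀ z ∈ E, ∑ a ∈ S, (∑ b ∈ S, G.A a b * ((z b : ℝ) - cc b)) ^ 2 ≤ R ^ 2) →
      (E.card : ℝ) ≤ X * G.dv S) (hX1 : 1 ≤ X) (m : ℕ) :
    ∀ (n : ℕ), s ≤ n + m → g ≤ n → ∀ (y : ι → ℤ) (F : Finset (ι → ℤ)),
      (∀ h ∈ F, G.InL V R h ∧ G.res n h = y) →
      (F.card : ℝ) ≤ X ^ m * G.dv (V.filter fun a => n ≤ G.g a) := by
  induction m with
  | zero =>
    intro n hn _ y F hF
    have e : (V.filter fun a => n ≤ G.g a) = ∅ :=
      Finset.filter_eq_empty_iff.2 fun a _ => by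
        have := hG.gs a
        omega
    rw [e, he, pow_zero, mul_one]
    have : F ⊆ {y} := by
      intro h hh
      rw [Finset.mem_singleton, ← (hF h hh).2]
      funext a
      have := hG.gs a
      exact (if_pos (by omega)).symm
    exact_mod_cast (Finset.card_le_card this).trans (Finset.card_singleton y).le
  | succ m ih =>
    intro n hn hg y F hF
    have hS : G.Bk (V.filter fun a => G.g a = n) := bk_filter hG hV (fun k => k = n)
    have h1 := card_fib F (G.res (n + 1))
      (X := X ^ m * G.dv (V.filter fun a => n + 1 ≤ G.g a)) fun y' _ =>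
        ih (n + 1) (by omega) (by omega) y' _ fun h hh =>
          ⟨(hF h (Finset.mem_filter.1 hh).1).1, (Finset.mem_filter.1 hh).2⟩
    have h2 := hone _ hS (fun a ha => by rw [(Finset.mem_filter.1 ha).2]; exact hg)
      (fun b => eval (cz y) (G.q b)) (F.image (G.res (n + 1))) (by
        intro z hz z' hz' hzz
        obtain ⟨h, hh, rfl⟩ := Finset.mem_image.1 hz
        obtain ⟨h', hh', rfl⟩ := Finset.mem_image.1 hz'
        funext a
        by_cases ha : G.g a < n
        · have e1 : G.res n h a = G.res n h' a := by rw [(hF h hh).2, (hF h' hh').2]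
          unfold GT.res at e1 ⊢
          rw [if_pos ha, if_pos ha] at e1
          rw [if_pos (by omega), if_pos (by omega), e1]
        · by_cases ha2 : G.g a = n
          · by_cases hv : a ∈ V
            · exact hzz a (Finset.mem_filter.2 ⟨hv, ha2⟩)
            · unfold GT.res
              rw [(hF h hh).1.1 a hv, (hF h' hh').1.1 a hv]
          · unfold GT.res
            rw [if_neg (by omega), if_neg (by omega)]) (by
        intro z hz
        obtain ⟨h, hh, rfl⟩ := Finset.mem_image.1 hz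
        refine le_trans ?_ (hF h hh).1.2
        refine le_trans (le_of_eq ?_) (Finset.sum_le_sum_of_subset_of_nonneg
          (Finset.filter_subset (fun a => G.g a = n) V) fun _ _ _ => sq_nonneg _)
        refine Finset.sum_congr rfl fun a ha => ?_
        refine congrArg (· ^ 2) ?_
        rw [eval_th, ← Finset.sum_subset (Finset.subset_univ (V.filter fun a => G.g a = n))]
        · refine Finset.sum_congr rfl fun b hb => ?_
          have hb' := (Finset.mem_filter.1 hb).2
          have e1 : G.res (n + 1) h b = h b := if_pos (by omega)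
          rw [e1, ← (hF h hh).2, eval_res (hb' ▸ hG.ql b)]
        · intro b _ hb
          by_cases h0 : G.A a b = 0
          · rw [h0, zero_mul]
          · exact absurd ((hS a b (Or.inl h0)).1 ha) hb)
    have h3 := hmul (V.filter fun a => n ≤ G.g a) (V.filter fun a => G.g a = n)
      (bk_filter hG hV (fun k => n ≤ k)) hS (fun a ha => by
        rw [Finset.mem_filter] at ha ⊢
        exact ⟨ha.1, ha.2.ge⟩)
    have e : (V.filter fun a => n ≤ G.g a) \ (V.filter fun a => G.g a = n) =
        V.filter fun a => n + 1 ≤ G.g a := by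
      ext a
      simp only [Finset.mem_sdiff, Finset.mem_filter]
      constructor
      · rintro ⟨⟨h1, h2⟩, h3⟩
        refine ⟨h1, ?_⟩
        by_contra h4
        exact h3 ⟨h1, by omega⟩
      · rintro ⟨h1, h2⟩
        exact ⟨⟨h1, by omega⟩, fun h => by omega⟩
    rw [e] at h3
    have h4 := hpos _ (bk_filter hG hV (fun k => n + 1 ≤ k))
    refine h1.trans ((mul_le_mul_of_nonneg_left h2 (by positivity)).trans (le_of_eq ?_))
    rw [h3]
    ring

end FibP

open FibP in
theorem fib (hD : DET) (hW : GW) : FIB := by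
  intro s
  obtain ⟨c, hc⟩ := hW
  refine ⟨c + 2 + s + 1, ?_⟩
  intro ι κ _ _ _ _ G WW P R g V E hG hWd hSz hκ hV hw hq hU hE
  obtain ⟨hpos, he, hmul, -⟩ := hD s ι G hG
  have hP := hSz.P2
  have hW0 := hWd.nn g
  constructor
  · intro h hh j
    refine ⟨fun a ha => ?_, ?_⟩
    · unfold GT.res
      split_ifs with h1
      · refine (hE h hh j).1 a fun hv => ha ?_
        exact Finset.mem_filter.2 ⟨Finset.mem_univ _, hw a hv, h1⟩
      · rfl
    · refine le_trans ?_ (hE h hh j).2
      refine le_trans (le_of_eq ?_) (Finset.sum_le_sum_of_subset_of_nonneg hU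
        fun _ _ _ => sq_nonneg _)
      refine Finset.sum_congr rfl fun a ha => ?_
      rw [eval_th_res hG _ (Finset.mem_filter.1 ha).2.2]
  · set X : ℝ := Real.exp (π * R ^ 2) * Real.exp (P ^ c * (1 + WW g)) with hX
    have hX1 : 1 ≤ X := by
      rw [hX, ← Real.exp_add]
      refine Real.one_le_exp ?_
      have := Real.pi_pos
      positivity
    have hcopy := copy hG hV (R := R) (X := X) (g := g) (by linarith) hpos he hmul (by
      intro S hS hg cc F hi hK
      obtain ⟨h1, h2⟩ := hc s ι G WW P (fun _ => 1) S g 0 hG hWd hSz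
        (fun _ => ⟨inv_le_one_of_one_le₀ (by linarith), by linarith⟩) hS hg
      exact one hG hS h1 h2 cc F hi hK) hX1 s g (by omega) le_rfl
    have e : V \ G.U1 g = V.filter fun a => g ≤ G.g a := by
      ext a
      unfold GT.U1
      simp only [Finset.mem_sdiff, Finset.mem_filter, Finset.mem_univ, true_and]
      constructor
      · rintro ⟨h1, h2⟩
        refine ⟨h1, ?_⟩
        by_contra h3
        exact h2 ⟨hw a h1, by omega⟩
      · rintro ⟨h1, h2⟩
        exact ⟨h1, fun h => by omega⟩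
    have h3 := hmul V (G.U1 g) hV (bk_U1 hG g) hU
    rw [e] at h3
    set D := G.dv (V.filter fun a => g ≤ G.g a) with hD'
    have hD0 : 0 < D := hpos _ (bk_filter hG hV (fun k => g ≤ k))
    have hU0 := hpos _ (bk_U1 hG g)
    have h4 := card_fib E (fun h j => G.res g (h j)) (X := (X ^ s * D) ^ Fintype.card κ) (by
      intro y _
      set F := E.filter fun x => (fun j => G.res g (x j)) = y with hF
      have hsub : F ⊆ Fintype.piFinset fun j => F.image fun h => h j := fun h hh =>
        Fintype.mem_piFinset.2 fun j => Finset.mem_image_of_mem _ hh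
      have h5 := Finset.card_le_card hsub
      rw [Fintype.card_piFinset] at h5
      have h6 : (F.card : ℝ) ≤ ∏ j, ((F.image fun h => h j).card : ℝ) := by exact_mod_cast h5
      refine h6.trans ?_
      rw [← Finset.card_univ, ← Finset.prod_const]
      refine Finset.prod_le_prod (fun _ _ => Nat.cast_nonneg _) fun j _ => ?_
      refine hcopy (y j) _ fun h hh => ?_
      obtain ⟨x, hx, rfl⟩ := Finset.mem_image.1 hh
      exact ⟨hE x (Finset.mem_filter.1 hx).1 j, congrFun (Finset.mem_filter.1 hx).2 j⟩)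
    have h7 : (X ^ s) ^ Fintype.card κ ≤
        Real.exp (P ^ (c + 2 + s + 1) * (1 + R ^ 2 + WW g)) := by
      rw [hX, ← Real.exp_add, ← Real.exp_nat_mul, ← Real.exp_nat_mul, Real.exp_le_exp]
      have a1 : (1 : ℝ) ≤ P ^ c := one_le_pow₀ (by linarith)
      have a2 : (4 : ℝ) ≤ P ^ 2 := by nlinarith
      have a3 : (s : ℝ) ≤ P ^ s := by
        have b1 : (s : ℝ) ≤ 2 ^ s := by exact_mod_cast (Nat.lt_two_pow_self (n := s)).le
        exact b1.trans (pow_le_pow_left₀ (by norm_num) hP s)
      have a4 : π * R ^ 2 + P ^ c * (1 + WW g) ≤ P ^ c * P ^ 2 * (1 + R ^ 2 + WW g) := by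
        have b1 := Real.pi_le_four
        have b2 := sq_nonneg R
        have b3 : (4 : ℝ) ≤ P ^ c * P ^ 2 := by nlinarith
        have b4 : P ^ c ≤ P ^ c * P ^ 2 := by nlinarith
        have b5 : π * R ^ 2 ≤ P ^ c * P ^ 2 * R ^ 2 := mul_le_mul_of_nonneg_right (by linarith) b2
        have b6 : P ^ c * (1 + WW g) ≤ P ^ c * P ^ 2 * (1 + WW g) :=
          mul_le_mul_of_nonneg_right b4 (by linarith)
        linarith
      have a5 : 0 ≤ π * R ^ 2 + P ^ c * (1 + WW g) := by
        have := Real.pi_pos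
        positivity
      calc (Fintype.card κ : ℝ) * ((s : ℝ) * (π * R ^ 2 + P ^ c * (1 + WW g)))
          ≤ P * (P ^ s * (P ^ c * P ^ 2 * (1 + R ^ 2 + WW g))) := by
            refine mul_le_mul hκ (mul_le_mul a3 a4 a5 (by positivity)) (by positivity) (by linarith)
        _ = _ := by ring
    calc (E.card : ℝ) * G.dv (G.U1 g) ^ Fintype.card κ
        ≤ (X ^ s * D) ^ Fintype.card κ * ((E.image (fun h j => G.res g (h j))).card : ℝ) *
          G.dv (G.U1 g) ^ Fintype.card κ := mul_le_mul_of_nonneg_right h4 (by positivity)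
      _ = (X ^ s) ^ Fintype.card κ * (G.dv V ^ Fintype.card κ *
          ((E.image (fun h j => G.res g (h j))).card : ℝ)) := by
          rw [h3, mul_pow, mul_pow]
          ring
      _ ≤ _ := by
          rw [mul_assoc]
          have := hpos V hV
          exact mul_le_mul_of_nonneg_right h7 (by positivity)

end

end Vale.Agent.P057T.Eq
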