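import Vale.Agent.P057T.Eq.Defs
import Vale.Agent.P057T.Chart

/-! Row FORM: coefficients of the form `dF - ∑ S a dz_a` in the top chart. -/

open MvPolynomial Finset

namespace Vale.Agent.P057T.Eq

namespace Fo

open Vale.Agent.P057T.Chart Vale.Agent.P057T.L1

variable {ι : Type} [Fintype ι] [DecidableEq ι]

lemma l1_le_of_emb {τ : Type} [DecidableEq τ] {p : MvPolynomial ι ℝ} {b : MvPolynomial τ ℝ}
    (φ : (ι →₀ ℕ) → (τ →₀ ℕ)) (hφ : Function.Injective φ) (h : ∀ m, coeff m p = coeff (φ m) b) :
    l1 p ≤ ∑ m ∈ b.support, |coeff m b| := by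
  classical
  unfold l1
  have e : ∑ m ∈ p.support, |coeff m p| = ∑ m ∈ p.support.image φ, |coeff m b| := by
    rw [Finset.sum_image (fun x _ y _ hxy => hφ hxy)]
    exact Finset.sum_congr rfl fun m _ => by rw [h]
  rw [e]
  refine Finset.sum_le_sum_of_subset_of_nonneg ?_ (fun _ _ _ => abs_nonneg _)
  intro m hm
  obtain ⟨m', hm', rfl⟩ := Finset.mem_image.1 hm
  rw [mem_support_iff] at hm' ⊢
  rwa [← h]

lemma vars_of_X_mul {P : ι → Prop} {a : ι} {p : MvPolynomial ι ℝ}
    (h : ∀ j ∈ (X a * p).vars, P j) : (∀ j ∈ p.vars, P j) ∧ (p ≠ 0 → P a) := by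
  constructor
  · intro j hj
    obtain ⟨m, hm, hjm⟩ := (mem_vars_iff_mem_support j).1 hj
    refine h j ((mem_vars_iff_mem_support j).2 ⟨Finsupp.single a 1 + m, ?_, ?_⟩)
    · rw [mem_support_iff, coeff_X_mul]; exact mem_support_iff.1 hm
    · rw [Finsupp.mem_support_iff] at hjm ⊢
      rw [Finsupp.add_apply]; omega
  · intro hp
    obtain ⟨m, hm⟩ := support_nonempty.2 hp
    refine h a ((mem_vars_iff_mem_support a).2 ⟨Finsupp.single a 1 + m, ?_, ?_⟩)
    · rw [mem_support_iff, coeff_X_mul]; exact mem_support_iff.1 hm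
    · rw [Finsupp.mem_support_iff, Finsupp.add_apply, Finsupp.single_eq_same]; omega

lemma wt_of_X_mul {w : ι → ℕ} {a : ι} {p : MvPolynomial ι ℝ} {n : ℕ}
    (h : IsWeightedHomogeneous w (X a * p) n) {m : ι →₀ ℕ} (hm : coeff m p ≠ 0) :
    Finsupp.weight w m + w a = n := by
  have := h (d := Finsupp.single a 1 + m) (by rwa [coeff_X_mul])
  rw [map_add, Finsupp.weight_single, one_smul] at this
  omega

lemma hm_X_mul {w : ι → ℕ} {a : ι} {p : MvPolynomial ι ℝ} {n : ℕ}
    (h : ∀ m, coeff m p ≠ 0 → Finsupp.weight w m + w a = n) :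
    IsWeightedHomogeneous w (X a * p) n := by
  intro m hm
  rw [coeff_X_mul'] at hm
  split_ifs at hm with ha
  · have h1 := h _ hm
    have h2 : m = (m - Finsupp.single a 1) + Finsupp.single a 1 := (tsub_add_cancel_of_le
      (Finsupp.single_le_iff.2 (Nat.one_le_iff_ne_zero.2 (Finsupp.mem_support_iff.1 ha)))).symm
    rw [h2, map_add, Finsupp.weight_single, one_smul]
    exact h1
  · exact absurd rfl hm

lemma wt_pderiv {w : ι → ℕ} {a : ι} {p : MvPolynomial ι ℝ} {n : ℕ}
    (h : IsWeightedHomogeneous w p n) {m : ι →₀ ℕ} (hm : coeff m (pderiv a p) ≠ 0) :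
    Finsupp.weight w m + w a = n := by
  rw [coeff_pderiv] at hm
  have := h (left_ne_zero_of_mul hm)
  rwa [map_add, Finsupp.weight_single, one_smul] at this

lemma eq_C_of_wt {w : ι → ℕ} (hw : ∀ a, 1 ≤ w a) {p : MvPolynomial ι ℝ}
    (h : ∀ m, coeff m p ≠ 0 → Finsupp.weight w m = 0) : p = C (coeff 0 p) := by
  ext m
  rw [coeff_C]
  split_ifs with hm
  · rw [← hm]
  · by_contra hc
    refine hm (Finsupp.ext fun i => ?_)
    have h1 := Finsupp.le_weight w (s := i) (by have := hw i; omega) m
    rw [h m hc] at h1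
    simp only [Finsupp.coe_zero, Pi.zero_apply]
    omega

variable (G : GT ι)

lemma th_hm {s : ℕ} (hG : G.Ok s) (a : ι) : G.Hm (G.w a) (G.th a) := by
  unfold GT.th GT.Hm
  refine IsWeightedHomogeneous.sum _ _ _ fun b _ => ?_
  by_cases hb : G.A a b = 0
  · rw [hb, C_0, zero_mul]; exact isWeightedHomogeneous_zero _ _ _
  · rw [(hG.blk a b (Or.inl hb)).2]
    have h1 : IsWeightedHomogeneous G.w (X b - G.q b) (G.w b) :=
      (weightedHomogeneousSubmodule ℝ G.w (G.w b)).sub_mem (isWeightedHomogeneous_X ℝ G.w b)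
        (hG.qh b)
    exact h1.C_mul _

lemma wt_inl (h : Unit → ι → ℤ) (m : ι →₀ ℕ) :
    Finsupp.weight (G.tan h).w (Finsupp.mapDomain Sum.inl m) = Finsupp.weight G.w m := by
  rw [Finsupp.weight_apply, Finsupp.weight_apply, Finsupp.sum_mapDomain_index]
  · rfl
  · intro b; simp
  · intro b m1 m2; rw [add_smul]

lemma dd_X (h : Unit → ι → ℤ) (a : ι) : G.dd h () (X a) = G.wv h () a := by
  unfold GT.dd
  rw [Finset.sum_eq_single a]
  · simp
  · intro b _ hb
    rw [pderiv_X_of_ne hb.symm, map_zero, mul_zero]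
  · simp

lemma dd_aeval (h : Unit → ι → ℤ) (f : ι → MvPolynomial ι ℝ) (p : MvPolynomial ι ℝ) :
    G.dd h () (aeval f p) = ∑ b, rename Sum.inl (aeval f (pderiv b p)) * G.dd h () (f b) := by
  unfold GT.dd
  simp only [pderiv_aeval, map_sum, map_mul, Finset.mul_sum]
  rw [Finset.sum_comm]
  exact Finset.sum_congr rfl fun b _ => Finset.sum_congr rfl fun a _ => by ring

lemma dd_one {s : ℕ} (hG : G.Ok s) (h : ι → ℤ) {p : MvPolynomial ι ℝ} (hp : G.Hm 1 p) :
    G.dd (fun _ : Unit => h) () p = C (eval (cz h) p) := by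
  have e1 := IsWeightedHomogeneous.sum_weight_X_mul_pderiv hp
  rw [one_smul] at e1
  conv_rhs => rw [← e1]
  rw [map_sum, map_sum]
  unfold GT.dd
  refine Finset.sum_congr rfl fun a _ => ?_
  by_cases ha : 2 ≤ G.w a
  · have : pderiv a p = 0 := by
      ext m
      by_contra hc
      have := wt_pderiv hp (m := m) (a := a) (by simpa using hc)
      omega
    rw [this]; simp
  · have h1 : G.w a = 1 := by have := hG.w1 a; omega
    have h2 : pderiv a p = C (coeff 0 (pderiv a p)) := eq_C_of_wt hG.w1 (fun m hm => by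
      have := wt_pderiv hp hm
      omega)
    rw [h2, h1]
    simp [GT.wv, ha, cz]

end Fo

open Fo Vale.Agent.P057T.Chart Vale.Agent.P057T.L1 in
theorem form (hI : INV) (hB : BD) (hT : TANOK) : FORM := by
  intro s ι _ _ G g d F S hG hd hF hFg hS1
  obtain ⟨ψ, hψ1, hψ2, hψh, hψl⟩ := hI s ι G hG
  obtain ⟨-, hBh, -, hBl⟩ := hB s ι G hG
  set om : ι → MvPolynomial ι ℝ :=
    fun b => ∑ a, (pderiv a F - S a) * aeval G.th (pderiv b (ψ a)) with hom
  have hψv : ∀ a, ∀ j ∈ (ψ a).vars, G.g j ≤ G.g a := by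
    intro a
    have e : ψ a = (ψ a - ∑ b, C (G.B a b) * X b) + ∑ b, C (G.B a b) * X b := by ring
    rw [e]
    refine vars_add' (fun j hj => (hψl a j hj).le) (vars_sum' fun b _ => ?_)
    by_cases hb : G.B a b = 0
    · rw [hb, C_0, zero_mul]; simp
    · exact vars_mul' (vars_C' _) (vars_X' (hG.blk a b (Or.inr hb)).1.symm.le)
  -- terms vanish outside the groups below `g`
  have hz : (∀ a, G.Lo g (X a * S a)) → ∀ a, ¬ G.g a < g → pderiv a F - S a = 0 := by
    intro hS a ha
    have h1 : pderiv a F = 0 := pderiv_eq_zero_of_notMem_vars (fun hv => ha (hFg a hv))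
    have h2 : S a = 0 := by
      by_contra h
      exact ha ((vars_of_X_mul (P := fun j => G.g j < g) (hS a)).2 h)
    rw [h1, h2, sub_zero]
  have om0 : (∀ a, G.Lo g (X a * S a)) → ∀ b, ¬ G.g b < g → om b = 0 := by
    intro hS b hb
    refine Finset.sum_eq_zero fun a _ => ?_
    by_cases ha : G.g a < g
    · have : pderiv b (ψ a) = 0 := pderiv_eq_zero_of_notMem_vars (fun hv => by
        have := hψv a b hv
        omega)
      rw [this, map_zero, mul_zero]
    · rw [hz hS a ha, zero_mul]
  have split : ∀ {τ : Type} (u : ι → MvPolynomial τ ℝ), (∀ b, ¬ G.g b < g → u b = 0) →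
      ∑ b, u b = ∑ b ∈ univ.filter (fun b => 2 ≤ G.w b), u b + ∑ b ∈ G.U1 g, u b := by
    intro τ u hu
    rw [← Finset.sum_filter_add_sum_filter_not univ (fun b => 2 ≤ G.w b)]
    refine congrArg _ (Finset.sum_subset ?_ ?_).symm
    · intro b hb
      simp only [GT.U1, Finset.mem_filter, Finset.mem_univ, true_and] at hb ⊢
      omega
    · intro b hb hb'
      simp only [GT.U1, Finset.mem_filter, Finset.mem_univ, true_and] at hb hb'
      have := hG.w1 b
      exact hu b (fun h => hb' ⟨by omega, h⟩)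
  refine ⟨om, ?_, ?_⟩
  · intro h I H _ hIz hIl hIh hIb hsl
    obtain ⟨hG', t1, t2, -, -, -, -⟩ := hT s ι Unit G (fun _ => h) hG
    set G' := G.tan (fun _ : Unit => h) with hG'd
    have hinj : Function.Injective (Sum.inl : ι → G.TV Unit) := Sum.inl_injective
    have hnr : ∀ (m : ι →₀ ℕ) (x : Unit × {a : ι // 2 ≤ G.w a}),
        Finsupp.mapDomain (Sum.inl : ι → G.TV Unit) m (Sum.inr x) = 0 := fun m x =>
      Finsupp.mapDomain_of_notMem_range _ _ (by simp)
    have cS : ∀ (a : {a : ι // 2 ≤ G.w a}) (m : ι →₀ ℕ), coeff m (S a.1) =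
        coeff (Finsupp.mapDomain Sum.inl m + Finsupp.single (Sum.inr ((), a)) 1) I := by
      intro a m
      rw [← coeff_rename_mapDomain Sum.inl hinj, ← hsl a, coeff_pderiv, hnr]
      simp
    have hA : ∀ a, IsZ (S a) ∧ G.Lo g (X a * S a) ∧ G.Hm (d + 1) (X a * S a) := by
      intro a
      by_cases ha : 2 ≤ G.w a
      · refine ⟨fun m => by rw [cS ⟨a, ha⟩ m]; exact hIz _, ?_, ?_⟩
        · by_cases h0 : S a = 0
          · rw [h0, mul_zero]; intro b hb; simp at hb
          · refine vars_mul' (P := fun j => G.g j < g) (vars_X' ?_) ?_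
            · obtain ⟨m, hm⟩ := support_nonempty.2 h0
              rw [mem_support_iff, cS ⟨a, ha⟩ m] at hm
              refine hIl (Sum.inr ((), ⟨a, ha⟩)) ((mem_vars_iff_mem_support _).2
                ⟨_, mem_support_iff.2 hm, ?_⟩)
              rw [Finsupp.mem_support_iff, Finsupp.add_apply, Finsupp.single_eq_same]; omega
            · intro j hj
              obtain ⟨m, hm, hjm⟩ := (mem_vars_iff_mem_support j).1 hj
              rw [mem_support_iff, cS ⟨a, ha⟩ m] at hm
              refine hIl (Sum.inl j) ((mem_vars_iff_mem_support _).2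
                ⟨_, mem_support_iff.2 hm, ?_⟩)
              rw [Finsupp.mem_support_iff] at hjm ⊢
              rw [Finsupp.add_apply, Finsupp.mapDomain_apply hinj]; omega
        · refine hm_X_mul fun m hm => ?_
          rw [cS ⟨a, ha⟩ m] at hm
          have h1 := hIh hm
          rw [map_add, wt_inl, Finsupp.weight_single, one_smul] at h1
          have h2 : G'.w (Sum.inr ((), ⟨a, ha⟩)) = G.w a - 1 := rfl
          omega
      · have h0 : S a = 0 := hS1 a (by have := hG.w1 a; omega)
        rw [h0, mul_zero]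
        exact ⟨fun m => ⟨0, by simp⟩, fun b hb => by simp at hb, isWeightedHomogeneous_zero _ _ _⟩
    -- `I` is affine in the new variables
    set L : MvPolynomial (G.TV Unit) ℝ :=
      ∑ a : {a : ι // 2 ≤ G.w a}, X (Sum.inr ((), a)) * rename Sum.inl (S a.1) with hL
    have pr : ∀ (x : Unit × {a : ι // 2 ≤ G.w a}) (p : MvPolynomial ι ℝ),
        pderiv (Sum.inr x) (rename (Sum.inl : ι → G.TV Unit) p) = 0 := fun x p =>
      pderiv_eq_zero_of_notMem_vars (fun hv => by
        obtain ⟨i, _, hi⟩ := mem_vars_rename _ _ hv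
        exact Sum.inl_ne_inr hi)
    have dsum : ∀ (u : {a : ι // 2 ≤ G.w a} → MvPolynomial ι ℝ) (a : {a : ι // 2 ≤ G.w a}),
        pderiv (Sum.inr ((), a)) (∑ b : {a : ι // 2 ≤ G.w a},
          (X (Sum.inr ((), b)) * rename Sum.inl (u b) : MvPolynomial (G.TV Unit) ℝ))
          = rename Sum.inl (u a) := by
      intro u a
      rw [map_sum, Finset.sum_eq_single a]
      · rw [pderiv_mul, pr, mul_zero, add_zero, pderiv_X_self, one_mul]
      · intro b _ hb
        rw [pderiv_mul, pr, mul_zero, add_zero, pderiv_X_of_ne (by simpa using hb), zero_mul]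
      · simp
    have csum : ∀ (u : {a : ι // 2 ≤ G.w a} → MvPolynomial ι ℝ) (m : ι →₀ ℕ),
        coeff (Finsupp.mapDomain Sum.inl m) (∑ b : {a : ι // 2 ≤ G.w a},
          (X (Sum.inr ((), b)) * rename Sum.inl (u b) : MvPolynomial (G.TV Unit) ℝ)) = 0 := by
      intro u m
      rw [coeff_sum]
      refine Finset.sum_eq_zero fun b _ => ?_
      rw [coeff_X_mul', if_neg]
      rw [Finsupp.mem_support_iff, hnr]; simp
    obtain ⟨J, hJ⟩ := exists_rename_eq_of_vars_subset_range (I - L) Sum.inl hinj (by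
      intro x hx
      rcases x with i | x
      · exact ⟨i, rfl⟩
      · exfalso
        refine pderiv_ne_zero (Finset.mem_coe.1 hx) ?_
        rw [map_sub, hsl x.2, hL, dsum (fun a => S a.1) x.2, sub_self])
    have cJ : ∀ m, coeff m J = coeff (Finsupp.mapDomain Sum.inl m) I := by
      intro m
      rw [← coeff_rename_mapDomain Sum.inl hinj, hJ, coeff_sub, hL, csum (fun a => S a.1), sub_zero]
    have hLw : L = ∑ a, G.wv (fun _ : Unit => h) () a * rename Sum.inl (S a) := by
      rw [← Finset.sum_filter_add_sum_filter_not univ (fun b => 2 ≤ G.w b)]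
      have z : ∑ a ∈ univ.filter (fun b => ¬ 2 ≤ G.w b),
          G.wv (fun _ : Unit => h) () a * rename Sum.inl (S a) = 0 :=
        Finset.sum_eq_zero fun a ha => by
          rw [hS1 a (by have := hG.w1 a; have := (Finset.mem_filter.1 ha).2; omega), map_zero,
            mul_zero]
      rw [z, add_zero, Finset.sum_subtype (univ.filter (fun b => 2 ≤ G.w b))
        (p := fun b => 2 ≤ G.w b) (fun b => by simp)]
      exact Finset.sum_congr rfl fun a _ => by rw [GT.wv, dif_pos a.2]
    have key : G.dd (fun _ : Unit => h) () F - L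
        = ∑ b, rename Sum.inl (om b) * G.dd (fun _ : Unit => h) () (G.th b) := by
      have e1 : ∀ a, G.wv (fun _ : Unit => h) () a = ∑ b, rename Sum.inl
          (aeval G.th (pderiv b (ψ a))) * G.dd (fun _ : Unit => h) () (G.th b) := by
        intro a
        rw [← dd_aeval, hψ1, dd_X]
      rw [hLw]
      conv_lhs => rw [GT.dd, ← Finset.sum_sub_distrib]
      simp only [hom, map_sum, map_mul, map_sub, Finset.sum_mul]
      rw [Finset.sum_comm]
      refine Finset.sum_congr rfl fun a _ => ?_
      rw [← mul_sub, e1 a, Finset.sum_mul]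
      exact Finset.sum_congr rfl fun b _ => by ring
    set R0 : MvPolynomial ι ℝ := (∑ b ∈ G.U1 g, C (eval (cz h) (G.th b)) * om b) - J with hR0
    have key2 : G.dd (fun _ : Unit => h) () F - I
        = ∑ b : {a : ι // 2 ≤ G.w a}, G'.th (Sum.inr ((), b)) * rename Sum.inl (om b.1)
          + rename Sum.inl R0 := by
      have e0 : G.dd (fun _ : Unit => h) () F - I
          = (G.dd (fun _ : Unit => h) () F - L) - rename Sum.inl J := by rw [hJ]; ring
      rw [e0, key, split _ (fun b hb => by
        rw [om0 (fun a => (hA a).2.1) b hb, map_zero, zero_mul]), hR0, map_sub, map_sum,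
        add_sub_assoc, Finset.sum_subtype (univ.filter (fun b => 2 ≤ G.w b))
        (p := fun b => 2 ≤ G.w b) (fun b => by simp)]
      refine congrArg₂ _ (Finset.sum_congr rfl fun b _ => by rw [t2, mul_comm])
        (congrArg (· - _) (Finset.sum_congr rfl fun b hb => ?_))
      have hb1 : G.w b = 1 := (Finset.mem_filter.1 hb).2.1
      rw [dd_one G hG h (hb1 ▸ th_hm G hG b), map_mul, rename_C, mul_comm]
    obtain ⟨β, hβ, hβl⟩ := hIb
    have back : ∀ p : MvPolynomial ι ℝ, aeval G.th (aeval ψ p) = p := by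
      intro p
      rw [comp_aeval_apply]
      simp only [hψ1]
      exact aeval_X_left_apply p
    have up : ∀ p : MvPolynomial ι ℝ, aeval G'.th (rename Sum.inl p)
        = rename Sum.inl (aeval G.th p) := by
      intro p
      rw [aeval_rename, comp_aeval_apply]
      exact congrArg (fun f => aeval f p) (funext fun a => t1 a)
    have hβe : β = ∑ b : {a : ι // 2 ≤ G.w a},
        X (Sum.inr ((), b)) * rename Sum.inl (aeval ψ (om b.1)) + rename Sum.inl (aeval ψ R0) := by
      refine (hB s _ G' hG').1 _ _ ?_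
      rw [hβ, key2, map_add, map_sum, up, back]
      refine congrArg (· + _) (Finset.sum_congr rfl fun b _ => ?_)
      rw [map_mul, aeval_X, up, back]
    refine ⟨hA, ?_, J, ?_, ?_, ?_, ?_⟩
    · intro b hb
      refine ⟨aeval ψ (om b), back _, le_trans ?_ hβl⟩
      refine l1_le_of_emb (fun m => Finsupp.mapDomain Sum.inl m
        + Finsupp.single (Sum.inr ((), ⟨b, hb⟩)) 1)
        (fun m m' hm => Finsupp.mapDomain_injective hinj (add_right_cancel hm)) (fun m => ?_)
      have e1 : pderiv (Sum.inr ((), ⟨b, hb⟩)) β = rename Sum.inl (aeval ψ (om b)) := by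
        rw [hβe, map_add, pr, add_zero, dsum (fun a => aeval ψ (om a.1))]
      rw [← coeff_rename_mapDomain Sum.inl hinj, ← e1, coeff_pderiv, hnr]
      simp
    · intro m
      rw [cJ]; exact hIz _
    · intro j hj
      obtain ⟨m, hm, hjm⟩ := (mem_vars_iff_mem_support j).1 hj
      rw [mem_support_iff, cJ] at hm
      refine hIl (Sum.inl j) ((mem_vars_iff_mem_support _).2 ⟨_, mem_support_iff.2 hm, ?_⟩)
      rw [Finsupp.mem_support_iff] at hjm ⊢
      rwa [Finsupp.mapDomain_apply hinj]
    · intro m hm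
      rw [cJ] at hm
      have h1 := hIh hm
      rwa [wt_inl] at h1
    · refine ⟨aeval ψ R0, back _, le_trans ?_ hβl⟩
      refine l1_le_of_emb (fun m => Finsupp.mapDomain Sum.inl m)
        (Finsupp.mapDomain_injective hinj) (fun m => ?_)
      rw [hβe, coeff_add, csum (fun a => aeval ψ (om a.1)), zero_add,
        coeff_rename_mapDomain Sum.inl hinj]
  · intro hS
    constructor
    · intro b hb
      have hb1 : G.w b = 1 := (Finset.mem_filter.1 hb).2.1
      constructor
      · refine vars_sum' (P := fun j => G.g j < g) fun a _ => ?_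
        by_cases ha : G.g a < g
        · refine vars_mul' (vars_sub' (vars_pderiv' a hFg) (vars_of_X_mul (hS a).1).1) ?_
          exact (hBl g _).1 (vars_pderiv' b (fun j hj => lt_of_le_of_lt (hψv a j hj) ha))
        · rw [hz (fun a => (hS a).1) a ha, zero_mul]; simp
      · refine IsWeightedHomogeneous.sum _ _ _ fun a _ => ?_
        have w1 : ∀ m, coeff m (pderiv a F - S a) ≠ 0 → Finsupp.weight G.w m + G.w a = d + 1 := by
          intro m hm
          by_cases h1 : coeff m (pderiv a F) = 0
          · refine wt_of_X_mul (hS a).2 (fun h2 => hm ?_)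
            rw [coeff_sub, h1, h2, sub_zero]
          · exact wt_pderiv hF h1
        by_cases h0 : pderiv a F - S a = 0
        · rw [h0, zero_mul]; exact isWeightedHomogeneous_zero _ _ _
        · obtain ⟨m0, hm0⟩ := support_nonempty.2 h0
          have h1 := w1 m0 (mem_support_iff.1 hm0)
          have h2 := hG.w1 a
          have a1 : IsWeightedHomogeneous G.w (pderiv a F - S a) (d + 1 - G.w a) := fun m hm => by
            have := w1 m hm
            omega
          have a2 : G.Hm (G.w a - 1) (aeval G.th (pderiv b (ψ a))) :=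
            (hBh _ _).1 (IsWeightedHomogeneous.pderiv (hψh a) (by omega))
          have a3 := a1.mul a2
          have e : d + 1 - G.w a + (G.w a - 1) = d := by omega
          rwa [e] at a3
    · have e1 := IsWeightedHomogeneous.sum_weight_X_mul_pderiv hF
      have e2 : ∀ a, ∑ b, G.w b • (G.th b * aeval G.th (pderiv b (ψ a))) = G.w a • X a := by
        intro a
        have := congrArg (aeval G.th) (IsWeightedHomogeneous.sum_weight_X_mul_pderiv (hψh a))
        simpa only [map_sum, map_nsmul, map_mul, aeval_X, hψ1] using this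
      have e3 : ∑ b, G.w b • (G.th b * om b)
          = (d + 1) • F - ∑ a, G.w a • (X a * S a) := by
        rw [← e1, ← Finset.sum_sub_distrib]
        simp only [hom, Finset.mul_sum, Finset.smul_sum]
        rw [Finset.sum_comm]
        refine Finset.sum_congr rfl fun a _ => ?_
        have : ∑ b, G.w b • (G.th b * ((pderiv a F - S a) * aeval G.th (pderiv b (ψ a))))
            = (pderiv a F - S a) * ∑ b, G.w b • (G.th b * aeval G.th (pderiv b (ψ a))) := by
          rw [Finset.mul_sum]
          exact Finset.sum_congr rfl fun b _ => by rw [nsmul_eq_mul, nsmul_eq_mul]; ring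
        rw [this, e2, nsmul_eq_mul, nsmul_eq_mul, nsmul_eq_mul]; ring
      rw [split _ (fun b hb => by
        rw [om0 (fun a => (hS a).1) b hb, mul_zero, smul_zero])] at e3
      have e4 : ∑ b ∈ G.U1 g, G.w b • (G.th b * om b) = ∑ b ∈ G.U1 g, G.th b * om b :=
        Finset.sum_congr rfl fun b hb => by rw [(Finset.mem_filter.1 hb).2.1, one_smul]
      rw [e4] at e3
      simp only [nsmul_eq_mul] at e3
      simp only [map_natCast]
      rw [add_assoc, e3]; ring

end Vale.Agent.P057T.Eq
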