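import Vale.Agent.P057T.Eq.Defs
import Vale.Agent.P057T.Chart

/-! Integration of approximate integrality of the derivatives. -/

set_option linter.all false

open MvPolynomial Finset
open scoped Pointwise

namespace Vale.Agent.P057T.Eq

namespace IntA

variable {ι : Type} [Fintype ι] [DecidableEq ι] {G : GT ι}

theorem bd_mono {F : MvPolynomial ι ℝ} {H H' : ℝ} (h : G.Bd F H) (hH : H ≤ H') : G.Bd F H' := by
  obtain ⟨b, h1, h2⟩ := h
  exact ⟨b, h1, h2.trans hH⟩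

theorem bd_add {F F' : MvPolynomial ι ℝ} {H H' : ℝ} (h : G.Bd F H) (h' : G.Bd F' H') :
    G.Bd (F + F') (H + H') := by
  obtain ⟨b, h1, h2⟩ := h
  obtain ⟨b', h1', h2'⟩ := h'
  exact ⟨b + b', by rw [map_add, h1, h1'], (L1.nrm_add_le b b').trans (add_le_add h2 h2')⟩

theorem bd_C {F : MvPolynomial ι ℝ} {H : ℝ} (a : ℝ) (ha : 0 ≤ a) (h : G.Bd F H) :
    G.Bd (C a * F) (a * H) := by
  obtain ⟨b, h1, h2⟩ := h
  refine ⟨C a * b, by rw [map_mul, h1, aeval_C]; rfl, (L1.nrm_C_mul a b).le.trans ?_⟩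
  rw [abs_of_nonneg ha]
  exact mul_le_mul_of_nonneg_left h2 ha

theorem bd_th {F : MvPolynomial ι ℝ} {H : ℝ} (a : ι) (h : G.Bd F H) : G.Bd (G.th a * F) H := by
  obtain ⟨b, h1, h2⟩ := h
  refine ⟨X a * b, by rw [map_mul, h1, aeval_X], (L1.nrm_mul_le _ b).trans ?_⟩
  rw [L1.nrm_X, one_mul]
  exact h2

theorem bd_sum {κ : Type} (S : Finset κ) (F : κ → MvPolynomial ι ℝ) (H : ℝ)
    (h : ∀ a ∈ S, G.Bd (F a) H) : G.Bd (∑ a ∈ S, F a) (S.card * H) := by
  classical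
  induction S using Finset.induction_on with
  | empty => exact ⟨0, by simp, by simp [l1]⟩
  | insert a S ha ih =>
    rw [sum_insert ha, card_insert_of_notMem ha]
    refine bd_mono (bd_add (h a (mem_insert_self _ _))
      (ih fun b hb => h b (mem_insert_of_mem hb))) (le_of_eq ?_)
    push_cast
    ring

theorem zr_mono {s g : ℕ} {H H' : ℝ} (h : G.Zr s g H) (hH : H' ≤ H) : G.Zr s g H' :=
  fun e F h1 h2 h3 h4 h5 h6 => h e F h1 h2 h3 h4 h5 (bd_mono h6 hH)

theorem dd_C {κ : Type} [Fintype κ] [DecidableEq κ] (h : κ → ι → ℤ) (j : κ) (a : ℝ)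
    (F : MvPolynomial ι ℝ) : G.dd h j (C a * F) = C a * G.dd h j F := by
  unfold GT.dd
  rw [mul_sum]
  refine sum_congr rfl fun b _ => ?_
  rw [pderiv_C_mul, map_mul, rename_C]
  ring

theorem single_of_weight {w : ι → ℕ} (hw : ∀ a, 1 ≤ w a) {m : ι →₀ ℕ}
    (h : Finsupp.weight w m = 1) : ∃ b, m = Finsupp.single b 1 := by
  have h0 : m ≠ 0 := by
    rintro rfl
    simp at h
  obtain ⟨b, hb⟩ := Finsupp.support_nonempty_iff.2 h0
  have hb' : m b ≠ 0 := Finsupp.mem_support_iff.1 hb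
  have h1 := Finsupp.weight_sub_single_add (w := w) hb'
  have h2 : Finsupp.weight w (m - Finsupp.single b 1) = 0 := by
    have := hw b
    omega
  refine ⟨b, ?_⟩
  have h3 : m - Finsupp.single b 1 = 0 := by
    ext c
    have := Finsupp.le_weight w (s := c) (by have := hw c; omega) (m - Finsupp.single b 1)
    rw [h2] at this
    simpa using this
  have h4 := Finsupp.sub_add_single_one_cancel hb'
  rw [h3, zero_add] at h4
  exact h4.symm

theorem eval_add {w : ι → ℕ} (hw : ∀ a, 1 ≤ w a) {F : MvPolynomial ι ℝ}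
    (hF : IsWeightedHomogeneous w F 1) (x y : ι → ℝ) :
    eval (x + y) F = eval x F + eval y F := by
  simp only [eval_eq, ← sum_add_distrib]
  refine sum_congr rfl fun m hm => ?_
  obtain ⟨b, rfl⟩ := single_of_weight hw (hF (mem_support_iff.1 hm))
  simp [Finsupp.support_single_ne_zero, mul_add]

theorem inl_add {s g : ℕ} (hB : BD) (ok : G.Ok s) {R : ℝ} {x y : ι → ℤ}
    (hx : G.InL (G.U1 g) R x) (hy : G.InL (G.U1 g) R y) : G.InL (G.U1 g) (2 * R) (x + y) := by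
  refine ⟨(Lat _).add_mem hx.1 hy.1, ?_⟩
  have e : cz (x + y) = cz x + cz y := by
    funext a
    simp [cz]
  have h1 : ∀ a ∈ G.U1 g, eval (cz (x + y)) (G.th a) ^ 2 ≤
      2 * eval (cz x) (G.th a) ^ 2 + 2 * eval (cz y) (G.th a) ^ 2 := by
    intro a ha
    have h2 : G.Hm (G.w a) (aeval G.th (X a : MvPolynomial ι ℝ)) :=
      ((hB s ι G ok).2.1 _ _).1 (isWeightedHomogeneous_X ℝ G.w a)
    rw [aeval_X, (mem_filter.1 ha).2.1] at h2
    rw [e, eval_add ok.w1 h2]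
    nlinarith [sq_nonneg (eval (cz x) (G.th a) - eval (cz y) (G.th a))]
  refine (sum_le_sum h1).trans ?_
  rw [sum_add_distrib, ← mul_sum, ← mul_sum]
  nlinarith [hx.2, hy.2]

theorem bk_U1 {s : ℕ} (ok : G.Ok s) (g : ℕ) : G.Bk (G.U1 g) := by
  intro a b h
  obtain ⟨h1, h2⟩ := ok.blk a b h
  simp only [GT.U1, mem_filter, mem_univ, true_and, h1, h2]

/-- pigeonhole of a bounded natural number -/
theorem pig {α : Type} (E : Finset α) (n : α → ℕ) (M : ℝ) (hM : 1 ≤ M)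
    (h : ∀ x ∈ E, 1 ≤ n x ∧ (n x : ℝ) ≤ M) :
    ∃ n0 : ℕ, 1 ≤ n0 ∧ (n0 : ℝ) ≤ M ∧ (E.card : ℝ) ≤ M * (E.filter fun x => n x = n0).card := by
  have h1 : 1 ≤ ⌊M⌋₊ := Nat.le_floor (by simpa using hM)
  have h2 : E.card = ∑ k ∈ Icc 1 ⌊M⌋₊, (E.filter fun x => n x = k).card :=
    card_eq_sum_card_fiberwise fun x hx =>
      mem_coe.2 (mem_Icc.2 ⟨(h x hx).1, Nat.le_floor (h x hx).2⟩)
  obtain ⟨k, hk, h3⟩ := exists_max_image (Icc 1 ⌊M⌋₊)
    (fun k => (E.filter fun x => n x = k).card) ⟨1, mem_Icc.2 ⟨le_rfl, h1⟩⟩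
  have h4 := sum_le_card_nsmul _ _ _ h3
  rw [← h2, Nat.card_Icc, Nat.add_sub_cancel, smul_eq_mul] at h4
  have h5 : (⌊M⌋₊ : ℝ) ≤ M := Nat.floor_le (by linarith)
  refine ⟨k, (mem_Icc.1 hk).1, le_trans (by exact_mod_cast (mem_Icc.1 hk).2) h5, ?_⟩
  refine le_trans (Nat.cast_le.2 h4) ?_
  rw [Nat.cast_mul]
  exact mul_le_mul_of_nonneg_right h5 (by positivity)

/-- many good additive quadruples through two popular points -/
theorem quad {V : Type} [AddCommGroup V] [DecidableEq V] (E : Finset V) (hE : E.Nonempty)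
    (good : (Fin 3 → V) → Prop) [DecidablePred good] (ε : ℝ)
    (hbad : ∀ T : Finset (Fin 3 → V), (∀ h ∈ T, (∀ j, h j ∈ E) ∧ ¬ good h) → (T.card : ℝ) < ε) :
    ∃ a ∈ E, ∃ c ∈ E, (E.card : ℝ) ^ 4 ≤ (E + E).card * (ε + (E.card : ℝ) ^ 2 *
      (E.filter fun b => b + c - a ∈ E ∧ good ![a, b, c]).card) := by
  let T := (Fintype.piFinset fun _ : Fin 3 => E).filter fun h => h 1 + h 2 - h 0 ∈ E
  have h1 : addEnergy E E ≤ T.card := by
    refine card_le_card_of_injOn (fun x => ![x.1.1, x.1.2, x.2.2]) (fun x hx => ?_)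
      fun x hx y hy hxy => ?_
    · simp only [coe_filter, mem_product, Set.mem_setOf_eq] at hx
      refine mem_coe.2 (mem_filter.2 ⟨Fintype.mem_piFinset.2 fun j => ?_, ?_⟩)
      · fin_cases j
        exacts [hx.1.1.1, hx.1.1.2, hx.1.2.2]
      · show x.1.2 + x.2.2 - x.1.1 ∈ E
        rw [← hx.2, add_sub_cancel_left]
        exact hx.1.2.1
    · simp only [coe_filter, mem_product, Set.mem_setOf_eq] at hx hy
      have a : x.1.1 = y.1.1 := congrFun hxy 0
      have b : x.1.2 = y.1.2 := congrFun hxy 1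
      have c : x.2.2 = y.2.2 := congrFun hxy 2
      have d : x.2.1 = y.2.1 := by
        have := hx.2
        rw [a, b, c, ← hy.2] at this
        exact add_left_cancel this
      exact Prod.ext (Prod.ext a b) (Prod.ext d c)
  have h2 := hbad (T.filter fun h => ¬ good h) fun h hh =>
    ⟨Fintype.mem_piFinset.1 (mem_filter.1 (mem_filter.1 hh).1).1, (mem_filter.1 hh).2⟩
  have h3 := card_filter_add_card_filter_not (s := T) good
  obtain ⟨p, hp, h4⟩ := exists_max_image (E ×ˢ E)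
    (fun p => (E.filter fun b => b + p.2 - p.1 ∈ E ∧ good ![p.1, b, p.2]).card) (hE.product hE)
  have h5 : (T.filter good).card ≤
      ∑ r ∈ E ×ˢ E, (E.filter fun b => b + r.2 - r.1 ∈ E ∧ good ![r.1, b, r.2]).card := by
    rw [card_eq_sum_card_fiberwise (f := fun h : Fin 3 → V => (h 0, h 2)) (t := E ×ˢ E)]
    · refine sum_le_sum fun r _ => card_le_card_of_injOn (fun h => h 1) (fun h hh => ?_)
        fun h hh h' hh' e => ?_
      · simp only [coe_filter, mem_filter, Set.mem_setOf_eq, T] at hh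
        obtain ⟨⟨⟨a, b⟩, c⟩, rfl⟩ := hh
        refine mem_coe.2 (mem_filter.2 ⟨Fintype.mem_piFinset.1 a 1, b, ?_⟩)
        have : ![h 0, h 1, h 2] = h := by
          funext j
          fin_cases j <;> rfl
        show good ![h 0, h 1, h 2]
        rw [this]
        exact c
      · simp only [coe_filter, Set.mem_setOf_eq] at hh hh'
        have a := hh.2.trans hh'.2.symm
        funext j
        fin_cases j
        exacts [congrArg Prod.fst a, e, congrArg Prod.snd a]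
    · intro h hh
      have a := Fintype.mem_piFinset.1 (mem_filter.1 (mem_filter.1 (mem_coe.1 hh)).1).1
      exact mem_coe.2 (mem_product.2 ⟨a 0, a 2⟩)
  have h6 := h5.trans (sum_le_card_nsmul _ _ _ h4)
  rw [card_product, smul_eq_mul] at h6
  refine ⟨p.1, (mem_product.1 hp).1, p.2, (mem_product.1 hp).2, ?_⟩
  have h7 : (E.card : ℝ) ^ 2 * (E.card : ℝ) ^ 2 ≤ (E + E).card * (T.card : ℝ) := by
    exact_mod_cast (le_card_add_mul_addEnergy E E).trans (Nat.mul_le_mul_left _ h1)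
  have h8 : ((T.filter good).card : ℝ) ≤ (E.card : ℝ) * E.card *
      (E.filter fun b => b + p.2 - p.1 ∈ E ∧ good ![p.1, b, p.2]).card := by exact_mod_cast h6
  have h9 : ((T.filter good).card : ℝ) + (T.filter fun h => ¬ good h).card = T.card := by
    exact_mod_cast h3
  calc (E.card : ℝ) ^ 4 = (E.card : ℝ) ^ 2 * (E.card : ℝ) ^ 2 := by ring
    _ ≤ _ := h7
    _ ≤ _ := mul_le_mul_of_nonneg_left (by nlinarith) (by positivity)

theorem num {Y D x y z : ℝ} (hY : 1 ≤ Y) (hD : 0 < D) (hz : 0 ≤ z)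
    (h1 : Real.exp (-(2 * Y)) * D ≤ x) (h2 : x ≤ Real.exp (5 * Y) * D)
    (h3 : y ≤ Real.exp (17 * Y) * D)
    (h4 : x ^ 4 ≤ y * (Real.exp (-(26 * Y)) * D ^ 3 + x ^ 2 * z)) :
    Real.exp (-(36 * Y)) * D ≤ z := by
  have hE : 2 ≤ Real.exp Y := by linarith [Real.add_one_le_exp Y]
  have e : ∀ n : ℕ, Real.exp (n * Y) = Real.exp Y ^ n := fun n => Real.exp_nat_mul Y n
  have e2 := e 2
  have e5 := e 5
  have e17 := e 17
  have e26 := e 26
  have e36 := e 36
  push_cast at e2 e5 e17 e26 e36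
  rw [Real.exp_neg, e2] at h1
  rw [e5] at h2
  rw [e17] at h3
  rw [Real.exp_neg, e26] at h4
  rw [Real.exp_neg, e36]
  generalize Real.exp Y = u at *
  have u0 : 0 < u := by linarith
  have x0 : 0 ≤ x := le_trans (by positivity) h1
  have a : ((u ^ 2)⁻¹ * D) ^ 4 ≤ x ^ 4 := pow_le_pow_left₀ (by positivity) h1 4
  have b : x ^ 2 * z ≤ (u ^ 5 * D) ^ 2 * z :=
    mul_le_mul_of_nonneg_right (pow_le_pow_left₀ x0 h2 2) hz
  have c : y * ((u ^ 26)⁻¹ * D ^ 3 + x ^ 2 * z) ≤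
      u ^ 17 * D * ((u ^ 26)⁻¹ * D ^ 3 + (u ^ 5 * D) ^ 2 * z) :=
    mul_le_mul h3 (by linarith) (by positivity) (by positivity)
  have d := a.trans (h4.trans c)
  have d1 : u ^ 9 * (((u ^ 2)⁻¹ * D) ^ 4) = D ^ 3 * (u * D) := by field_simp
  have d2 : u ^ 9 * (u ^ 17 * D * ((u ^ 26)⁻¹ * D ^ 3 + (u ^ 5 * D) ^ 2 * z)) =
      D ^ 3 * (D + u ^ 36 * z) := by field_simp
  have d3 := mul_le_mul_of_nonneg_left d (by positivity : 0 ≤ u ^ 9)
  rw [d1, d2] at d3
  have d4 := le_of_mul_le_mul_left d3 (by positivity)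
  rw [inv_mul_le_iff₀ (by positivity)]
  nlinarith

theorem lt_pw {P : ℝ} (hP : 2 ≤ P) {a n : ℕ} (h : a ≤ n) : (a : ℝ) ≤ P ^ n := by
  have h1 : (n : ℝ) ≤ 2 ^ n := by exact_mod_cast (Nat.lt_two_pow_self (n := n)).le
  exact le_trans (by exact_mod_cast h) (h1.trans (pow_le_pow_left₀ (by norm_num) hP n))

end IntA

open IntA in
theorem int (hB : BD) (_hT : TANOK) (hD : DET) (hBa : BALL) (hS : SLOPE) (hF : FORM)
    (hL : LINV) : INT := by
  classical
  intro s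
  rcases Nat.eq_zero_or_pos s with rfl | hs
  · exact ⟨0, fun ι _ _ G P Y R g d F E _ _ _ h => absurd h (by omega)⟩
  obtain ⟨cB, hBa⟩ := hBa s hs
  obtain ⟨cL, hL⟩ := hL s
  refine ⟨cL + cB + 2 * s + 26 + 2,
    fun ι _ _ G P Y R g d F E ok sz d1 ds R1 RY hm lo zr rare den hE => ?_⟩
  have P2 := sz.P2
  have Y1 := sz.Y1
  have P1 : 1 ≤ P := by linarith
  obtain ⟨M, hM⟩ : ∃ M, M = P ^ (cL + cB + 2 * s + 26) := ⟨_, rfl⟩
  have m1 : 36 * P ^ cL ≤ M := by
    have a : (36 : ℝ) ≤ P ^ 6 := le_trans (by norm_num) (pow_le_pow_left₀ (by norm_num) P2 6)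
    rw [hM]
    refine le_trans (mul_le_mul_of_nonneg_right a (by positivity)) ?_
    rw [← pow_add]
    exact pow_le_pow_right₀ P1 (by omega)
  have m2 : P ^ cB ≤ M := hM ▸ pow_le_pow_right₀ P1 (by omega)
  have m3 : P ≤ M := by
    rw [hM]
    exact le_self_pow₀ P1 (by omega)
  have m4 : ((2 * s + 26 : ℕ) : ℝ) ≤ M := hM ▸ lt_pw P2 (by omega)
  push_cast at m4
  have s0 : (0 : ℝ) ≤ s := by positivity
  have M0 : 0 ≤ M := by linarith
  have m5 : 4 * M ≤ P ^ (cL + cB + 2 * s + 26 + 2) := by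
    rw [pow_add _ _ 2, ← hM, mul_comm]
    exact mul_le_mul_of_nonneg_left (by nlinarith) M0
  generalize P ^ (cL + cB + 2 * s + 26 + 2) = K at *
  have MY : M ≤ M * Y := le_mul_of_one_le_right M0 Y1
  have KY : 4 * (M * Y) ≤ K * Y := by
    rw [← mul_assoc]
    exact mul_le_mul_of_nonneg_right m5 (by linarith)
  have sY : (2 * s + 26) * Y ≤ M * Y := mul_le_mul_of_nonneg_right m4 (by linarith)
  have s1 : (s : ℝ) ≤ s * Y := le_mul_of_one_le_right s0 Y1
  have D0 : 0 < G.dv (G.U1 g) := (hD s ι G ok).1 _ (bk_U1 ok g)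
  have zB : G.Zr s g (P ^ cB) :=
    zr_mono zr (by linarith [Real.add_one_le_exp (K * Y)])
  have ball := fun R' E' h => hBa ι G P R' g E' ok ⟨sz.cd, P2, le_rfl⟩ zB h
  choose! n I hn using fun h (hh : h ∈ E) => (hE h hh).2
  have eY : 1 ≤ Real.exp Y := Real.one_le_exp (by linarith)
  obtain ⟨n0, n1, n2, n3⟩ := pig E n (Real.exp Y) eY fun x hx => ⟨(hn x hx).1, (hn x hx).2.1⟩
  obtain ⟨E1, hE1⟩ : ∃ E1, E1 = E.filter fun x => n x = n0 := ⟨_, rfl⟩
  rw [← hE1] at n3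
  have sub : ∀ x ∈ E1, x ∈ E ∧ n x = n0 := fun x hx => mem_filter.1 (hE1 ▸ hx)
  have inl : ∀ x ∈ E1, G.InL (G.U1 g) R x := fun x hx => (hE x (sub x hx).1).1
  have c1 : Real.exp (-(2 * Y)) * G.dv (G.U1 g) ≤ E1.card := by
    refine le_of_mul_le_mul_left (le_trans (le_of_eq ?_) (den.trans n3)) (Real.exp_pos Y)
    rw [← mul_assoc, ← Real.exp_add]
    congr 2
    ring
  have c2 : (E1.card : ℝ) ≤ Real.exp (5 * Y) * G.dv (G.U1 g) :=
    (ball R E1 inl).trans (mul_le_mul_of_nonneg_right (Real.exp_le_exp.2 (by linarith)) D0.le)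
  have c3 : ((E1 + E1).card : ℝ) ≤ Real.exp (17 * Y) * G.dv (G.U1 g) := by
    refine (ball (2 * R) (E1 + E1) fun h hh => ?_).trans
      (mul_le_mul_of_nonneg_right (Real.exp_le_exp.2 (by linarith)) D0.le)
    obtain ⟨x, hx, y, hy, rfl⟩ := mem_add.1 hh
    exact inl_add hB ok (inl x hx) (inl y hy)
  have ne1 : E1.Nonempty := by
    rw [← card_pos, ← Nat.cast_pos (α := ℝ)]
    exact lt_of_lt_of_le (by positivity) c1
  obtain ⟨a, ha, c, hc, q4⟩ := quad E1 ne1 (fun h => (G.tan h).Zr s g (Real.exp (K * Y)))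
    (Real.exp (-(26 * Y)) * G.dv (G.U1 g) ^ 3) fun T hT => by
      refine (rare T fun h hh => ⟨fun j => inl _ ((hT h hh).1 j), (hT h hh).2⟩).trans_le ?_
      rw [Fintype.card_fin]
      exact mul_le_mul_of_nonneg_right (Real.exp_le_exp.2 (by linarith)) (by positivity)
  have c4 := num Y1 D0 (Nat.cast_nonneg _) c1 c2 c3 q4
  obtain ⟨E2, hE2⟩ : ∃ E2, E2 = E1.filter fun b => b + c - a ∈ E1 ∧
      (G.tan ![a, b, c]).Zr s g (Real.exp (K * Y)) := ⟨_, rfl⟩
  rw [← hE2] at c4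
  have sub2 : ∀ b ∈ E2, b ∈ E1 ∧ b + c - a ∈ E1 ∧ (G.tan ![a, b, c]).Zr s g (Real.exp (K * Y)) :=
    fun b hb => mem_filter.1 (hE2 ▸ hb)
  have hm' : G.Hm (d + 1) (C (n0 : ℝ) * F) := IsWeightedHomogeneous.C_mul hm _
  have lo' : G.Lo g (C (n0 : ℝ) * F) := Chart.vars_mul' (Chart.vars_C' _) lo
  have hI : ∀ x ∈ E1, IsZ (I x) ∧ (G.tan fun _ : Unit => x).Lo g (I x) ∧
      (G.tan fun _ : Unit => x).Hm d (I x) ∧ (G.tan fun _ : Unit => x).Bd
        (G.dd (fun _ : Unit => x) () (C (n0 : ℝ) * F) - I x) (Real.exp Y) := by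
    intro x hx
    have := (hn x (sub x hx).1).2.2
    rw [(sub x hx).2] at this
    rw [dd_C]
    exact this
  have z4 : 4 * 3 ^ s * Real.exp Y ≤ Real.exp (K * Y) := by
    have a1 : (3 : ℝ) ≤ Real.exp 2 := by linarith [Real.add_one_le_exp (2 : ℝ)]
    have a2 : (4 : ℝ) ≤ Real.exp 3 := by linarith [Real.add_one_le_exp (3 : ℝ)]
    have a3 : (3 : ℝ) ^ s ≤ Real.exp (s * 2) := by
      rw [Real.exp_nat_mul]
      exact pow_le_pow_left₀ (by norm_num) a1 s
    refine (mul_le_mul_of_nonneg_right (mul_le_mul a2 a3 (by positivity) (by positivity))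
      (by positivity)).trans ?_
    rw [← Real.exp_add, ← Real.exp_add]
    exact Real.exp_le_exp.2 (by linarith)
  have sl := fun b (hb : b ∈ E2) => hS s ι G g d (Real.exp Y) _ ![a, b, c] I ok d1 (by omega) hm' lo'
    (fun x hx => hI x (by
      rcases hx with h | h | h | h <;> rw [h]
      exacts [ha, (sub2 b hb).1, hc, (sub2 b hb).2.1])) (zr_mono (sub2 b hb).2.2 z4)
  obtain ⟨b0, hb0⟩ : E2.Nonempty := by
    rw [← card_pos, ← Nat.cast_pos (α := ℝ)]
    exact lt_of_lt_of_le (by positivity) c4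
  choose S0 hS0 using fun x => (sl b0 hb0 x).2
  obtain ⟨S, hS1, hS2⟩ : ∃ S : ι → MvPolynomial ι ℝ, (∀ x, G.w x = 1 → S x = 0) ∧
      ∀ x : {a : ι // 2 ≤ G.w a}, S x.1 = S0 x :=
    ⟨fun x => if h : 2 ≤ G.w x then S0 ⟨x, h⟩ else 0, fun x hx => dif_neg (by omega),
      fun x => dif_pos x.2⟩
  obtain ⟨om, f1, f2⟩ := hF s ι G g d _ S ok d1 hm' lo' hS1
  have f3 := fun b (hb : b ∈ E2) => f1 b (I b) (Real.exp Y) (inl b (sub2 b hb).1).1
    (hI b (sub2 b hb).1).1 (hI b (sub2 b hb).1).2.1 (hI b (sub2 b hb).1).2.2.1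
    (hI b (sub2 b hb).1).2.2.2 fun x => by
      rw [hS2, ← hS0]
      exact (sl b hb x).1.symm.trans (sl b0 hb0 x).1
  obtain ⟨g1, g2, -⟩ := f3 b0 hb0
  obtain ⟨g3, g4⟩ := f2 fun x => (g1 x).2
  have L1' : P ^ cL * (36 * Y) ≤ M * Y := by
    have := mul_le_mul_of_nonneg_right m1 (by linarith : 0 ≤ Y)
    linarith
  obtain ⟨k, J, k1, k2, j1, j2, j3, j4⟩ := hL ι G P (36 * Y) R g d om E2 ok
    ⟨sz.cd, P2, by linarith⟩ d1 (by omega) R1 (by linarith)
    (zr_mono zr (Real.exp_le_exp.2 (by linarith))) g3 c4 fun b hb => by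
      obtain ⟨J, a1, a2, a3, a4⟩ := (f3 b hb).2.2
      exact ⟨inl b (sub2 b hb).1, J, a1, a2, a3,
        bd_mono a4 (Real.exp_le_exp.2 (by linarith))⟩
  have kM : (k : ℝ) ≤ Real.exp (M * Y) := k2.trans (Real.exp_le_exp.2 L1')
  have es : (s : ℝ) ≤ Real.exp s := by linarith [Real.add_one_le_exp (s : ℝ)]
  have eP : P ≤ Real.exp P := by linarith [Real.add_one_le_exp P]
  refine ⟨k * (d + 1) * n0, C (k : ℝ) * (∑ x, C (G.w x : ℝ) * (X x * S x)) + J,
    Nat.succ_le_of_lt (by positivity), ?_, ?_, ?_, ?_, ?_⟩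
  · have a1 : ((d + 1 : ℕ) : ℝ) ≤ Real.exp s := le_trans (by exact_mod_cast ds) es
    rw [Nat.cast_mul, Nat.cast_mul]
    refine (mul_le_mul (mul_le_mul kM a1 (by positivity) (by positivity)) n2 (by positivity)
      (by positivity)).trans ?_
    rw [← Real.exp_add, ← Real.exp_add]
    exact Real.exp_le_exp.2 (by linarith)
  · have a1 : ∀ m : ℕ, L1.IsInt (C (m : ℝ) : MvPolynomial ι ℝ) := fun m => by
      simpa using L1.isInt_C (σ := ι) (m : ℤ)
    exact L1.IsInt.add ((a1 k).mul (L1.isInt_sum fun x _ =>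
      (a1 _).mul ((L1.isInt_X x).mul (g1 x).1))) j1
  · exact Chart.vars_add' (Chart.vars_mul' (Chart.vars_C' _) (Chart.vars_sum' fun x _ =>
      Chart.vars_mul' (Chart.vars_C' _) (g1 x).2.1)) j2
  · exact IsWeightedHomogeneous.add (IsWeightedHomogeneous.C_mul
      (IsWeightedHomogeneous.sum _ _ _ fun x _ => IsWeightedHomogeneous.C_mul (g1 x).2.2 _) _) j3
  · have e : C ((k * (d + 1) * n0 : ℕ) : ℝ) * F -
        (C (k : ℝ) * (∑ x, C (G.w x : ℝ) * (X x * S x)) + J) =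
        C (k : ℝ) * (∑ b ∈ univ.filter (fun b => 2 ≤ G.w b), C (G.w b : ℝ) * (G.th b * om b)) +
          (C (k : ℝ) * (∑ b ∈ G.U1 g, G.th b * om b) - J) := by
      rw [Nat.cast_mul, Nat.cast_mul, map_mul, map_mul, mul_assoc, mul_assoc, g4]
      ring
    rw [e]
    have a1 := bd_sum (G := G) (univ.filter fun b => 2 ≤ G.w b)
      (fun b => C (G.w b : ℝ) * (G.th b * om b)) (Real.exp s * Real.exp Y) fun b hb =>
        bd_mono (bd_C _ (by positivity) (bd_th b (g2 b (mem_filter.1 hb).2)))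
          (mul_le_mul_of_nonneg_right (le_trans (by exact_mod_cast ok.ws b) es) (by positivity))
    refine bd_mono (bd_add (bd_C _ (by positivity) a1) j4) ?_
    have a2 : ((univ.filter fun b => 2 ≤ G.w b).card : ℝ) ≤ Real.exp P :=
      le_trans (by exact_mod_cast card_filter_le _ _) (sz.cd.trans eP)
    have a3 : (k : ℝ) * (((univ.filter fun b => 2 ≤ G.w b).card : ℝ) * (Real.exp s * Real.exp Y)) ≤
        Real.exp (3 * (M * Y)) := by
      refine (mul_le_mul kM (mul_le_mul_of_nonneg_right a2 (by positivity)) (by positivity)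
        (by positivity)).trans ?_
      rw [← Real.exp_add, ← Real.exp_add, ← Real.exp_add]
      exact Real.exp_le_exp.2 (by linarith)
    have a4 : Real.exp (P ^ cL * (36 * Y)) ≤ Real.exp (3 * (M * Y)) :=
      Real.exp_le_exp.2 (by linarith)
    have a5 : 2 * Real.exp (3 * (M * Y)) ≤ Real.exp (K * Y) := by
      have b1 : 2 ≤ Real.exp (M * Y) := by linarith [Real.add_one_le_exp (M * Y)]
      refine (mul_le_mul_of_nonneg_right b1 (by positivity)).trans ?_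
      rw [← Real.exp_add]
      exact Real.exp_le_exp.2 (by linarith)
    linarith

end Vale.Agent.P057T.Eq
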