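import Vale.Agent.P057T.Eq.Defs

/-!
Row JZ: the tangent tower has no bounded integer form on the groups `< g`,
outside a rare set of tuples.
-/

open MvPolynomial Finset

namespace Vale.Agent.P057T.Eq

namespace Jz

variable {ι : Type} [Fintype ι] [DecidableEq ι] (G : GT ι)

theorem bd_mono {F : MvPolynomial ι ℝ} {H H' : ℝ} (h : G.Bd F H) (hH : H ≤ H') : G.Bd F H' := by
  obtain ⟨b, hb, hl⟩ := h
  exact ⟨b, hb, hl.trans hH⟩

theorem big_anti {g : ℕ} {H H' : ℝ} (h : G.Big g H') (hH : H ≤ H') : G.Big g H :=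
  fun e k I hk hI hL hm hb => h e k I hk hI hL hm (bd_mono G hb hH)

theorem small_mono {g : ℕ} {η η' : ℝ} (h : G.Small g η) (hη : η ≤ η') : G.Small g η' := by
  intro j hj hg
  obtain ⟨v, h1, h2, h3⟩ := h j hj hg
  exact ⟨v, h1, h2, fun a => (h3 a).trans hη⟩

theorem zr_anti {s g : ℕ} {H H' : ℝ} (h : G.Zr s g H') (hH : H ≤ H') : G.Zr s g H :=
  fun e F h1 h2 h3 h4 h5 hb => h e F h1 h2 h3 h4 h5 (bd_mono G hb hH)

theorem thr_mono {c c' Z Z' : ℝ} (hc : 0 < c) (hcc : c ≤ c') (hZ : 0 < Z) (hZ' : 0 ≤ Z') :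
    min (Real.exp (-(c' * Z'))) (c' * Z)⁻¹ ≤ min (Real.exp (-(c * Z'))) (c * Z)⁻¹ := by
  refine min_le_min ?_ ?_
  · exact Real.exp_le_exp.2 (neg_le_neg (mul_le_mul_of_nonneg_right hcc hZ'))
  · exact inv_anti₀ (mul_pos hc hZ) (mul_le_mul_of_nonneg_right hcc hZ.le)

theorem rg_mono {WW : ℕ → ℝ} {c c' Y : ℝ} {g0 g1 : ℕ} (h : G.Rg WW c' Y g0) (hc : 0 < c)
    (hcc : c ≤ c') (hY : 0 < Y) (hW : ∀ g, 0 ≤ WW g) (hg : g1 ≤ g0) : G.Rg WW c Y g1 := by
  intro g hlt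
  obtain ⟨h1, h2⟩ := h g (lt_of_lt_of_le hlt hg)
  have hZ : 0 < Y + WW g := by linarith [hW g]
  have hZ' : 0 ≤ Y + WW (g + 1) := by linarith [hW (g + 1)]
  refine ⟨big_anti G h1 (Real.exp_le_exp.2 (mul_le_mul_of_nonneg_right hcc hZ.le)), ?_⟩
  exact small_mono G h2 (thr_mono hc hcc hZ hZ')

theorem bk_U1 {s : ℕ} (hG : G.Ok s) (g : ℕ) : G.Bk (G.U1 g) := by
  intro a b hab
  obtain ⟨h1, h2⟩ := hG.blk a b hab
  simp only [GT.U1, mem_filter, mem_univ, true_and, h1, h2]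

theorem q_vars_U1 {s : ℕ} (hG : G.Ok s) (g : ℕ) : ∀ a ∈ G.U1 g, (G.q a).vars ⊆ G.U1 g := by
  intro a ha b hb
  simp only [GT.U1, mem_filter, mem_univ, true_and] at ha ⊢
  have hlo := hG.ql a b hb
  refine ⟨?_, by omega⟩
  obtain ⟨m, hm, hbm⟩ := (mem_vars_iff_mem_support b).1 hb
  have hw : Finsupp.weight G.w m = G.w a := hG.qh a (mem_support_iff.1 hm)
  have hle : G.w b ≤ Finsupp.weight G.w m :=
    Finsupp.le_weight_of_ne_zero' G.w (Finsupp.mem_support_iff.1 hbm)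
  have := hG.w1 b
  omega

theorem U1_mono {g g' : ℕ} (h : g ≤ g') : G.U1 g ⊆ G.U1 g' := by
  intro a ha
  simp only [GT.U1, mem_filter, mem_univ, true_and] at ha ⊢
  exact ⟨ha.1, lt_of_lt_of_le ha.2 h⟩

theorem card_TV (κ : Type) [Fintype κ] [DecidableEq κ] :
    Fintype.card (G.TV κ) ≤ (1 + Fintype.card κ) * Fintype.card ι := by
  have h := Fintype.card_subtype_le (fun a : ι => 2 ≤ G.w a)
  rw [Fintype.card_sum, Fintype.card_prod, add_mul, one_mul]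
  exact Nat.add_le_add_left (Nat.mul_le_mul_left _ h) _

theorem nat_le_pow {P : ℝ} (hP : 2 ≤ P) (n : ℕ) : ((n : ℝ) + 1) ≤ P ^ n := by
  have h1 : ((n + 1 : ℕ) : ℝ) ≤ ((2 ^ n : ℕ) : ℝ) := by exact_mod_cast Nat.lt_two_pow_self
  push_cast at h1
  exact h1.trans (pow_le_pow_left₀ (by norm_num) hP n)

theorem num_le {P Z Z1 R W : ℝ} {c cf g : ℕ} (hP : 2 ≤ P) (hZ : Z ≤ Z1) (hW : 1 + W ≤ Z1)
    (hW0 : 0 ≤ W) (hR : R ^ 2 ≤ P ^ c * Z) :
    P ^ cf * (1 + R ^ 2 + W) + P ^ c * Z + g ≤ P ^ (cf + c + 1 + g + 2) * Z1 := by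
  have hP1 : (1 : ℝ) ≤ P := by linarith
  have hP0 : (0 : ℝ) ≤ P := by linarith
  have hZ1 : 1 ≤ Z1 := by linarith
  have hc1 : 1 ≤ P ^ c := one_le_pow₀ hP1
  have hm : ∀ n, n ≤ cf + c + 1 + g → P ^ n ≤ P ^ (cf + c + 1 + g) := fun n hn =>
    pow_le_pow_right₀ hP1 hn
  have h1 : P ^ c * Z ≤ P ^ c * Z1 := mul_le_mul_of_nonneg_left hZ (by positivity)
  have h2 : 1 + R ^ 2 + W ≤ P ^ (c + 1) * Z1 := by
    have : Z1 ≤ P ^ c * Z1 := le_mul_of_one_le_left (by linarith) hc1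
    have h3 : 2 * (P ^ c * Z1) ≤ P * (P ^ c * Z1) :=
      mul_le_mul_of_nonneg_right hP (by positivity)
    have h4 : P ^ (c + 1) * Z1 = P * (P ^ c * Z1) := by ring
    linarith
  have h3 : P ^ cf * (1 + R ^ 2 + W) ≤ P ^ (cf + c + 1 + g) * Z1 := by
    calc P ^ cf * (1 + R ^ 2 + W) ≤ P ^ cf * (P ^ (c + 1) * Z1) :=
          mul_le_mul_of_nonneg_left h2 (by positivity)
      _ = P ^ (cf + c + 1) * Z1 := by ring
      _ ≤ _ := mul_le_mul_of_nonneg_right (hm _ (by omega)) (by linarith)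
  have h4 : P ^ c * Z1 ≤ P ^ (cf + c + 1 + g) * Z1 :=
    mul_le_mul_of_nonneg_right (hm _ (by omega)) (by linarith)
  have h5 : (g : ℝ) ≤ P ^ (cf + c + 1 + g) * Z1 := by
    have h6 := nat_le_pow hP g
    have h7 := hm g (by omega)
    have h8 : P ^ (cf + c + 1 + g) ≤ P ^ (cf + c + 1 + g) * Z1 :=
      le_mul_of_one_le_right (by positivity) hZ1
    linarith
  have h6 : 4 * (P ^ (cf + c + 1 + g) * Z1) ≤ P ^ (cf + c + 1 + g + 2) * Z1 := by
    have h7 : (4 : ℝ) ≤ P ^ 2 := by nlinarith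
    have h8 : 0 ≤ P ^ (cf + c + 1 + g) * Z1 := by positivity
    calc 4 * (P ^ (cf + c + 1 + g) * Z1) ≤ P ^ 2 * (P ^ (cf + c + 1 + g) * Z1) :=
          mul_le_mul_of_nonneg_right h7 h8
      _ = _ := by ring
  have h8 : 0 ≤ P ^ (cf + c + 1 + g) * Z1 := by positivity
  linarith

end Jz

open Jz in
theorem jz (s g : ℕ) (hT : TANOK) (hL : LOC) (hZ : ZERO) (hF : FIB) (hD : DET)
    (hB : ∀ g1 < g, JB s g1) : JZ s g := by
  intro r c
  obtain ⟨cz, hcz⟩ := hZ s c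
  obtain ⟨cf, hcf⟩ := hF s
  set c1 : ℕ := (r + 1) * cz with hc1
  set c2 : ℕ := c1 + ((r + 1) * cf + c + 1 + g + 2) with hc2
  have hB' := fun g1 (h : g1 < g) => hB g1 h r c2
  choose! cb hcb using hB'
  refine ⟨c1 + ∑ g1 ∈ range g, cb g1, ?_⟩
  intro ι κ _ _ _ _ G WW P Y R hG hW hS hκ hR hRg E hE
  classical
  have hP : 2 ≤ P := hS.P2
  have hP1 : (1 : ℝ) ≤ P := by linarith
  have hP0 : (0 : ℝ) < P := by linarith
  have hY : 1 ≤ Y := hS.Y1
  set P1 : ℝ := (r + 1) * P with hP1d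
  have hr0 : (0 : ℝ) ≤ r := Nat.cast_nonneg r
  have hPP1 : P ≤ P1 := by rw [hP1d]; nlinarith
  have hP1le : P1 ≤ P ^ (r + 1) := by
    rw [hP1d, pow_succ]
    exact mul_le_mul_of_nonneg_right (nat_le_pow hP r) hP0.le
  have hP1pow : ∀ n : ℕ, P1 ^ n ≤ P ^ ((r + 1) * n) := fun n => by
    rw [pow_mul]; exact pow_le_pow_left₀ (by linarith) hP1le n
  have hκr : (Fintype.card κ : ℝ) ≤ r := by exact_mod_cast hκ
  have hSz : Sz (G.TV κ) P1 Y := by
    refine ⟨?_, by linarith, hY⟩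
    have h1 : (Fintype.card (G.TV κ) : ℝ) ≤ (1 + Fintype.card κ) * Fintype.card ι := by
      exact_mod_cast card_TV G κ
    have h2 : ((1 : ℝ) + Fintype.card κ) * Fintype.card ι ≤ (r + 1) * P :=
      mul_le_mul (by linarith) hS.cd (Nat.cast_nonneg _) (by linarith)
    exact h1.trans h2
  have hSz1 : Sz ι P1 1 := ⟨hS.cd.trans hPP1, by linarith, le_rfl⟩
  have hκP : (Fintype.card κ : ℝ) ≤ P1 := by rw [hP1d]; nlinarith
  have hZpos : ∀ g1, 0 < Y + WW g1 := fun g1 => by linarith [hW.nn g1]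
  -- every bad tuple has an irregular group
  have hbad : ∀ h ∈ E, ∃ g1 < g, ¬ (G.tan h).Big g1 (Real.exp (P ^ c2 * (Y + WW g1))) := by
    intro h hh
    by_contra hno
    push Not at hno
    obtain ⟨hOk, -, -, hWd, hSm, -, -⟩ := hT s ι κ G h hG
    refine (hE h hh).2 (zr_anti _ (hcz _ (G.tan h) WW P1 Y g hOk (hWd WW hW) hSz ?_) ?_)
    · intro g1 hg1
      have hle : P1 ^ cz ≤ P ^ c1 := hP1pow cz
      have hpos : 0 < P1 ^ cz := by positivity
      refine ⟨big_anti _ (hno g1 hg1) (Real.exp_le_exp.2 ?_), ?_⟩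
      · exact mul_le_mul_of_nonneg_right
          (hle.trans (pow_le_pow_right₀ hP1 (by omega))) (hZpos g1).le
      · refine hSm g1 _ ?_ ?_
        · exact le_min (Real.exp_pos _).le (inv_nonneg.2 (mul_pos hpos (hZpos g1)).le)
        · exact (rg_mono G hRg hpos (hle.trans (pow_le_pow_right₀ hP1 (by omega)))
            (by linarith) hW.nn le_rfl g1 hg1).2
    · exact Real.exp_le_exp.2 (mul_le_mul_of_nonneg_right
        (pow_le_pow_left₀ hP0.le hPP1 c) (hZpos g).le)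
  have hdv : ∀ g1, 0 < G.dv (G.U1 g1) := fun g1 => (hD s ι G hG).1 _ (bk_U1 G hG g1)
  set D : ℝ := G.dv (G.U1 g) ^ Fintype.card κ with hDd
  have hDpos : 0 < D := pow_pos (hdv g) _
  -- one group
  have hone : ∀ g1 < g,
      ((E.filter fun h => ¬ (G.tan h).Big g1 (Real.exp (P ^ c2 * (Y + WW g1)))).card : ℝ) ≤
        Real.exp (-(P ^ c * (Y + WW g)) - g) * D := by
    intro g1 hg1
    set E1 := E.filter fun h => ¬ (G.tan h).Big g1 (Real.exp (P ^ c2 * (Y + WW g1))) with hE1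
    have hWle : WW g ≤ WW g1 := hW.anti hg1.le
    obtain ⟨hin, hcard⟩ := hcf ι κ G WW P1 R g1 (G.U1 g) E1 hG hW hSz1 hκP (bk_U1 G hG g)
      (fun a ha => (mem_filter.1 ha).2.1) (q_vars_U1 G hG g) (U1_mono G hg1.le)
      (fun h hh j => (hE h (mem_filter.1 hh).1).1 j)
    have hR2 : R ^ 2 ≤ P ^ c2 * (Y + WW g1) :=
      hR.trans (mul_le_mul (pow_le_pow_right₀ hP1 (by omega)) (by linarith) (hZpos g).le
        (by positivity))
    have hcbl : cb g1 ≤ c1 + ∑ g1 ∈ range g, cb g1 :=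
      le_add_left (single_le_sum (f := cb) (fun _ _ => Nat.zero_le _) (mem_range.2 hg1))
    have hrare := hcb g1 hg1 ι κ G WW P Y R hG hW hS hκ hR2
      (rg_mono G hRg (by positivity) (pow_le_pow_right₀ hP1 hcbl) (by linarith) hW.nn hg1)
      (E1.image (fun h j => G.res g1 (h j))) (by
        intro h' hh'
        obtain ⟨h, hh, rfl⟩ := mem_image.1 hh'
        refine ⟨fun j => hin h hh j, fun hbig => (mem_filter.1 hh).2 ?_⟩
        refine (hL s ι κ G (fun j => G.res g1 (h j)) h g1 hG ?_).2.1 _ hbig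
        intro j a _ ha
        simp only [GT.res, ha, if_true])
    set D1 : ℝ := G.dv (G.U1 g1) ^ Fintype.card κ with hD1
    have hD1pos : 0 < D1 := pow_pos (hdv g1) _
    have hnum := num_le (Z := Y + WW g) (Z1 := Y + WW g1) (R := R) (W := WW g1) (c := c)
      (cf := (r + 1) * cf) (g := g) hP (by linarith) (by linarith) (hW.nn g1) hR
    have hexp : P1 ^ cf * (1 + R ^ 2 + WW g1) + -(P ^ c2 * (Y + WW g1)) ≤
        -(P ^ c * (Y + WW g)) - g := by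
      have h1 : P1 ^ cf * (1 + R ^ 2 + WW g1) ≤ P ^ ((r + 1) * cf) * (1 + R ^ 2 + WW g1) :=
        mul_le_mul_of_nonneg_right (hP1pow cf) (by have := hW.nn g1; positivity)
      have h2 : P ^ ((r + 1) * cf + c + 1 + g + 2) * (Y + WW g1) ≤ P ^ c2 * (Y + WW g1) :=
        mul_le_mul_of_nonneg_right (pow_le_pow_right₀ hP1 (by omega)) (hZpos g1).le
      linarith
    have hmain : (E1.card : ℝ) * D1 ≤ (Real.exp (-(P ^ c * (Y + WW g)) - g) * D) * D1 := by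
      calc (E1.card : ℝ) * D1 ≤ Real.exp (P1 ^ cf * (1 + R ^ 2 + WW g1)) * D *
            ((E1.image (fun h j => G.res g1 (h j))).card : ℝ) := hcard
        _ ≤ Real.exp (P1 ^ cf * (1 + R ^ 2 + WW g1)) * D *
            (Real.exp (-(P ^ c2 * (Y + WW g1))) * D1) :=
          mul_le_mul_of_nonneg_left hrare.le (by positivity)
        _ = Real.exp (P1 ^ cf * (1 + R ^ 2 + WW g1) + -(P ^ c2 * (Y + WW g1))) * D * D1 := by
          rw [Real.exp_add]; ring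
        _ ≤ _ := by gcongr
    exact le_of_mul_le_mul_right hmain hD1pos
  have hsub : E ⊆ (range g).biUnion fun g1 =>
      E.filter fun h => ¬ (G.tan h).Big g1 (Real.exp (P ^ c2 * (Y + WW g1))) := by
    intro h hh
    obtain ⟨g1, hg1, hb⟩ := hbad h hh
    exact mem_biUnion.2 ⟨g1, mem_range.2 hg1, mem_filter.2 ⟨hh, hb⟩⟩
  have h1 : (E.card : ℝ) ≤ ∑ g1 ∈ range g,
      ((E.filter fun h => ¬ (G.tan h).Big g1 (Real.exp (P ^ c2 * (Y + WW g1)))).card : ℝ) := by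
    exact_mod_cast (card_le_card hsub).trans card_biUnion_le
  have h2 : (E.card : ℝ) ≤ g * (Real.exp (-(P ^ c * (Y + WW g)) - g) * D) := by
    refine h1.trans ((sum_le_sum fun g1 hg1 => hone g1 (mem_range.1 hg1)).trans ?_)
    rw [sum_const, card_range, nsmul_eq_mul]
  have h3 : (g : ℝ) * Real.exp (-(g : ℝ)) < 1 := by
    have h4 : (g : ℝ) + 1 ≤ Real.exp g := Real.add_one_le_exp _
    rw [Real.exp_neg, ← div_eq_mul_inv, div_lt_one (Real.exp_pos _)]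
    linarith
  calc (E.card : ℝ) ≤ g * (Real.exp (-(P ^ c * (Y + WW g)) - g) * D) := h2
    _ = (g * Real.exp (-(g : ℝ))) * (Real.exp (-(P ^ c * (Y + WW g))) * D) := by
      rw [sub_eq_add_neg, Real.exp_add]; ring
    _ < 1 * (Real.exp (-(P ^ c * (Y + WW g))) * D) :=
      mul_lt_mul_of_pos_right h3 (by positivity)
    _ = _ := one_mul _

end Vale.Agent.P057T.Eq
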