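import Vale.Agent.P057T.Eq.HermH41

/-! A linear map that is near a discrete subgroup on a dense set of lattice points is, up to a
bounded multiple, near a lattice homomorphism. -/

namespace Vale.Agent.P057T.VinoH41

open Finset Matrix Vale.Agent.P057T.HermH41

variable {V : Type*} [AddCommGroup V] [Module ℝ V]

/-- windows of length `w` in `[-M, M]` -/
theorem win {M w : ℝ} (hw : 0 < w) {a : ℤ} (ha : |(a : ℝ)| ≤ M) :
    ⌊((a : ℝ) + M) / w⌋₊ ∈ range (⌊2 * M / w⌋₊ + 1) := by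
  rw [mem_range, Nat.lt_succ_iff]
  refine Nat.floor_le_floor (div_le_div_of_nonneg_right ?_ hw.le)
  linarith [(abs_le.1 ha).2]

theorem win_close {M w : ℝ} (hw : 0 < w) {a b : ℤ} (ha : |(a : ℝ)| ≤ M) (hb : |(b : ℝ)| ≤ M)
    (h : ⌊((a : ℝ) + M) / w⌋₊ = ⌊((b : ℝ) + M) / w⌋₊) : |(a : ℝ) - b| < w := by
  have ha0 : 0 ≤ ((a : ℝ) + M) / w := div_nonneg (by linarith [(abs_le.1 ha).1]) hw.le
  have hb0 : 0 ≤ ((b : ℝ) + M) / w := div_nonneg (by linarith [(abs_le.1 hb).1]) hw.le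
  have h1 := Nat.floor_le ha0
  have h2 := Nat.lt_floor_add_one (((a : ℝ) + M) / w)
  have h3 := Nat.floor_le hb0
  have h4 := Nat.lt_floor_add_one (((b : ℝ) + M) / w)
  rw [h] at h1 h2
  rw [le_div_iff₀ hw] at h1 h3
  rw [div_lt_iff₀ hw] at h2 h4
  rw [abs_lt]; constructor <;> nlinarith

theorem gap {M δ : ℝ} (hδ : 0 < δ) (hM : 2 < δ * M) (J : Finset ℤ) (hJ : δ * M ≤ J.card)
    (hb : ∀ a ∈ J, |(a : ℝ)| ≤ M) :
    ∃ a ∈ J, ∃ b ∈ J, b < a ∧ ((a : ℝ) - b) ≤ 4 / δ := by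
  have hw : 0 < 4 / δ := by positivity
  have hM0 : 0 < M := by by_contra hc; push Not at hc; nlinarith
  have hc : (range (⌊2 * M / (4 / δ)⌋₊ + 1)).card < J.card := by
    rw [card_range]
    have h1 := Nat.floor_le (show 0 ≤ 2 * M / (4 / δ) by positivity)
    have h2 : 2 * M / (4 / δ) = δ * M / 2 := by field_simp; ring
    have h3 : ((⌊2 * M / (4 / δ)⌋₊ + 1 : ℕ) : ℝ) < J.card := by
      push_cast; linarith
    exact_mod_cast h3
  obtain ⟨a, ha, b, hb', hne, h⟩ := exists_ne_map_eq_of_card_lt_of_maps_to hc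
    (f := fun a : ℤ => ⌊((a : ℝ) + M) / (4 / δ)⌋₊) (fun a ha => win hw (hb a ha))
  have h1 := win_close hw (hb a ha) (hb b hb') h
  rcases lt_or_gt_of_ne hne with h2 | h2
  · exact ⟨b, hb', a, ha, h2, by linarith [(abs_lt.1 h1).1]⟩
  · exact ⟨a, ha, b, hb', h2, by linarith [(abs_lt.1 h1).2]⟩

theorem vino1 (N : Seminorm ℝ V) (La : AddSubgroup V) {Hs H M δ : ℝ}
    (hz : ∀ F ∈ La, N F ≤ Hs → F = 0) (hδ : 0 < δ) (hM : 2 < δ * M) (hH : 0 < H)
    (hs : 24 * H ≤ δ * (Hs - 2 * H)) (J : Finset ℤ) (hJ : δ * M ≤ J.card)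
    (hb : ∀ a ∈ J, |(a : ℝ)| ≤ M) (v : V)
    (hv : ∀ a ∈ J, ∀ b ∈ J, ∃ F ∈ La, N (((a : ℝ) - b) • v - F) ≤ 2 * H) :
    ∃ q : ℕ, 1 ≤ q ∧ (q : ℝ) ≤ 4 / δ ∧ ∃ C ∈ La, N ((q : ℝ) • v - C) * (δ * M) ≤ 12 * H * q := by
  classical
  have hM0 : 0 < M := by by_contra hc; push Not at hc; nlinarith
  obtain ⟨a0, ha0, b0, hb0, hlt, hq⟩ := gap hδ hM J hJ hb
  obtain ⟨C, hC, hβ⟩ := hv a0 ha0 b0 hb0
  obtain ⟨q, hqe⟩ : ∃ q : ℕ, a0 - b0 = q := Int.eq_ofNat_of_zero_le (by omega)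
  have hq1 : 1 ≤ q := by omega
  have hqr : (a0 : ℝ) - b0 = q := by exact_mod_cast hqe
  rw [hqr] at hβ hq
  refine ⟨q, hq1, hq, C, hC, ?_⟩
  set β := (q : ℝ) • v - C with hβd
  set b := N β with hbd
  have hq0 : (0 : ℝ) < q := by exact_mod_cast hq1
  rcases (apply_nonneg N β).eq_or_lt with h0 | h0
  · rw [hbd, ← h0, zero_mul]; positivity
  set S := Hs - 2 * H with hS
  have hS0 : 0 < S := by by_contra hc; push Not at hc; nlinarith
  have hw : 0 < q * S / b := by positivity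
  set f : ℤ → ℤ × ℕ := fun a => (a % q, ⌊((a : ℝ) + M) / (q * S / b)⌋₊) with hf
  have hmap : ∀ a ∈ J, f a ∈ Ico (0 : ℤ) q ×ˢ range (⌊2 * M / (q * S / b)⌋₊ + 1) := by
    intro a ha
    have hq' : (0 : ℤ) < q := by exact_mod_cast hq1
    exact mem_product.2 ⟨mem_Ico.2 ⟨Int.emod_nonneg _ hq'.ne', Int.emod_lt_of_pos _ hq'⟩,
      win hw (hb a ha)⟩
  set r := ⌊2 * H / b⌋₊ with hr
  have hfib : ∀ y ∈ Ico (0 : ℤ) q ×ˢ range (⌊2 * M / (q * S / b)⌋₊ + 1),
      (J.filter fun a => f a = y).card ≤ 2 * r + 1 := by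
    intro y _
    rcases (J.filter fun a => f a = y).eq_empty_or_nonempty with h | ⟨a, ha⟩
    · simp [h]
    have hsub : (J.filter fun a => f a = y) ⊆ (Icc (-(r : ℤ)) r).image fun m => a + q * m := by
      intro a' ha'
      obtain ⟨haJ, hay⟩ := mem_filter.1 ha
      obtain ⟨haJ', hay'⟩ := mem_filter.1 ha'
      have hff : f a' = f a := hay'.trans hay.symm
      have h1 : a' % q = a % q := congrArg Prod.fst hff
      have h2 := win_close hw (hb a' haJ') (hb a haJ) (congrArg Prod.snd hff)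
      obtain ⟨m, hm⟩ : (q : ℤ) ∣ a' - a := (Int.ModEq.dvd (show a ≡ a' [ZMOD q] from h1.symm))
      have hmr : (a' : ℝ) - a = q * m := by exact_mod_cast hm
      obtain ⟨F, hF, hFb⟩ := hv a' haJ' a haJ
      rw [hmr] at hFb h2
      have h3 : |(m : ℝ)| * b < S := by
        rw [abs_mul, abs_of_pos hq0, lt_div_iff₀ h0] at h2
        nlinarith
      have h4 : F - m • C = (m : ℝ) • β - (((q : ℝ) * m) • v - F) := by
        rw [hβd, ← Int.cast_smul_eq_zsmul ℝ]; module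
      have h5 : N ((m : ℝ) • β) = |(m : ℝ)| * b := by rw [map_smul_eq_mul, Real.norm_eq_abs]
      have h6 : F - m • C = 0 := by
        refine hz _ (La.sub_mem hF (La.zsmul_mem hC m)) ?_
        rw [h4]
        linarith [map_sub_le_add N ((m : ℝ) • β) (((q : ℝ) * m) • v - F)]
      rw [h6, eq_comm, sub_eq_zero] at h4
      rw [← h4, h5] at hFb
      have h7 : (m.natAbs : ℝ) ≤ 2 * H / b := by
        rw [le_div_iff₀ h0, Nat.cast_natAbs, Int.cast_abs]; exact hFb
      have h8 : m.natAbs ≤ r := Nat.le_floor h7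
      exact mem_image.2 ⟨m, mem_Icc.2 ⟨by omega, by omega⟩, by omega⟩
    refine (card_le_card hsub).trans (card_image_le.trans ?_)
    rw [Int.card_Icc]; omega
  have hcard := card_le_mul_card_image_of_maps_to hmap _ hfib
  rw [card_product, Int.card_Ico, card_range] at hcard
  have h1 : (J.card : ℝ) ≤ (2 * r + 1) * (q * (⌊2 * M / (q * S / b)⌋₊ + 1)) := by
    have : (q - 0 : ℤ).toNat = q := by simp
    rw [this] at hcard
    exact_mod_cast hcard
  have h2 : (r : ℝ) ≤ 2 * H / b := Nat.floor_le (by positivity)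
  have h3 : (1 : ℝ) ≤ 2 * H / b := by rw [le_div_iff₀ h0]; linarith
  have h4 := Nat.floor_le (show 0 ≤ 2 * M / (q * S / b) by positivity)
  have h5 : (J.card : ℝ) ≤ (3 * (2 * H / b)) * (q * (2 * M / (q * S / b) + 1)) :=
    h1.trans (mul_le_mul (by linarith) (by gcongr) (by positivity) (by positivity))
  have h6 : (3 * (2 * H / b)) * (q * (2 * M / (q * S / b) + 1)) =
      12 * H * M / S + 6 * H * q / b := by
    have hb0 : b ≠ 0 := h0.ne'
    field_simp; ring
  have h7 : 12 * H * M / S ≤ δ * M / 2 := by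
    rw [div_le_iff₀ hS0]; nlinarith
  have h8 : δ * M / 2 ≤ 6 * H * q / b := by linarith
  rw [le_div_iff₀ h0] at h8
  linarith

variable {ι : Type*} [Fintype ι] [DecidableEq ι]

/-- some line in direction `i` of a box carries many points -/
theorem line (B : ι → ℝ) (hB : ∀ j, 1 ≤ B j) (X : Finset (ι → ℤ))
    (hX : ∀ y ∈ X, ∀ j, |(y j : ℝ)| ≤ B j) (i : ι) {t : ℝ} (ht0 : 0 < t)
    (ht : t * ∏ j, 3 * B j ≤ X.card) :
    ∃ (J : Finset ℤ) (z : ι → ℤ), t * B i ≤ J.card ∧ ∀ a ∈ J, Function.update z i a ∈ X := by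
  set P : Finset (ι → ℤ) :=
    Fintype.piFinset fun j => if j = i then {0} else Icc (-(⌊B j⌋₊ : ℤ)) ⌊B j⌋₊ with hP
  have hmap : ∀ y ∈ X, Function.update y i 0 ∈ P := by
    intro y hy
    rw [hP, Fintype.mem_piFinset]
    intro j
    by_cases hj : j = i
    · subst hj; simp
    · rw [if_neg hj, Function.update_of_ne hj]
      have h1 : (y j).natAbs ≤ ⌊B j⌋₊ := Nat.le_floor (by
        rw [Nat.cast_natAbs, Int.cast_abs]; exact hX y hy j)
      exact mem_Icc.2 ⟨by omega, by omega⟩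
  have hPc : (P.card : ℝ) * (3 * B i) ≤ ∏ j, 3 * B j := by
    rw [hP, Fintype.card_piFinset, Nat.cast_prod, ← prod_erase_mul _ _ (mem_univ i),
      ← prod_erase_mul _ (fun j => 3 * B j) (mem_univ i), if_pos rfl, card_singleton,
      Nat.cast_one, mul_one]
    refine mul_le_mul_of_nonneg_right (prod_le_prod (fun _ _ => by positivity) fun j hj => ?_)
      (by linarith [hB i])
    rw [if_neg (ne_of_mem_erase hj), Int.card_Icc]
    have h1 : ((⌊B j⌋₊ : ℤ) + 1 - -(⌊B j⌋₊ : ℤ)).toNat = 2 * ⌊B j⌋₊ + 1 := by omega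
    have h2 := Nat.floor_le (le_trans zero_le_one (hB j))
    rw [h1]; push_cast; linarith [hB j]
  have hPne : P.Nonempty := by
    rw [hP, Fintype.piFinset_nonempty]
    intro j
    split_ifs
    · simp
    · exact ⟨0, mem_Icc.2 ⟨by omega, by omega⟩⟩
  have hsum : ∑ _z ∈ P, t * (3 * B i) ≤
      ∑ z ∈ P, ((X.filter fun y => Function.update y i 0 = z).card : ℝ) := by
    rw [← Nat.cast_sum, ← card_eq_sum_card_fiberwise hmap, sum_const, nsmul_eq_mul]
    nlinarith
  obtain ⟨z, -, hz⟩ := exists_le_of_sum_le hPne hsum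
  refine ⟨(X.filter fun y => Function.update y i 0 = z).image fun y => y i, z, ?_, ?_⟩
  · rw [card_image_of_injOn]
    · nlinarith [hB i]
    · intro y hy y' hy' h
      have h1 := (mem_filter.1 hy).2.trans (mem_filter.1 hy').2.symm
      funext j
      by_cases hj : j = i
      · subst hj; exact h
      · simpa [Function.update_of_ne hj] using congrFun h1 j
  · intro a ha
    obtain ⟨y, hy, rfl⟩ := mem_image.1 ha
    obtain ⟨h1, rfl⟩ := mem_filter.1 hy
    simpa using h1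

theorem vino (N : Seminorm ℝ V) (La : AddSubgroup V) {A : Matrix ι ι ℝ} (hA : A.det ≠ 0)
    {Hs H R Km δ : ℝ} (hz : ∀ F ∈ La, N F ≤ Hs → F = 0)
    (hK : ∀ k : ι → ℤ, k ≠ 0 → ∀ t : ℝ,
      (∀ x : ι → ℝ, |∑ j, (k j : ℝ) * x j| ≤ t * len A x) → Km ≤ t)
    (hδ : 0 < δ) (hR : 0 < R) (hH : 0 < H) (h1 : 1 ≤ R * Km) (h2 : 2 < δ * (R * Km))
    (hs : 24 * H ≤ δ * (Hs - 2 * H)) (lam : (ι → ℝ) →ₗ[ℝ] V) (X : Finset (ι → ℤ))
    (hX : δ * (3 * 2 ^ (Fintype.card ι ^ 2) * R) ^ Fintype.card ι ≤ X.card * |A.det|)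
    (hl : ∀ h ∈ X, len A (fun k => (h k : ℝ)) ≤ R)
    (hv : ∀ h ∈ X, ∃ F ∈ La, N (lam (fun k => (h k : ℝ)) - F) ≤ H) :
    ∃ n : ℕ, 1 ≤ n ∧ (n : ℝ) ≤ (4 / δ) ^ Fintype.card ι ∧ ∃ C : ι → V, (∀ j, C j ∈ La) ∧
      ∀ x : ι → ℝ, N ((n : ℝ) • lam x - ∑ j, x j • C j) ≤
        12 * Fintype.card ι * H * n / (δ * R) * len A x := by
  obtain ⟨U, W, hUW, hWU, hc, hc', hpos, hdet⟩ := herm hA
  set c : ℝ := 2 ^ (Fintype.card ι ^ 2) with hcd
  have hc0 : 0 < c := by positivity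
  set e : ι → ι → ℝ := fun i k => (U k i : ℝ) with he
  set Wr := W.map (Int.cast : ℤ → ℝ) with hWr
  set Ur := U.map (Int.cast : ℤ → ℝ) with hUr
  have hUWr : Ur * Wr = 1 := by
    have := congrArg (fun M : Matrix ι ι ℤ => (Int.castRingHom ℝ).mapMatrix M) hUW
    simpa [map_mul] using this
  have hx : ∀ (x : ι → ℝ) i, |(Wr *ᵥ x) i| * len A (e i) ≤ c * len A x := fun x i => by
    have := hc' (Wr *ᵥ x) i
    rwa [mulVec_mulVec, hUWr, one_mulVec] at this
  have hdec : ∀ x : ι → ℝ, x = ∑ i, (Wr *ᵥ x) i • e i := fun x => by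
    funext k
    have : (Ur *ᵥ (Wr *ᵥ x)) k = x k := by rw [mulVec_mulVec, hUWr, one_mulVec]
    rw [← this]
    simp [mulVec, dotProduct, he, hUr, mul_comm]
  set B : ι → ℝ := fun i => c * R / len A (e i) with hB
  have hBK : ∀ i, R * Km ≤ B i := fun i => by
    have h3 : Km ≤ c / len A (e i) := by
      refine hK (W i) (fun h0 => ?_) _ fun x => ?_
      · have := congrFun (congrFun hWU i) i
        simp [mul_apply, h0] at this
      · rw [div_mul_eq_mul_div, le_div_iff₀ (hpos i)]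
        exact hx x i
    calc R * Km ≤ R * (c / len A (e i)) := by gcongr
      _ = B i := by rw [hB]; ring
  have hinj : Function.Injective fun h : ι → ℤ => W *ᵥ h := fun h h' hh => by
    have := congrArg (fun y => U *ᵥ y) hh
    simpa [mulVec_mulVec, hUW] using this
  have hbox : ∀ y ∈ X.image fun h => W *ᵥ h, ∀ j, |(y j : ℝ)| ≤ B j := by
    intro y hy j
    obtain ⟨h, hh, rfl⟩ := mem_image.1 hy
    rw [hB, le_div_iff₀ (hpos j)]
    exact (hc h j).trans (mul_le_mul_of_nonneg_left (hl h hh) hc0.le)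
  have hd0 : 0 < |A.det| := abs_pos.2 hA
  have hcnt : δ * ∏ j, 3 * B j ≤ (X.image fun h => W *ᵥ h).card := by
    rw [card_image_of_injective _ hinj]
    have h3 : ∏ j, 3 * B j = (3 * c * R) ^ Fintype.card ι / ∏ j, len A (e j) := by
      rw [← card_univ, ← prod_const, ← prod_div_distrib]
      exact prod_congr rfl fun j _ => (mul_div_assoc _ _ _).symm.trans (by rw [mul_assoc])
    rw [h3, ← mul_div_assoc, div_le_iff₀ (prod_pos fun j _ => (hpos j : 0 < len A (e j)))]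
    exact hX.trans (mul_le_mul_of_nonneg_left hdet (Nat.cast_nonneg _))
  have key : ∀ i, ∃ q : ℕ, 1 ≤ q ∧ (q : ℝ) ≤ 4 / δ ∧ ∃ C ∈ La,
      N ((q : ℝ) • lam (e i) - C) * (δ * B i) ≤ 12 * H * q := by
    intro i
    obtain ⟨J, z, hJ, hz'⟩ := line B (fun j => h1.trans (hBK j)) _ hbox i hδ hcnt
    refine vino1 N La hz hδ (h2.trans_le (by gcongr; exact hBK i)) hH hs J hJ
      (fun a ha => by simpa using hbox _ (hz' a ha) i) _ fun a ha b hb => ?_
    obtain ⟨h, hh, hha⟩ := mem_image.1 (hz' a ha)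
    obtain ⟨h', hh', hhb⟩ := mem_image.1 (hz' b hb)
    obtain ⟨F, hF, hFb⟩ := hv h hh
    obtain ⟨F', hF', hFb'⟩ := hv h' hh'
    refine ⟨F - F', La.sub_mem hF hF', ?_⟩
    have h3 : h - h' = fun k => U k i * (a - b) := by
      have h4 : W *ᵥ (h - h') = Pi.single i (a - b) := by
        rw [mulVec_sub, hha, hhb]
        funext j
        by_cases hj : j = i
        · subst hj; simp
        · simp [Function.update_of_ne hj, Pi.single_eq_of_ne hj]
      have h5 := congrArg (fun y => U *ᵥ y) h4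
      simp only [mulVec_mulVec, hUW, one_mulVec] at h5
      rw [h5]; funext k; simp [mulVec, dotProduct, Pi.single_apply]
    have h6 : ((a : ℝ) - b) • e i = (fun k => (h k : ℝ)) - fun k => (h' k : ℝ) := by
      funext k
      have h7 : h k - h' k = U k i * (a - b) := congrFun h3 k
      have h8 : (h k : ℝ) - h' k = U k i * (a - b) := by exact_mod_cast h7
      simp only [he, Pi.smul_apply, Pi.sub_apply, smul_eq_mul, h8, mul_comm]
    have h9 : ((a : ℝ) - b) • lam (e i) - (F - F') =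
        (lam (fun k => (h k : ℝ)) - F) - (lam (fun k => (h' k : ℝ)) - F') := by
      rw [← map_smul, h6, map_sub]; abel
    rw [h9]
    linarith [map_sub_le_add N (lam (fun k => (h k : ℝ)) - F) (lam (fun k => (h' k : ℝ)) - F')]
  choose q hq1 hq C hC hb using key
  set n := ∏ i, q i with hn
  set p : ι → ℕ := fun i => ∏ j ∈ univ.erase i, q j with hp
  have hpq : ∀ i, (n : ℝ) = p i * q i := fun i => by
    rw [hn, ← prod_erase_mul _ _ (mem_univ i), Nat.cast_mul]
  refine ⟨n, one_le_prod' fun i _ => hq1 i, ?_, fun j => ∑ i, (W i j * p i) • C i,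
    fun j => La.sum_mem fun i _ => La.zsmul_mem (hC i) _, fun x => ?_⟩
  · rw [hn, Nat.cast_prod, ← card_univ, ← prod_const]
    exact prod_le_prod (fun _ _ => by positivity) fun i _ => hq i
  have h3 : (n : ℝ) • lam x - ∑ j, x j • ∑ i, (W i j * p i) • C i =
      ∑ i, ((Wr *ᵥ x) i * p i) • ((q i : ℝ) • lam (e i) - C i) := by
    have h4 : lam x = ∑ i, (Wr *ᵥ x) i • lam (e i) := by
      conv_lhs => rw [hdec x]
      rw [map_sum]; simp only [map_smul]
    simp only [smul_sub, sum_sub_distrib]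
    congr 1
    · rw [h4, smul_sum]
      exact sum_congr rfl fun i _ => by rw [smul_smul, smul_smul, hpq i]; congr 1; ring
    · simp only [smul_sum, ← Int.cast_smul_eq_zsmul ℝ, smul_smul]
      rw [sum_comm]
      refine sum_congr rfl fun i _ => ?_
      rw [← sum_smul]
      congr 1
      simp only [mulVec, dotProduct, hWr, map_apply, sum_mul]
      exact sum_congr rfl fun j _ => by push_cast; ring
  rw [h3]
  have h5 : ∀ i, N (((Wr *ᵥ x) i * p i) • ((q i : ℝ) • lam (e i) - C i)) ≤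
      12 * H * n / (δ * R) * len A x := fun i => by
    rw [map_smul_eq_mul, Real.norm_eq_abs, abs_mul, Nat.abs_cast, div_mul_eq_mul_div,
      le_div_iff₀ (by positivity), hpq i]
    have h6 := hb i
    have h7 := hx x i
    have h8 : 0 < len A (e i) := hpos i
    set b := N ((q i : ℝ) • lam (e i) - C i)
    have hb0 : 0 ≤ b := apply_nonneg N _
    have h9 : b * (δ * (c * R)) ≤ 12 * H * q i * len A (e i) := by
      have := mul_le_mul_of_nonneg_right h6 h8.le
      rw [hB] at this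
      calc b * (δ * (c * R)) = b * (δ * (c * R / len A (e i))) * len A (e i) := by field_simp
        _ ≤ _ := this
    have h10 : |(Wr *ᵥ x) i| * (b * (δ * (c * R))) ≤ 12 * H * q i * (c * len A x) :=
      calc _ ≤ |(Wr *ᵥ x) i| * (12 * H * q i * len A (e i)) := by gcongr
        _ = 12 * H * q i * (|(Wr *ᵥ x) i| * len A (e i)) := by ring
        _ ≤ _ := by gcongr
    have h11 : |(Wr *ᵥ x) i| * (b * (δ * R)) ≤ 12 * H * q i * len A x :=
      le_of_mul_le_mul_left (by nlinarith) hc0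
    have h12 := mul_le_mul_of_nonneg_left h11 (Nat.cast_nonneg (α := ℝ) (p i))
    nlinarith
  refine (le_sum_of_subadditive N (map_zero N).le (map_add_le_add N) _ _).trans
    ((sum_le_sum fun i _ => h5 i).trans (le_of_eq ?_))
  rw [sum_const, card_univ, nsmul_eq_mul]; ring

end Vale.Agent.P057T.VinoH41
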