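import Vale.Agent.P057T.Eq.A1H41
import Vale.Agent.P057T.Eq.VinoH41

/-! Row `LINV`: the linear step of the integration lemma. -/

open MvPolynomial Finset Matrix

namespace Vale.Agent.P057T.Eq

open Vale.Agent.P057T.L1 A1H41 HermH41

namespace LinvH41

variable {ι : Type} [Fintype ι] [DecidableEq ι]

/-- norm in the top chart -/
noncomputable def nm (ψ : ι → MvPolynomial ι ℝ) : Seminorm ℝ (MvPolynomial ι ℝ) :=
  Seminorm.of (fun F => nrm (aeval ψ F)) (fun x y => by rw [map_add]; exact nrm_add_le _ _)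
    (fun a x => by rw [map_smul, nrm_smul, Real.norm_eq_abs])

/-- integer forms of degree `d` on the groups `< g` -/
def La (G : GT ι) (g d : ℕ) : AddSubgroup (MvPolynomial ι ℝ) where
  carrier := {J | IsZ J ∧ G.Lo g J ∧ G.Hm d J}
  zero_mem' := ⟨isInt_zero, fun b hb => by simp at hb, isWeightedHomogeneous_zero _ _ _⟩
  add_mem' := fun {x y} hx hy => ⟨IsInt.add hx.1 hy.1,
    Chart.vars_add' (P := fun b => G.g b < g) hx.2.1 hy.2.1,
    IsWeightedHomogeneous.add hx.2.2 hy.2.2⟩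
  neg_mem' := fun {x} hx => ⟨IsInt.neg hx.1, fun b hb => hx.2.1 b (by simpa using hb),
    fun m hm => hx.2.2 (by simpa using hm)⟩

theorem num1 {P Y R : ℝ} {D : ℕ} (hD : (D : ℝ) ≤ P) (hP : 2 ≤ P) (hY : 1 ≤ Y) (hR : 1 ≤ R)
    (hRY : R ^ 2 ≤ Y) :
    Real.exp (-(P ^ 5 * Y)) * (3 * 2 ^ (D ^ 2) * R) ^ D ≤ Real.exp (-Y) := by
  have h2 : (2 : ℝ) ≤ Real.exp 1 := by linarith [Real.add_one_le_exp (1 : ℝ)]
  have h3 : (3 : ℝ) ≤ Real.exp 2 := by linarith [Real.add_one_le_exp (2 : ℝ)]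
  have h4 : (2 : ℝ) ^ (D ^ 2) ≤ Real.exp (P ^ 2) := by
    refine (pow_le_pow_left₀ zero_le_two h2 _).trans ?_
    rw [← Real.exp_nat_mul, mul_one, Nat.cast_pow]
    exact Real.exp_le_exp.2 (pow_le_pow_left₀ (Nat.cast_nonneg _) hD 2)
  have h5 : R ≤ Real.exp Y := by nlinarith [Real.add_one_le_exp Y]
  have h6 : 3 * 2 ^ (D ^ 2) * R ≤ Real.exp (2 + P ^ 2 + Y) := by
    rw [Real.exp_add, Real.exp_add]; gcongr
  have h7 : (3 * 2 ^ (D ^ 2) * R) ^ D ≤ Real.exp (D * (2 + P ^ 2 + Y)) := by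
    rw [Real.exp_nat_mul]; exact pow_le_pow_left₀ (by positivity) h6 D
  refine (mul_le_mul_of_nonneg_left h7 (Real.exp_pos _).le).trans ?_
  rw [← Real.exp_add]
  refine Real.exp_le_exp.2 ?_
  have hP2 : (4 : ℝ) ≤ P ^ 2 := by nlinarith
  have h8 : 2 + P ^ 2 + Y ≤ 2 * P ^ 2 * Y := by
    nlinarith [mul_nonneg (sub_nonneg.2 hP2) (sub_nonneg.2 hY)]
  have h9 : D * (2 + P ^ 2 + Y) ≤ P * (2 * P ^ 2 * Y) := by gcongr
  have h10 : 1 + 2 * P ^ 3 ≤ P ^ 5 := by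
    have h11 : (8 : ℝ) ≤ P ^ 3 := by nlinarith
    have h12 : P ^ 5 = P ^ 3 * P ^ 2 := by ring
    nlinarith
  have h13 := mul_le_mul_of_nonneg_right h10 (le_trans zero_le_one hY)
  nlinarith

theorem num2 {P Y R : ℝ} {D : ℕ} (hD : (D : ℝ) ≤ P) (hP : 2 ≤ P) (hY : 1 ≤ Y) (hR : 1 ≤ R)
    {u Hs : ℝ} (hu : u = Real.exp (P ^ 5 * Y)) (hHs : Hs = Real.exp (P ^ 9 * Y)) :
    1 ≤ R * (Hs / P) ∧ 2 < u⁻¹ * (R * (Hs / P)) ∧
      24 * Real.exp Y ≤ u⁻¹ * (Hs - 2 * Real.exp Y) ∧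
      ∀ n : ℝ, 0 ≤ n → n ≤ (4 / u⁻¹) ^ D →
        n ≤ Hs ∧ D * (12 * D * Real.exp Y * n / (u⁻¹ * R)) ≤ Hs := by
  obtain ⟨Z, hZ⟩ : ∃ Z, Z = P ^ 5 * Y := ⟨_, rfl⟩
  have hP0 : 0 < P := by linarith
  have hP5 : P ≤ P ^ 5 := le_self_pow₀ (by linarith) (by norm_num)
  have hP2 : (4 : ℝ) ≤ P ^ 2 := by nlinarith
  have hP4 : (16 : ℝ) ≤ P ^ 4 := by nlinarith
  have hP32 : (32 : ℝ) ≤ P ^ 5 := by nlinarith
  have hZ5 : P ^ 5 ≤ Z := hZ ▸ le_mul_of_one_le_right (by positivity) hY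
  have hZY : Y ≤ Z := hZ ▸ le_mul_of_one_le_left (by linarith) (by linarith)
  have h9 : P ^ 9 * Y = P ^ 4 * Z := by rw [hZ]; ring
  rw [h9] at hHs
  rw [← hZ] at hu
  have hu1 : Z + 1 ≤ u := hu ▸ Real.add_one_le_exp Z
  have hu0 : 0 < u := by linarith
  have hYu : Real.exp Y ≤ u := hu ▸ Real.exp_le_exp.2 hZY
  have hHu : u ^ 4 ≤ Hs := by
    rw [hu, ← Real.exp_nat_mul, hHs]
    exact Real.exp_le_exp.2 (mul_le_mul_of_nonneg_right (by push_cast; linarith) (by linarith))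
  have hKm : u ^ 3 ≤ R * (Hs / P) := by
    have h1 : u ^ 3 ≤ Hs / P := by
      rw [le_div_iff₀ hP0]
      calc u ^ 3 * P ≤ u ^ 3 * u := by gcongr; linarith
        _ = u ^ 4 := by ring
        _ ≤ Hs := hHu
    exact h1.trans (le_mul_of_one_le_left (le_trans (by positivity) h1) hR)
  have hu2 : u * 33 ≤ u ^ 2 := by nlinarith
  have hu3 : u ^ 2 * 33 ≤ u ^ 3 := by nlinarith
  have hu4 : u ^ 3 * 33 ≤ u ^ 4 := by nlinarith
  refine ⟨by linarith, ?_, ?_, fun n hn0 hn => ?_⟩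
  · rw [inv_mul_eq_div, lt_div_iff₀ hu0]; linarith
  · rw [inv_mul_eq_div, le_div_iff₀ hu0]
    have := mul_le_mul_of_nonneg_right hYu hu0.le
    nlinarith
  have hnu : n ≤ Real.exp (P ^ 2 * Z) := by
    refine hn.trans ?_
    have h1 : 4 / u⁻¹ ≤ Real.exp (2 * Z) := by
      rw [div_inv_eq_mul, two_mul, Real.exp_add, ← hu]; nlinarith
    refine (pow_le_pow_left₀ (by positivity) h1 _).trans ?_
    rw [← Real.exp_nat_mul, ← mul_assoc, sq]
    exact Real.exp_le_exp.2 (mul_le_mul_of_nonneg_right (mul_le_mul hD hP zero_le_two hP0.le)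
      (by linarith))
  have hP24 : P ^ 2 + 5 ≤ P ^ 4 := by nlinarith
  have hlast : Real.exp ((P ^ 2 + 5) * Z) ≤ Hs :=
    hHs ▸ Real.exp_le_exp.2 (mul_le_mul_of_nonneg_right hP24 (by linarith))
  refine ⟨hnu.trans (le_trans (Real.exp_le_exp.2 (by nlinarith)) hlast), ?_⟩
  have h1 : 12 * (D : ℝ) * Real.exp Y ≤ u * u * u := by gcongr <;> linarith
  have h2 : 12 * D * Real.exp Y * n / (u⁻¹ * R) ≤ u ^ 4 * n := by
    rw [div_le_iff₀ (by positivity)]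
    calc _ ≤ u * u * u * n := by gcongr
      _ = u ^ 4 * n * (u⁻¹ * 1) := by field_simp
      _ ≤ _ := by gcongr
  calc _ ≤ u * (u ^ 4 * Real.exp (P ^ 2 * Z)) := by
        refine mul_le_mul (by linarith) (h2.trans (by gcongr)) (by positivity) hu0.le
    _ = Real.exp ((P ^ 2 + 5) * Z) := by
        rw [add_mul, Real.exp_add, show (5 : ℝ) * Z = (5 : ℕ) * Z by norm_num, Real.exp_nat_mul,
          ← hu]
        ring
    _ ≤ Hs := hlast

end LinvH41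

open LinvH41

theorem linv (hI : INV) : LINV := by
  intro s
  refine ⟨9, ?_⟩
  intro ι _ _ G P Y R g d om E hG hS hd1 hds hR1 hRY hz hom hE hEl
  obtain ⟨ψ, hψ1, hψ2, -, -⟩ := hI s ι G hG
  have hW := w1_U1 hG g
  obtain ⟨hD, hP, hY⟩ := hS
  have hA := det_A1_ne hG hW.bk
  have hAu : IsUnit (A1 G (G.U1 g)).det := isUnit_iff_ne_zero.2 hA
  have hDU : (Fintype.card (G.U1 g) : ℝ) ≤ P :=
    le_trans (Nat.cast_le.2 (Fintype.card_subtype_le _)) hD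
  obtain ⟨u, hu⟩ : ∃ u, u = Real.exp (P ^ 5 * Y) := ⟨_, rfl⟩
  obtain ⟨Hs, hHs⟩ : ∃ u, u = Real.exp (P ^ 9 * Y) := ⟨_, rfl⟩
  obtain ⟨n1, n2, n3, n4⟩ := num2 hDU hP hY hR1 hu hHs
  rw [← hHs] at hz ⊢
  have hu0 : 0 < u := hu ▸ Real.exp_pos _
  have hH0 : 0 < Hs := hHs ▸ Real.exp_pos _
  have hδ : Real.exp (-(P ^ 5 * Y)) = u⁻¹ := hu ▸ Real.exp_neg _
  have hP0 : 0 < P := by linarith
  have hlen : ∀ b : G.U1 g, len (A1 G (G.U1 g)) ((A1 G (G.U1 g))⁻¹ *ᵥ Pi.single b 1) = 1 := by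
    intro b
    rw [len, mulVec_mulVec, mul_nonsing_inv _ hAu, one_mulVec, sum_eq_single b]
    · simp
    · intro c _ hc; simp [Pi.single_eq_of_ne hc]
    · simp
  have hK : ∀ k : G.U1 g → ℤ, k ≠ 0 → ∀ t : ℝ,
      (∀ x : G.U1 g → ℝ, |∑ j, (k j : ℝ) * x j| ≤ t * len (A1 G (G.U1 g)) x) → Hs / P ≤ t := by
    intro k hk t ht
    have h1 := dual_long hG (hd1.trans hds) hz k hk
    have h2 : ∀ a, |((fun b => (k b : ℝ)) ᵥ* (A1 G (G.U1 g))⁻¹) a| ≤ t := fun a => by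
      have h3 := ht ((A1 G (G.U1 g))⁻¹ *ᵥ Pi.single a 1)
      rw [hlen, mul_one] at h3
      simpa [vecMul, dotProduct] using h3
    have h3 := (sum_le_sum fun a (_ : a ∈ univ) => h2 a)
    rw [sum_const, card_univ, nsmul_eq_mul] at h3
    have ht0 : 0 ≤ t := by
      by_contra hc
      have : (Fintype.card (G.U1 g) : ℝ) * t ≤ 0 :=
        mul_nonpos_of_nonneg_of_nonpos (Nat.cast_nonneg _) (le_of_not_ge hc)
      linarith
    rw [div_le_iff₀ hP0]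
    linarith [mul_le_mul_of_nonneg_right hDU ht0]
  set lam : (G.U1 g → ℝ) →ₗ[ℝ] MvPolynomial ι ℝ :=
    (Fintype.linearCombination ℝ fun b : G.U1 g => om b.1) ∘ₗ (A1 G (G.U1 g)).mulVecLin with hlam
  have hlam' : ∀ x, lam x = ∑ b : G.U1 g, (A1 G (G.U1 g) *ᵥ x) b • om b.1 := fun x => by
    rw [hlam, LinearMap.comp_apply, Fintype.linearCombination_apply]; rfl
  set rs : (ι → ℤ) → G.U1 g → ℤ := fun h b => h b.1 with hrs
  have hcard : (E.image rs).card = E.card := by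
    refine card_image_of_injOn fun h hh h' hh' e => funext fun a => ?_
    by_cases ha : a ∈ G.U1 g
    · exact congrFun e ⟨a, ha⟩
    · rw [(hEl h hh).1.1 a ha, (hEl h' hh').1.1 a ha]
  obtain ⟨n, hn1, hn, Cj, hCj, hb⟩ := VinoH41.vino (nm ψ) (La G g d) hA (Hs := Hs)
    (H := Real.exp Y) (R := R) (Km := Hs / P) (δ := u⁻¹)
    (fun F hF h => hz d F hd1 hds hF.1 hF.2.1 hF.2.2 ((bd_iff hψ1 hψ2 F _).2 h)) hK
    (by positivity) (by linarith) (Real.exp_pos _) n1 n2 n3 lam (E.image rs)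
    (by
      rw [hcard, ← hδ]
      refine (num1 hDU hP hY hR1 hRY).trans ?_
      have h1 := det_A1 hG hW.bk
      have h2 := mul_le_mul_of_nonneg_right hE (abs_nonneg (A1 G (G.U1 g)).det)
      rwa [mul_assoc, mul_comm (G.dv _), h1, mul_one] at h2)
    (by
      intro x hx
      obtain ⟨h, hh, rfl⟩ := mem_image.1 hx
      have h1 := (hEl h hh).1.2
      rw [← sum_coe_sort] at h1
      simp only [eval_th hG hW] at h1
      exact Real.sqrt_le_iff.2 ⟨by linarith, h1⟩)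
    (by
      intro x hx
      obtain ⟨h, hh, rfl⟩ := mem_image.1 hx
      obtain ⟨J, h1, h2, h3, h4⟩ := (hEl h hh).2
      refine ⟨J, ⟨h1, h2, h3⟩, ?_⟩
      rw [← sum_coe_sort] at h4
      simp only [eval_th hG hW, C_mul'] at h4
      rw [hlam']
      exact (bd_iff hψ1 hψ2 _ _).1 h4)
  obtain ⟨n5, n6⟩ := n4 n (Nat.cast_nonneg _) hn
  refine ⟨n, ∑ j : G.U1 g, X j.1 * Cj j, hn1, n5,
    isInt_sum fun j _ => (isInt_X _).mul (hCj j).1,
    Chart.vars_sum' (P := fun b => G.g b < g) fun j _ =>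
      Chart.vars_mul' (Chart.vars_X' (mem_filter.1 j.2).2.2) (hCj j).2.1,
    IsWeightedHomogeneous.sum _ _ _ fun j _ => ?_, (bd_iff hψ1 hψ2 _ _).2 ?_⟩
  · have h := (isWeightedHomogeneous_X ℝ G.w j.1).mul (hCj j).2.2
    rwa [hW.w j.1 j.2, add_comm] at h
  have hid : C (n : ℝ) * (∑ b ∈ G.U1 g, G.th b * om b) - ∑ j : G.U1 g, X j.1 * Cj j =
      ∑ b : G.U1 g, G.th b.1 * ((n : ℝ) • lam ((A1 G (G.U1 g))⁻¹ *ᵥ Pi.single b 1) -
        ∑ j, ((A1 G (G.U1 g))⁻¹ *ᵥ Pi.single b 1) j • Cj j) := by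
    simp only [mul_sub, sum_sub_distrib]
    congr 1
    · rw [← sum_coe_sort, mul_sum]
      refine sum_congr rfl fun b _ => ?_
      rw [hlam', mulVec_mulVec, mul_nonsing_inv _ hAu, one_mulVec, sum_eq_single b]
      · rw [Pi.single_eq_same, one_smul, ← C_mul']; ring
      · intro c _ hc; rw [Pi.single_eq_of_ne hc, zero_smul]
      · simp
    · simp only [X_eq hG hW, sum_mul, mul_sum]
      rw [sum_comm]
      refine sum_congr rfl fun b _ => sum_congr rfl fun j _ => ?_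
      rw [← C_mul', mulVec_single_one, col_apply]; ring
  rw [hid, map_sum]
  refine (nrm_sum_le _ _).trans ?_
  have hone : ∀ b : G.U1 g, nrm (aeval ψ (G.th b.1 * ((n : ℝ) •
      lam ((A1 G (G.U1 g))⁻¹ *ᵥ Pi.single b 1) -
        ∑ j, ((A1 G (G.U1 g))⁻¹ *ᵥ Pi.single b 1) j • Cj j))) ≤
      12 * Fintype.card (G.U1 g) * Real.exp Y * n / (u⁻¹ * R) := fun b => by
    rw [map_mul, hψ2]
    refine (nrm_mul_le _ _).trans ?_
    rw [nrm_X, one_mul]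
    refine (hb _).trans ?_
    rw [hlen, mul_one]
  refine (sum_le_sum fun b _ => hone b).trans ?_
  rw [sum_const, card_univ, nsmul_eq_mul]
  exact n6

end Vale.Agent.P057T.Eq
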