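import Vale.Agent.P057T.Eq.Defs
import Vale.Agent.P057T.Chart

/-! The groups up to `g` of the tangent tower only see the directions on the groups below `g`. -/

set_option linter.all false

open MvPolynomial Finset

namespace Vale.Agent.P057T.Eq

noncomputable section

namespace LocH

variable {ι κ : Type} [Fintype ι] [DecidableEq ι] [Fintype κ] [DecidableEq κ]

theorem tA (G : GT ι) (h h' : κ → ι → ℤ) : (G.tan h).A = (G.tan h').A := rfl
theorem tg (G : GT ι) (h h' : κ → ι → ℤ) : (G.tan h).g = (G.tan h').g := rfl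
theorem tw (G : GT ι) (h h' : κ → ι → ℤ) : (G.tan h).w = (G.tan h').w := rfl
theorem tex (G : GT ι) (h h' : κ → ι → ℤ) : (G.tan h).ex = (G.tan h').ex := rfl

theorem q_inl (G : GT ι) (h : κ → ι → ℤ) (a : ι) :
    (G.tan h).q (Sum.inl a) = rename Sum.inl (G.q a) := by
  unfold GT.tan
  simp only [Sum.elim_inl]

theorem q_inr (G : GT ι) (h : κ → ι → ℤ) (a : κ × {a : ι // 2 ≤ G.w a}) :
    (G.tan h).q (Sum.inr a) = G.dd h a.1 (G.q a.2.1) := by
  unfold GT.tan
  simp only [Sum.elim_inr]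

theorem g_inr (G : GT ι) (h : κ → ι → ℤ) (a : κ × {a : ι // 2 ≤ G.w a}) :
    (G.tan h).g (Sum.inr a) = G.g a.2.1 := rfl

theorem dd_eq {s : ℕ} {G : GT ι} {h h' : κ → ι → ℤ} {g : ℕ} (hG : G.Ok s)
    (hh : ∀ j a, G.w a = 1 → G.g a < g → h j a = h' j a) (j : κ) (F : MvPolynomial ι ℝ)
    (hF : G.Lo g F) : G.dd h j F = G.dd h' j F := by
  unfold GT.dd
  refine sum_congr rfl fun b _ => ?_
  by_cases hb : b ∈ F.vars
  · congr 1
    unfold GT.wv
    by_cases h2 : 2 ≤ G.w b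
    · simp only [h2, dif_pos]
    · simp only [h2, dif_neg, not_false_eq_true]
      have h1 := hG.w1 b
      rw [hh j b (by omega) (hF b hb)]
  · rw [pderiv_eq_zero_of_notMem_vars hb]
    simp

theorem th_eq {s : ℕ} {G : GT ι} {h h' : κ → ι → ℤ} {g : ℕ} (hG : G.Ok s)
    (hT : (G.tan h).Ok s) (hh : ∀ j a, G.w a = 1 → G.g a < g → h j a = h' j a) (x : G.TV κ)
    (hx : (G.tan h).g x < g + 1) : (G.tan h).th x = (G.tan h').th x := by
  unfold GT.th
  refine sum_congr rfl fun y _ => ?_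
  by_cases hA : (G.tan h).A x y = 0
  · rw [← tA G h h', hA, C_0, zero_mul, zero_mul]
  · have hg := (hT.blk x y (Or.inl hA)).1
    have e : (G.tan h).q y = (G.tan h').q y := by
      rcases y with a | a
      · rw [q_inl, q_inl]
      · rw [q_inr, q_inr]
        refine dd_eq hG hh _ _ fun b hb => ?_
        have h1 := hG.ql a.2.1 b hb
        have h2 := g_inr G h a
        omega
    rw [e, tA G h h']

theorem bd_tr (hB : BD) {s : ℕ} {G : GT ι} {h h' : κ → ι → ℤ} {g : ℕ} (hG : G.Ok s)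
    (hT : (G.tan h).Ok s) (hh : ∀ j a, G.w a = 1 → G.g a < g → h j a = h' j a)
    (F : MvPolynomial (G.TV κ) ℝ) (H : ℝ) (hF : (G.tan h).Lo (g + 1) F)
    (hb : (G.tan h).Bd F H) : (G.tan h').Bd F H := by
  obtain ⟨b, e, hl⟩ := hb
  have hlo : (G.tan h).Lo (g + 1) b := ((hB s _ (G.tan h) hT).2.2.2 (g + 1) b).2 (e ▸ hF)
  refine ⟨b, ?_, hl⟩
  rw [← e]
  exact Chart.aeval_congr_vars fun x hx => (th_eq hG hT hh x (hlo x hx)).symm

end LocH

open LocH in
theorem loc (hB : BD) (hT : TANOK) : LOC := by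
  intro s ι κ _ _ _ _ G h h' g hG hh
  have t1 := (hT s ι κ G h hG).1
  have t2 := (hT s ι κ G h' hG).1
  refine ⟨fun F H hF hb => bd_tr hB hG t1 hh F H hF hb, fun H hbig => ?_,
    fun j F hF => dd_eq hG hh j F hF⟩
  intro e k I hk hI hlo hm hb
  rw [← tex G h h']
  refine hbig e k I ?_ hI ?_ ?_ ?_
  · rw [tg G h h', tw G h h']; exact hk
  · unfold GT.Lo; rw [tg G h h']; exact hlo
  · unfold GT.Hm; rw [tw G h h']; exact hm
  refine bd_tr hB hG t2 (fun j a h1 h2 => (hh j a h1 h2).symm) _ H ?_ hb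
  refine Chart.vars_add' ?_ fun x hx => Nat.lt_succ_of_lt (hlo x hx)
  refine Chart.vars_sum' fun a _ => ?_
  by_cases h0 : k a = 0
  · simp [cz, h0]
  · refine Chart.vars_mul' (Chart.vars_C' _) (Chart.vars_X' ?_)
    rw [(hk a h0).1]
    exact Nat.lt_succ_self g

end

end Vale.Agent.P057T.Eq
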