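import Vale.Agent.P057T.Eq.Defs

/-! Deleting the top weight stage of one group. -/

set_option linter.all false

open MvPolynomial Finset
open scoped Real

namespace Vale.Agent.P057T.Eq

namespace MargP

variable {ι : Type} [Fintype ι] [DecidableEq ι]

/-- all monomials have the property -/
def Sup (φ : (ι →₀ ℕ) → Prop) (F : MvPolynomial ι ℝ) : Prop := ∀ m, coeff m F ≠ 0 → φ m

theorem Sup.add {φ : (ι →₀ ℕ) → Prop} {F F' : MvPolynomial ι ℝ} (h : Sup φ F) (h' : Sup φ F') :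
    Sup φ (F + F') := by
  intro m hm
  rw [coeff_add] at hm
  by_cases h0 : coeff m F = 0
  · exact h' m (by simpa [h0] using hm)
  · exact h m h0

theorem Sup.cmul {φ : (ι →₀ ℕ) → Prop} {F : MvPolynomial ι ℝ} (c : ℝ) (h : c ≠ 0 → Sup φ F) :
    Sup φ (C c * F) := by
  intro m hm
  rw [coeff_C_mul] at hm
  exact h (left_ne_zero_of_mul hm) m (right_ne_zero_of_mul hm)

theorem Sup.sub {φ : (ι →₀ ℕ) → Prop} {F F' : MvPolynomial ι ℝ} (h : Sup φ F) (h' : Sup φ F') :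
    Sup φ (F - F') := by
  intro m hm
  rw [coeff_sub] at hm
  by_cases h0 : coeff m F = 0
  · exact h' m (by simpa [h0] using hm)
  · exact h m h0

theorem Sup.sum {φ : (ι →₀ ℕ) → Prop} {α : Type} (s : Finset α) (F : α → MvPolynomial ι ℝ)
    (h : ∀ a ∈ s, Sup φ (F a)) : Sup φ (∑ a ∈ s, F a) := by
  intro m hm
  rw [coeff_sum] at hm
  obtain ⟨a, ha, h0⟩ := exists_ne_zero_of_sum_ne_zero hm
  exact h a ha m h0

theorem vars_iff (ψ : ι → Prop) (F : MvPolynomial ι ℝ) :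
    (∀ b ∈ F.vars, ψ b) ↔ Sup (fun m => ∀ b ∈ m.support, ψ b) F := by
  constructor
  · intro h m hm b hb
    exact h b ((mem_vars_iff_mem_support b).2 ⟨m, mem_support_iff.2 hm, hb⟩)
  · intro h b hb
    obtain ⟨m, hm, hb⟩ := (mem_vars_iff_mem_support b).1 hb
    exact h m (mem_support_iff.1 hm) b hb

theorem dl_iff (G : GT ι) (e : ℕ) (F : MvPolynomial ι ℝ) :
    G.Dl e F ↔ Sup (fun m => Finsupp.weight G.w m < e) F :=
  ⟨fun h m hm => h m (mem_support_iff.2 hm), fun h m hm => h m (mem_support_iff.1 hm)⟩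

theorem dl_var {G : GT ι} {e : ℕ} {F : MvPolynomial ι ℝ} (h : G.Dl e F) {b : ι} (hb : b ∈ F.vars) :
    G.w b < e := by
  obtain ⟨m, hm, hb⟩ := (mem_vars_iff_mem_support b).1 hb
  exact lt_of_le_of_lt (Finsupp.le_weight_of_ne_zero' G.w (Finsupp.mem_support_iff.1 hb)) (h m hm)

theorem hm_dl {G : GT ι} {e : ℕ} {F : MvPolynomial ι ℝ} (h : G.Hm e F) : G.Dl (e + 1) F := by
  intro m hm
  rw [h (mem_support_iff.1 hm)]
  exact Nat.lt_succ_self e

theorem dl_mono {G : GT ι} {e e' : ℕ} {F : MvPolynomial ι ℝ} (h : G.Dl e F) (he : e ≤ e') :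
    G.Dl e' F := fun m hm => lt_of_lt_of_le (h m hm) he

theorem top_dl {G : GT ι} {e : ℕ} {F : MvPolynomial ι ℝ} (h : G.Dl e F) : G.top e F = 0 :=
  weightedHomogeneousComponent_eq_zero' _ _ fun m hm => (h m hm).ne

theorem l1_eq (b : MvPolynomial ι ℝ) (s : Finset (ι →₀ ℕ)) (hs : b.support ⊆ s) :
    l1 b = ∑ m ∈ s, |coeff m b| :=
  sum_subset hs fun m _ hm => by rw [notMem_support_iff.1 hm, abs_zero]

theorem l1_sub (b b' : MvPolynomial ι ℝ) : l1 (b - b') ≤ l1 b + l1 b' := by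
  rw [l1_eq (b - b') (b.support ∪ b'.support) (support_sub _ _ _),
    l1_eq b (b.support ∪ b'.support) subset_union_left,
    l1_eq b' (b.support ∪ b'.support) subset_union_right, ← sum_add_distrib]
  exact sum_le_sum fun m _ => by rw [coeff_sub]; exact abs_sub _ _

theorem l1_lin (x : ι → ℝ) : l1 (lin x) ≤ ∑ a, |x a| := by
  have h : ∀ s : Finset ι, l1 (∑ a ∈ s, C (x a) * X a : MvPolynomial ι ℝ) ≤ ∑ a ∈ s, |x a| := by
    intro s
    induction s using Finset.induction_on with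
    | empty => simp [l1]
    | insert a s ha ih =>
      rw [sum_insert ha, sum_insert ha]
      have h1 := l1_sub (∑ a ∈ s, C (x a) * X a : MvPolynomial ι ℝ) (C (-x a) * X a)
      have h2 : l1 (C (-x a) * X a : MvPolynomial ι ℝ) ≤ |x a| := by
        rw [C_mul_X_eq_monomial, l1_eq _ _ support_monomial_subset]
        simp
      rw [map_neg, neg_mul, sub_neg_eq_add, add_comm] at h1
      rw [map_neg, neg_mul] at h2
      linarith
  exact h univ

theorem bk_filter {s : ℕ} {G : GT ι} (hO : G.Ok s) {U : Finset ι} (hU : G.Bk U)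
    (φ : ℕ → ℕ → Prop) [DecidablePred fun a => φ (G.g a) (G.w a)] :
    G.Bk (U.filter fun a => φ (G.g a) (G.w a)) := by
  intro a b h
  obtain ⟨h1, h2⟩ := hO.blk a b h
  simp only [mem_filter, h1, h2, hU a b h]

theorem mn_split {s : ℕ} {G : GT ι} (hD : DET) (hO : G.Ok s) (σ : ι → ℝ) {U V : Finset ι}
    (hU : G.Bk U) (hV : G.Bk V) (h : V ⊆ U) : G.mn σ U = G.mn σ V * G.mn σ (U \ V) := by
  simp only [GT.mn]
  rw [(hD s ι G hO).2.2.1 U V hU hV h, ← prod_sdiff h]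
  ring

theorem mn_pos {s : ℕ} {G : GT ι} (hD : DET) (hO : G.Ok s) {σ : ι → ℝ} (hσ : ∀ a, 0 < σ a)
    {U : Finset ι} (hU : G.Bk U) : 0 < G.mn σ U :=
  mul_pos ((hD s ι G hO).1 U hU) (prod_pos fun a _ => inv_pos.2 (hσ a))

theorem norm_sm {s : ℕ} {G : GT ι} (hS : SUMM) (hO : G.Ok s) {T : AT ι} {P : ℝ} (hP : 0 < P)
    (hA : G.AOk T P) (Q : MvPolynomial ι ℝ) : ‖G.Sm T Q‖ ≤ G.ms T := by
  refine tsum_of_norm_bounded (hS s ι G T P hO hP hA).hasSum fun z => ?_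
  rw [norm_mul, Complex.norm_real,
    Real.norm_of_nonneg (show 0 ≤ G.nu T z.1 from (Real.exp_pos _).le)]
  have : (2 * π * Complex.I * (eval (cz z.1) Q : ℝ) : ℂ) =
      ((2 * π * eval (cz z.1) Q : ℝ) : ℂ) * Complex.I := by
    push_cast
    ring
  rw [this, Complex.norm_exp_ofReal_mul_I, mul_one]

theorem rg_mono {G : GT ι} {WW : ℕ → ℝ} {c Y c' Y' : ℝ} {g0 g1 : ℕ} (h : G.Rg WW c Y g1)
    (hg : g0 ≤ g1) (h0 : ∀ g ≤ g0, 0 < c' * (Y' + WW g))
    (h1 : ∀ g ≤ g0, c' * (Y' + WW g) ≤ c * (Y + WW g)) : G.Rg WW c' Y' g0 := by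
  intro g hg0
  obtain ⟨hB, hS⟩ := h g (lt_of_lt_of_le hg0 hg)
  refine ⟨fun e k I a1 a2 a3 a4 a5 => hB e k I a1 a2 a3 a4 ?_, fun j hj hjg => ?_⟩
  · obtain ⟨b, e1, e2⟩ := a5
    exact ⟨b, e1, e2.trans (Real.exp_le_exp.2 (h1 g hg0.le))⟩
  · obtain ⟨v, v1, v2, v3⟩ := hS j hj hjg
    refine ⟨v, v1, v2, fun a => (v3 a).trans (min_le_min ?_ ?_)⟩
    · exact Real.exp_le_exp.2 (neg_le_neg (h1 (g + 1) hg0))
    · exact inv_anti₀ (h0 g hg0.le) (h1 g hg0.le)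

theorem cnt_mono (G : GT ι) (d g : ℕ) {U V : Finset ι} (h : V ⊆ U) : G.cnt d g V ≤ G.cnt d g U :=
  card_le_card (image_subset_image (filter_subset_filter _ h))

theorem sum_th {s : ℕ} {G : GT ι} (hO : G.Ok s) (k : ι → ℝ) :
    aeval G.th (lin fun a => ∑ b, k b * G.B b a) = lin k - ∑ b, C (k b) * G.q b := by
  have hBA : G.B * G.A = 1 := mul_eq_one_comm.1 hO.AB
  have h1 : ∀ c, ∑ a, (∑ b, k b * G.B b a) * G.A a c = k c := by
    intro c
    have : ∀ b, ∑ a, G.B b a * G.A a c = if b = c then 1 else 0 := by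
      intro b
      rw [← Matrix.mul_apply, hBA, Matrix.one_apply]
    simp only [sum_mul]
    rw [sum_comm]
    simp only [mul_assoc, ← mul_sum, this]
    simp
  simp only [lin, map_sum (aeval G.th), map_mul, aeval_C, aeval_X, GT.th, algebraMap_eq, mul_sum]
  rw [sum_comm, ← sum_sub_distrib]
  refine sum_congr rfl fun c _ => ?_
  simp only [← mul_assoc, ← map_mul]
  rw [← sum_mul, ← map_sum, h1, mul_sub]

/-- a short dual vector with an approximate relation is zero -/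
theorem near {s : ℕ} {G : GT ι} (hO : G.Ok s) {g d : ℕ} {k : ι → ℤ} {H H' M η : ℝ}
    (hk : ∀ a, k a ≠ 0 → G.g a = g ∧ G.w a = d) (hB : G.Big g H') (hS : G.Small g η)
    (hM : ∑ a, |∑ b, (k b : ℝ) * G.B b a| ≤ M) (hη : η * M < 1) (hH : H * (1 + M) ≤ H')
    (hA : G.Ap g d (∑ b, C (-(k b : ℝ)) * G.q b) H) : k = 0 := by
  obtain ⟨n, I, n1, nH, i1, i2, i3, b, e1, e2⟩ := hA
  have n0 : (0 : ℝ) ≤ n := Nat.cast_nonneg n
  have M0 : 0 ≤ M := (sum_nonneg fun _ _ => abs_nonneg _).trans hM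
  have hex := hB d (fun a => n * k a) I (fun a ha => hk a (right_ne_zero_of_mul ha)) i1 i2 i3
    ⟨(lin fun a => ∑ b, cz (fun a => n * k a) b * G.B b a) - b, by
      rw [map_sub, sum_th hO, e1, mul_sum]
      have : ∀ b, (C (n : ℝ) * (C (-(k b : ℝ)) * G.q b) : MvPolynomial ι ℝ) =
          -(C (cz (fun a => n * k a) b) * G.q b) := by
        intro b
        simp only [cz, Int.cast_mul, Int.cast_natCast, map_mul, map_neg]
        ring
      simp only [this, sum_neg_distrib]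
      ring, by
      refine (l1_sub _ _).trans ((add_le_add (l1_lin _) e2).trans (le_trans ?_ hH))
      have : ∀ a, |∑ b, cz (fun a => n * k a) b * G.B b a| = n * |∑ b, (k b : ℝ) * G.B b a| := by
        intro a
        simp only [cz, Int.cast_mul, Int.cast_natCast, mul_assoc, ← mul_sum]
        rw [abs_mul, abs_of_nonneg n0]
      simp only [this, ← mul_sum]
      have := mul_le_mul nH hM (sum_nonneg fun _ _ => abs_nonneg _) (n0.trans nH)
      linarith⟩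
  have hex' : ∀ a, k a ≠ 0 → a ∈ G.ex := fun a ha =>
    hex a (mul_ne_zero (by exact_mod_cast (by omega : n ≠ 0)) ha)
  funext j
  by_contra hj
  obtain ⟨v, v1, -, v3⟩ := hS j (hex' j hj) (hk j hj).1
  have hBA : G.B * G.A = 1 := mul_eq_one_comm.1 hO.AB
  have h1 : (k j : ℝ) = ∑ a, (∑ b, (k b : ℝ) * G.B b a) * ∑ c, G.A a c * v c := by
    have h2 : (Matrix.vecMul (cz k) G.B) ⬝ᵥ (G.A.mulVec v) = cz k ⬝ᵥ v := by
      rw [Matrix.dotProduct_mulVec, Matrix.vecMul_vecMul, hBA, Matrix.vecMul_one]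
    have h3 : cz k ⬝ᵥ v = k j := by
      rw [dotProduct, sum_eq_single j]
      · rw [v1 j (hex' j hj), if_pos rfl, mul_one, cz]
      · intro i _ hi
        by_cases h0 : k i = 0
        · simp [cz, h0]
        · rw [v1 i (hex' i h0), if_neg hi, mul_zero]
      · simp
    rw [← h3, ← h2]
    rfl
  have h4 : |(k j : ℝ)| ≤ η * M := by
    rw [h1]
    refine (abs_sum_le_sum_abs _ _).trans ?_
    have η0 : 0 ≤ η := (abs_nonneg _).trans (v3 j)
    refine le_trans (sum_le_sum fun a _ => ?_) (by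
      rw [mul_comm]
      exact (sum_mul _ _ _).symm.le.trans (mul_le_mul_of_nonneg_right hM η0))
    rw [abs_mul]
    exact mul_le_mul_of_nonneg_left (v3 a) (abs_nonneg _)
  have h5 : (1 : ℝ) ≤ |(k j : ℝ)| := by exact_mod_cast Int.one_le_abs hj
  linarith

theorem dq_nonneg (G : GT ι) (σ : ι → ℝ) (S : Finset ι) (ξ : ι → ℝ) : 0 ≤ G.dq σ S ξ :=
  sum_nonneg fun _ _ => sq_nonneg _

theorem short {G : GT ι} {σ : ι → ℝ} {S : Finset ι} (hS : G.Bk S) {k : ι → ℤ} (hk : k ∈ Lat S)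
    {P ρ : ℝ} (hc : (Fintype.card ι : ℝ) ≤ P) (hσ : ∀ a, 0 < σ a ∧ σ a ≤ P) (hρ : 1 ≤ ρ)
    (h : G.dq σ S (cz k) ≤ ρ) : ∑ a, |∑ b, (k b : ℝ) * G.B b a| ≤ P ^ 2 * ρ := by
  have P0 : 0 ≤ P := (Nat.cast_nonneg _).trans hc
  have h1 : ∀ a, |∑ b, (k b : ℝ) * G.B b a| ≤ P * ρ := by
    intro a
    by_cases ha : a ∈ S
    · have e : ∑ b, (k b : ℝ) * G.B b a = ∑ b ∈ S, cz k b * G.B b a :=
        (sum_subset (subset_univ S) fun b _ hb => by simp [cz, hk b hb]).symm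
      rw [e]
      have h2 : ((∑ b ∈ S, cz k b * G.B b a) / σ a) ^ 2 ≤ ρ ^ 2 :=
        (single_le_sum (f := fun a => ((∑ b ∈ S, cz k b * G.B b a) / σ a) ^ 2)
          (fun _ _ => sq_nonneg _) ha).trans (h.trans (by nlinarith))
      have h3 := abs_le_of_sq_le_sq' h2 (by linarith)
      have h4 := abs_le.2 h3
      rw [abs_div, abs_of_pos (hσ a).1, div_le_iff₀ (hσ a).1] at h4
      refine h4.trans ?_
      rw [mul_comm]
      exact mul_le_mul_of_nonneg_right (hσ a).2 (by linarith)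
    · rw [sum_eq_zero, abs_zero]
      · positivity
      · intro b _
        by_cases hb : b ∈ S
        · by_cases h0 : G.B b a = 0
          · rw [h0, mul_zero]
          · exact absurd ((hS b a (Or.inr h0)).1 hb) ha
        · simp [hk b hb]
  refine (sum_le_card_nsmul _ _ _ fun a _ => h1 a).trans ?_
  rw [card_univ, nsmul_eq_mul, sq, mul_assoc]
  exact mul_le_mul_of_nonneg_right hc (by positivity)

theorem dis {s : ℕ} {G : GT ι} {T : AT ι} {P : ℝ} {g d : ℕ} (hO : G.Ok s) (hA : G.AOk T P)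
    (hT : ∀ a ∈ T.U, g ≤ G.g a → G.w a < d ∨ (G.g a = g ∧ G.w a = d)) {S : Finset ι}
    (hmS : ∀ a ∈ S, G.g a = g ∧ G.w a = d) :
    ∀ a ∈ T.U, Disjoint (G.q a).vars S ∧ Disjoint (T.p a).vars S := by
  intro a ha
  refine ⟨disjoint_left.2 fun b hb hbS => ?_, disjoint_left.2 fun b hb hbS => ?_⟩
  · have h1 := hO.ql a b hb
    have h2 := dl_var (hm_dl (hO.qh a)) hb
    have h3 := hmS b hbS
    have h4 := hT a ha (by omega)
    omega
  · have h1 := hA.pl a ha b hb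
    have h2 := dl_var (hA.pd a ha) hb
    have h3 := hmS b hbS
    have h4 := hT a ha (by omega)
    omega

theorem msb {s : ℕ} {G : GT ι} {T : AT ι} {P Y E : ℝ} {g : ℕ} (hD : DET) (hO : G.Ok s)
    (hσ : ∀ a, 0 < T.sg a) (hA : G.AOk T P) (hY : 0 ≤ Y) (hE : 0 ≤ E)
    (h1 : G.AOk (T.rs (T.U.filter (fun a => G.g a < g))) P)
    (h2 : G.ms T ≤ E * G.mn T.sg (T.U.filter (fun a => ¬ G.g a < g)) *
      G.ms (T.rs (T.U.filter (fun a => G.g a < g))))
    (h3 : |G.ms (T.rs (T.U.filter (fun a => G.g a < g))) -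
      G.mn T.sg (T.U.filter (fun a => G.g a < g))| ≤
      Real.exp (-Y) * G.mn T.sg (T.U.filter (fun a => G.g a < g))) :
    G.ms T ≤ 2 * E * G.mn T.sg T.U := by
  have h4 := mn_split hD hO T.sg hA.bk h1.bk (filter_subset _ _)
  have m1 := mn_pos hD hO hσ h1.bk
  have m2 := mn_pos hD hO hσ (bk_filter hO hA.bk (fun x _ => ¬ x < g))
  have h5 : Real.exp (-Y) ≤ 1 := Real.exp_le_one_iff.2 (by linarith)
  have h6 := (abs_le.1 h3).2
  rw [filter_not] at h2 m2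
  change G.mn T.sg T.U = G.mn T.sg (T.U.filter (fun a => G.g a < g)) *
    G.mn T.sg (T.U \ T.U.filter (fun a => G.g a < g)) at h4
  change 0 < G.mn T.sg (T.U.filter (fun a => G.g a < g)) at m1
  have h7 : G.ms (T.rs (T.U.filter (fun a => G.g a < g))) ≤
      2 * G.mn T.sg (T.U.filter (fun a => G.g a < g)) := by nlinarith
  refine h2.trans ((mul_le_mul_of_nonneg_left h7 (by positivity)).trans (le_of_eq ?_))
  rw [h4]
  ring

theorem phase {s : ℕ} {G : GT ι} {T : AT ι} {P : ℝ} {g d : ℕ} (hO : G.Ok s) (hA : G.AOk T P)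
    {S : Finset ι} (hSU : S ⊆ T.U) (hSk : G.Bk S) (hmS : ∀ a ∈ S, G.g a = g ∧ G.w a = d)
    (hdis : ∀ a ∈ T.U, Disjoint (G.q a).vars S ∧ Disjoint (T.p a).vars S)
    {Q : MvPolynomial ι ℝ} (hQ : Q.vars ⊆ T.U) (hQS : Disjoint Q.vars S) (hQd : G.Dl d Q)
    {k : ι → ℤ} (hk : k ∈ Lat S) :
    (Q + ∑ b ∈ S, C (0 - (k b : ℝ)) * G.cq T b).vars ⊆ T.U \ S ∧
    G.Dl (d + 1) (Q + ∑ b ∈ S, C (0 - (k b : ℝ)) * G.cq T b) ∧
    G.top d (Q + ∑ b ∈ S, C (0 - (k b : ℝ)) * G.cq T b) = ∑ b, C (-(k b : ℝ)) * G.q b ∧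
    G.Lo g (∑ b, C (-(k b : ℝ)) * G.q b) := by
  have hcq : ∀ φ : (ι →₀ ℕ) → Prop, ∀ b ∈ S, Sup φ (G.q b) → (∀ a ∈ S, Sup φ (T.p a)) →
      Sup φ (G.cq T b) := fun φ b hb h1 h2 =>
    h1.sub (Sup.sum _ _ fun a _ => Sup.cmul _ fun h0 => h2 a ((hSk b a (Or.inr h0)).1 hb))
  have hv : ∀ F : MvPolynomial ι ℝ, F.vars ⊆ T.U → Disjoint F.vars S →
      Sup (fun m => ∀ b ∈ m.support, b ∈ T.U \ S) F := fun F h1 h2 =>
    (vars_iff _ F).1 fun b hb => mem_sdiff.2 ⟨h1 hb, disjoint_left.1 h2 hb⟩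
  refine ⟨fun b hb => (vars_iff _ _).2 ((hv Q hQ hQS).add (Sup.sum _ _ fun b hb =>
    Sup.cmul _ fun _ => hcq _ b hb (hv _ (hA.qv b (hSU hb)) (hdis b (hSU hb)).1)
      fun a ha => hv _ (hA.pv a (hSU ha)) (hdis a (hSU ha)).2)) b hb,
    (dl_iff _ _ _).2 (((dl_iff _ _ _).1 (dl_mono hQd (Nat.le_succ d))).add
      (Sup.sum _ _ fun b hb => Sup.cmul _ fun _ =>
        hcq _ b hb ((dl_iff _ _ _).1 ((hmS b hb).2 ▸ hm_dl (hO.qh b)))
          fun a ha => (dl_iff _ _ _).1 (dl_mono (hA.pd a (hSU ha)) (by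
            have := (hmS a ha).2
            omega)))), ?_, ?_⟩
  · have h2 := top_dl hQd
    simp only [GT.top] at h2 ⊢
    rw [map_add, h2, zero_add, map_sum, ← sum_subset (subset_univ S)
      (fun b _ hb => by simp [hk b hb])]
    refine sum_congr rfl fun b hb => ?_
    rw [weightedHomogeneousComponent_C_mul, zero_sub, GT.cq, map_sub]
    have h3 : G.Hm d (G.q b) := (hmS b hb).2 ▸ hO.qh b
    have h4 : G.Dl d (∑ a, C (G.B b a) * T.p a) :=
      (dl_iff _ _ _).2 (Sup.sum _ _ fun a _ => Sup.cmul _ fun h0 => (dl_iff _ _ _).1 (by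
        have ha := (hSk b a (Or.inr h0)).1 hb
        exact (hmS a ha).2 ▸ hA.pd a (hSU ha)))
    have h5 := top_dl h4
    simp only [GT.top] at h5
    rw [IsWeightedHomogeneous.weightedHomogeneousComponent_same h3, h5, sub_zero]
  · refine (vars_iff _ _).2 (Sup.sum _ _ fun b _ => Sup.cmul _ fun h0 => (vars_iff _ _).1 ?_)
    have hb : b ∈ S := by
      by_contra h
      exact h0 (by simp [hk b h])
    exact (hmS b hb).1 ▸ hO.ql b

theorem nums {P : ℝ} (P2 : 2 ≤ P) (c1 c2 c3 c4 : ℕ) : ∃ m : ℝ, 2 + P ^ c1 + P ^ c2 ≤ m ∧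
    2 * (P ^ c3 * m * P ^ 2) ≤ P ^ (c3 + (c1 + c2 + 3) + 3 + c4) ∧
    P ^ c4 ≤ P ^ (c3 + (c1 + c2 + 3) + 3 + c4) := by
  have P1 : 1 ≤ P := by linarith
  have a1 : 1 ≤ P ^ c1 := one_le_pow₀ P1
  have b1 : 1 ≤ P ^ c2 := one_le_pow₀ P1
  have v1 : 1 ≤ P ^ c4 := one_le_pow₀ P1
  have P3 : 8 ≤ P ^ 3 := by
    have := pow_le_pow_left₀ (by norm_num : (0 : ℝ) ≤ 2) P2 3
    linarith
  refine ⟨P ^ c1 * P ^ c2 * P ^ 3, ?_, ?_, pow_le_pow_right₀ P1 (by omega)⟩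
  · have h1 : P ^ c1 ≤ P ^ c1 * P ^ c2 := le_mul_of_one_le_right (by positivity) b1
    have h2 : P ^ c2 ≤ P ^ c1 * P ^ c2 := le_mul_of_one_le_left (by positivity) a1
    have h3 := mul_le_mul_of_nonneg_left P3 (by positivity : 0 ≤ P ^ c1 * P ^ c2)
    linarith
  · have e : P ^ (c3 + (c1 + c2 + 3) + 3 + c4) =
        P * (P ^ c3 * (P ^ c1 * P ^ c2 * P ^ 3) * P ^ 2) * P ^ c4 := by ring
    rw [e]
    exact (mul_le_mul_of_nonneg_right P2 (by positivity)).trans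
      (le_mul_of_one_le_right (by positivity) v1)

theorem nums2 {a b m Y W W' : ℝ} (a1 : 1 ≤ a) (b1 : 1 ≤ b) (hm : 2 + a + b ≤ m) (Y1 : 1 ≤ Y)
    (W0 : 0 ≤ W) (h : W ≤ W') : Y + b * (1 + W) + W' ≤ m * (Y + W') ∧
      Y + b * (1 + W) + 1 + a * (1 + W) ≤ m * (Y + W') := by
  have h1 : a * (1 + W) ≤ a * (Y + W') := mul_le_mul_of_nonneg_left (by linarith) (by linarith)
  have h2 : b * (1 + W) ≤ b * (Y + W') := mul_le_mul_of_nonneg_left (by linarith) (by linarith)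
  have h3 : (2 + a + b) * (Y + W') ≤ m * (Y + W') := mul_le_mul_of_nonneg_right hm (by linarith)
  have h4 : 0 ≤ a * (Y + W') := mul_nonneg (by linarith) (by linarith)
  constructor <;> linarith

theorem nums3 {P u m x Z ρ t : ℝ} (P1 : 1 ≤ P) (u1 : 1 ≤ u) (m1 : 1 ≤ m) (Z1 : 1 ≤ Z)
    (hx : 2 * (u * m * P ^ 2) ≤ x) (ρ1 : 1 ≤ ρ) (hρ : ρ ≤ m * Z) (ht : t ≤ m * Z) :
    (x * Z)⁻¹ * (P ^ 2 * ρ) < 1 ∧ Real.exp (u * t) * (1 + P ^ 2 * ρ) ≤ Real.exp (x * Z) ∧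
      u * t ≤ x * Z := by
  have PP : 1 ≤ P ^ 2 := one_le_pow₀ P1
  have hx2 : u * m ≤ u * m * P ^ 2 := le_mul_of_one_le_right (by positivity) PP
  have hx3 : m * P ^ 2 ≤ u * m * P ^ 2 := by
    rw [mul_assoc]
    exact le_mul_of_one_le_left (by positivity) u1
  have h2 := mul_le_mul_of_nonneg_left hρ (by positivity : 0 ≤ P ^ 2)
  have h3 := mul_le_mul_of_nonneg_right hx3 (by linarith : 0 ≤ Z)
  have h4 := mul_le_mul_of_nonneg_right hx (by linarith : 0 ≤ Z)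
  have h5 : 0 < u * m * P ^ 2 * Z := by positivity
  have h6 := mul_le_mul_of_nonneg_left ht (by linarith : 0 ≤ u)
  have h7 := mul_le_mul_of_nonneg_right hx2 (by linarith : 0 ≤ Z)
  refine ⟨?_, ?_, by linarith⟩
  · rw [inv_mul_lt_iff₀ (by linarith)]
    linarith
  · have h8 : 1 + P ^ 2 * ρ ≤ Real.exp (P ^ 2 * ρ) := by linarith [Real.add_one_le_exp (P ^ 2 * ρ)]
    refine (mul_le_mul_of_nonneg_left h8 (Real.exp_pos _).le).trans ?_
    rw [← Real.exp_add]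
    exact Real.exp_le_exp.2 (by linarith)

theorem far {q ρ Y' t M n : ℝ} (hρ : ρ = Y' + 1 + t) (ρ0 : 0 ≤ ρ) (hq : ρ ≤ q) (M0 : 0 ≤ M)
    (n0 : 0 ≤ n) (hn : n ≤ 2 * Real.exp t * M) :
    Real.exp (-(π / 2) * q) * n ≤ Real.exp (-Y') * M := by
  have pi2 : 1 ≤ π / 2 := by linarith [Real.two_le_pi]
  have h1 : Real.exp (-(π / 2) * q) ≤ Real.exp (-ρ) := Real.exp_le_exp.2 (by nlinarith)
  refine (mul_le_mul h1 hn n0 (Real.exp_pos _).le).trans ?_
  rw [← mul_assoc]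
  refine mul_le_mul_of_nonneg_right ?_ M0
  have h2 : (2 : ℝ) ≤ Real.exp 1 := by linarith [Real.add_one_le_exp (1 : ℝ)]
  have h3 : Real.exp (-Y') = Real.exp (-ρ) * (Real.exp 1 * Real.exp t) := by
    rw [← Real.exp_add, ← Real.exp_add, hρ]
    congr 1
    ring
  rw [h3]
  gcongr

theorem fin {α : Type} {q : α → ℝ} {z : α → ℂ} {o : α} {A : ℂ} {m M Y t : ℝ} (m0 : 0 ≤ m)
    (M0 : 0 ≤ M) (h0 : q o = 0)
    (hs : HasSum (fun k => ((m * Real.exp (-π * q k) : ℝ) : ℂ) * z k) A)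
    (h1 : Summable fun k => Real.exp (-(π / 2) * q k))
    (h2 : ∑' k, Real.exp (-(π / 2) * q k) ≤ Real.exp t)
    (h : ∀ k, k ≠ o → Real.exp (-(π / 2) * q k) * ‖z k‖ ≤ Real.exp (-(Y + t)) * M) :
    ‖A - (m : ℂ) * z o‖ ≤ Real.exp (-Y) * (m * M) := by
  classical
  have hsub := hasSum_ite_sub_hasSum hs o
  rw [h0, mul_zero, Real.exp_zero, mul_one] at hsub
  refine (hsub.norm_le_of_bounded (h1.hasSum.mul_left (Real.exp (-(Y + t)) * (m * M)))
    fun k => ?_).trans ?_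
  swap
  · refine (mul_le_mul_of_nonneg_left h2 (by positivity)).trans (le_of_eq ?_)
    rw [mul_right_comm, ← Real.exp_add]
    congr 2
    ring
  split_ifs with hk
  · rw [norm_zero]
    positivity
  rw [norm_mul, Complex.norm_real, Real.norm_of_nonneg (by positivity)]
  have hsq : Real.exp (-π * q k) = Real.exp (-(π / 2) * q k) * Real.exp (-(π / 2) * q k) := by
    rw [← Real.exp_add]
    congr 1
    ring
  have := mul_le_mul_of_nonneg_left (h k hk) (by positivity : 0 ≤ m * Real.exp (-(π / 2) * q k))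
  rw [hsq]
  linarith

end MargP

open MargP

theorem marg (s d μ : ℕ) (hPo : POIS) (hGW : GW) (hP1 : P1M) (hD : DET) (hSu : SUMM)
    (hE : EQS s d μ) (hM : MASS s d μ) : MARG s d μ := by
  obtain ⟨c1, hP1⟩ := hP1 s
  obtain ⟨c2, hGW⟩ := hGW
  obtain ⟨c3, hE⟩ := hE
  obtain ⟨c4, hM⟩ := hM
  refine ⟨c3 + (c1 + c2 + 3) + 3 + c4,
    fun ι _ _ G T WW P Y g Q hO hW hZ hA hg hR hI hc hT hQ hQd => ?_⟩
  obtain ⟨S, hSdef⟩ : ∃ S, S = T.U.filter (fun a => G.g a = g ∧ G.w a = d) := ⟨_, rfl⟩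
  rw [← hSdef]
  have P2 := hZ.P2
  have Y1 := hZ.Y1
  have P0 : 0 < P := by linarith
  have P1 : 1 ≤ P := by linarith
  have hZ1 : Sz ι P 1 := ⟨hZ.cd, P2, le_rfl⟩
  have hσ : ∀ a, 0 < T.sg a := fun a => lt_of_lt_of_le (inv_pos.2 P0) (hA.s1 a)
  have hSU : S ⊆ T.U := hSdef ▸ filter_subset _ _
  have hSk : G.Bk S := hSdef ▸ bk_filter hO hA.bk (fun x y => x = g ∧ y = d)
  have hmS : ∀ a ∈ S, G.g a = g ∧ G.w a = d := fun a ha => by
    rw [hSdef] at ha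
    exact (mem_filter.1 ha).2
  have hdis := dis hO hA hT hmS
  have hQS : Disjoint Q.vars S := disjoint_left.2 fun b hb hbS => by
    have h2 := dl_var hQd hb
    have h3 := hmS b hbS
    omega
  obtain ⟨hA', hsum⟩ := hPo s ι G T P S 0 Q hO P0 hA hSU hSk hdis hQS
  refine ⟨hA', ?_⟩
  have W0 := hW.nn g
  obtain ⟨m, hm1, hx1, hx4⟩ := nums P2 c1 c2 c3 c4
  have a1 : 1 ≤ P ^ c1 := one_le_pow₀ P1
  have b1 : 1 ≤ P ^ c2 := one_le_pow₀ P1
  have u1 : 1 ≤ P ^ c3 := one_le_pow₀ P1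
  have m1 : 1 ≤ m := by linarith
  have bW : 0 ≤ P ^ c2 * (1 + WW g) := by positivity
  have aW : 0 ≤ P ^ c1 * (1 + WW g) := by positivity
  have mS : 0 < G.mn T.sg S := mn_pos hD hO hσ hSk
  have mU : 0 < G.mn T.sg (T.U \ S) := mn_pos hD hO hσ hA'.bk
  have hms : G.ms (T.rs (T.U \ S)) ≤ 2 * Real.exp (P ^ c1 * (1 + WW g)) * G.mn T.sg (T.U \ S) := by
    obtain ⟨h1, h2⟩ := hP1 ι G _ WW P g hO hW hZ1 hA'
    have hV : (T.U \ S).filter (fun a => G.g a < g) ⊆ T.U := (filter_subset _ _).trans sdiff_subset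
    exact msb hD hO hσ hA' (by linarith) (Real.exp_pos _).le h1 h2
      (hM ι G _ WW P Y g hO hW hZ h1 hg.le
        (rg_mono hR (Nat.le_succ g) (fun g' _ => by have := hW.nn g'; positivity)
          fun g' _ => mul_le_mul_of_nonneg_right hx4 (by have := hW.nn g'; linarith))
        (fun a ha => hI a (hV ha)) ((cnt_mono G d g hV).trans hc) fun a ha => (mem_filter.1 ha).2)
  obtain ⟨hs1, hs2⟩ := hGW s ι G WW P T.sg S g 0 hO hW hZ1 (fun a => ⟨hA.s1 a, hA.s2 a⟩) hSk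
    (fun a ha => (hmS a ha).1.ge)
  have hfin := fin (o := (0 : Lat S)) (Y := Y) mS.le mU.le (by simp [GT.dq, cz]) hsum hs1 hs2
    fun k hk => ?_
  · rw [mn_split hD hO _ hA.bk hSk hSU]
    simpa using hfin
  simp only [Pi.zero_apply]
  have ρ1 : 1 ≤ Y + P ^ c2 * (1 + WW g) + 1 + P ^ c1 * (1 + WW g) := by linarith
  by_cases hq : Y + P ^ c2 * (1 + WW g) + 1 + P ^ c1 * (1 + WW g) ≤ G.dq T.sg S (cz k.1 - 0)
  · exact far rfl (by linarith) hq mU.le (norm_nonneg _) ((norm_sm hSu hO P0 hA' _).trans hms)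
  have h1 : Real.exp (-(π / 2) * G.dq T.sg S (cz k.1 - 0)) ≤ 1 :=
    Real.exp_le_one_iff.2 (mul_nonpos_of_nonpos_of_nonneg (by linarith [Real.pi_pos])
      (dq_nonneg _ _ _ _))
  refine (mul_le_of_le_one_left (norm_nonneg _) h1).trans ?_
  by_contra hcon
  obtain ⟨f1, f2, f3, f4⟩ := phase hO hA hSU hSk hmS hdis hQ hQS hQd k.2
  have hn := fun g' (h' : g' ≤ g) => nums3 P1 u1 m1 (by have := hW.nn g'; linarith) hx1 ρ1
    (nums2 a1 b1 hm1 Y1 W0 (hW.anti h')).2 (nums2 a1 b1 hm1 Y1 W0 (hW.anti h')).1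
  have hAp := hE ι G _ WW P (Y + P ^ c2 * (1 + WW g)) g _ hO hW ⟨hZ.cd, P2, by linarith⟩ hA' hg.le
    (by simp) (rg_mono hR (Nat.le_succ g) (fun g' _ => by have := hW.nn g'; positivity)
      fun g' h' => (hn g' h').2.2)
    (fun a ha => hI a (sdiff_subset ha)) ((cnt_mono G d g sdiff_subset).trans hc)
    (fun a ha h' => by
      obtain ⟨h2, h3⟩ := mem_sdiff.1 ha
      rcases hT a h2 h' with h4 | h4
      · exact h4
      · rw [hSdef] at h3
        exact absurd (mem_filter.2 ⟨h2, h4⟩) h3)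
    f1 f2 (f3 ▸ f4) (not_le.1 hcon).le
  rw [f3] at hAp
  obtain ⟨hB, hSm⟩ := hR g (Nat.lt_succ_self g)
  refine hk (Subtype.ext (near hO (fun a ha => hmS a ?_) hB hSm
    (short hSk k.2 hZ.cd (fun a => ⟨hσ a, hA.s2 a⟩) ρ1 (by simpa using (not_le.1 hq).le))
    (lt_of_le_of_lt (mul_le_mul_of_nonneg_right (min_le_right _ _) (by positivity))
      (hn g le_rfl).1) (hn g le_rfl).2.1 hAp))
  by_contra h
  exact ha (k.2 a h)

end Vale.Agent.P057T.Eq
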