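import Vale.Agent.P057T.Eq.Defs

/-! Deleting all stages of one weight, and the total mass. -/

set_option linter.all false

open MvPolynomial Finset
open scoped Real

namespace Vale.Agent.P057T.Eq

noncomputable section

namespace MgA

variable {ι : Type} [Fintype ι] [DecidableEq ι] {G : GT ι}

lemma bd_mono {F : MvPolynomial ι ℝ} {H H' : ℝ} (h : G.Bd F H) (hH : H ≤ H') : G.Bd F H' := by
  obtain ⟨b, hb, hl⟩ := h
  exact ⟨b, hb, hl.trans hH⟩

lemma big_mono {g : ℕ} {H H' : ℝ} (h : G.Big g H) (hH : H' ≤ H) : G.Big g H' :=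
  fun e k I h1 h2 h3 h4 h5 => h e k I h1 h2 h3 h4 (bd_mono h5 hH)

lemma small_mono {g : ℕ} {η η' : ℝ} (h : G.Small g η) (hη : η ≤ η') : G.Small g η' := by
  intro j hj hg
  obtain ⟨v, h1, h2, h3⟩ := h j hj hg
  exact ⟨v, h1, h2, fun a => (h3 a).trans hη⟩

lemma rg_mono {WW : ℕ → ℝ} {c c' Y Y' : ℝ} {g0 g1 : ℕ} (h : G.Rg WW c Y g0) (hg : g1 ≤ g0)
    (h0 : ∀ g, 0 < c' * (Y' + WW g)) (h1 : ∀ g, c' * (Y' + WW g) ≤ c * (Y + WW g)) :
    G.Rg WW c' Y' g1 := by
  intro g hg'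
  obtain ⟨hb, hs⟩ := h g (lt_of_lt_of_le hg' hg)
  refine ⟨big_mono hb (Real.exp_le_exp.2 (h1 g)), small_mono hs (min_le_min ?_ ?_)⟩
  · exact Real.exp_le_exp.2 (neg_le_neg (h1 _))
  · exact inv_anti₀ (h0 g) (h1 g)

/-- a larger exponent pays for a shift of `Y` -/
lemma rg_shift {WW : ℕ → ℝ} {P Y : ℝ} {c c' n g0 : ℕ} (hW : G.Wd WW) (hS : Sz ι P Y)
    (h : G.Rg WW (P ^ c') Y g0) (hc : c + n ≤ c') : G.Rg WW (P ^ c) (Y + n) g0 := by
  have hP := hS.P2
  have hY := hS.Y1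
  have hP0 : 0 < P := by linarith
  have hn : (0 : ℝ) ≤ n := Nat.cast_nonneg _
  refine rg_mono h le_rfl (fun g => ?_) (fun g => ?_)
  · have := hW.nn g
    positivity
  · have hw := hW.nn g
    have h1 : (n : ℝ) + 1 ≤ P ^ n := by
      have := one_add_mul_le_pow (a := (1 : ℝ)) (by norm_num) n
      have h2 : ((1 : ℝ) + 1) ^ n ≤ P ^ n := pow_le_pow_left₀ (by norm_num) (by linarith) n
      linarith
    have h2 : P ^ c * P ^ n ≤ P ^ c' := by
      rw [← pow_add]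
      exact pow_le_pow_right₀ (by linarith) hc
    have h3 : Y + n + WW g ≤ P ^ n * (Y + WW g) := by
      have : ((n : ℝ) + 1) * (Y + WW g) ≤ P ^ n * (Y + WW g) :=
        mul_le_mul_of_nonneg_right h1 (by linarith)
      nlinarith
    calc P ^ c * (Y + n + WW g) ≤ P ^ c * (P ^ n * (Y + WW g)) :=
          mul_le_mul_of_nonneg_left h3 (by positivity)
      _ = P ^ c * P ^ n * (Y + WW g) := by ring
      _ ≤ P ^ c' * (Y + WW g) := mul_le_mul_of_nonneg_right h2 (by linarith)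

lemma sz_shift {P Y : ℝ} (hS : Sz ι P Y) (n : ℕ) : Sz ι P (Y + n) :=
  ⟨hS.cd, hS.P2, by have := hS.Y1; have : (0 : ℝ) ≤ n := Nat.cast_nonneg _; linarith⟩

lemma mn_nonneg {T : AT ι} {P : ℝ} (hP : 0 < P) (hA : G.AOk T P) (V : Finset ι) :
    0 ≤ G.mn T.sg V := by
  unfold GT.mn GT.dv
  refine mul_nonneg (abs_nonneg _) (Finset.prod_nonneg fun a _ => inv_nonneg.2 ?_)
  exact le_trans (inv_nonneg.2 hP.le) (hA.s1 a)

lemma mn_empty (hD : DET) {s : ℕ} (hG : G.Ok s) (σ : ι → ℝ) : G.mn σ ∅ = 1 := by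
  unfold GT.mn
  rw [(hD s ι G hG).2.1, Finset.prod_empty, mul_one]

lemma mn_split (hD : DET) {s : ℕ} (hG : G.Ok s) (σ : ι → ℝ) {U V : Finset ι} (hU : G.Bk U)
    (hV : G.Bk V) (h : V ⊆ U) : G.mn σ U = G.mn σ V * G.mn σ (U \ V) := by
  unfold GT.mn
  rw [(hD s ι G hG).2.2.1 U V hU hV h, ← Finset.prod_sdiff h]
  ring

lemma bk_filter {s : ℕ} (hG : G.Ok s) {U : Finset ι} (hU : G.Bk U) (p : ℕ → ℕ → Prop)
    [DecidablePred fun a => p (G.g a) (G.w a)] : G.Bk (U.filter fun a => p (G.g a) (G.w a)) := by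
  intro a b hab
  obtain ⟨h1, h2⟩ := hG.blk a b hab
  rw [mem_filter, mem_filter, hU a b hab, h1, h2]

lemma w_lt {d : ℕ} {Q : MvPolynomial ι ℝ} (h : G.Dl d Q) {b : ι} (hb : b ∈ Q.vars) : G.w b < d := by
  obtain ⟨m, hm, hbm⟩ := (mem_vars_iff_mem_support b).1 hb
  refine lt_of_le_of_lt ?_ (h m hm)
  exact Finsupp.le_weight_of_ne_zero' G.w (Finsupp.mem_support_iff.1 hbm)

lemma sm_zero (T : AT ι) : G.Sm T 0 = (G.ms T : ℝ) := by
  unfold GT.Sm GT.ms
  rw [Complex.ofReal_tsum]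
  refine tsum_congr fun z => ?_
  simp

/-- no stage of weight `d` is left -/
lemma base (hD : DET) {s d g0 : ℕ} {T : AT ι} {P : ℝ} (Q : MvPolynomial ι ℝ) (hG : G.Ok s)
    (hA : G.AOk T P) (hI : G.Inv d g0 T.U) (hc : G.cnt d g0 T.U ≤ 0)
    (ht : ∀ a ∈ T.U, g0 ≤ G.g a → G.w a < d) :
    G.AOk (T.rs (T.U.filter (fun a => G.w a < d))) P ∧
    ‖G.Sm T Q - (G.mn T.sg (T.U.filter (fun a => ¬ G.w a < d)) : ℝ) *
        G.Sm (T.rs (T.U.filter (fun a => G.w a < d))) Q‖ = 0 := by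
  have hall : ∀ a ∈ T.U, G.w a < d := by
    intro a ha
    by_cases hg : G.g a < g0
    · rcases (hI a ha hg).lt_or_eq with h | h
      · exact h
      · exfalso
        have : 0 < G.cnt d g0 T.U :=
          Finset.card_pos.2 ⟨G.g a, mem_image_of_mem _ (mem_filter.2 ⟨ha, h, hg⟩)⟩
        omega
    · exact ht a ha (not_lt.1 hg)
  have e1 : T.U.filter (fun a => G.w a < d) = T.U := Finset.filter_true_of_mem hall
  have e2 : T.U.filter (fun a => ¬ G.w a < d) = ∅ :=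
    Finset.filter_false_of_mem fun a ha => not_not.2 (hall a ha)
  rw [e1, e2, mn_empty hD hG]
  refine ⟨hA, ?_⟩
  have : T.rs T.U = T := rfl
  rw [this]
  simp

end MgA

open MgA

theorem margs0 (hD : DET) (s d : ℕ) : MARGS s d 0 := by
  refine ⟨0, ?_⟩
  intro ι _ _ G T WW P Y g0 Q hG hW hS hA hg hR hI hc ht hQ hd
  obtain ⟨h1, h2⟩ := base hD Q hG hA hI hc ht
  refine ⟨h1, ?_⟩
  rw [h2]
  exact mul_nonneg (Real.exp_pos _).le (mn_nonneg (by linarith [hS.P2]) hA _)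

theorem margs (hD : DET) {s d μ : ℕ} (hM : MARG s d μ) : MARGS s d (μ + 1) := by
  obtain ⟨c, hM⟩ := hM
  refine ⟨c + (μ + 1), ?_⟩
  intro ι _ _ G T WW P Y g0 Q hG hW hS hA hg hR hI hc ht hQ hd
  have hP : 0 < P := by linarith [hS.P2]
  have hR' := rg_shift (c := c) (n := μ + 1) hW hS hR le_rfl
  have hS' := sz_shift hS (μ + 1)
  set Y' : ℝ := Y + ((μ + 1 : ℕ) : ℝ) with hY'
  have key : ∀ n : ℕ, n ≤ μ + 1 → ∀ T : AT ι, G.AOk T P → G.Inv d g0 T.U → G.cnt d g0 T.U ≤ n →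
      (∀ a ∈ T.U, g0 ≤ G.g a → G.w a < d) → Q.vars ⊆ T.U →
      G.AOk (T.rs (T.U.filter (fun a => G.w a < d))) P ∧
      ‖G.Sm T Q - (G.mn T.sg (T.U.filter (fun a => ¬ G.w a < d)) : ℝ) *
        G.Sm (T.rs (T.U.filter (fun a => G.w a < d))) Q‖ ≤
        n * (Real.exp (-Y') * G.mn T.sg T.U) := by
    intro n
    induction n with
    | zero =>
      intro _ T hA hI hc ht _
      obtain ⟨h1, h2⟩ := base hD Q hG hA hI hc ht
      exact ⟨h1, by rw [h2]; simp⟩
    | succ n ih =>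
      intro hn T hA hI hc ht hQ
      have hnn : 0 ≤ Real.exp (-Y') * G.mn T.sg T.U :=
        mul_nonneg (Real.exp_pos _).le (mn_nonneg hP hA _)
      by_cases hcn : G.cnt d g0 T.U ≤ n
      · obtain ⟨h1, h2⟩ := ih (by omega) T hA hI hcn ht hQ
        refine ⟨h1, h2.trans ?_⟩
        push_cast
        nlinarith
      set Γ := (T.U.filter (fun a => G.w a = d ∧ G.g a < g0)).image G.g with hΓ
      have hcard : Γ.card = G.cnt d g0 T.U := rfl
      have hne : Γ.Nonempty := Finset.card_pos.1 (by omega)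
      set g1 := Γ.max' hne with hg1
      have hg1Γ : g1 ∈ Γ := Γ.max'_mem hne
      have hlt : g1 < g0 := by
        obtain ⟨a, ha, e⟩ := mem_image.1 hg1Γ
        rw [← e]
        exact (mem_filter.1 ha).2.2
      have hle : ∀ a ∈ T.U, G.w a = d → G.g a < g0 → G.g a ≤ g1 := fun a ha h1 h2 =>
        Γ.le_max' _ (mem_image_of_mem _ (mem_filter.2 ⟨ha, h1, h2⟩))
      have her : (Γ.erase g1).card ≤ n := by
        rw [Finset.card_erase_of_mem hg1Γ]
        omega
      set S := T.U.filter (fun a => G.g a = g1 ∧ G.w a = d) with hSd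
      have hc1 : G.cnt d g1 T.U ≤ μ := by
        refine le_trans (Finset.card_le_card (t := Γ.erase g1) ?_) (by omega)
        intro x hx
        obtain ⟨a, ha, rfl⟩ := mem_image.1 hx
        obtain ⟨ha1, ha2, ha3⟩ := mem_filter.1 ha
        exact mem_erase.2 ⟨ha3.ne, mem_image_of_mem _ (mem_filter.2 ⟨ha1, ha2, ha3.trans hlt⟩)⟩
      obtain ⟨hA1, hb1⟩ := hM ι G T WW P Y' g1 Q hG hW hS' hA (by omega)
        (fun g hg' => hR' g (by omega)) (fun a ha h => hI a ha (h.trans hlt)) hc1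
        (fun a ha h => by
          by_cases h0 : G.g a < g0
          · rcases (hI a ha h0).lt_or_eq with h2 | h2
            · exact Or.inl h2
            · exact Or.inr ⟨le_antisymm (hle a ha h2 h0) h, h2⟩
          · exact Or.inl (ht a ha (not_lt.1 h0))) hQ hd
      rw [← hSd] at hA1 hb1
      have hc2 : G.cnt d g0 (T.U \ S) ≤ n := by
        refine le_trans (Finset.card_le_card (t := Γ.erase g1) ?_) her
        intro x hx
        obtain ⟨a, ha, rfl⟩ := mem_image.1 hx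
        obtain ⟨ha1, ha2, ha3⟩ := mem_filter.1 ha
        obtain ⟨ha4, ha5⟩ := mem_sdiff.1 ha1
        exact mem_erase.2 ⟨fun h => ha5 (mem_filter.2 ⟨ha4, h, ha2⟩),
          mem_image_of_mem _ (mem_filter.2 ⟨ha4, ha2, ha3⟩)⟩
      obtain ⟨hA2, hb2⟩ := ih (by omega) (T.rs (T.U \ S)) hA1
        (fun a ha h => hI a (mem_sdiff.1 ha).1 h) hc2 (fun a ha h => ht a (mem_sdiff.1 ha).1 h)
        (fun b hb => mem_sdiff.2 ⟨hQ hb, fun h => (w_lt hd hb).ne (mem_filter.1 h).2.2⟩)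
      have e1 : (T.U \ S).filter (fun a => G.w a < d) = T.U.filter (fun a => G.w a < d) := by
        ext a
        simp only [mem_filter, mem_sdiff, hSd]
        constructor
        · exact fun h => ⟨h.1.1, h.2⟩
        · exact fun h => ⟨⟨h.1, fun h' => h.2.ne h'.2.2⟩, h.2⟩
      have e2 : (T.U \ S).filter (fun a => ¬ G.w a < d) = T.U.filter (fun a => ¬ G.w a < d) \ S := by
        ext a
        simp only [mem_filter, mem_sdiff]
        tauto
      have hBS : G.Bk S := bk_filter hG hA.bk (fun g w => g = g1 ∧ w = d)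
      have hBV : G.Bk (T.U.filter (fun a => ¬ G.w a < d)) := bk_filter hG hA.bk (fun _ w => ¬ w < d)
      have m1 := mn_split hD hG T.sg hA.bk hBS (filter_subset _ _)
      have m2 := mn_split hD hG T.sg hBV hBS (fun a ha => mem_filter.2
        ⟨(mem_filter.1 ha).1, by rw [(mem_filter.1 ha).2.2]; exact lt_irrefl _⟩)
      change G.AOk (T.rs ((T.U \ S).filter (fun a => G.w a < d))) P at hA2
      change ‖G.Sm (T.rs (T.U \ S)) Q - (G.mn T.sg ((T.U \ S).filter (fun a => ¬ G.w a < d)) : ℝ) *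
        G.Sm (T.rs ((T.U \ S).filter (fun a => G.w a < d))) Q‖ ≤
        n * (Real.exp (-Y') * G.mn T.sg (T.U \ S)) at hb2
      rw [e1] at hA2 hb2
      rw [e2] at hb2
      refine ⟨hA2, ?_⟩
      have hmS := mn_nonneg hP hA S
      have e3 : G.Sm T Q - (G.mn T.sg (T.U.filter (fun a => ¬ G.w a < d)) : ℝ) *
          G.Sm (T.rs (T.U.filter (fun a => G.w a < d))) Q =
          (G.Sm T Q - (G.mn T.sg S : ℝ) * G.Sm (T.rs (T.U \ S)) Q) + (G.mn T.sg S : ℝ) *
            (G.Sm (T.rs (T.U \ S)) Q - (G.mn T.sg (T.U.filter (fun a => ¬ G.w a < d) \ S) : ℝ) *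
              G.Sm (T.rs (T.U.filter (fun a => G.w a < d))) Q) := by
        rw [m2]
        push_cast
        ring
      rw [e3]
      refine (norm_add_le _ _).trans ?_
      rw [norm_mul, Complex.norm_real, Real.norm_of_nonneg hmS]
      have h3 := mul_le_mul_of_nonneg_left hb2 hmS
      have e4 : G.mn T.sg S * (n * (Real.exp (-Y') * G.mn T.sg (T.U \ S))) =
          n * (Real.exp (-Y') * G.mn T.sg T.U) := by
        rw [m1]
        ring
      push_cast
      linarith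
  obtain ⟨h1, h2⟩ := key (μ + 1) le_rfl T hA hI hc ht hQ
  refine ⟨h1, h2.trans ?_⟩
  rw [← mul_assoc]
  refine mul_le_mul_of_nonneg_right ?_ (mn_nonneg hP hA _)
  have h3 : ((μ + 1 : ℕ) : ℝ) ≤ Real.exp ((μ + 1 : ℕ) : ℝ) := by
    linarith [Real.add_one_le_exp ((μ + 1 : ℕ) : ℝ)]
  calc ((μ + 1 : ℕ) : ℝ) * Real.exp (-Y') ≤ Real.exp ((μ + 1 : ℕ) : ℝ) * Real.exp (-Y') :=
        mul_le_mul_of_nonneg_right h3 (Real.exp_pos _).le
    _ = Real.exp (-Y) := by
        rw [← Real.exp_add, hY']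
        congr 1
        ring

theorem mass0 (hD : DET) (s μ : ℕ) : MASS s 0 μ := by
  refine ⟨0, ?_⟩
  intro ι _ _ G T WW P Y g0 hG hW hS hA hg hR hI hc ht
  have hU : T.U = ∅ := by
    refine Finset.eq_empty_of_forall_notMem fun a ha => ?_
    have h1 := hI a ha (ht a ha)
    have h2 := hG.w1 a
    omega
  have h1 : G.ms T = 1 := by
    unfold GT.ms
    have e : ∀ z : Lat T.U, z = 0 := by
      intro z
      refine Subtype.ext (funext fun a => ?_)
      exact z.2 a (by rw [hU]; exact notMem_empty a)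
    rw [tsum_eq_single (0 : Lat T.U) fun z hz => (hz (e z)).elim]
    unfold GT.nu
    rw [hU]
    simp
  rw [h1, hU, mn_empty hD hG]
  simp [(Real.exp_pos _).le]

theorem mass (hD : DET) {s d μ : ℕ} (h1 : MARGS s (d + 1) μ) (h2 : MASS s d s) :
    MASS s (d + 1) μ := by
  obtain ⟨c1, h1⟩ := h1
  obtain ⟨c2, h2⟩ := h2
  refine ⟨c1 + c2 + 1, ?_⟩
  intro ι _ _ G T WW P Y g0 hG hW hS hA hg hR hI hc ht
  have hP : 0 < P := by linarith [hS.P2]
  have hS' := sz_shift hS 1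
  obtain ⟨hA1, hb1⟩ := h1 ι G T WW P _ g0 0 hG hW hS' hA hg
    (rg_shift (c := c1) (n := 1) hW hS hR (by omega)) hI hc
    (fun a ha h => absurd (ht a ha) (not_lt.2 h)) (by simp) (fun m hm => by simp at hm)
  set U' := T.U.filter (fun a => G.w a < d + 1) with hU'
  have hb2 := h2 ι G (T.rs U') WW P _ g0 hG hW hS' hA1 hg
    (rg_shift (c := c2) (n := 1) hW hS hR (by omega))
    (fun a ha _ => Nat.lt_succ_iff.1 (mem_filter.1 ha).2)
    (by
      refine le_trans (Finset.card_le_card (t := range s) ?_) (by rw [card_range])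
      intro x hx
      obtain ⟨a, -, rfl⟩ := mem_image.1 hx
      exact mem_range.2 (hG.gs a))
    (fun a ha => ht a (mem_filter.1 ha).1)
  set V := T.U.filter (fun a => ¬ G.w a < d + 1) with hV
  have hBV : G.Bk V := bk_filter hG hA.bk (fun _ w => ¬ w < d + 1)
  have m1 := mn_split hD hG T.sg hA.bk hBV (filter_subset _ _)
  have e1 : T.U \ V = U' := by
    ext a
    simp only [mem_sdiff, mem_filter, hV, hU']
    tauto
  rw [e1] at m1
  rw [sm_zero, sm_zero, ← Complex.ofReal_mul, ← Complex.ofReal_sub, Complex.norm_real,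
    Real.norm_eq_abs] at hb1
  change |G.ms (T.rs U') - G.mn T.sg U'| ≤ Real.exp (-(Y + ((1 : ℕ) : ℝ))) * G.mn T.sg U' at hb2
  have hmV := mn_nonneg hP hA V
  have hmU := mn_nonneg hP hA T.U
  have e2 : G.ms T - G.mn T.sg T.U = (G.ms T - G.mn T.sg V * G.ms (T.rs U')) +
      G.mn T.sg V * (G.ms (T.rs U') - G.mn T.sg U') := by
    rw [m1]
    ring
  rw [e2]
  refine (abs_add_le _ _).trans ?_
  rw [abs_mul, abs_of_nonneg hmV]
  have h3 := mul_le_mul_of_nonneg_left hb2 hmV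
  have e3 : G.mn T.sg V * (Real.exp (-(Y + ((1 : ℕ) : ℝ))) * G.mn T.sg U') =
      Real.exp (-(Y + ((1 : ℕ) : ℝ))) * G.mn T.sg T.U := by
    rw [m1]
    ring
  have h4 : 2 * Real.exp (-(Y + ((1 : ℕ) : ℝ))) ≤ Real.exp (-Y) := by
    have e : Real.exp (-Y) = Real.exp 1 * Real.exp (-(Y + ((1 : ℕ) : ℝ))) := by
      rw [← Real.exp_add]
      congr 1
      push_cast
      ring
    have : (2 : ℝ) ≤ Real.exp 1 := by linarith [Real.add_one_le_exp (1 : ℝ)]
    rw [e]
    exact mul_le_mul_of_nonneg_right this (Real.exp_pos _).le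
  have h5 := mul_le_mul_of_nonneg_right h4 hmU
  linarith

end

end Vale.Agent.P057T.Eq
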