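import Vale.Agent.P057T.Eq.Summ

/-! Poisson summation in a block that no chart uses. -/

open MvPolynomial Finset Matrix
open scoped Real
open Vale.Agent.P267.H775 Vale.Agent.P057T.Poi

namespace Vale.Agent.P057T.Eq

noncomputable section

set_option linter.unusedSectionVars false

variable {ι : Type} [Fintype ι] [DecidableEq ι]

namespace Br

/-- the character `e(x)` -/
def ee (x : ℝ) : ℂ := Complex.exp (2 * π * Complex.I * (x : ℝ))

theorem ee_add (x y : ℝ) : ee (x + y) = ee x * ee y := by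
  unfold ee
  rw [← Complex.exp_add]
  congr 1
  push_cast
  ring

theorem norm_ee (x : ℝ) : ‖ee x‖ = 1 := by
  unfold ee
  rw [Complex.norm_exp]
  simp

theorem ec_eq {κ : Type} [Fintype κ] (θ x : κ → ℝ) : ec θ x = ee (∑ i, θ i * x i) := rfl

variable {G : GT ι} {s : ℕ}

/-- Poisson summation on one fibre -/
theorem fib_poi (hG : G.Ok s) {S : Finset ι} (hB : G.Bk S) {σ : ι → ℝ} (hσ : ∀ a, 0 < σ a)
    (θ c : ι → ℝ) (u : ℝ) :
    HasSum (fun k : Lat S => ((G.mn σ S * Real.exp (-π * G.dq σ S (cz k.1 - θ)) : ℝ) : ℂ) *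
        ee (u + ∑ b ∈ S, (θ b - k.1 b) * c b))
      (∑' y : Lat S, (gq (mM G σ S) (fun b => cz y.1 b - c b) : ℂ) *
        ee (u + ∑ b ∈ S, θ b * cz y.1 b)) := by
  have hd := mM_det hG hB hσ
  have h1 := (poi hd (fun b : S => θ b) (fun b : S => -c b)).mul_left
    ((G.mn σ S : ℂ) * ee (u + ∑ b ∈ S, θ b * c b))
  have hm : (G.mn σ S : ℂ) * ((|(mM G σ S).det| : ℝ) : ℂ) = 1 := by
    rw [mn_eq hG hB hσ, ← Complex.ofReal_mul, inv_mul_cancel₀ (abs_pos.2 hd).ne',
      Complex.ofReal_one]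
  rw [← (latE S).hasSum_iff, ← (latE S).tsum_eq]
  have e1 : ((fun k : Lat S => ((G.mn σ S * Real.exp (-π * G.dq σ S (cz k.1 - θ)) : ℝ) : ℂ) *
        ee (u + ∑ b ∈ S, (θ b - k.1 b) * c b)) ∘ latE S) =
      fun k : S → ℤ => (G.mn σ S : ℂ) * ee (u + ∑ b ∈ S, θ b * c b) *
        ((gq ((mM G σ S)⁻¹)ᵀ (-(fun b : S => θ b) + toR k) : ℂ) *
          ec (toR k) fun b : S => -c b) := by
    funext k
    have a1 : Real.exp (-π * G.dq σ S (cz (latE S k).1 - θ)) =
        gq ((mM G σ S)⁻¹)ᵀ (-(fun b : S => θ b) + toR k) := by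
      rw [dq_eq hG hB hσ, gq]
      congr 3
      funext b
      simp only [latE_coe, cz, Pi.sub_apply, ex0_coe, Pi.add_apply, Pi.neg_apply, toR_apply]
      ring
    have a2 : ee (u + ∑ b ∈ S, (θ b - (latE S k).1 b) * c b) =
        ee (u + ∑ b ∈ S, θ b * c b) * ec (toR k) fun b : S => -c b := by
      rw [ec_eq, ← ee_add, ← Finset.sum_coe_sort S, ← Finset.sum_coe_sort S, add_assoc,
        ← Finset.sum_add_distrib]
      congr 2
      refine Finset.sum_congr rfl fun b _ => ?_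
      simp only [latE_coe, ex0_coe, toR_apply]
      ring
    simp only [Function.comp]
    rw [a1, a2]
    push_cast
    ring
  have e2 : (∑' y : S → ℤ, (gq (mM G σ S) (fun b => cz (latE S y).1 b - c b) : ℂ) *
        ee (u + ∑ b ∈ S, θ b * cz (latE S y).1 b)) =
      (G.mn σ S : ℂ) * ee (u + ∑ b ∈ S, θ b * c b) * (((|(mM G σ S).det| : ℝ) : ℂ) *
        ∑' n : S → ℤ, (gq (mM G σ S) ((fun b : S => -c b) + toR n) : ℂ) *
          ec (fun b : S => θ b) ((fun b : S => -c b) + toR n)) := by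
    rw [mul_mul_mul_comm, hm, one_mul, ← tsum_mul_left]
    refine tsum_congr fun y => ?_
    have a1 : (fun b : S => cz (latE S y).1 b - c b) = (fun b : S => -c b) + toR y := by
      funext b
      simp only [latE_coe, cz, ex0_coe, Pi.add_apply, toR_apply]
      ring
    have a2 : ee (u + ∑ b ∈ S, θ b * cz (latE S y).1 b) = ee (u + ∑ b ∈ S, θ b * c b) *
        ec (fun b : S => θ b) ((fun b : S => -c b) + toR y) := by
      rw [ec_eq, ← ee_add, ← Finset.sum_coe_sort S, ← Finset.sum_coe_sort S, add_assoc,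
        ← Finset.sum_add_distrib]
      congr 2
      refine Finset.sum_congr rfl fun b _ => ?_
      simp only [latE_coe, cz, ex0_coe, toR_apply, Pi.add_apply]
      ring
    rw [a1, a2]
    ring
  rw [e1, e2]
  exact h1

theorem summable_dq (hG : G.Ok s) {S : Finset ι} (hB : G.Bk S) {σ : ι → ℝ} (hσ : ∀ a, 0 < σ a)
    (θ : ι → ℝ) {r : ℝ} (hr : 0 < r) :
    HasSum (fun k : Lat S => Real.exp (-(π * r ^ 2) * G.dq σ S (cz k.1 - θ)))
      (th (r • ((mM G σ S)⁻¹)ᵀ) (-fun b : S => θ b)) := by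
  rw [← (latE S).hasSum_iff]
  have h := (summable_gq (det_smul_ne hr.ne' (det_dual (mM_det hG hB hσ)))
    (-fun b : S => θ b)).hasSum
  have e : ((fun k : Lat S => Real.exp (-(π * r ^ 2) * G.dq σ S (cz k.1 - θ))) ∘ latE S) =
      fun k : S → ℤ => gq (r • ((mM G σ S)⁻¹)ᵀ) ((-fun b : S => θ b) + toR k) := by
    funext k
    simp only [Function.comp]
    rw [dq_eq hG hB hσ, gq, qf_smul]
    have a1 : (fun b : S => (cz (latE S k).1 - θ) b) = (-fun b : S => θ b) + toR k := by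
      funext b
      simp only [latE_coe, cz, Pi.sub_apply, ex0_coe, Pi.add_apply, Pi.neg_apply, toR_apply]
      ring
    rw [a1]
    congr 1
    ring
  rw [e]
  exact h

/-- the coefficient of the frequency `k` -/
def cf (G : GT ι) (σ : ι → ℝ) (S : Finset ι) (θ : ι → ℝ) (k : ι → ℤ) : ℝ :=
  G.mn σ S * Real.exp (-π * G.dq σ S (cz k - θ))

/-- the double family -/
def pF (G : GT ι) (T : AT ι) (S : Finset ι) (θ : ι → ℝ) (Q : MvPolynomial ι ℝ) (z k : ι → ℤ) : ℂ :=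
  (G.nu (T.rs (T.U \ S)) z : ℂ) * ((cf G T.sg S θ k : ℂ) *
    ee (eval (cz z) Q + ∑ b ∈ S, (θ b - k b) * eval (cz z) (G.cq T b)))

theorem summable_pF (hG : G.Ok s) {T : AT ι} {P : ℝ} (hP : 0 < P) {S : Finset ι} (hB : G.Bk S)
    (hT1 : G.AOk (T.rs (T.U \ S)) P) (θ : ι → ℝ) (Q : MvPolynomial ι ℝ) :
    Summable fun u : Lat (T.U \ S) × Lat S => pF G T S θ Q u.1.1 u.2.1 := by
  have hσ : ∀ a, 0 < T.sg a := sg_pos (T := T.rs (T.U \ S)) hP hT1
  have ha0 : ∀ k, 0 ≤ cf G T.sg S θ k := fun k => (mul_pos (mn_pos hG hB hσ) (Real.exp_pos _)).le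
  have has : Summable fun k : Lat S => cf G T.sg S θ k.1 := by
    have h := (summable_dq hG hB hσ θ one_pos).summable.mul_left (G.mn T.sg S)
    simp only [one_pow, mul_one] at h
    exact h
  have hn : Summable fun z : Lat (T.U \ S) => G.nu (T.rs (T.U \ S)) z.1 := (summ_le hG hP hT1).1
  have h2 := hn.mul_of_nonneg has (fun z => (nu_pos _ z.1).le) fun k => ha0 k.1
  refine Summable.of_norm_bounded h2 fun u => ?_
  rw [pF, norm_mul, norm_mul, norm_ee, mul_one, Complex.norm_real, Complex.norm_real,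
    Real.norm_eq_abs, Real.norm_eq_abs, abs_of_pos (nu_pos _ _), abs_of_nonneg (ha0 _)]

theorem fib_pF (hG : G.Ok s) {T : AT ι} {P : ℝ} (hP : 0 < P) (hT : G.AOk T P) {S : Finset ι}
    (hS : S ⊆ T.U) (hB : G.Bk S)
    (hd : ∀ a ∈ T.U, Disjoint (G.q a).vars S ∧ Disjoint (T.p a).vars S) (θ : ι → ℝ)
    {Q : MvPolynomial ι ℝ} (hQ : Disjoint Q.vars S) {z : ι → ℤ} (hz : ∀ b ∈ S, z b = 0) :
    ∑' y : Lat S, (G.nu T (z + y.1) : ℂ) *
      ee (eval (cz (z + y.1)) (Q + ∑ b ∈ S, C (θ b) * X b)) = ∑' k : Lat S, pF G T S θ Q z k.1 := by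
  have hσ := sg_pos hP hT
  have hcq : ∀ (y : Lat S), ∀ b ∈ S,
      eval (cz (z + y.1)) (G.cq T b) = eval (cz z) (G.cq T b) := by
    intro y b hb
    refine cq_congr T b (fun c hc => ?_) fun a' ha' c hc => ?_
    · simp only [cz, Pi.add_apply, y.2 c (disjoint_left.1 (hd b (hS hb)).1 hc), add_zero]
    · have h1 : a' ∈ S := (hB b a' (Or.inr ha')).1 hb
      simp only [cz, Pi.add_apply, y.2 c (disjoint_left.1 (hd a' (hS h1)).2 hc), add_zero]
  have h1 : HasSum (fun k : Lat S => pF G T S θ Q z k.1) _ :=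
    (fib_poi hG hB hσ θ (fun b => eval (cz z) (G.cq T b)) (eval (cz z) Q)).mul_left
      (G.nu (T.rs (T.U \ S)) z : ℂ)
  rw [h1.tsum_eq, ← tsum_mul_left]
  refine tsum_congr fun y => ?_
  rw [nu_split hG hT.bk hS hB (fun a ha => hd a (mem_sdiff.1 ha).1) z y.2]
  have a1 : (fun b : S => cz (z + y.1) b - eval (cz (z + y.1)) (G.cq T b)) =
      fun b : S => cz y.1 b - eval (cz z) (G.cq T b) := by
    funext b
    rw [hcq y b b.2]
    simp only [cz, Pi.add_apply, hz b b.2, zero_add]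
  have a2 : eval (cz (z + y.1)) (Q + ∑ b ∈ S, C (θ b) * X b) =
      eval (cz z) Q + ∑ b ∈ S, θ b * cz y.1 b := by
    rw [map_add, eval_add_of_disj hQ z y.2, map_sum]
    congr 1
    refine Finset.sum_congr rfl fun b hb => ?_
    simp only [map_mul, eval_C, eval_X, cz, Pi.add_apply, hz b hb, zero_add]
  rw [a1, a2]
  push_cast
  ring

theorem Sm_split (hG : G.Ok s) {T : AT ι} {P : ℝ} (hP : 0 < P) (hT : G.AOk T P) {S : Finset ι}
    (hS : S ⊆ T.U) (Q : MvPolynomial ι ℝ) :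
    G.Sm T Q = ∑' z : Lat (T.U \ S), ∑' y : Lat S,
      (G.nu T (z.1 + y.1) : ℂ) * ee (eval (cz (z.1 + y.1)) Q) := by
  have hs2 : Summable fun u : Lat (T.U \ S) × Lat S => (G.nu T (u.1.1 + u.2.1) : ℂ) *
      ee (eval (cz (u.1.1 + u.2.1)) Q) :=
    (splE hS).summable_iff.2 (summable_term hG hP hT Q)
  rw [← hs2.tsum_prod, GT.Sm, ← (splE hS).tsum_eq]
  rfl

end Br

open Br in
theorem pois : POIS := by
  intro s ι _ _ G T P S θ Q hG hP hT hS hB hd hQ
  have hT1 := aok_rs hT hB fun a ha => hd a (mem_sdiff.1 ha).1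
  refine ⟨hT1, ?_⟩
  have hFs := summable_pF hG hP hB hT1 θ Q
  have key : G.Sm T (Q + ∑ b ∈ S, C (θ b) * X b) =
      ∑' u : Lat (T.U \ S) × Lat S, pF G T S θ Q u.1.1 u.2.1 := by
    rw [Sm_split hG hP hT hS, hFs.tsum_prod]
    exact tsum_congr fun z => fib_pF hG hP hT hS hB hd θ hQ
      fun b hb => z.2 b fun h => (mem_sdiff.1 h).2 hb
  rw [key]
  have hsw : HasSum (fun u : Lat S × Lat (T.U \ S) => pF G T S θ Q u.2.1 u.1.1)
      (∑' u : Lat (T.U \ S) × Lat S, pF G T S θ Q u.1.1 u.2.1) :=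
    (Equiv.prodComm (Lat S) (Lat (T.U \ S))).hasSum_iff.2 hFs.hasSum
  refine hsw.prod_fiberwise fun k => ?_
  have h1 := (summable_term hG hP hT1
    (Q + ∑ b ∈ S, C (θ b - k.1 b) * G.cq T b)).hasSum.mul_left (cf G T.sg S θ k.1 : ℂ)
  have e : ∀ z : ι → ℤ, pF G T S θ Q z k.1 = (cf G T.sg S θ k.1 : ℂ) *
      ((G.nu (T.rs (T.U \ S)) z : ℂ) * Complex.exp (2 * π * Complex.I *
        (eval (cz z) (Q + ∑ b ∈ S, C (θ b - k.1 b) * G.cq T b) : ℝ))) := by
    intro z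
    simp only [pF, map_add, map_sum, map_mul, eval_C, ee]
    ring
  simp only [e]
  exact h1

end

end Vale.Agent.P057T.Eq
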