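import Vale.Agent.P057T.Eq.Defs
import Vale.Agent.P057T.Chart

/-! A vanishing alternating sum forces a common slope. -/

set_option linter.all false

open MvPolynomial Finset

namespace Vale.Agent.P057T.Eq

namespace Slope

open Vale.Agent.P057T.L1 Vale.Agent.P057T.Chart

noncomputable section

variable {ι : Type} [Fintype ι] [DecidableEq ι] (G : GT ι)

/-- the substitution with coefficients c -/
def ph (c : Fin 3 → ℤ) : G.TV Unit → MvPolynomial (G.TV (Fin 3)) ℝ :=
  Sum.elim (fun a => X (Sum.inl a)) (fun a => ∑ i, C (c i : ℝ) * X (Sum.inr (i, a.2)))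

theorem ph_l (c : Fin 3 → ℤ) (a : ι) : ph G c (Sum.inl a) = X (Sum.inl a) := rfl

theorem ph_r (c : Fin 3 → ℤ) (a : Unit × {a : ι // 2 ≤ G.w a}) :
    ph G c (Sum.inr a) = ∑ i, C (c i : ℝ) * X (Sum.inr (i, a.2)) := rfl

theorem ph_ren (c : Fin 3 → ℤ) (p : MvPolynomial ι ℝ) :
    aeval (ph G c) (rename Sum.inl p) = rename Sum.inl p := by
  rw [aeval_rename, rename_eq_aeval]
  rfl

theorem ph_wv (c : Fin 3 → ℤ) (h : Fin 3 → ι → ℤ) (x : ι → ℤ) (hx : ∀ b, x b = ∑ i, c i * h i b)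
    (b : ι) : aeval (ph G c) (G.wv (fun _ : Unit => x) () b) = ∑ i, C (c i : ℝ) * G.wv h i b := by
  unfold GT.wv
  by_cases hb : 2 ≤ G.w b
  · simp only [dif_pos hb, aeval_X]
    rfl
  · simp only [dif_neg hb, aeval_C, hx b, algebraMap_eq]
    push_cast
    simp only [map_sum, map_mul]

theorem ph_dd (c : Fin 3 → ℤ) (h : Fin 3 → ι → ℤ) (x : ι → ℤ) (hx : ∀ b, x b = ∑ i, c i * h i b)
    (F : MvPolynomial ι ℝ) :
    aeval (ph G c) (G.dd (fun _ : Unit => x) () F) = ∑ i, C (c i : ℝ) * G.dd h i F := by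
  unfold GT.dd
  simp only [map_sum, map_mul, ph_ren, ph_wv G c h x hx, mul_sum, sum_mul]
  rw [sum_comm]
  exact sum_congr rfl fun i _ => sum_congr rfl fun b _ => by ring

theorem ph_pd (c : Fin 3 → ℤ) (i : Fin 3) (a : {a : ι // 2 ≤ G.w a})
    (p : MvPolynomial (G.TV Unit) ℝ) :
    pderiv (Sum.inr (i, a)) (aeval (ph G c) p) =
      C (c i : ℝ) * aeval (ph G c) (pderiv (Sum.inr ((), a)) p) := by
  rw [pderiv_aeval, sum_eq_single (Sum.inr ((), a))]
  · rw [mul_comm]
    congr 1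
    simp only [ph, Sum.elim_inr, map_sum, pderiv_C_mul, pderiv_X]
    rw [sum_eq_single i]
    · simp
    · intro j _ hj
      rw [Pi.single_eq_of_ne (by simpa using hj), mul_zero]
    · simp
  · intro v _ hv
    rcases v with b | ⟨u, b⟩
    · simp [ph, pderiv_X]
    · have hb : b ≠ a := fun e => hv (by rw [e])
      have : pderiv (Sum.inr (i, a)) (ph G c (Sum.inr (u, b))) = 0 := by
        simp only [ph, Sum.elim_inr, map_sum, pderiv_C_mul, pderiv_X]
        refine sum_eq_zero fun j _ => ?_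
        rw [Pi.single_eq_of_ne (by simp [hb]), mul_zero]
      rw [this, mul_zero]
  · simp

theorem deg_le {τ : Type} {w : τ → ℕ} (hw : ∀ a, 1 ≤ w a) {b : MvPolynomial τ ℝ} {d : ℕ}
    (hb : IsWeightedHomogeneous w b d) : b.totalDegree ≤ d := by
  rw [totalDegree]
  refine Finset.sup_le fun m hm => ?_
  rw [← hb (mem_support_iff.1 hm), Finsupp.weight_apply, Finsupp.sum, Finsupp.sum]
  refine sum_le_sum fun a _ => ?_
  rw [smul_eq_mul]
  exact Nat.le_mul_of_pos_right _ (hw a)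

theorem sub (hBD : BD) (hT : TANOK) {s g d : ℕ} {H : ℝ} {F : MvPolynomial ι ℝ}
    (h : Fin 3 → ι → ℤ) (c : Fin 3 → ℤ) (hc : ∀ i, |(c i : ℝ)| ≤ 1) (x : ι → ℤ)
    (hx : ∀ b, x b = ∑ i, c i * h i b) (I : MvPolynomial (G.TV Unit) ℝ) (hG : G.Ok s) (hd : d ≤ s)
    (hF : G.Hm (d + 1) F)
    (hI : IsZ I ∧ (G.tan fun _ : Unit => x).Lo g I ∧ (G.tan fun _ : Unit => x).Hm d I ∧
      (G.tan fun _ : Unit => x).Bd (G.dd (fun _ : Unit => x) () F - I) H) :
    IsInt (aeval (ph G c) I) ∧ (G.tan h).Lo g (aeval (ph G c) I) ∧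
      (G.tan h).Hm d (aeval (ph G c) I) ∧ ∃ b, aeval (G.tan h).th b =
        (∑ i, C (c i : ℝ) * G.dd h i F) - aeval (ph G c) I ∧ nrm b ≤ 3 ^ s * H := by
  obtain ⟨h1, h2, h3, b, hb, hbn⟩ := hI
  obtain ⟨t1, t2, t3, -, -, t6, -⟩ := hT s ι Unit G (fun _ => x) hG
  obtain ⟨-, u2, u3, -⟩ := hT s ι (Fin 3) G h hG
  refine ⟨IsInt.aeval h1 ?_, ?_, ?_, aeval (ph G c) b, ?_, ?_⟩
  · rintro (a | a)
    · rw [ph_l]; exact isInt_X _
    · rw [ph_r]; exact isInt_sum fun i _ => (isInt_C _).mul (isInt_X _)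
  · refine vars_aeval (P := fun j => (G.tan h).g j < g) ?_
    rintro (a | a) ha
    · rw [ph_l]
      have k : G.g a < g := h2 _ ha
      exact vars_X' k
    · rw [ph_r]
      have k : G.g a.2.1 < g := h2 _ ha
      refine vars_sum' fun i _ => vars_mul' (vars_C' _) (vars_X' ?_)
      exact k
  · refine hom_aeval h3 ?_
    rintro (a | a)
    · rw [ph_l]
      exact isWeightedHomogeneous_X ℝ (G.tan h).w (Sum.inl a)
    · rw [ph_r]
      refine IsWeightedHomogeneous.sum _ _ _ fun i _ => ?_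
      have := (isWeightedHomogeneous_C (G.tan h).w (c i : ℝ)).mul
        (isWeightedHomogeneous_X ℝ (G.tan h).w (Sum.inr (i, a.2)))
      rw [zero_add] at this
      exact this
  · rw [← ph_dd G c h x hx, ← map_sub, ← hb, ← AlgHom.comp_apply, ← AlgHom.comp_apply,
      comp_aeval, comp_aeval]
    congr 2
    funext v
    rcases v with a | a
    · rw [t2, ph_ren]
      simp only [ph, Sum.elim_inl, aeval_X, u2]
    · rw [t3, ph_dd G c h x hx]
      simp only [ph, Sum.elim_inr, map_sum, map_mul, aeval_X, aeval_C, u3, algebraMap_eq]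
  · have hh : (G.tan fun _ : Unit => x).Hm d b := by
      rw [(hBD s _ _ t1).2.1, hb]
      exact (t6 () d F hF).sub h3
    have hdeg : b.totalDegree ≤ s := (deg_le t1.w1 hh).trans hd
    have hn : ∀ v, nrm (ph G c v) ≤ 3 := by
      rintro (a | a)
      · simp only [ph, Sum.elim_inl, nrm_X]; norm_num
      · rw [ph_r]
        refine (nrm_sum_le _ _).trans ?_
        have : ∑ i : Fin 3, nrm (C (c i : ℝ) * X (Sum.inr (i, a.2)) :
            MvPolynomial (G.TV (Fin 3)) ℝ) ≤ ∑ i : Fin 3, (1 : ℝ) :=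
          sum_le_sum fun i _ => by rw [nrm_C_mul, nrm_X, mul_one]; exact hc i
        simpa using this
    refine (nrm_aeval_le (by norm_num) hn hdeg).trans ?_
    rw [mul_comm]
    exact mul_le_mul_of_nonneg_left hbn (by positivity)

end

end Slope

open Slope Vale.Agent.P057T.L1 Vale.Agent.P057T.Chart in
theorem slope (hBD : BD) (hT : TANOK) : SLOPE := by
  intro s ι _ _ G g d H F h I hG hd1 hd hF hL hI hZ a
  obtain ⟨a1, a2, a3, b0, a4, a5⟩ := sub G hBD hT h ![1, 0, 0]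
    (by intro i; fin_cases i <;> simp) (h 0) (by intro b; simp [Fin.sum_univ_three]) (I (h 0)) hG hd hF
    (hI _ (Or.inl rfl))
  obtain ⟨c1, c2, c3, b1, c4, c5⟩ := sub G hBD hT h ![0, 1, 0]
    (by intro i; fin_cases i <;> simp) (h 1) (by intro b; simp [Fin.sum_univ_three]) (I (h 1)) hG hd hF
    (hI _ (Or.inr (Or.inl rfl)))
  obtain ⟨d1, d2, d3, b2, d4, d5⟩ := sub G hBD hT h ![0, 0, 1]
    (by intro i; fin_cases i <;> simp) (h 2) (by intro b; simp [Fin.sum_univ_three]) (I (h 2)) hG hd hF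
    (hI _ (Or.inr (Or.inr (Or.inl rfl))))
  obtain ⟨e1, e2, e3, b3, e4, e5⟩ := sub G hBD hT h ![-1, 1, 1]
    (by intro i; fin_cases i <;> simp) (h 1 + h 2 - h 0)
    (by intro b; simp [Fin.sum_univ_three]; ring) (I (h 1 + h 2 - h 0)) hG hd hF
    (hI _ (Or.inr (Or.inr (Or.inr rfl))))
  have hK := hZ d (aeval (ph G ![1, 0, 0]) (I (h 0)) + aeval (ph G ![-1, 1, 1]) (I (h 1 + h 2 - h 0)) -
    (aeval (ph G ![0, 1, 0]) (I (h 1)) + aeval (ph G ![0, 0, 1]) (I (h 2)))) hd1 hd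
    ((a1.add e1).sub (c1.add d1)) (vars_sub' (vars_add' a2 e2) (vars_add' c2 d2))
    ((IsWeightedHomogeneous.add a3 e3).sub (IsWeightedHomogeneous.add c3 d3))
    ⟨b1 + b2 - (b0 + b3), by
      rw [map_sub, map_add, map_add, a4, c4, d4, e4]
      simp [Fin.sum_univ_three]
      ring, by
      have := nrm_sub_le (b1 + b2) (b0 + b3)
      have h1 := nrm_add_le b1 b2
      have h2 := nrm_add_le b0 b3
      show nrm _ ≤ _
      linarith⟩
  have k0 := congrArg (pderiv (Sum.inr ((0 : Fin 3), a))) hK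
  have k1 := congrArg (pderiv (Sum.inr ((1 : Fin 3), a))) hK
  simp only [map_sub, map_add, ph_pd, map_zero] at k0 k1
  simp [-aeval_eq_bind₁, -coe_aeval_eq_eval] at k0 k1
  have k : aeval (ph G ![1, 0, 0]) (pderiv (Sum.inr ((), a)) (I (h 0))) =
      aeval (ph G ![0, 1, 0]) (pderiv (Sum.inr ((), a)) (I (h 1))) := by
    linear_combination k0 + k1
  let col : G.TV (Fin 3) → MvPolynomial (G.TV Unit) ℝ :=
    Sum.elim (fun b => X (Sum.inl b)) (fun b => X (Sum.inr ((), b.2)))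
  let kil : G.TV (Fin 3) → MvPolynomial (G.TV Unit) ℝ :=
    Sum.elim (fun b => X (Sum.inl b)) (fun b => if b.1 = 1 then X (Sum.inr ((), b.2)) else 0)
  have m0 : ∀ p : MvPolynomial (G.TV Unit) ℝ, aeval col (aeval (ph G ![1, 0, 0]) p) = p := by
    intro p
    rw [← AlgHom.comp_apply, comp_aeval]
    conv_rhs => rw [← aeval_X_left_apply p]
    congr 2
    funext v
    rcases v with b | b <;> simp [ph, col, Fin.sum_univ_three]
  have m1 : ∀ p : MvPolynomial (G.TV Unit) ℝ, aeval col (aeval (ph G ![0, 1, 0]) p) = p := by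
    intro p
    rw [← AlgHom.comp_apply, comp_aeval]
    conv_rhs => rw [← aeval_X_left_apply p]
    congr 2
    funext v
    rcases v with b | b <;> simp [ph, col, Fin.sum_univ_three]
  have m2 : ∀ p : MvPolynomial (G.TV Unit) ℝ, aeval kil (aeval (ph G ![0, 1, 0]) p) = p := by
    intro p
    rw [← AlgHom.comp_apply, comp_aeval]
    conv_rhs => rw [← aeval_X_left_apply p]
    congr 2
    funext v
    rcases v with b | b <;> simp [ph, kil, Fin.sum_univ_three]
  have m3 : ∀ p : MvPolynomial (G.TV Unit) ℝ, aeval kil (aeval (ph G ![1, 0, 0]) p) =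
      rename Sum.inl (aeval (Sum.elim X (fun _ => 0) : G.TV Unit → MvPolynomial ι ℝ) p) := by
    intro p
    rw [← AlgHom.comp_apply, ← AlgHom.comp_apply, comp_aeval, comp_aeval]
    congr 2
    funext v
    rcases v with b | b <;> simp [ph, kil, Fin.sum_univ_three]
  refine ⟨?_, ?_⟩
  · rw [← m0 (pderiv _ (I (h 0))), k, m1]
  · exact ⟨_, by rw [← m2 (pderiv _ (I (h 1))), ← k, m3]⟩

end Vale.Agent.P057T.Eq
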