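import Vale.Agent.P057T.Eq.Defs

/-! The van der Corput identity on towers and the tail in the shift. -/

set_option linter.all false

open MvPolynomial Finset
open scoped Real

namespace Vale.Agent.P057T.Eq

noncomputable section

namespace SqH

variable {ι : Type} [Fintype ι] [DecidableEq ι] (G : GT ι) (T : AT ι)

theorem mem_lat {U : Finset ι} {z : ι → ℤ} : z ∈ Lat U ↔ ∀ a, a ∉ U → z a = 0 := Iff.rfl

theorem wt_one {w : ι → ℕ} (hw : ∀ a, 1 ≤ w a) {m : ι →₀ ℕ} (h : Finsupp.weight w m = 1) :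
    ∃ b, w b = 1 ∧ m = Finsupp.single b 1 := by
  have h0 : m ≠ 0 := by rintro rfl; simp at h
  obtain ⟨b, hb⟩ := Finsupp.support_nonempty_iff.2 h0
  have hb' : 1 ≤ m b := Nat.pos_of_ne_zero (Finsupp.mem_support_iff.1 hb)
  have e := Finsupp.single_add_erase b m
  have h1 : m b * w b + Finsupp.weight w (Finsupp.erase b m) = 1 := by
    rw [← h]
    conv_rhs => rw [← e]
    rw [map_add, Finsupp.weight_single, smul_eq_mul]
  have h2 : 1 ≤ m b * w b := Nat.mul_pos hb' (hw b)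
  have h3 : m b * w b = 1 := by omega
  have h4 : Finsupp.erase b m = 0 := by
    ext a
    have := Finsupp.le_weight w (s := a) (by have := hw a; omega) (Finsupp.erase b m)
    simp only [Finsupp.coe_zero, Pi.zero_apply]
    omega
  refine ⟨b, Nat.eq_one_of_mul_eq_one_left h3, ?_⟩
  rw [← e, h4, add_zero, Nat.eq_one_of_mul_eq_one_right h3]

theorem lin_eval (hw : ∀ a, 1 ≤ G.w a) {F : MvPolynomial ι ℝ} (hF : G.Hm 1 F) {x x' h : ι → ℝ}
    (e : ∀ b, G.w b = 1 → x' b - x b = h b) : eval x' F - eval x F = eval h F := by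
  rw [F.as_sum, map_sum, map_sum, map_sum, ← sum_sub_distrib]
  refine sum_congr rfl fun m hm => ?_
  obtain ⟨b, hb, rfl⟩ := wt_one hw (hF (mem_support_iff.1 hm))
  simp only [eval_monomial, Finsupp.prod_single_index, pow_zero, pow_one]
  rw [← e b hb]
  ring

theorem const_eval (hw : ∀ a, 1 ≤ G.w a) {F : MvPolynomial ι ℝ} (hF : G.Dl 1 F) (x x' : ι → ℝ) :
    eval x' F = eval x F := by
  rw [F.as_sum, map_sum, map_sum]
  refine sum_congr rfl fun m hm => ?_
  have h : m = 0 := by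
    ext a
    have h1 := Finsupp.le_weight G.w (s := a) (by have := hw a; omega) m
    have h2 := hF m hm
    simp only [Finsupp.coe_zero, Pi.zero_apply]
    omega
  subst h
  simp [eval_monomial]

/-- the active variables of the derivative tower -/
def Ud : Finset (G.TV Unit) := univ.filter (fun x => G.base x ∈ T.U)

theorem mem_Ud {x : G.TV Unit} : x ∈ Ud G T ↔ G.base x ∈ T.U :=
  mem_filter.trans (and_iff_right (mem_univ _))

def z0 (y : G.TV Unit → ℤ) : ι → ℤ := fun a => y (Sum.inl a)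

def z1 (h : ι → ℤ) (y : G.TV Unit → ℤ) : ι → ℤ := fun a =>
  y (Sum.inl a) + if hb : 2 ≤ G.w a then y (Sum.inr ((), ⟨a, hb⟩)) else h a

theorem ev_ren (y : G.TV Unit → ℤ) (F : MvPolynomial ι ℝ) :
    eval (cz y) (rename Sum.inl F : MvPolynomial (G.TV Unit) ℝ) = eval (cz (z0 G y)) F := by
  rw [eval_rename]
  rfl

theorem ev_sh (h : ι → ℤ) (y : G.TV Unit → ℤ) (F : MvPolynomial ι ℝ) :
    eval (cz y) (G.sh h F) = eval (cz (z1 G h y)) F := by
  unfold GT.sh
  induction F using MvPolynomial.induction_on with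
  | C a => simp
  | add p q hp hq => simp only [map_add, hp, hq]
  | mul_X p b hp =>
    simp only [map_mul, hp, aeval_X, map_add, eval_X]
    congr 1
    unfold GT.wv z1 cz
    split_ifs with hb <;> simp [hb]

theorem ev_df (h : ι → ℤ) (y : G.TV Unit → ℤ) (F : MvPolynomial ι ℝ) :
    eval (cz y) (G.df h F) = eval (cz (z1 G h y)) F - eval (cz (z0 G y)) F := by
  rw [GT.df, map_sub, ev_sh, ev_ren]

/-- pairs of points = shift and point of the derivative tower -/
def eqv (hw : ∀ a, 1 ≤ G.w a) : Lat (G.V1 T) × Lat (Ud G T) ≃ Lat T.U × Lat T.U where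
  toFun p := (⟨z0 G p.2.1, fun a ha => p.2.2 _ (fun h => ha ((mem_Ud G T).1 h))⟩,
    ⟨z1 G p.1.1 p.2.1, fun a ha => by
      have h1 : p.2.1 (Sum.inl a) = 0 := p.2.2 _ (fun h => ha ((mem_Ud G T).1 h))
      unfold z1
      rw [h1, zero_add]
      split_ifs with hb
      · exact p.2.2 _ (fun h => ha ((mem_Ud G T).1 h))
      · exact p.1.2 _ (fun h => ha (mem_filter.1 h).1)⟩)
  invFun p := (⟨fun a => if 2 ≤ G.w a then 0 else p.2.1 a - p.1.1 a, fun a ha => by
      show (if 2 ≤ G.w a then 0 else p.2.1 a - p.1.1 a) = 0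
      split_ifs with hb
      · rfl
      · have h1 : a ∉ T.U := fun h => ha (mem_filter.2 ⟨h, by have := hw a; omega⟩)
        rw [p.1.2 a h1, p.2.2 a h1, sub_zero]⟩,
    ⟨Sum.elim p.1.1 (fun a => p.2.1 a.2.1 - p.1.1 a.2.1), fun x hx => by
      have h1 : G.base x ∉ T.U := fun h => hx ((mem_Ud G T).2 h)
      rcases x with a | a
      · exact p.1.2 a h1
      · show p.2.1 a.2.1 - p.1.1 a.2.1 = 0
        rw [p.1.2 a.2.1 h1, p.2.2 a.2.1 h1, sub_zero]⟩)
  left_inv p := by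
    refine Prod.ext (Subtype.ext (funext fun a => ?_)) (Subtype.ext (funext fun x => ?_))
    · show (if 2 ≤ G.w a then 0 else z1 G p.1.1 p.2.1 a - z0 G p.2.1 a) = p.1.1 a
      unfold z1 z0
      split_ifs with hb
      · exact (p.1.2 a fun h => by have := (mem_filter.1 h).2; omega).symm
      · ring
    · rcases x with a | ⟨u, a, ha⟩
      · rfl
      · show z1 G p.1.1 p.2.1 a - z0 G p.2.1 a = _
        unfold z1 z0
        rw [dif_pos ha]
        ring
  right_inv p := by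
    refine Prod.ext (Subtype.ext (funext fun a => rfl)) (Subtype.ext (funext fun a => ?_))
    show p.1.1 a + (if hb : 2 ≤ G.w a then p.2.1 a - p.1.1 a else
      (if 2 ≤ G.w a then 0 else p.2.1 a - p.1.1 a)) = p.2.1 a
    split_ifs <;> ring

theorem sum_Ud (hw : ∀ a, 1 ≤ G.w a) (f : G.TV Unit → ℝ) (u v : ι → ℝ)
    (h1 : ∀ a, f (Sum.inl a) = u a) (h2 : ∀ x, f (Sum.inr x) = v x.2.1) :
    ∑ x ∈ Ud G T, f x + ∑ a ∈ G.V1 T, v a = ∑ a ∈ T.U, (u a + v a) := by
  have e1 : ∑ x ∈ Ud G T, f x = ∑ a ∈ T.U, u a + ∑ a ∈ T.U.filter (fun a => 2 ≤ G.w a), v a := by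
    rw [Ud, sum_filter, Fintype.sum_sum_type]
    congr 1
    · simp only [GT.base, Sum.elim_inl, id, h1]
      rw [← sum_filter, filter_mem_eq_inter, univ_inter]
    · simp only [GT.base, Sum.elim_inr, h2]
      rw [Fintype.sum_prod_type, Fintype.sum_unique,
        ← sum_subtype (univ.filter fun a => 2 ≤ G.w a) (by simp)
          (fun a => if a ∈ T.U then v a else 0), ← sum_filter]
      refine sum_congr ?_ fun _ _ => rfl
      ext a
      simp [and_comm]
  have e2 := sum_filter_add_sum_filter_not T.U (fun a => 2 ≤ G.w a) v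
  have e3 : T.U.filter (fun a => ¬ 2 ≤ G.w a) = G.V1 T :=
    filter_congr fun a _ => by have := hw a; omega
  rw [e1, sum_add_distrib, ← e2, e3, add_assoc]

variable {G T} {s : ℕ} {P : ℝ}

theorem one_df (hG : G.Ok s) (hT : G.AOk T P) (h : ι → ℤ) (y : G.TV Unit → ℤ) {a : ι}
    (ha : a ∈ G.V1 T) : eval (cz h) (G.th a) =
      eval (cz (z1 G h y)) (G.ch T a) - eval (cz (z0 G y)) (G.ch T a) := by
  obtain ⟨h1, h2⟩ := mem_filter.1 ha
  have e : ∀ b, G.w b = 1 → cz (z1 G h y) b - cz (z0 G y) b = cz h b := fun b hb => by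
    unfold cz z1 z0
    rw [dif_neg (by omega)]
    push_cast
    ring
  rw [GT.ch, map_add, map_add, const_eval G hG.w1 (F := T.p a) (h2 ▸ hT.pd a h1) (cz (z0 G y)) (cz (z1 G h y)),
    add_sub_add_right_eq_sub, GT.th, map_sum, map_sum, map_sum, ← sum_sub_distrib]
  refine sum_congr rfl fun b _ => ?_
  by_cases hb : G.A a b = 0
  · simp [hb]
  · have h3 : G.w b = 1 := by rw [← (hG.blk a b (Or.inl hb)).2, h2]
    simp only [map_mul, map_sub, eval_C, eval_X]
    rw [← lin_eval G hG.w1 (h3 ▸ hG.qh b) e, ← e b h3]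
    ring

theorem sq_id (hA : TANOK) (hG : G.Ok s) (hT : G.AOk T P) (h : ι → ℤ) (y : G.TV Unit → ℤ) :
    G.gw T h * (G.tan fun _ : Unit => h).nu (G.der T h) y =
      G.nu T (z0 G y) * G.nu T (z1 G h y) := by
  obtain ⟨-, t1, t2, -⟩ := hA s ι Unit G (fun _ => h) hG
  have r2 : √2 ^ 2 = (2 : ℝ) := Real.sq_sqrt (by norm_num)
  have e := sum_Ud G T hG.w1 (fun x => ((G.der T h).sg x *
      eval (cz y) ((G.tan fun _ : Unit => h).ch (G.der T h) x)) ^ 2)
    (fun a => (T.sg a * (eval (cz (z1 G h y)) (G.ch T a) + eval (cz (z0 G y)) (G.ch T a))) ^ 2 / 2)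
    (fun a => (T.sg a * (eval (cz (z1 G h y)) (G.ch T a) - eval (cz (z0 G y)) (G.ch T a))) ^ 2 / 2)
    (fun a => by
      rw [GT.ch, t1]
      simp only [GT.der, Sum.elim_inl, map_add, map_mul, eval_C, ev_ren, ev_df, GT.ch, mul_pow, r2]
      ring)
    (fun x => by
      rw [GT.ch, t2]
      simp only [GT.der, Sum.elim_inr]
      rw [show x.1 = () from rfl, add_sub_cancel, ev_df, mul_pow, mul_pow, div_pow, r2]
      ring)
  unfold GT.gw GT.nu
  rw [← Real.exp_add, ← Real.exp_add]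
  congr 1
  have e2 : ∑ a ∈ G.V1 T, (T.sg a * eval (cz h) (G.th a)) ^ 2 = 2 * ∑ a ∈ G.V1 T,
      (T.sg a * (eval (cz (z1 G h y)) (G.ch T a) - eval (cz (z0 G y)) (G.ch T a))) ^ 2 / 2 := by
    rw [mul_sum]
    exact sum_congr rfl fun a ha => by rw [one_df hG hT h y ha]; ring
  have e3 : ∑ a ∈ T.U, ((T.sg a * (eval (cz (z1 G h y)) (G.ch T a) +
      eval (cz (z0 G y)) (G.ch T a))) ^ 2 / 2 + (T.sg a * (eval (cz (z1 G h y)) (G.ch T a) -
      eval (cz (z0 G y)) (G.ch T a))) ^ 2 / 2) =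
      ∑ a ∈ T.U, (T.sg a * eval (cz (z0 G y)) (G.ch T a)) ^ 2 +
      ∑ a ∈ T.U, (T.sg a * eval (cz (z1 G h y)) (G.ch T a)) ^ 2 := by
    rw [← sum_add_distrib]
    exact sum_congr rfl fun a _ => by ring
  rw [e3] at e
  rw [e2, ← mul_add, ← e]
  show _ + -π * ∑ x ∈ Ud G T, _ = _
  ring

theorem nu_pos (z : ι → ℤ) : 0 < G.nu T z := Real.exp_pos _

theorem tail_pt (hG : G.Ok s) (hP : 0 < P) (hT : G.AOk T P) {R : ℝ} (h : ι → ℤ)
    (hh : R ^ 2 ≤ ∑ a ∈ G.V1 T, (eval (cz h) (G.th a)) ^ 2) (y : G.TV Unit → ℤ) :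
    G.nu T (z0 G y) * G.nu T (z1 G h y) ≤ Real.exp (-(R ^ 2 / (4 * P ^ 2))) *
      (G.nu (T.sc (1 / 2)) (z0 G y) * G.nu (T.sc (1 / 2)) (z1 G h y)) := by
  unfold GT.nu
  rw [← Real.exp_add, ← Real.exp_add, ← Real.exp_add, Real.exp_le_exp]
  have e : ∀ z : ι → ℤ, ∑ a ∈ (T.sc (1 / 2)).U, ((T.sc (1 / 2)).sg a *
      eval (cz z) (G.ch (T.sc (1 / 2)) a)) ^ 2 =
      (∑ a ∈ T.U, (T.sg a * eval (cz z) (G.ch T a)) ^ 2) / 4 := fun z => by
    rw [sum_div]
    exact sum_congr rfl fun a _ => by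
      show (1 / 2 * T.sg a * eval (cz z) (G.ch T a)) ^ 2 = _
      ring
  rw [e, e]
  have h1 : R ^ 2 / P ^ 2 ≤ 2 * (∑ a ∈ T.U, (T.sg a * eval (cz (z0 G y)) (G.ch T a)) ^ 2 +
      ∑ a ∈ T.U, (T.sg a * eval (cz (z1 G h y)) (G.ch T a)) ^ 2) := by
    refine (div_le_div_of_nonneg_right hh (by positivity)).trans ?_
    rw [sum_div, ← sum_add_distrib, mul_sum]
    refine le_trans (sum_le_sum fun a ha => ?_) (sum_le_sum_of_subset_of_nonneg
      (filter_subset (fun a => G.w a = 1) T.U) fun a _ _ => by positivity)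
    rw [one_df hG hT h y ha]
    generalize eval (cz (z1 G h y)) (G.ch T a) = u
    generalize eval (cz (z0 G y)) (G.ch T a) = v
    have h2 : (P⁻¹) ^ 2 ≤ T.sg a ^ 2 := pow_le_pow_left₀ (by positivity) (hT.s1 a) 2
    rw [div_eq_mul_inv, ← inv_pow]
    nlinarith [mul_le_mul_of_nonneg_left h2 (sq_nonneg (u - v)),
      mul_nonneg (sq_nonneg (T.sg a)) (sq_nonneg (u + v))]
  have h2 : R ^ 2 / (4 * P ^ 2) = R ^ 2 / P ^ 2 / 4 := by field_simp
  have h3 : 0 ≤ R ^ 2 / P ^ 2 := by positivity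
  rw [h2]
  nlinarith [Real.pi_gt_three]

end SqH

open SqH

theorem sq (hS : SUMM) (hA : TANOK) (hD : DEROK) : SQ := by
  intro s ι _ _ G T P hG hP hT
  have S1 := hS s ι G T P hG hP hT
  refine ⟨fun Q _ => ?_, fun R E _ hE => ?_⟩
  · obtain ⟨a, ha⟩ : ∃ a : Lat T.U → ℂ, a = fun z => (G.nu T z.1 : ℂ) *
      Complex.exp (2 * π * Complex.I * (eval (cz z.1) Q : ℝ)) := ⟨_, rfl⟩
    have n1 : ∀ z, ‖a z‖ = G.nu T z.1 := fun z => by
      rw [ha, norm_mul, Complex.norm_real, Real.norm_of_nonneg (nu_pos _).le,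
        show (2 * π * Complex.I * (eval (cz z.1) Q : ℝ) : ℂ) =
          ((2 * π * eval (cz z.1) Q : ℝ) : ℂ) * Complex.I by push_cast; ring,
        Complex.norm_exp_ofReal_mul_I, mul_one]
    have S2 : Summable fun z => ‖a z‖ := by simpa only [n1] using S1
    have S3 : Summable fun z => ‖(starRingEnd ℂ) (a z)‖ := by
      simpa only [RCLike.norm_conj] using S2
    have H1 : HasSum a (G.Sm T Q) := by
      have := S2.of_norm.hasSum
      rw [ha] at this ⊢
      exact this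
    have H2 : HasSum (fun z => (starRingEnd ℂ) (a z)) ((starRingEnd ℂ) (G.Sm T Q)) :=
      Complex.hasSum_conj'.2 H1
    have S4 : Summable fun x : Lat T.U × Lat T.U => (starRingEnd ℂ) (a x.1) * a x.2 :=
      summable_mul_of_summable_norm (f := fun z => (starRingEnd ℂ) (a z)) (g := a) S3 S2
    have H3 : HasSum (fun x : Lat T.U × Lat T.U => (starRingEnd ℂ) (a x.1) * a x.2)
        ((starRingEnd ℂ) (G.Sm T Q) * G.Sm T Q) :=
      HasSum.mul (f := fun z => (starRingEnd ℂ) (a z)) (g := a) H2 H1 S4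
    rw [mul_comm, Complex.mul_conj, Complex.normSq_eq_norm_sq] at H3
    have H4 := (eqv G T hG.w1).hasSum_iff.2 H3
    refine H4.prod_fiberwise fun h => ?_
    have H5 := (H4.summable.prod_factor h).hasSum
    have e : ∀ y : Lat (Ud G T), ((fun x : Lat T.U × Lat T.U => (starRingEnd ℂ) (a x.1) * a x.2) ∘
        eqv G T hG.w1) (h, y) = (G.gw T h.1 : ℂ) *
        (((G.tan fun _ : Unit => h.1).nu (G.der T h.1) y.1 : ℂ) *
          Complex.exp (2 * π * Complex.I * (eval (cz y.1) (G.df h.1 Q) : ℝ))) := fun y => by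
      rw [← mul_assoc, ← Complex.ofReal_mul, sq_id hA hG hT, ev_df, ha]
      show (starRingEnd ℂ) ((G.nu T (z0 G y.1) : ℂ) * Complex.exp (2 * π * Complex.I *
        (eval (cz (z0 G y.1)) Q : ℝ))) * ((G.nu T (z1 G h.1 y.1) : ℂ) *
        Complex.exp (2 * π * Complex.I * (eval (cz (z1 G h.1 y.1)) Q : ℝ))) = _
      rw [map_mul, Complex.conj_ofReal, ← Complex.exp_conj, mul_mul_mul_comm, ← Complex.exp_add]
      simp only [map_mul, Complex.conj_ofReal, Complex.conj_I, map_ofNat]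
      push_cast
      congr 2
      ring
    simp only [e] at H5 ⊢
    rw [tsum_mul_left] at H5
    exact H5
  · have hT2 : G.AOk (T.sc (1 / 2)) (2 * P) := ⟨hT.bk, hT.qv, hT.pv, hT.pd, hT.pl, fun a => by
      have := hT.s1 a
      show (2 * P)⁻¹ ≤ 1 / 2 * T.sg a
      rw [mul_inv]
      linarith, fun a => by
      have := hT.s2 a
      show 1 / 2 * T.sg a ≤ 2 * P
      linarith⟩
    have S2 : Summable fun z : Lat T.U => G.nu (T.sc (1 / 2)) z.1 :=
      hS s ι G (T.sc (1 / 2)) (2 * P) hG (by linarith) hT2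
    have H1 := (eqv G T hG.w1).hasSum_iff.2 (S2.hasSum.mul S2.hasSum
      (S2.mul_of_nonneg S2 (fun z => (nu_pos _).le) fun z => (nu_pos _).le))
    have H2 := H1.prod_fiberwise fun h => (H1.summable.prod_factor h).hasSum
    have H3 := sum_le_hasSum E (fun h _ => tsum_nonneg fun y =>
      (mul_pos (nu_pos _) (nu_pos _)).le) H2
    have H4 := (eqv G T hG.w1).summable_iff.2
      (S1.mul_of_nonneg S1 (fun z => (nu_pos _).le) fun z => (nu_pos _).le)
    rw [pow_two (G.ms _)]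
    refine le_trans ?_ (mul_le_mul_of_nonneg_left H3 (Real.exp_pos _).le)
    rw [mul_sum]
    refine sum_le_sum fun h hh => ?_
    rw [GT.ms, ← tsum_mul_left, ← tsum_mul_left]
    have h1 : R ^ 2 ≤ ∑ a ∈ G.V1 T, (eval (cz h.1) (G.th a)) ^ 2 :=
      (not_le.1 fun h2 => hE h hh ⟨h.2, h2⟩).le
    refine Summable.tsum_le_tsum (fun y => ?_) ?_ ((H1.summable.prod_factor h).mul_left _)
    · rw [sq_id hA hG hT]
      exact tail_pt hG hP hT h.1 h1 y.1
    · simp only [sq_id hA hG hT]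
      exact H4.prod_factor h

end

end Vale.Agent.P057T.Eq
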