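import Vale.Agent.P057T.Eq.Mono

/-! The van der Corput step of the equidistribution theorem. -/

open MvPolynomial Finset

namespace Vale.Agent.P057T.Eq

set_option linter.unusedSectionVars false

namespace Step

variable {ι : Type} [Fintype ι] [DecidableEq ι] {G : GT ι}

theorem mn_split (hdet : DET) {s : ℕ} (hO : G.Ok s) (σ : ι → ℝ) {U V : Finset ι} (hU : G.Bk U)
    (hV : G.Bk V) (h : V ⊆ U) : G.mn σ U = G.mn σ V * G.mn σ (U \ V) := by
  unfold GT.mn
  rw [(hdet s ι G hO).2.2.1 U V hU hV h, ← Finset.prod_sdiff h]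
  ring

theorem bk_sdiff {U V : Finset ι} (hU : G.Bk U) (hV : G.Bk V) : G.Bk (U \ V) := by
  intro a b hab
  simp only [mem_sdiff, hU a b hab, hV a b hab]

theorem mn_pos (hdet : DET) {s : ℕ} (hO : G.Ok s) {σ : ι → ℝ} (hσ : ∀ a, 0 < σ a) {V : Finset ι}
    (hV : G.Bk V) : 0 < G.mn σ V :=
  mul_pos ((hdet s ι G hO).1 V hV) (prod_pos fun a _ => inv_pos.2 (hσ a))

theorem cnt_le {s : ℕ} (hO : G.Ok s) (d g0 : ℕ) (U : Finset ι) : G.cnt d g0 U ≤ s := by
  unfold GT.cnt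
  refine le_trans (card_le_card (t := range s) ?_) (by simp)
  intro x hx
  obtain ⟨a, _, rfl⟩ := mem_image.1 hx
  exact mem_range.2 (hO.gs a)

theorem lt_of_vars {e : ℕ} {F : MvPolynomial ι ℝ} (hF : G.Dl e F) {a : ι}
    (ha : a ∈ F.vars) : G.w a < e := by
  obtain ⟨m, hm, ham⟩ := (mem_vars_iff_mem_support a).1 ha
  refine lt_of_le_of_lt ?_ (hF m hm)
  exact Finsupp.le_weight_of_ne_zero' G.w (Finsupp.mem_support_iff.1 ham)

theorem lo_sub {g : ℕ} {F I : MvPolynomial ι ℝ} (n : ℝ) (hF : G.Lo g F) (hI : G.Lo g I) :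
    G.Lo g (C n * F - I) := by
  intro b hb
  have h1 := vars_sub_subset (C n * F) (q := I) hb
  rcases mem_union.1 h1 with h | h
  · have h2 := vars_mul _ _ h
    rw [vars_C, empty_union] at h2
    exact hF b h2
  · exact hI b h

theorem tan_w_le {κ : Type} [Fintype κ] [DecidableEq κ] (h : κ → ι → ℤ) (x : G.TV κ) :
    (G.tan h).w x ≤ G.w (G.base x) := by
  rcases x with a | a
  · exact le_rfl
  · exact Nat.sub_le _ _

theorem tan_g {κ : Type} [Fintype κ] [DecidableEq κ] (h : κ → ι → ℤ) (x : G.TV κ) :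
    (G.tan h).g x = G.g (G.base x) := rfl

theorem tan_lo {κ : Type} [Fintype κ] [DecidableEq κ] (h h' : κ → ι → ℤ) {g : ℕ}
    {F : MvPolynomial (G.TV κ) ℝ} (hF : (G.tan h).Lo g F) : (G.tan h').Lo g F :=
  fun b hb => by rw [tan_g, ← tan_g h]; exact hF b hb

theorem tan_w {κ : Type} [Fintype κ] [DecidableEq κ] (h h' : κ → ι → ℤ) :
    (G.tan h).w = (G.tan h').w := rfl

theorem tan_hm {κ : Type} [Fintype κ] [DecidableEq κ] (h h' : κ → ι → ℤ) {e : ℕ}
    {F : MvPolynomial (G.TV κ) ℝ} (hF : (G.tan h).Hm e F) : (G.tan h').Hm e F := by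
  unfold GT.Hm at hF ⊢
  rw [tan_w h' h]; exact hF

theorem mn_not (σ : ι → ℝ) (U : Finset ι) (e : ℕ) :
    G.mn σ (U.filter fun a => ¬ G.w a < e) = G.mn σ (U \ U.filter fun a => G.w a < e) := by
  rw [filter_not]

theorem bias_step {x y m1 m2 Y : ℝ} {S S' : ℂ} (hm2 : 0 < m2) (hm1 : 0 ≤ m1) (hx : x = m1 * m2)
    (hy : y = m2) (h1 : Real.exp (-Y) * x ≤ ‖S‖)
    (h2 : ‖S - (y : ℂ) * S'‖ ≤ Real.exp (-(Y + 1)) * x) : Real.exp (-(Y + 1)) * m1 ≤ ‖S'‖ := by
  subst hx hy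
  have h3 : ‖S‖ ≤ ‖S - (y : ℂ) * S'‖ + y * ‖S'‖ := by
    have := norm_add_le (S - (y : ℂ) * S') ((y : ℂ) * S')
    rw [sub_add_cancel, norm_mul, Complex.norm_real, Real.norm_of_nonneg hm2.le] at this
    exact this
  have h4 : Real.exp (-Y) = Real.exp 1 * Real.exp (-(Y + 1)) := by
    rw [← Real.exp_add]; congr 1; ring
  have h5 : (2 : ℝ) ≤ Real.exp 1 := by linarith [Real.add_one_le_exp (1 : ℝ)]
  have h6 : 0 ≤ Real.exp (-(Y + 1)) * (m1 * y) := by positivity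
  have h7 : Real.exp (-(Y + 1)) * m1 * y ≤ ‖S'‖ * y := by
    rw [h4] at h1
    nlinarith
  exact le_of_mul_le_mul_right h7 hm2

end Step

open Step in
theorem step (s d μ : ℕ) (hd : d + 2 ≤ s) (hT : TANOK) (hD : DEROK) (hL : LOC) (hdet : DET)
    (hF : FIB) (hZ : ZERO) (hJ : ∀ g, JZ s g) (hI : INT) (hS : SEL s (d + 2) μ)
    (hM : MARGS s (d + 2) μ) (hE : EQS s (d + 1) s) : EQT s (d + 2) μ (d + 1) true := by
  obtain ⟨cM, hM⟩ := hM
  obtain ⟨cE, hE⟩ := hE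
  obtain ⟨cI, hI⟩ := hI s
  obtain ⟨cF, hF⟩ := hF s
  obtain ⟨c1, cS, hS⟩ := hS (cM + cE + 1)
  obtain ⟨c3, hc3⟩ : ∃ c3, c3 = 2 * cE + cF + c1 + 3 := ⟨_, rfl⟩
  obtain ⟨cZ, hZ⟩ := hZ s (cI + c3)
  choose cJ hJ using fun g => hJ g 3 (cI + c3)
  refine ⟨cS + cZ + (∑ g ∈ range (s + 1), cJ g) + cI + c3, ?_⟩
  intro ι _ _ G T WW P Y g0 Q hO hW hSz hA hg0 hU hR hInv hcnt htl _ hQd hQl hb
  have hU' : T.U = univ := hU rfl
  have hP := hSz.P2
  have hP0 : 0 < P := by linarith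
  have hY := hSz.Y1
  have hW0 := hW.nn g0
  have hrg : ∀ c, c ≤ cS + cZ + (∑ g ∈ range (s + 1), cJ g) + cI + c3 → G.Rg WW (P ^ c) Y g0 :=
    fun c hc => hR.mono le_rfl hW.nn (pw_pos hP c) (by linarith) (pw_le hP hc) le_rfl
  obtain ⟨R, E, hR1, hR2, hEc, hEh⟩ :=
    hS ι G T WW P Y g0 Q hO hW hSz hA hg0 hU' (hrg cS (by omega)) hInv hcnt hb
  obtain ⟨L, hL0⟩ : ∃ L, L = Y + WW g0 := ⟨_, rfl⟩
  rw [← hL0] at hR2 hEc hEh ⊢
  have hL1 : 1 ≤ L := by linarith
  have hWL : WW g0 ≤ L := by linarith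
  have hp1 := one_le_pw hP c1
  have hY1 : L ≤ P ^ c1 * L := by nlinarith
  have hmono : ∀ a b : ℕ, a ≤ b → P ^ a * L ≤ P ^ b * L :=
    fun a b h => mul_le_mul_of_nonneg_right (pw_le hP h) (by linarith)
  have h3 : ∀ a : ℕ, P ^ a * (3 * (P ^ c1 * L)) ≤ P ^ (a + c1 + 2) * L := by
    intro a
    have e1 : P ^ (a + c1 + 2) * L = P ^ a * (P ^ 2 * (P ^ c1 * L)) := by ring
    rw [e1]
    refine mul_le_mul_of_nonneg_left ?_ (pw_pos hP a).le
    exact mul_le_mul_of_nonneg_right (by nlinarith) (by linarith)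
  -- structure for each h
  have key : ∀ h ∈ E, (G.tan fun _ : Unit => G.res g0 h).Ap g0 (d + 1)
      (G.dd (fun _ : Unit => G.res g0 h) () (G.top (d + 2) Q)) (Real.exp (P ^ c3 * L)) := by
    intro h hh
    obtain ⟨_, hrg', hb'⟩ := hEh h hh
    obtain ⟨hO', _, _, hW', _, _, hlo⟩ := hT s ι Unit G (fun _ => h) hO
    have hW1 := hW' WW hW
    obtain ⟨hA', hdf⟩ := hD s ι G T P h hO hP0 hA
    obtain ⟨hv, hdl, htop⟩ := hdf (d + 1) Q (by rw [hU']; exact subset_univ _) hQd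
    have hSz' : Sz (G.TV Unit) (2 * P) (P ^ c1 * L + 1) := hSz.tv1 G (by linarith)
    have h2P : 2 ≤ 2 * P := by linarith
    have hsh : ∀ c, c ≤ cM + cE →
        (G.tan fun _ : Unit => h).Rg WW ((2 * P) ^ c) (P ^ c1 * L + 1) g0 := by
      intro c hc
      refine hrg'.shift (K := 2) le_rfl hW1 (pw_pos h2P c) (by linarith) (by linarith)
        (by norm_num) (by linarith) ?_
      refine le_trans ?_ (pw_le h2P (show c + 1 ≤ cM + cE + 1 by omega))
      rw [pow_succ]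
      nlinarith [pw_pos h2P c]
    have hwl : ∀ x : G.TV Unit, (G.tan fun _ : Unit => h).w x ≤ G.w (G.base x) := tan_w_le _
    have hmem : ∀ a, a ∈ T.U := fun a => by rw [hU']; exact mem_univ a
    have hInv' : (G.tan fun _ : Unit => h).Inv (d + 2) g0 (G.der T h).U :=
      fun x _ hx => (hwl x).trans (hInv _ (hmem _) hx)
    have hcnt' : (G.tan fun _ : Unit => h).cnt (d + 2) g0 (G.der T h).U ≤ μ := by
      refine le_trans (card_le_card ?_) hcnt
      intro y hy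
      obtain ⟨x, hx, rfl⟩ := mem_image.1 hy
      obtain ⟨_, hx1, hx2⟩ := mem_filter.1 hx
      refine mem_image.2 ⟨G.base x, mem_filter.2 ⟨hmem _, ?_, hx2⟩, rfl⟩
      exact le_antisymm (hInv _ (hmem _) hx2) (hx1 ▸ hwl x)
    have htl' : ∀ x : G.TV Unit, g0 ≤ (G.tan fun _ : Unit => h).g x →
        (G.tan fun _ : Unit => h).w x < d + 1 :=
      fun x hx => lt_of_le_of_lt (hwl x) (htl _ (hmem _) hx)
    obtain ⟨hA2, hmg⟩ := hM (G.TV Unit) (G.tan fun _ : Unit => h) (G.der T h) WW (2 * P)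
      (P ^ c1 * L + 1) g0 (G.df h Q) hO' hW1 hSz' hA' hg0 (hsh cM (by omega)) hInv' hcnt'
      (fun x _ hx => (htl' x hx).trans (by omega)) hv hdl
    have hσ : ∀ x, 0 < (G.der T h).sg x :=
      fun x => lt_of_lt_of_le (inv_pos.2 (by linarith)) (hA'.s1 x)
    have hsp := mn_split hdet hO' (G.der T h).sg hA'.bk hA2.bk (filter_subset _ _)
    have hb2 := bias_step (mn_pos hdet hO' hσ (bk_sdiff hA'.bk hA2.bk))
      (mn_pos hdet hO' hσ hA2.bk).le hsp (mn_not _ _ _) hb' hmg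
    have hlo' : (G.tan fun _ : Unit => h).Lo g0 (G.dd (fun _ : Unit => h) () (G.top (d + 2) Q)) :=
      hlo () g0 _ hQl
    have hap := hE (G.TV Unit) (G.tan fun _ : Unit => h) ((G.der T h).rs _) WW (2 * P)
      (P ^ c1 * L + 1) g0 (G.df h Q) hO' hW1 hSz' hA2 hg0 (fun h => by simp at h)
      (hsh cE (by omega)) (fun x hx _ => Nat.lt_succ_iff.1 (mem_filter.1 hx).2) (cnt_le hO' _ _ _)
      (fun x _ hx => htl' x hx)
      (fun x hx => mem_filter.2 ⟨hv hx, lt_of_vars hdl hx⟩) hdl (by rw [htop]; exact hlo') hb2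
    rw [htop] at hap
    obtain ⟨l1, _, l3⟩ := hL s ι Unit G (fun _ => h) (fun _ => G.res g0 h) g0 hO
      (fun _ a _ ha => by simp [GT.res, ha])
    have hH : Real.exp ((2 * P) ^ cE * (P ^ c1 * L + 1 + WW g0)) ≤ Real.exp (P ^ c3 * L) := by
      refine Real.exp_le_exp.2 (le_trans ?_ ((h3 (2 * cE)).trans (hmono _ _ (by omega))))
      exact mul_le_mul (two_pw_le hP cE) (by linarith) (by linarith) (pw_pos hP _).le
    obtain ⟨n, I, n1, n2, i1, i2, i3, i4⟩ := hap.mono hH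
    refine ⟨n, I, n1, n2, i1, tan_lo _ _ i2, tan_hm _ _ i3, ?_⟩
    rw [← l3 () _ hQl]
    exact l1 _ _ ((lo_sub _ hlo' i2).mono (Nat.le_succ _)) i4
  -- projection
  have hV1 : ∀ a, a ∈ G.V1 T ↔ G.w a = 1 := fun a => by simp [GT.V1, hU']
  have hBk : G.Bk (G.V1 T) := fun a b hab => by rw [hV1, hV1, (hO.blk a b hab).2]
  have hq : ∀ a ∈ G.V1 T, (G.q a).vars ⊆ G.V1 T := by
    intro a ha b hb
    have h1 : G.Dl (G.w a + 1) (G.q a) := fun m hm => by
      rw [hO.qh a (mem_support_iff.1 hm)]; exact Nat.lt_succ_self _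
    have h2 := lt_of_vars h1 hb
    have h4 := hO.w1 b
    rw [(hV1 a).1 ha] at h2
    exact (hV1 b).2 (by omega)
  obtain ⟨f1, f2⟩ := hF ι Unit G WW P R g0 (G.V1 T) (E.image fun h _ => h) hO hW
    (hSz.mono le_rfl le_rfl) (by simp; linarith) hBk (fun a ha => (hV1 a).1 ha) hq
    (fun a ha => (hV1 a).2 (mem_filter.1 ha).2.1)
    (fun x hx j => by obtain ⟨h, hh, rfl⟩ := mem_image.1 hx; exact (hEh h hh).1)
  have hc1 : (E.image fun (h : ι → ℤ) (_ : Unit) => h).card = E.card :=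
    card_image_of_injective _ fun x y hxy => congrFun hxy ()
  have hc2 : ((E.image fun (h : ι → ℤ) (_ : Unit) => h).image
      fun h j => G.res g0 (h j)).card ≤ (E.image (G.res g0)).card := by
    refine le_trans (card_le_card (t := (E.image (G.res g0)).image fun x (_ : Unit) => x) ?_)
      card_image_le
    intro y hy
    obtain ⟨x, hx, rfl⟩ := mem_image.1 hy
    obtain ⟨h, hh, rfl⟩ := mem_image.1 hx
    exact mem_image.2 ⟨_, mem_image.2 ⟨h, hh, rfl⟩, rfl⟩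
  rw [hc1, Fintype.card_unit, pow_one, pow_one] at f2
  have hdv : 0 < G.dv (G.V1 T) := (hdet s ι G hO).1 _ hBk
  have hE2 : Real.exp (-(P ^ c3 * L)) * G.dv (G.U1 g0) ≤ (E.image (G.res g0)).card := by
    have hc2' : (((E.image fun (h : ι → ℤ) (_ : Unit) => h).image
      fun h j => G.res g0 (h j)).card : ℝ) ≤ (E.image (G.res g0)).card := by exact_mod_cast hc2
    have g1 : P ^ cF * (1 + R ^ 2 + WW g0) + P ^ c1 * L ≤ P ^ c3 * L := by
      have a1 : P ^ cF * (1 + R ^ 2 + WW g0) ≤ P ^ (cF + c1 + 2) * L :=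
        le_trans (mul_le_mul_of_nonneg_left (by linarith) (pw_pos hP _).le) (h3 cF)
      have a2 := hmono c1 (cF + c1 + 2) (by omega)
      have a3 := mul_le_mul_of_nonneg_right (two_mul_pw hP (cF + c1 + 2)) (show 0 ≤ L by linarith)
      have a4 := hmono (cF + c1 + 2 + 1) c3 (by omega)
      linarith
    have g2 : Real.exp (-(P ^ c3 * L)) * Real.exp (P ^ cF * (1 + R ^ 2 + WW g0)) ≤
        Real.exp (-(P ^ c1 * L)) := by
      rw [← Real.exp_add]; exact Real.exp_le_exp.2 (by linarith)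
    have g3 := G.dv_nonneg (G.U1 g0)
    have g4 := Real.exp_pos (P ^ cF * (1 + R ^ 2 + WW g0))
    have g5 : Real.exp (-(P ^ c1 * L)) * G.dv (G.V1 T) * G.dv (G.U1 g0) ≤
        Real.exp (P ^ cF * (1 + R ^ 2 + WW g0)) * G.dv (G.V1 T) * (E.image (G.res g0)).card :=
      (mul_le_mul_of_nonneg_right hEc g3).trans (f2.trans
        (mul_le_mul_of_nonneg_left hc2' (by positivity)))
    have g6 : Real.exp (-(P ^ c3 * L)) * G.dv (G.U1 g0) *
        (Real.exp (P ^ cF * (1 + R ^ 2 + WW g0)) * G.dv (G.V1 T)) ≤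
        (E.image (G.res g0)).card * (Real.exp (P ^ cF * (1 + R ^ 2 + WW g0)) * G.dv (G.V1 T)) := by
      have := mul_le_mul_of_nonneg_right g2 (mul_nonneg hdv.le g3)
      nlinarith
    exact le_of_mul_le_mul_right g6 (by positivity)
  have hee : P ^ cI * (P ^ c3 * L) = P ^ (cI + c3) * (Y + WW g0) := by rw [hL0]; ring
  have hsum : cJ g0 ≤ ∑ g ∈ range (s + 1), cJ g :=
    single_le_sum (f := cJ) (fun _ _ => Nat.zero_le _) (mem_range.2 (by omega))
  have hfin := hI ι G P (P ^ c3 * L) R g0 (d + 1) (G.top (d + 2) Q) (E.image (G.res g0)) hO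
    (hSz.mono le_rfl (by nlinarith [one_le_pw hP c3])) (by omega) (by omega) hR1
    (hR2.trans (hmono _ _ (by omega)))
    (weightedHomogeneousComponent_isWeightedHomogeneous _ _) hQl
    (by rw [hee]; exact hZ ι G WW P Y g0 hO hW hSz (hrg cZ (by omega)))
    (by
      rw [hee]
      exact hJ g0 ι (Fin 3) G WW P Y R hO hW hSz (by simp)
        (by rw [← hL0]; exact hR2.trans (hmono _ _ (by omega))) (hrg _ (by omega)))
    hE2
    (fun x hx => by
      obtain ⟨h, hh, rfl⟩ := mem_image.1 hx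
      exact ⟨f1 (fun _ => h) (mem_image.2 ⟨h, hh, rfl⟩) (), key h hh⟩)
  refine hfin.mono (Real.exp_le_exp.2 ?_)
  rw [← mul_assoc, ← pow_add]
  exact hmono _ _ (by omega)

end Vale.Agent.P057T.Eq
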