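import Vale.Agent.P057T.Eq.Defs

/-! Rows TAIL0 and TAIL: removal of the tail stages of the second highest weight. -/

set_option linter.all false

open MvPolynomial Finset
open scoped Real

namespace Vale.Agent.P057T.Eq

namespace TailA

variable {ι : Type} [Fintype ι] [DecidableEq ι] {G : GT ι}

theorem w_le {m : ι →₀ ℕ} {b : ι} (h : b ∈ m.support) : G.w b ≤ Finsupp.weight G.w m := by
  rw [Finsupp.weight_apply, Finsupp.sum]
  refine le_trans ?_ (single_le_sum (f := fun a => m a • G.w a) (fun _ _ => Nat.zero_le _) h)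
  have := Finsupp.mem_support_iff.1 h
  simp only [smul_eq_mul]
  exact Nat.le_mul_of_pos_left _ (Nat.pos_of_ne_zero this)

theorem eq_single (h1 : ∀ a, 1 ≤ G.w a) {m : ι →₀ ℕ} {b : ι} (h : b ∈ m.support)
    (hw : Finsupp.weight G.w m ≤ G.w b) : m = Finsupp.single b 1 := by
  have hle : Finsupp.single b 1 ≤ m := Finsupp.single_le_iff.2
    (Nat.pos_of_ne_zero (Finsupp.mem_support_iff.1 h))
  obtain ⟨r, rfl⟩ := exists_add_of_le hle
  rw [map_add, Finsupp.weight_single, one_smul] at hw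
  have : r = 0 := by
    by_contra hr
    obtain ⟨a, ha⟩ := Finsupp.support_nonempty_iff.2 hr
    have := w_le (G := G) ha
    have := h1 a
    omega
  rw [this, add_zero]

theorem dl_var {e : ℕ} {F : MvPolynomial ι ℝ} (h : G.Dl e F) {b : ι} (hb : b ∈ F.vars) :
    G.w b < e := by
  obtain ⟨m, hm, hbm⟩ := (mem_vars b).1 hb
  exact (w_le hbm).trans_lt (h m hm)

theorem hm_dl {e : ℕ} {F : MvPolynomial ι ℝ} (h : G.Hm e F) : G.Dl (e + 1) F := fun m hm =>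
  Nat.lt_succ_of_le (h (mem_support_iff.1 hm)).le

theorem dl_mono {e e' : ℕ} {F : MvPolynomial ι ℝ} (h : G.Dl e F) (he : e ≤ e') : G.Dl e' F :=
  fun m hm => (h m hm).trans_le he

theorem dl_add {e : ℕ} {F F' : MvPolynomial ι ℝ} (h : G.Dl e F) (h' : G.Dl e F') :
    G.Dl e (F + F') := fun m hm =>
  (mem_union.1 (support_add hm)).elim (h m) (h' m)

theorem dl_sub {e : ℕ} {F F' : MvPolynomial ι ℝ} (h : G.Dl e F) (h' : G.Dl e F') :
    G.Dl e (F - F') := fun m hm =>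
  (mem_union.1 (support_sub _ _ _ hm)).elim (h m) (h' m)

theorem dl_C {e : ℕ} {F : MvPolynomial ι ℝ} (c : ℝ) (h : c ≠ 0 → G.Dl e F) : G.Dl e (C c * F) :=
  fun m hm => by
    rw [mem_support_iff, coeff_C_mul] at hm
    exact h (left_ne_zero_of_mul hm) m (mem_support_iff.2 (right_ne_zero_of_mul hm))

theorem dl_sum {e : ℕ} {α : Type} (s : Finset α) (F : α → MvPolynomial ι ℝ)
    (h : ∀ a ∈ s, G.Dl e (F a)) : G.Dl e (∑ a ∈ s, F a) :=
  sum_induction F (G.Dl e) (fun _ _ => dl_add) (fun m hm => by simp at hm) h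

theorem top_dl {e : ℕ} {F : MvPolynomial ι ℝ} (h : G.Dl e F) : G.top e F = 0 := by
  ext m
  rw [GT.top, coeff_weightedHomogeneousComponent, coeff_zero]
  split_ifs with hm
  · by_contra hc
    exact (h m (mem_support_iff.2 hc)).ne hm
  · rfl

theorem top_add (e : ℕ) (F F' : MvPolynomial ι ℝ) : G.top e (F + F') = G.top e F + G.top e F' :=
  map_add _ _ _

theorem vs_add {V : Finset ι} {F F' : MvPolynomial ι ℝ} (h : F.vars ⊆ V) (h' : F'.vars ⊆ V) :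
    (F + F').vars ⊆ V := (vars_add_subset _ _).trans (union_subset h h')

theorem vs_sub {V : Finset ι} {F F' : MvPolynomial ι ℝ} (h : F.vars ⊆ V) (h' : F'.vars ⊆ V) :
    (F - F').vars ⊆ V := (vars_sub_subset _).trans (union_subset h h')

theorem vs_C {V : Finset ι} {F : MvPolynomial ι ℝ} (c : ℝ) (h : c ≠ 0 → F.vars ⊆ V) :
    (C c * F).vars ⊆ V := by
  by_cases hc : c = 0
  · simp [hc]
  · exact (vars_mul _ _).trans (by simpa using h hc)

theorem vs_sum {V : Finset ι} {α : Type} (s : Finset α) (F : α → MvPolynomial ι ℝ)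
    (h : ∀ a ∈ s, (F a).vars ⊆ V) : (∑ a ∈ s, F a).vars ⊆ V :=
  sum_induction F (fun P => P.vars ⊆ V) (fun _ _ => vs_add) (by simp) h

theorem mn_pos {s : ℕ} (hD : DET) (hG : G.Ok s) {σ : ι → ℝ} (hσ : ∀ a, 0 < σ a) {V : Finset ι}
    (hV : G.Bk V) : 0 < G.mn σ V :=
  mul_pos ((hD s ι G hG).1 V hV) (prod_pos fun a _ => inv_pos.2 (hσ a))

theorem mn_split {s : ℕ} (hD : DET) (hG : G.Ok s) (σ : ι → ℝ) {U V : Finset ι} (hU : G.Bk U)
    (hV : G.Bk V) (h : V ⊆ U) : G.mn σ U = G.mn σ V * G.mn σ (U \ V) := by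
  unfold GT.mn
  rw [(hD s ι G hG).2.2.1 U V hU hV h, ← prod_sdiff h]
  ring

theorem bk_stage {s : ℕ} (hG : G.Ok s) {U : Finset ι} (hU : G.Bk U) (g d : ℕ) :
    G.Bk (U.filter fun a => G.g a = g ∧ G.w a = d) := fun a b h => by
  rw [mem_filter, mem_filter, hU a b h, (hG.blk a b h).1, (hG.blk a b h).2]

/-- a phase that meets the stage S only in weight d is linear in S -/
theorem split (h1 : ∀ a, 1 ≤ G.w a) {S : Finset ι} {d : ℕ} (hS : ∀ b ∈ S, G.w b = d)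
    {Q : MvPolynomial ι ℝ} (hQ : G.Dl (d + 2) Q) (ht : Disjoint (G.top (d + 1) Q).vars S) :
    Disjoint (Q - ∑ b ∈ S, C (coeff (Finsupp.single b 1) Q) * X b).vars S := by
  rw [disjoint_left]
  intro b hb hbS
  obtain ⟨m, hm, hbm⟩ := (mem_vars b).1 hb
  rw [mem_support_iff, coeff_sub, coeff_sum] at hm
  simp only [coeff_C_mul, coeff_X'] at hm
  by_cases hw : Finsupp.weight G.w m ≤ G.w b
  · obtain rfl := eq_single h1 hbm hw
    refine hm ?_
    rw [sum_eq_single b (fun a _ ha => by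
      rw [if_neg (fun e => ha (Finsupp.single_left_injective one_ne_zero e)), mul_zero])
      (fun h => (h hbS).elim)]
    simp
  · rw [sum_eq_zero (fun a ha => by
      rw [if_neg, mul_zero]
      rintro rfl
      rw [Finsupp.weight_single, one_smul, hS a ha, hS b hbS] at hw
      omega), sub_zero] at hm
    have := hQ m (mem_support_iff.2 hm)
    rw [hS b hbS] at hw
    refine disjoint_left.1 ht ((mem_vars b).2 ⟨m, mem_support_iff.2 ?_, hbm⟩) hbS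
    rw [GT.top, coeff_weightedHomogeneousComponent, if_pos (by omega)]
    exact hm

/-- one stage -/
theorem one (hP : POIS) (hD : DET) {s : ℕ} {T : AT ι} {P Y E : ℝ} {g0 g d : ℕ}
    {Q : MvPolynomial ι ℝ} (hG : G.Ok s) (P0 : 0 < P) (hA : G.AOk T P) (hg : g0 ≤ g)
    (hW : ∀ (S : Finset ι) (θ : ι → ℝ), G.Bk S → (∀ a ∈ S, g0 ≤ G.g a) →
      Summable (fun k : Lat S => Real.exp (-(π / 2) * G.dq T.sg S (cz k.1 - θ))) ∧
      ∑' k : Lat S, Real.exp (-(π / 2) * G.dq T.sg S (cz k.1 - θ)) ≤ Real.exp E)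
    (h1 : ∀ a ∈ T.U, g0 ≤ G.g a → G.w a < d + 1) (h2 : ∀ a ∈ T.U, g + 1 ≤ G.g a → G.w a < d)
    (hv : Q.vars ⊆ T.U) (hQ : G.Dl (d + 2) Q) (hl : G.Lo g0 (G.top (d + 1) Q))
    (hb : Real.exp (-Y) * G.mn T.sg T.U ≤ ‖G.Sm T Q‖) :
    ∃ Q' : MvPolynomial ι ℝ,
      G.AOk (T.rs (T.U \ T.U.filter fun a => G.g a = g ∧ G.w a = d)) P ∧
      Q'.vars ⊆ T.U \ (T.U.filter fun a => G.g a = g ∧ G.w a = d) ∧ G.Dl (d + 2) Q' ∧
      G.top (d + 1) Q' = G.top (d + 1) Q ∧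
      Real.exp (-(Y + (E + 1))) * G.mn T.sg (T.U \ T.U.filter fun a => G.g a = g ∧ G.w a = d) ≤
        ‖G.Sm (T.rs (T.U \ T.U.filter fun a => G.g a = g ∧ G.w a = d)) Q'‖ := by
  set S := T.U.filter fun a => G.g a = g ∧ G.w a = d with hS
  have sU : S ⊆ T.U := filter_subset _ _
  have sg : ∀ b ∈ S, G.g b = g := fun b hb => (mem_filter.1 hb).2.1
  have sw : ∀ b ∈ S, G.w b = d := fun b hb => (mem_filter.1 hb).2.2
  have bS : G.Bk S := bk_stage hG hA.bk g d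
  have σ0 : ∀ a, 0 < T.sg a := fun a => (inv_pos.2 P0).trans_le (hA.s1 a)
  have dj : ∀ a ∈ T.U, Disjoint (G.q a).vars S ∧ Disjoint (T.p a).vars S := fun a ha => by
    refine ⟨disjoint_left.2 fun b hb hbS => ?_, disjoint_left.2 fun b hb hbS => ?_⟩
    · have a1 := hG.ql a b hb
      have a2 := dl_var (hm_dl (hG.qh a)) hb
      have a3 := h2 a ha (by rw [← sg b hbS]; omega)
      rw [sw b hbS] at a2
      omega
    · have a1 := hA.pl a ha b hb
      have a2 := dl_var (hA.pd a ha) hb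
      have a3 := h1 a ha (by rw [sg b hbS] at a1; omega)
      rw [sw b hbS] at a2
      omega
  let θ : ι → ℝ := fun b => coeff (Finsupp.single b 1) Q
  let Q0 := Q - ∑ b ∈ S, C (θ b) * X b
  have d0 : Disjoint Q0.vars S := split hG.w1 sw hQ (disjoint_left.2 fun b hb hbS => by
    have := hl b hb
    rw [sg b hbS] at this
    omega)
  have xl : G.Dl (d + 1) (∑ b ∈ S, C (θ b) * X b) := dl_sum _ _ fun b hb => dl_C _ fun _ =>
    hm_dl (sw b hb ▸ isWeightedHomogeneous_X ℝ G.w b)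
  have v0 : Q0.vars ⊆ T.U \ S := subset_sdiff.2 ⟨vs_sub hv (vs_sum _ _ fun b hb => vs_C _ fun _ => by
    rw [vars_X]; exact singleton_subset_iff.2 (sU hb)), d0⟩
  have e0 : Q0 + ∑ b ∈ S, C (θ b) * X b = Q := sub_add_cancel _ _
  obtain ⟨a1, a2⟩ := hP s ι G T P S θ Q0 hG P0 hA sU bS dj d0
  rw [e0] at a2
  have cl : ∀ b ∈ S, G.Dl (d + 1) (G.cq T b) := fun b hb =>
    dl_sub (sw b hb ▸ hm_dl (hG.qh b)) (dl_sum _ _ fun a _ => dl_C _ fun h => dl_mono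
      (hA.pd a ((hA.bk b a (Or.inr h)).1 (sU hb))) (by
        rw [← (hG.blk b a (Or.inr h)).2, sw b hb]; omega))
  have cv : ∀ b ∈ S, (G.cq T b).vars ⊆ T.U \ S := fun b hb =>
    vs_sub (subset_sdiff.2 ⟨hA.qv b (sU hb), (dj b (sU hb)).1⟩) (vs_sum _ _ fun a _ => vs_C _ fun h =>
      subset_sdiff.2 ⟨hA.pv a ((hA.bk b a (Or.inr h)).1 (sU hb)),
        (dj a ((hA.bk b a (Or.inr h)).1 (sU hb))).2⟩)
  have m1 := mn_pos hD hG σ0 bS
  have m2 : 0 < G.mn T.sg (T.U \ S) := mn_pos hD hG σ0 a1.bk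
  have m3 := mn_split hD hG T.sg hA.bk bS sU
  obtain ⟨w1, w2⟩ := hW S θ bS fun a ha => (sg a ha).symm ▸ hg
  obtain ⟨k, hk⟩ : ∃ k : Lat S, Real.exp (-(Y + (E + 1))) * G.mn T.sg (T.U \ S) ≤
      ‖G.Sm (T.rs (T.U \ S)) (Q0 + ∑ b ∈ S, C (θ b - k.1 b) * G.cq T b)‖ := by
    by_contra hc
    push Not at hc
    have b1 := a2.norm_le_of_bounded (w1.hasSum.mul_left
      (G.mn T.sg S * (Real.exp (-(Y + (E + 1))) * G.mn T.sg (T.U \ S)))) fun k => by
        rw [norm_mul, Complex.norm_real, Real.norm_of_nonneg (by positivity)]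
        have q0 : 0 ≤ G.dq T.sg S (cz k.1 - θ) := sum_nonneg fun _ _ => sq_nonneg _
        have q1 : Real.exp (-π * G.dq T.sg S (cz k.1 - θ)) ≤
            Real.exp (-(π / 2) * G.dq T.sg S (cz k.1 - θ)) :=
          Real.exp_le_exp.2 (by nlinarith [Real.pi_pos])
        calc _ ≤ G.mn T.sg S * Real.exp (-(π / 2) * G.dq T.sg S (cz k.1 - θ)) *
              (Real.exp (-(Y + (E + 1))) * G.mn T.sg (T.U \ S)) := by
              gcongr
              exact (hc k).le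
          _ = _ := by ring
    have b2 : G.mn T.sg S * (Real.exp (-(Y + (E + 1))) * G.mn T.sg (T.U \ S)) * Real.exp E =
        Real.exp (-(Y + 1)) * G.mn T.sg T.U := by
      rw [m3, show -(Y + 1) = -(Y + (E + 1)) + E by ring, Real.exp_add]
      ring
    have b3 := hb.trans (b1.trans ((mul_le_mul_of_nonneg_left w2 (by positivity)).trans b2.le))
    have b4 := le_of_mul_le_mul_right b3 (m3 ▸ mul_pos m1 m2)
    have := Real.exp_le_exp.1 b4
    linarith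
  have kl : G.Dl (d + 1) (∑ b ∈ S, C (θ b - k.1 b) * G.cq T b) :=
    dl_sum _ _ fun b hb => dl_C _ fun _ => cl b hb
  refine ⟨_, a1, vs_add v0 (vs_sum _ _ fun b hb => vs_C _ fun _ => cv b hb),
    dl_add (dl_sub hQ (dl_mono xl (by omega))) (dl_mono kl (by omega)), ?_, hk⟩
  rw [top_add, top_dl kl, ← e0, top_add, top_dl xl]

theorem many (hP : POIS) (hD : DET) {s : ℕ} {P E : ℝ} {g0 d : ℕ} (hG : G.Ok s) (P0 : 0 < P)
    (n : ℕ) : ∀ (T : AT ι) (Y : ℝ) (Q : MvPolynomial ι ℝ), G.AOk T P →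
    (∀ (S : Finset ι) (θ : ι → ℝ), G.Bk S → (∀ a ∈ S, g0 ≤ G.g a) →
      Summable (fun k : Lat S => Real.exp (-(π / 2) * G.dq T.sg S (cz k.1 - θ))) ∧
      ∑' k : Lat S, Real.exp (-(π / 2) * G.dq T.sg S (cz k.1 - θ)) ≤ Real.exp E) →
    (∀ a ∈ T.U, g0 ≤ G.g a → G.w a < d + 1) → (∀ a ∈ T.U, g0 + n ≤ G.g a → G.w a < d) →
    Q.vars ⊆ T.U → G.Dl (d + 2) Q → G.Lo g0 (G.top (d + 1) Q) →
    Real.exp (-Y) * G.mn T.sg T.U ≤ ‖G.Sm T Q‖ →
    ∃ Q' : MvPolynomial ι ℝ,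
      G.AOk (T.rs (T.U.filter (fun a => G.g a < g0 ∨ G.w a < d))) P ∧
      Q'.vars ⊆ T.U.filter (fun a => G.g a < g0 ∨ G.w a < d) ∧ G.Dl (d + 2) Q' ∧
      G.top (d + 1) Q' = G.top (d + 1) Q ∧
      Real.exp (-(Y + n * (E + 1))) * G.mn T.sg (T.U.filter (fun a => G.g a < g0 ∨ G.w a < d)) ≤
        ‖G.Sm (T.rs (T.U.filter (fun a => G.g a < g0 ∨ G.w a < d))) Q'‖ := by
  induction n with
  | zero =>
    intro T Y Q hA _ _ h2 hv hQ _ hb
    rw [filter_true_of_mem fun a ha => (lt_or_ge (G.g a) g0).imp_right (h2 a ha)]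
    rw [Nat.cast_zero, zero_mul, add_zero]
    exact ⟨Q, hA, hv, hQ, rfl, hb⟩
  | succ n ih =>
    intro T Y Q hA hW h1 h2 hv hQ hl hb
    obtain ⟨Q1, a1, a2, a3, a4, a5⟩ := one (g := g0 + n) hP hD hG P0 hA (by omega) hW h1 h2 hv hQ hl hb
    obtain ⟨Q2, b⟩ := ih (T.rs _) _ Q1 a1 hW (fun a ha => h1 a (mem_sdiff.1 ha).1)
      (fun a ha hg => by
        obtain ⟨c1, c2⟩ := mem_sdiff.1 ha
        have c3 := h1 a c1 (by omega)
        have c4 := h2 a c1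
        rw [mem_filter] at c2
        by_contra hc
        exact c2 ⟨c1, by omega, by omega⟩) a2 a3 (a4 ▸ hl) a5
    have e : (T.rs (T.U \ T.U.filter fun a => G.g a = g0 + n ∧ G.w a = d)).U.filter
        (fun a => G.g a < g0 ∨ G.w a < d) = T.U.filter (fun a => G.g a < g0 ∨ G.w a < d) := by
      ext a
      simp only [AT.rs, mem_filter, mem_sdiff]
      constructor
      · exact fun h => ⟨h.1.1, h.2⟩
      · exact fun h => ⟨⟨h.1, fun c => by have := h.2; omega⟩, h.2⟩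
    rw [e, a4] at b
    refine ⟨Q2, ?_⟩
    rw [show Y + ((n + 1 : ℕ) : ℝ) * (E + 1) = Y + (E + 1) + n * (E + 1) by push_cast; ring]
    exact b

theorem bd_mono {F : MvPolynomial ι ℝ} {H H' : ℝ} (h : G.Bd F H) (e : H ≤ H') : G.Bd F H' :=
  let ⟨b, h1, h2⟩ := h; ⟨b, h1, h2.trans e⟩

theorem ap_mono {g d : ℕ} {F : MvPolynomial ι ℝ} {H H' : ℝ} (h : G.Ap g d F H) (e : H ≤ H') :
    G.Ap g d F H' :=
  let ⟨n, I, h1, h2, h3, h4, h5, h6⟩ := h; ⟨n, I, h1, h2.trans e, h3, h4, h5, bd_mono h6 e⟩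

/-- regularity with smaller thresholds -/
theorem rg_mono {WW : ℕ → ℝ} {c c' Y Y' : ℝ} {g0 : ℕ} (h : G.Rg WW c Y g0)
    (h0 : ∀ g < g0, 0 < c' * (Y' + WW g))
    (e : ∀ g ≤ g0, c' * (Y' + WW g) ≤ c * (Y + WW g)) : G.Rg WW c' Y' g0 := fun g hg =>
  ⟨fun e' k I a1 a2 a3 a4 a5 => (h g hg).1 e' k I a1 a2 a3 a4
      (bd_mono a5 (Real.exp_le_exp.2 (e g hg.le))),
    fun j hj hjg => by
      obtain ⟨v, b1, b2, b3⟩ := (h g hg).2 j hj hjg
      exact ⟨v, b1, b2, fun a => (b3 a).trans (min_le_min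
        (Real.exp_le_exp.2 (neg_le_neg (e (g + 1) hg))) (inv_anti₀ (h0 g hg) (e g hg.le)))⟩⟩

end TailA

open TailA

theorem tail0 (hP : POIS) (hW : GW) (hD : DET) : TAIL0 := by
  intro s
  obtain ⟨c, hc⟩ := hW
  refine ⟨c + (2 * s + 1), fun ι _ _ G T WW P Y g0 d Q hG hw hz hA h1 hv hQ hl hb => ?_⟩
  have P2 := hz.P2
  have Y1 := hz.Y1
  have W0 := hw.nn g0
  obtain ⟨Q', a1, a2, a3, a4, a5⟩ := many (E := P ^ c * (1 + WW g0)) hP hD hG (by linarith) s T Y Q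
    hA (fun S θ hS hg => hc s ι G WW P T.sg S g0 θ hG hw ⟨hz.cd, P2, le_rfl⟩
      (fun a => ⟨hA.s1 a, hA.s2 a⟩) hS hg) h1 (fun a _ h => by have := hG.gs a; omega) hv hQ hl hb
  refine ⟨Q', a1, a2, a3, a4, le_trans (mul_le_mul_of_nonneg_right (Real.exp_le_exp.2 ?_)
    (mn_pos hD hG (fun a => (inv_pos.2 (by linarith)).trans_le (hA.s1 a)) a1.bk).le) a5⟩
  have b1 : (1 : ℝ) ≤ P ^ c := one_le_pow₀ (by linarith)
  have b2 : ((2 * s + 1 : ℕ) : ℝ) ≤ P ^ (2 * s + 1) :=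
    le_trans (by exact_mod_cast Nat.lt_two_pow_self.le) (pow_le_pow_left₀ (by norm_num) P2 _)
  push_cast at b2
  have s0 : (0 : ℝ) ≤ s := Nat.cast_nonneg _
  have b3 : 1 ≤ P ^ c * (Y + WW g0) := by nlinarith
  have b4 : Y ≤ P ^ c * (Y + WW g0) := by nlinarith
  have b5 : P ^ c * (1 + WW g0) ≤ P ^ c * (Y + WW g0) := by gcongr
  rw [pow_add, neg_le_neg_iff]
  nlinarith

theorem tail {s d μ : ℕ} (h0 : TAIL0) (h : EQT s (d + 1) μ d false) :
    EQT s (d + 1) μ (d + 1) false := by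
  obtain ⟨c0, h0⟩ := h0 s
  obtain ⟨c1, h⟩ := h
  refine ⟨c1 + (c0 + 1), fun ι _ _ G T WW P Y g0 Q hG hw hz hA hg _ hR hI hc h1 hv hQ hl hb => ?_⟩
  have P2 := hz.P2
  have Y1 := hz.Y1
  have W0 := hw.nn g0
  have b1 : (1 : ℝ) ≤ P ^ c0 := one_le_pow₀ (by linarith)
  have b2 : (0 : ℝ) < P ^ c1 := by positivity
  have b3 : 1 ≤ P ^ c0 * (Y + WW g0) := by nlinarith
  have e : ∀ g ≤ g0, P ^ c1 * (P ^ c0 * (Y + WW g0) + WW g) ≤ P ^ (c1 + (c0 + 1)) * (Y + WW g) :=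
    fun g hg => by
      have a1 := hw.anti hg
      rw [pow_add, mul_assoc, pow_succ]
      refine mul_le_mul_of_nonneg_left ?_ b2.le
      have a2 : P ^ c0 * (Y + WW g0) ≤ P ^ c0 * (Y + WW g) := by gcongr
      have a3 : WW g ≤ P ^ c0 * (Y + WW g) := by nlinarith
      nlinarith
  obtain ⟨Q', a1, a2, a3, a4, a5⟩ := h0 ι G T WW P Y g0 d Q hG hw hz hA h1 hv hQ hl hb
  have := h ι G (T.rs _) WW P _ g0 Q' hG hw ⟨hz.cd, P2, b3⟩ a1 hg (fun h => by simp at h)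
    (rg_mono hR (fun g _ => mul_pos b2 (by linarith [hw.nn g])) e)
    (fun a ha => hI a (mem_filter.1 ha).1)
    ((card_le_card (image_subset_image (filter_subset_filter _ (filter_subset _ _)))).trans hc)
    (fun a ha hg => (mem_filter.1 ha).2.resolve_left (by omega)) a2 a3 (a4 ▸ hl) a5
  exact a4 ▸ ap_mono this (Real.exp_le_exp.2 (e g0 le_rfl))

end Vale.Agent.P057T.Eq
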