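import Vale.Agent.P057T.Eq.Defs
import Vale.Agent.P057T.Chart2

/-! Row ZERO: on a regular tower there is no bounded integer form. -/

set_option linter.all false

open MvPolynomial Finset

namespace Vale.Agent.P057T.Eq

open Vale.Agent.P057T.L1

namespace Zero

noncomputable section

variable {ι : Type} [Fintype ι] [DecidableEq ι] {s : ℕ} {G : GT ι}

/-- kill the variables of S -/
def kl (S : Finset ι) (i : ι) : MvPolynomial ι ℝ := if i ∈ S then 0 else X i

theorem kl_int (S : Finset ι) {F : MvPolynomial ι ℝ} (h : IsZ F) : IsZ (aeval (kl S) F) :=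
  IsInt.aeval h fun i => by
    unfold kl; split_ifs
    · exact isInt_zero
    · exact isInt_X i

theorem kl_hm (S : Finset ι) {F : MvPolynomial ι ℝ} {e : ℕ} (h : G.Hm e F) :
    G.Hm e (aeval (kl S) F) :=
  Chart.hom_aeval h fun i => by
    unfold kl; split_ifs
    · exact isWeightedHomogeneous_zero _ _ _
    · exact isWeightedHomogeneous_X _ _ _

theorem kl_vars (S : Finset ι) (F : MvPolynomial ι ℝ) :
    ∀ j ∈ (aeval (kl S) F).vars, j ∈ F.vars ∧ j ∉ S :=
  Chart.vars_aeval fun i hi => by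
    unfold kl; split_ifs with h
    · simp
    · exact Chart.vars_X' ⟨hi, h⟩

theorem kl_self (S : Finset ι) {F : MvPolynomial ι ℝ} (h : ∀ j ∈ F.vars, j ∉ S) :
    aeval (kl S) F = F := by
  conv_rhs => rw [← aeval_X_left_apply F]
  exact Chart.aeval_congr_vars fun i hi => if_neg (h i hi)

theorem kl_pderiv (S : Finset ι) (F : MvPolynomial ι ℝ) {x : ι} (hx : x ∉ S) :
    pderiv x (aeval (kl S) F) = aeval (kl S) (pderiv x F) := by
  rw [pderiv_aeval, sum_eq_single x]
  · rw [kl, if_neg hx, pderiv_X_self, mul_one]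
  · intro i _ hi
    unfold kl; split_ifs
    · simp
    · rw [pderiv_X_of_ne hi, mul_zero]
  · simp

theorem pd_comm (x y : ι) (F : MvPolynomial ι ℝ) :
    pderiv x (pderiv y F) = pderiv y (pderiv x F) := by
  induction F using MvPolynomial.induction_on with
  | C a => simp
  | add p q hp hq => simp only [map_add, hp, hq]
  | mul_X p i hp =>
    have h : ∀ a b : ι, pderiv a (pderiv b (X i : MvPolynomial ι ℝ)) = 0 := fun a b => by
      by_cases e : i = b
      · subst e; rw [pderiv_X_self]; exact pderiv_one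
      · rw [pderiv_X_of_ne e, map_zero]
    simp only [pderiv_mul, map_add, hp, h]
    ring

theorem trick (S : Finset ι) {F : MvPolynomial ι ℝ} {x : ι}
    (h : ∀ c ∈ S, x ∉ (pderiv c F).vars) : aeval (kl S) (pderiv x F) = pderiv x F :=
  kl_self S fun j hj hS => pderiv_ne_zero hj (by
    rw [pd_comm]; exact pderiv_eq_zero_of_notMem_vars (h j hS))

theorem kl_bd (hB : BD) (hG : G.Ok s) {ga : ℕ} {S : Finset ι} (hS : G.Bk S)
    (hg : ∀ a ∈ S, G.g a = ga) {F : MvPolynomial ι ℝ} {H : ℝ} (h : G.Bd F H)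
    (hl : G.Lo (ga + 1) F) (hx : ∀ a ∈ F.vars, a ∈ S → a ∈ G.ex) : G.Bd (aeval (kl S) F) H := by
  obtain ⟨b, rfl, hb⟩ := h
  have hbl : G.Lo (ga + 1) b := ((hB s ι G hG).2.2.2 _ b).2 hl
  refine ⟨aeval (kl S) b, ?_, (nrm_aeval_le_one (fun i => ?_) b).trans hb⟩
  · have e : aeval (kl S) (aeval G.th b) =
        aeval (fun i => if i ∈ S then G.q i else X i) (aeval G.th b) :=
      Chart.aeval_congr_vars fun i hi => by
        unfold kl; split_ifs with h
        · exact (hG.qe i (hx i hi h)).symm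
        · rfl
    rw [e, Chart.aeval_aeval, Chart.aeval_aeval]
    refine Chart.aeval_congr_vars fun a ha => ?_
    have hq : ∀ c, G.A a c ≠ 0 →
        aeval (fun i => if i ∈ S then G.q i else X i) (G.q c) = G.q c := fun c hc => by
      conv_rhs => rw [← aeval_X_left_apply (G.q c)]
      refine Chart.aeval_congr_vars fun i hi => if_neg fun h => ?_
      have h1 := hG.ql c i hi
      have h2 := (hG.blk a c (Or.inl hc)).1
      have h3 := hbl a ha
      have h4 := hg i h
      omega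
    unfold kl
    by_cases h : a ∈ S
    · rw [if_pos h, map_zero, GT.th, map_sum]
      refine (sum_eq_zero fun c _ => ?_).symm
      by_cases hc : G.A a c = 0
      · simp [hc]
      · rw [map_mul, map_sub, aeval_X, if_pos ((hS a c (Or.inl hc)).1 h), hq c hc, sub_self,
          mul_zero]
    · rw [if_neg h, aeval_X, GT.th, map_sum]
      refine sum_congr rfl fun c _ => ?_
      by_cases hc : G.A a c = 0
      · simp [hc]
      · rw [map_mul, map_sub, aeval_X, if_neg fun h' => h ((hS a c (Or.inl hc)).2 h'), hq c hc,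
          aeval_C, algebraMap_eq]
  · unfold kl; split_ifs <;> simp

/-- derivative along an integer vector -/
def dr (U : Matrix ι ι ℤ) (b : ι) (F : MvPolynomial ι ℝ) : MvPolynomial ι ℝ :=
  ∑ c, C (U c b : ℝ) * pderiv c F

theorem dr_inv {U V : Matrix ι ι ℤ} (h : U * V = 1) (c : ι) (F : MvPolynomial ι ℝ) :
    pderiv c F = ∑ b, C (V b c : ℝ) * dr U b F := by
  simp only [dr, mul_sum]
  rw [sum_comm]
  have e : ∀ x, ∑ b, C (V b c : ℝ) * (C (U x b : ℝ) * pderiv x F) =
      C (((U * V) x c : ℤ) : ℝ) * pderiv x F := fun x => by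
    rw [Matrix.mul_apply]
    push_cast
    rw [map_sum, sum_mul]
    exact sum_congr rfl fun b _ => by rw [map_mul]; ring
  simp only [e, h]
  rw [sum_eq_single c]
  · simp
  · intro x _ hx; simp [Matrix.one_apply_ne hx]
  · simp

theorem dr_bd (hB : BD) (hG : G.Ok s) {ga e : ℕ} {U : Matrix ι ι ℤ} {b : ι} {M P H : ℝ}
    (hP : (Fintype.card ι : ℝ) ≤ P) (hM : 0 ≤ M) (hU : ∀ c, U c b ≠ 0 → G.g c = ga)
    (hA : ∀ a, |∑ c, G.A a c * (U c b : ℝ)| ≤ M) {F : MvPolynomial ι ℝ} (h : G.Bd F H)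
    (hl : G.Lo (ga + 1) F) (hh : G.Hm e F) (he : e ≤ s) : G.Bd (dr U b F) (s * P * M * H) := by
  obtain ⟨β, rfl, hb⟩ := h
  have hbl : G.Lo (ga + 1) β := ((hB s ι G hG).2.2.2 _ β).2 hl
  have hbh : G.Hm e β := ((hB s ι G hG).2.1 _ β).2 hh
  have H0 : 0 ≤ H := (nrm_nonneg β).trans hb
  refine ⟨∑ a, C (∑ c, G.A a c * (U c b : ℝ)) * pderiv a β, ?_, ?_⟩
  · have e1 : ∀ c, C (U c b : ℝ) * pderiv c (aeval G.th β) =
        aeval G.th (∑ a, C (G.A a c * (U c b : ℝ)) * pderiv a β) := fun c => by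
      by_cases hc : U c b = 0
      · simp [hc]
      · rw [Chart.pderiv_chart (t := G.th) (a := fun a => G.A a c) fun i hi =>
          Chart.pderiv_tc hG.ql (fun i j hij => (hG.blk i j (Or.inl hij)).1.ge)
            (by have := hbl i hi; have := hU c hc; omega)]
        simp only [map_sum, map_mul, aeval_C, algebraMap_eq, mul_sum]
        exact sum_congr rfl fun a _ => by ring
    simp only [dr, e1]
    rw [← map_sum, sum_comm]
    congr 1
    exact sum_congr rfl fun a _ => by rw [map_sum, sum_mul]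
  · refine (Chart.nrm_dir_le _ ((Chart.totalDegree_le_of_hom hG.w1 hbh).trans he)).trans ?_
    have h1 : ∑ a, |∑ c, G.A a c * (U c b : ℝ)| ≤ P * M := by
      refine (sum_le_card_nsmul _ _ M fun a _ => hA a).trans ?_
      rw [nsmul_eq_mul, card_univ]
      exact mul_le_mul_of_nonneg_right hP hM
    calc _ ≤ (P * M) * (s * H) := mul_le_mul h1 (mul_le_mul_of_nonneg_left hb (by positivity))
          (mul_nonneg (by positivity) (nrm_nonneg _))
          ((sum_nonneg fun _ _ => abs_nonneg _).trans h1)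
      _ = _ := by ring

theorem bk (hG : G.Ok s) (p : ℕ → ℕ → Prop) [∀ a b, Decidable (p a b)] :
    G.Bk (univ.filter fun a => p (G.g a) (G.w a)) := fun a b h => by
  simp only [mem_filter, mem_univ, true_and, (hG.blk a b h).1, (hG.blk a b h).2]

/-- one group -/
theorem step (hB : BD) (hG : G.Ok s) {ga e : ℕ} {H : ℝ} {F : MvPolynomial ι ℝ}
    (hz : IsZ F) (hl : G.Lo (ga + 1) F) (hh : G.Hm e F) (hb : G.Bd F H) (big : G.Big ga H)
    (hd : ∀ c, G.g c = ga → G.w c < e → (∀ j ∈ (pderiv c F).vars, j ∈ G.ex) ∧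
      aeval (kl (univ.filter fun a => G.g a = ga)) (pderiv c F) = 0)
    (ih : ∀ F', IsZ F' → G.Lo ga F' → G.Hm e F' → G.Bd F' H → ∀ j ∈ F'.vars, j ∈ G.ex) :
    ∀ j ∈ F.vars, j ∈ G.ex := by
  obtain ⟨S, hS⟩ : ∃ S : Finset ι, S = univ.filter fun a => G.g a = ga := ⟨_, rfl⟩
  have mS : ∀ a, a ∈ S ↔ G.g a = ga := fun a => by simp [hS]
  rw [← hS] at hd
  have cst : ∀ {F' : MvPolynomial ι ℝ}, G.Hm e F' → ∀ c, G.w c = e →
      pderiv c F' = C (coeff 0 (pderiv c F')) := fun h c hc =>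
    Chart.eq_C_of_hom_zero hG.w1 (IsWeightedHomogeneous.pderiv h (by omega))
  have gt : ∀ c, e < G.w c → c ∉ F.vars := fun c hc h =>
    absurd (Chart.weight_le_of_vars hh h) (by omega)
  have d1 : ∀ c ∈ S, ∀ j ∈ (pderiv c F).vars, j ∈ G.ex := fun c hc => by
    rcases lt_trichotomy (G.w c) e with h | h | h
    · exact (hd c ((mS c).1 hc) h).1
    · rw [cst hh c h]; exact Chart.vars_C' _
    · rw [pderiv_eq_zero_of_notMem_vars (gt c h)]; simp
  have tr : ∀ x, x ∉ G.ex → aeval (kl S) (pderiv x F) = pderiv x F := fun x hx =>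
    trick S fun c hc h => hx (d1 c hc x h)
  have d2 : ∀ a ∈ F.vars, G.g a = ga → G.w a ≠ e → a ∈ G.ex := fun a ha h1 h2 => by
    by_contra hx
    rcases lt_or_gt_of_ne h2 with h | h
    · exact pderiv_ne_zero ha ((tr a hx).symm.trans (hd a h1 h).2)
    · exact gt a h ha
  obtain ⟨S1, hS1⟩ : ∃ S1 : Finset ι, S1 = univ.filter fun a => G.g a = ga ∧ G.w a ≠ e := ⟨_, rfl⟩
  have m1 : ∀ a, a ∈ S1 ↔ G.g a = ga ∧ G.w a ≠ e := fun a => by simp [hS1]
  have b1 : G.Bd (aeval (kl S1) F) H := kl_bd hB hG (hS1 ▸ bk hG fun a b => a = ga ∧ b ≠ e)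
    (fun a ha => ((m1 a).1 ha).1) hb hl fun a ha h => d2 a ha ((m1 a).1 h).1 ((m1 a).1 h).2
  choose k0 hk0 using fun a => IsInt.pderiv hz a 0
  obtain ⟨k, hk⟩ : ∃ k : ι → ℤ, ∀ a, k a = if G.g a = ga ∧ G.w a = e then k0 a else 0 :=
    ⟨_, fun _ => rfl⟩
  have k1 : ∀ a, k a ≠ 0 → G.g a = ga ∧ G.w a = e := fun a h => by
    by_contra h2
    exact h (by rw [hk, if_neg h2])
  have k2 : ∀ a, G.g a = ga → G.w a = e → pderiv a F = C (k a : ℝ) := fun a h1 h2 => by
    rw [hk, if_pos ⟨h1, h2⟩, ← hk0]; exact cst hh a h2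
  have l1 : lin (cz k) = Chart.lin (fun (_ : Unit) a => (k a : ℝ)) () := rfl
  have k3 := big e k (aeval (kl S1) F - lin (cz k)) k1
    (IsInt.sub (kl_int S1 hz) (isInt_sum fun a _ => (isInt_C _).mul (isInt_X a)))
    (fun b hb => by
      have v1 : G.g b ≤ ga ∧ b ∉ S1 := Chart.vars_sub' (P := fun b => G.g b ≤ ga ∧ b ∉ S1)
        (fun j hj => ⟨Nat.lt_succ_iff.1 (hl j (kl_vars S1 F j hj).1), (kl_vars S1 F j hj).2⟩)
        (by
          rw [l1]
          exact Chart.lin_vars fun j hj => by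
            have := k1 j (by exact_mod_cast hj)
            exact ⟨this.1.le, fun h => ((m1 j).1 h).2 this.2⟩) b hb
      refine lt_of_le_of_ne v1.1 fun h => pderiv_ne_zero hb ?_
      have h2 : G.w b = e := by
        by_contra h2
        exact v1.2 ((m1 b).2 ⟨h, h2⟩)
      have l2 : pderiv b (lin (cz k)) = C (k b : ℝ) :=
        Chart.pderiv_lin (fun (_ : Unit) a => (k a : ℝ)) () b
      rw [map_sub, kl_pderiv S1 F v1.2, k2 b h h2, l2, aeval_C, algebraMap_eq, sub_self])
    (IsWeightedHomogeneous.sub (kl_hm S1 hh) (by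
      rw [l1]
      exact Chart.lin_hom fun j hj => (k1 j (by exact_mod_cast hj)).2))
    (by rw [add_sub_cancel]; exact b1)
  have d3 : ∀ a ∈ F.vars, a ∈ S → a ∈ G.ex := fun a ha h => by
    have h1 := (mS a).1 h
    by_cases h2 : G.w a = e
    · refine k3 a fun h0 => pderiv_ne_zero ha ?_
      rw [k2 a h1 h2, h0]; simp
    · exact d2 a ha h1 h2
  have d4 := ih (aeval (kl S) F) (kl_int S hz)
    (fun j hj => lt_of_le_of_ne (Nat.lt_succ_iff.1 (hl j (kl_vars S F j hj).1))
      fun h => (kl_vars S F j hj).2 ((mS j).2 h)) (kl_hm S hh)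
    (kl_bd hB hG (hS ▸ bk hG fun a _ => a = ga) (fun a ha => (mS a).1 ha) hb hl d3)
  intro x hx
  by_contra h
  refine pderiv_ne_zero hx ?_
  rw [← tr x h, ← kl_pderiv S F fun h2 => h (d3 x hx h2)]
  exact pderiv_eq_zero_of_notMem_vars fun h2 => h (d4 x h2)

theorem num1 {P W W' Y κ H : ℝ} (s : ℕ) (hP : 2 ≤ P) (hY : 1 ≤ Y) (hW : 0 ≤ W) (hW' : W ≤ W')
    (hH : H ≤ Real.exp (κ * (Y + W'))) :
    s * P * Real.exp W * H ≤ Real.exp ((κ + (s * P + 1)) * (Y + W')) := by
  have a0 : (0 : ℝ) ≤ s * P := by positivity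
  have a1 : s * P ≤ Real.exp (s * P * (Y + W')) :=
    le_trans (by nlinarith) (Real.add_one_le_exp _)
  have a2 : Real.exp W ≤ Real.exp (Y + W') := Real.exp_le_exp.2 (by linarith)
  calc _ ≤ Real.exp (s * P * (Y + W')) * Real.exp (Y + W') * Real.exp (κ * (Y + W')) :=
        (mul_le_mul_of_nonneg_left hH (by positivity)).trans (by gcongr)
    _ = _ := by rw [← Real.exp_add, ← Real.exp_add]; congr 1; ring

theorem num2 {P K κ T H : ℝ} (c : ℕ) (hP : 2 ≤ P) (hT : 1 ≤ T) (hK : κ + c * P + 1 ≤ K)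
    (hH : H ≤ Real.exp (κ * T)) : P ^ c * Real.exp (-(K * T)) * H < 1 := by
  have a0 : (0 : ℝ) ≤ c * P := by positivity
  have a1 : P ^ c ≤ Real.exp (c * P) := by
    rw [Real.exp_nat_mul]
    exact pow_le_pow_left₀ (by linarith) (by linarith [Real.add_one_le_exp P]) c
  calc _ ≤ Real.exp (c * P) * Real.exp (-(K * T)) * Real.exp (κ * T) :=
        (mul_le_mul_of_nonneg_left hH (by positivity)).trans (by gcongr)
    _ < 1 := by
      rw [← Real.exp_add, ← Real.exp_add, Real.exp_lt_one_iff]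
      nlinarith [mul_le_mul_of_nonneg_right hK (by linarith : 0 ≤ T)]

theorem z1 (hB : BD) (hG : G.Ok s) {WW : ℕ → ℝ} (hW : G.Wd WW) {P Y K : ℝ} (hS : Sz ι P Y)
    {g0 : ℕ} (big : ∀ g < g0, G.Big g (Real.exp (K * (Y + WW g))))
    (z2 : ∀ g ≤ g0, ∀ e F H, 1 ≤ e → e ≤ s → IsZ F → G.Lo g F → G.Hm e F → F.vars ⊆ G.ex →
      G.Bd F H → H ≤ Real.exp (K * (Y + WW g)) → F = 0) (n : ℕ) :
    ∀ e ≤ n, e ≤ s → ∀ κ : ℝ, κ + n * (s * P + 1) ≤ K → ∀ g ≤ g0, ∀ F H, IsZ F → G.Lo g F →
      G.Hm e F → G.Bd F H → (∀ ga < g, H ≤ Real.exp (κ * (Y + WW ga))) →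
      ∀ j ∈ F.vars, j ∈ G.ex := by
  obtain ⟨anti, nn, U, V, hUV, hbk, hA⟩ := hW
  have D0 : (0 : ℝ) ≤ s * P + 1 := by have := hS.P2; positivity
  have T0 : ∀ g, 0 ≤ Y + WW g := fun g => by linarith [hS.Y1, nn g]
  induction n with
  | zero =>
    intro e he _ _ _ _ _ F _ _ _ hh _ _
    obtain rfl := Nat.le_zero.1 he
    rw [Chart.eq_C_of_hom_zero hG.w1 hh]
    exact Chart.vars_C' _
  | succ n ihn =>
    intro e he es κ hκ g
    push_cast at hκ
    have κ1 : κ + (s * P + 1) ≤ K := by nlinarith [mul_nonneg (Nat.cast_nonneg n : (0 : ℝ) ≤ n) D0]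
    induction g with
    | zero => exact fun _ F _ _ hl _ _ _ j hj => absurd (hl j hj) (Nat.not_lt_zero _)
    | succ ga ihg =>
      intro hg F H hz hl hh hb hH
      refine step hB hG hz hl hh hb
        (fun e k I h1 h2 h3 h4 h5 => big ga hg e k I h1 h2 h3 h4 ?_) (fun c hc hw => ?_)
        fun F' a1 a2 a3 a4 => ihg (by omega) F' H a1 a2 a3 a4 fun g' h => hH g' (by omega)
      · obtain ⟨b, e1, e2⟩ := h5
        exact ⟨b, e1, e2.trans ((hH ga (by omega)).trans (Real.exp_le_exp.2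
          (mul_le_mul_of_nonneg_right (by linarith) (T0 ga))))⟩
      have blk : ∀ a b, (U a b ≠ 0 ∨ V a b ≠ 0) → G.g a = G.g b ∧ G.w a = G.w b := fun a b h => by
        have := (hbk _ (bk hG fun x y => x = G.g b ∧ y = G.w b) a b h).2 (by simp)
        simpa using this
      have key : ∀ b, V b c ≠ 0 → (∀ j ∈ (dr U b F).vars, j ∈ G.ex) ∧
          aeval (kl (univ.filter fun a => G.g a = ga)) (dr U b F) = 0 := fun b hv => by
        obtain ⟨b1, b2⟩ := blk b c (Or.inr hv)
        have uz : ∀ x, U x b ≠ 0 → G.g x = ga ∧ G.w x = G.w c := fun x hx => by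
          obtain ⟨c1, c2⟩ := blk x b (Or.inl hx)
          exact ⟨by omega, by omega⟩
        have r1 : IsZ (dr U b F) := isInt_sum fun x _ => (isInt_C _).mul (IsInt.pderiv hz x)
        have r2 : G.Lo (ga + 1) (dr U b F) := Chart.vars_sum' fun x _ =>
          Chart.vars_mul' (Chart.vars_C' _) (Chart.vars_pderiv' x hl)
        have r3 : G.Hm (e - G.w c) (dr U b F) := IsWeightedHomogeneous.sum _ _ _ fun x _ => by
          by_cases hx : U x b = 0
          · rw [hx]; simpa using isWeightedHomogeneous_zero ℝ G.w _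
          · exact (IsWeightedHomogeneous.pderiv hh (by have := (uz x hx).2; omega)).C_mul _
        have r4 : G.Bd (dr U b F) (s * P * Real.exp (WW ga) * H) :=
          dr_bd hB hG hS.cd (Real.exp_pos _).le (fun x hx => (uz x hx).1) (fun a => by
            by_cases h : G.g a = ga
            · rw [← h]; exact hA a b
            · rw [sum_eq_zero fun x _ => ?_, abs_zero]
              · positivity
              · by_cases h1 : G.A a x = 0
                · rw [h1, zero_mul]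
                · by_cases h2 : U x b = 0
                  · rw [h2]; simp
                  · exact absurd ((hG.blk a x (Or.inl h1)).1.trans (uz x h2).1) h) hb hl hh es
        have r5 : ∀ g' < ga + 1, s * P * Real.exp (WW ga) * H ≤
            Real.exp ((κ + (s * P + 1)) * (Y + WW g')) := fun g' h =>
          num1 s hS.P2 hS.Y1 (nn ga) (anti (by omega)) (hH g' h)
        have w1 := hG.w1 c
        have r6 := ihn (e - G.w c) (by omega) (by omega) (κ + (s * P + 1)) (by linarith) (ga + 1) hg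
          _ _ r1 r2 r3 r4 r5
        refine ⟨r6, z2 ga (by omega) (e - G.w c) _ _ (by omega) (by omega) (kl_int _ r1)
          (fun j hj => lt_of_le_of_ne (Nat.lt_succ_iff.1 (r2 j (kl_vars _ _ j hj).1))
            fun h => (kl_vars _ _ j hj).2 (by simpa using h)) (kl_hm _ r3)
          (fun j hj => r6 j (kl_vars _ _ j hj).1)
          (kl_bd hB hG (bk hG fun a _ => a = ga) (fun a ha => by simpa using ha) r4 r2
            fun a ha _ => r6 a ha)
          ((r5 ga (by omega)).trans (Real.exp_le_exp.2 (mul_le_mul_of_nonneg_right κ1 (T0 ga))))⟩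
      rw [dr_inv hUV c F]
      refine ⟨Chart.vars_sum' fun b _ => ?_, ?_⟩
      · by_cases hv : V b c = 0
        · rw [hv]; simp
        · exact Chart.vars_mul' (Chart.vars_C' _) (key b hv).1
      · rw [map_sum]
        refine sum_eq_zero fun b _ => ?_
        by_cases hv : V b c = 0
        · rw [hv]; simp
        · rw [map_mul, (key b hv).2, mul_zero]

theorem num3 {P : ℝ} (hP : 2 ≤ P) (s c c2 : ℕ) :
    P ^ c + s * (s * P + 1) + c2 * P + 1 ≤ P ^ (c + (s * s + s + c2 + 1) + 2) := by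
  have P1 : (1 : ℝ) ≤ P := by linarith
  have a1 : ((s * s + s + c2 + 1 : ℕ) : ℝ) ≤ P ^ (s * s + s + c2 + 1) := by
    have h1 : ((s * s + s + c2 + 1 : ℕ) : ℝ) ≤ 2 ^ (s * s + s + c2 + 1) := by
      exact_mod_cast (Nat.lt_two_pow_self (n := s * s + s + c2 + 1)).le
    exact h1.trans (pow_le_pow_left₀ (by norm_num) hP _)
  have a2 : P ^ c ≤ P ^ (c + (s * s + s + c2 + 1) + 1) := pow_le_pow_right₀ P1 (by omega)
  have a3 : P ^ (s * s + s + c2 + 1) * P ≤ P ^ (c + (s * s + s + c2 + 1) + 1) := by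
    rw [← pow_succ]; exact pow_le_pow_right₀ P1 (by omega)
  have a4 := mul_le_mul_of_nonneg_right a1 (by linarith : 0 ≤ P)
  have a5 := mul_le_mul_of_nonneg_left hP
    (by positivity : 0 ≤ P ^ (c + (s * s + s + c2 + 1) + 1))
  have a6 : (s : ℝ) ≤ s * P := le_mul_of_one_le_right (by positivity) P1
  push_cast at a4
  rw [pow_succ P (c + (s * s + s + c2 + 1) + 1)]
  nlinarith

end

end Zero

theorem zero (_ : INV) (hB : BD) (h2 : Z2) : ZERO := by
  intro s c
  obtain ⟨c2, h2⟩ := h2 s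
  refine ⟨c + (s * s + s + c2 + 1) + 2, fun ι _ _ G WW P Y g hG hW hS hR => ?_⟩
  have nm := Zero.num3 hS.P2 s c c2
  generalize P ^ (c + (s * s + s + c2 + 1) + 2) = K at hR nm
  have P0 : 0 ≤ P := by linarith [hS.P2]
  have T1 : ∀ g, 1 ≤ Y + WW g := fun g => by linarith [hS.Y1, hW.nn g]
  have a0 : (0 : ℝ) ≤ P ^ c := by positivity
  have a1 : (0 : ℝ) ≤ s * (s * P + 1) := by positivity
  have a2 : (0 : ℝ) ≤ c2 * P := by positivity
  have z2 : ∀ g' ≤ g, ∀ e F H, 1 ≤ e → e ≤ s → IsZ F → G.Lo g' F → G.Hm e F → F.vars ⊆ G.ex →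
      G.Bd F H → H ≤ Real.exp ((P ^ c + s * (s * P + 1)) * (Y + WW g')) → F = 0 :=
    fun g' hg e F H e1 es hz hl hh hv hb hH =>
      h2 ι G P (Real.exp (-(K * (Y + WW g')))) H g' e F hG ⟨hS.cd, hS.P2, le_rfl⟩
        (Real.exp_pos _).le
        (Real.exp_le_one_iff.2 (neg_nonpos.2 (mul_nonneg (by linarith) (by linarith [T1 g']))))
        (fun g1 h1 j hj hgj => by
          obtain ⟨v, v1, v2, v3⟩ := (hR g1 (by omega)).2 j hj hgj
          refine ⟨v, v1, v2, fun a => (v3 a).trans ((min_le_left _ _).trans (Real.exp_le_exp.2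
            (neg_le_neg (mul_le_mul_of_nonneg_left ?_ (by linarith)))))⟩
          linarith [hW.anti (show g1 + 1 ≤ g' from h1)])
        e1 es hz hl hh hv hb (Zero.num2 c2 hS.P2 (T1 g') nm hH)
  intro e F e1 es hz hl hh hb
  refine z2 g le_rfl e F _ e1 es hz hl hh (fun j hj => ?_) hb (Real.exp_le_exp.2
    (mul_le_mul_of_nonneg_right (by linarith) (by linarith [T1 g])))
  refine Zero.z1 hB hG hW hS (g0 := g) (K := P ^ c + s * (s * P + 1))
    (fun g' hg e k I h1 h2 h3 h4 h5 => (hR g' hg).1 e k I h1 h2 h3 h4 ?_) z2 s e es es (P ^ c)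
    le_rfl g le_rfl F _ hz hl hh hb (fun ga h => Real.exp_le_exp.2
      (mul_le_mul_of_nonneg_left (by linarith [hW.anti h.le]) a0)) j hj
  obtain ⟨b, b1, b2⟩ := h5
  exact ⟨b, b1, b2.trans (Real.exp_le_exp.2
    (mul_le_mul_of_nonneg_right (by linarith) (by linarith [T1 g'])))⟩

end Vale.Agent.P057T.Eq
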