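import Vale.Agent.P057T.Eq.Defs
import Vale.Agent.P057T.Chart

/-! Row Z2: a bounded integer form in the exact variables vanishes. -/

set_option linter.all false

open MvPolynomial Finset

namespace Vale.Agent.P057T.Eq

open Vale.Agent.P057T.L1

theorem z2 (hB : BD) : Z2 := by
  intro s
  refine ⟨s, fun ι _ _ G P η H g e F hG hS h0 h1 hsm e1 es hZ hL hH hV hBd hlt => ?_⟩
  obtain ⟨b, hb, hbH⟩ := hBd
  obtain ⟨inj, hm, -, -⟩ := hB s ι G hG
  have BA : G.B * G.A = 1 := mul_eq_one_comm.1 hG.AB
  have P1 : (1 : ℝ) ≤ P := by linarith [hS.P2]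
  have eb : b = aeval (Chart.lin G.B) F := by
    refine inj _ _ ?_
    rw [hb, ← AlgHom.comp_apply, comp_aeval]
    conv_lhs => rw [← aeval_X_left_apply F]
    refine Chart.aeval_congr_vars fun a ha => ?_
    rw [Chart.aeval_lin]
    have : ∑ j, C (G.B a j) * G.th j = ∑ c, C ((G.B * G.A) a c) * (X c - G.q c) := by
      simp only [GT.th, Matrix.mul_apply, mul_sum, map_sum, sum_mul, map_mul]
      rw [sum_comm]
      exact sum_congr rfl fun c _ => sum_congr rfl fun j _ => by ring
    rw [this, BA, sum_eq_single a]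
    · simp [hG.qe a (hV ha)]
    · intro c _ hc; simp [Matrix.one_apply_ne hc.symm]
    · simp
  have hv : ∀ j : ι, ∃ v : ι → ℝ, (j ∈ G.ex → G.g j < g → ∀ i ∈ G.ex, v i = if i = j then 1 else 0) ∧
      (¬ (j ∈ G.ex ∧ G.g j < g) → v = 0) ∧ ∀ a, |∑ c, G.A a c * v c| ≤ η := by
    intro j
    by_cases hj : j ∈ G.ex ∧ G.g j < g
    · obtain ⟨v, v1, -, v3⟩ := hsm _ hj.2 j hj.1 rfl
      exact ⟨v, fun _ _ => v1, fun h => absurd hj h, v3⟩
    · exact ⟨0, fun a b => absurd ⟨a, b⟩ hj, fun _ => rfl, fun a => by simpa using h0⟩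
  choose v v1 v2 v3 using hv
  let V : Matrix ι ι ℝ := Matrix.of fun c j => v j c
  have eF : aeval (Chart.lin (G.A * V)) b = F := by
    rw [eb, ← AlgHom.comp_apply, comp_aeval]
    conv_rhs => rw [← aeval_X_left_apply F]
    refine Chart.aeval_congr_vars fun a ha => ?_
    rw [Chart.lin_lin, ← Matrix.mul_assoc, BA, Matrix.one_mul, Chart.lin, sum_eq_single a]
    · have := v1 a (hV ha) (hL a ha) a (hV ha)
      simp [V, this]
    · intro j _ hj
      by_cases h : j ∈ G.ex ∧ G.g j < g
      · have := v1 j h.1 h.2 a (hV ha)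
        simp [V, this, hj.symm]
      · simp [V, v2 j h]
    · simp
  have hn : ∀ c, nrm (Chart.lin (G.A * V) c) ≤ P * η := by
    intro c
    refine (Chart.nrm_lin_le _ _).trans ?_
    calc ∑ j, |(G.A * V) c j| ≤ ∑ _j : ι, η :=
          sum_le_sum fun j _ => by simpa [Matrix.mul_apply, V] using v3 j c
      _ = Fintype.card ι * η := by simp
      _ ≤ P * η := mul_le_mul_of_nonneg_right hS.cd h0
  have hbm : G.Hm e b := (hm e b).2 (hb ▸ hH)
  have key : nrm F ≤ P ^ s * η * H := by
    rw [← eF]
    refine (nrm_aeval_le_sum _ _).trans ?_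
    calc ∑ m ∈ b.support, |coeff m b| * ∏ i ∈ m.support, nrm (Chart.lin (G.A * V) i) ^ m i
        ≤ ∑ m ∈ b.support, |coeff m b| * (P ^ s * η) := by
          refine sum_le_sum fun m hmm => mul_le_mul_of_nonneg_left ?_ (abs_nonneg _)
          have hw : Finsupp.weight G.w m = e := hbm (mem_support_iff.1 hmm)
          have d1 : 1 ≤ ∑ i ∈ m.support, m i := by
            rcases Nat.eq_zero_or_pos (∑ i ∈ m.support, m i) with hz | hz
            · have : m = 0 := by
                ext i
                by_contra hi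
                have hi' : i ∈ m.support := Finsupp.mem_support_iff.2 (by simpa using hi)
                exact hi (by simpa using sum_eq_zero_iff.1 hz i hi')
              rw [this, map_zero] at hw
              omega
            · exact hz
          have d2 : ∑ i ∈ m.support, m i ≤ s :=
            (le_totalDegree hmm).trans ((Chart.totalDegree_le_of_hom hG.w1 hbm).trans es)
          calc ∏ i ∈ m.support, nrm (Chart.lin (G.A * V) i) ^ m i
              ≤ ∏ i ∈ m.support, (P * η) ^ m i :=
                prod_le_prod (fun i _ => pow_nonneg (nrm_nonneg _) _) fun i _ =>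
                  pow_le_pow_left₀ (nrm_nonneg _) (hn i) _
            _ = P ^ (∑ i ∈ m.support, m i) * η ^ (∑ i ∈ m.support, m i) := by
                rw [prod_pow_eq_pow_sum, mul_pow]
            _ ≤ P ^ s * η := by
                refine mul_le_mul (pow_le_pow_right₀ P1 d2) ?_ (by positivity) (by positivity)
                simpa using pow_le_pow_of_le_one h0 h1 d1
      _ = P ^ s * η * l1 b := by rw [← sum_mul, l1, mul_comm]
      _ ≤ _ := mul_le_mul_of_nonneg_left hbH (by positivity)
  exact IsInt.eq_zero hZ (key.trans_lt hlt)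

end Vale.Agent.P057T.Eq
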