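import Vale.Agent.P057T.Eq.Asm
import Vale.Agent.P057T.Eq.Ball
import Vale.Agent.P057T.Eq.Bdw
import Vale.Agent.P057T.Eq.Derok
import Vale.Agent.P057T.Eq.Det
import Vale.Agent.P057T.Eq.Eq1
import Vale.Agent.P057T.Eq.Fib
import Vale.Agent.P057T.Eq.Form
import Vale.Agent.P057T.Eq.Gw
import Vale.Agent.P057T.Eq.Int
import Vale.Agent.P057T.Eq.Jz
import Vale.Agent.P057T.Eq.Linv
import Vale.Agent.P057T.Eq.Loc
import Vale.Agent.P057T.Eq.Marg
import Vale.Agent.P057T.Eq.Margs
import Vale.Agent.P057T.Eq.P1m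
import Vale.Agent.P057T.Eq.Pois
import Vale.Agent.P057T.Eq.Slope
import Vale.Agent.P057T.Eq.Sq
import Vale.Agent.P057T.Eq.Step
import Vale.Agent.P057T.Eq.Sub
import Vale.Agent.P057T.Eq.Summ
import Vale.Agent.P057T.Eq.Tail
import Vale.Agent.P057T.Eq.Tanok
import Vale.Agent.P057T.Eq.Zero
import Vale.Agent.P057T.Eq.Ztwo

/-! All rows but the two last ones. -/

namespace Vale.Agent.P057T.Eq

namespace All

theorem z2c : Z2 := z2 bd0
theorem zeroc : ZERO := zero inv bd0 z2c
theorem detc : DET := det tanok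
theorem locc : LOC := loc bd0 tanok
theorem ballc : BALL := ball inv bd0
theorem fibc : FIB := fib detc gw
theorem intc : INT := int bd0 tanok detc ballc (slope bd0 tanok) (form inv bd0 tanok) (linv inv)
theorem derc : DEROK := derok tanok
theorem sqc : SQ := sq summ tanok derc
theorem tail0c : TAIL0 := tail0 pois gw detc

theorem jzb (hjb : ∀ s g, JZ s g → JB s g) (s : ℕ) : (∀ g, JZ s g) ∧ ∀ g, JB s g :=
  asmJ s (fun g h => jz s g tanok locc zeroc fibc detc h) (hjb s)

theorem eqs1 (hjb : ∀ s g, JZ s g → JB s g)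
    (hsel : ∀ s d μ, (∀ g, JB s g) → MASS s d μ → SEL s d μ) (s : ℕ) :
    (∀ d, 1 ≤ d → d ≤ s → ∀ μ, EQS s d μ) ∧
      ∀ d, d ≤ s → ∀ μ, MASS s d μ ∧ MARGS s d μ ∨ d = 0 ∧ MASS s d μ :=
  ⟨asmE s (fun d μ _ a b => marg s d μ pois gw p1m detc summ a b) (margs0 detc s)
      (fun _ _ h => margs detc h) (mass0 detc s) (fun _ _ a b => mass detc a b)
      (fun _ _ h => tail tail0c h) (sub s) (fun μ => eq1 s μ inv bd0 zeroc detc)
      (fun d μ h => hsel s d μ (jzb hjb s).2 h)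
      (fun d μ hd a b c => step s d μ hd tanok derc locc detc fibc zeroc (jzb hjb s).1 intc a b c),
    asm s (fun d μ _ a b => marg s d μ pois gw p1m detc summ a b) (margs0 detc s)
      (fun _ _ h => margs detc h) (mass0 detc s) (fun _ _ a b => mass detc a b)
      (fun _ _ h => tail tail0c h) (sub s) (fun μ => eq1 s μ inv bd0 zeroc detc)
      (fun d μ h => hsel s d μ (jzb hjb s).2 h)
      (fun d μ hd a b c => step s d μ hd tanok derc locc detc fibc zeroc (jzb hjb s).1 intc a b c)⟩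

end All

end Vale.Agent.P057T.Eq
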