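import Vale.Agent.P057T.Eq.Defs

/-! Assembly of the lexicographic induction from the rows. -/

namespace Vale.Agent.P057T.Eq

theorem asmJ (s : ℕ) (hjz : ∀ g, (∀ g1 < g, JB s g1) → JZ s g) (hjb : ∀ g, JZ s g → JB s g) :
    (∀ g, JZ s g) ∧ ∀ g, JB s g := by
  have h : ∀ g, JB s g := by
    intro g
    induction g using Nat.strong_induction_on with
    | _ g ih => exact hjb g (hjz g ih)
  exact ⟨fun g => hjz g fun g1 _ => h g1, h⟩

theorem asm (s : ℕ)
    (hmarg : ∀ d μ, 1 ≤ d → EQS s d μ → MASS s d μ → MARG s d μ)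
    (hms0 : ∀ d, MARGS s d 0) (hms : ∀ d μ, MARG s d μ → MARGS s d (μ + 1))
    (hm0 : ∀ μ, MASS s 0 μ) (hm : ∀ d μ, MARGS s (d + 1) μ → MASS s d s → MASS s (d + 1) μ)
    (htail : ∀ d μ, EQT s (d + 1) μ d false → EQT s (d + 1) μ (d + 1) false)
    (hsub : ∀ d μ t, EQT s d μ t true → EQT s d μ t false)
    (heq1 : ∀ μ, EQT s 1 μ 1 false)
    (hsel : ∀ d μ, MASS s d μ → SEL s d μ)
    (hstep : ∀ d μ, d + 2 ≤ s → SEL s (d + 2) μ → MARGS s (d + 2) μ → EQS s (d + 1) s →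
      EQT s (d + 2) μ (d + 1) true) :
    ∀ d, d ≤ s → ∀ μ, MASS s d μ ∧ MARGS s d μ ∨ d = 0 ∧ MASS s d μ := by
  have key : ∀ d, d + 1 ≤ s → ∀ μ, EQS s (d + 1) μ ∧ MASS s (d + 1) μ ∧ MARGS s (d + 1) μ := by
    intro d
    induction d with
    | zero =>
      intro _ μ
      induction μ with
      | zero => exact ⟨heq1 0, hm 0 0 (hms0 1) (hm0 s), hms0 1⟩
      | succ μ ih =>
        have h1 := hms 1 μ (hmarg 1 μ le_rfl ih.1 ih.2.1)
        exact ⟨heq1 _, hm 0 _ h1 (hm0 s), h1⟩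
    | succ d ihd =>
      intro hd μ
      have h0 := ihd (by omega) s
      have st : ∀ μ, MARGS s (d + 2) μ →
          EQS s (d + 2) μ ∧ MASS s (d + 2) μ ∧ MARGS s (d + 2) μ := by
        intro μ h1
        have h2 := hm (d + 1) μ h1 h0.2.1
        exact ⟨htail (d + 1) μ (hsub _ _ _ (hstep d μ hd (hsel _ _ h2) h1 h0.1)), h2, h1⟩
      induction μ with
      | zero => exact st 0 (hms0 _)
      | succ μ ih => exact st _ (hms _ μ (hmarg _ μ (by omega) ih.1 ih.2.1))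
  intro d hd μ
  rcases d with _ | d
  · exact Or.inr ⟨rfl, hm0 μ⟩
  · exact Or.inl (key d hd μ).2

theorem asmE (s : ℕ)
    (hmarg : ∀ d μ, 1 ≤ d → EQS s d μ → MASS s d μ → MARG s d μ)
    (hms0 : ∀ d, MARGS s d 0) (hms : ∀ d μ, MARG s d μ → MARGS s d (μ + 1))
    (hm0 : ∀ μ, MASS s 0 μ) (hm : ∀ d μ, MARGS s (d + 1) μ → MASS s d s → MASS s (d + 1) μ)
    (htail : ∀ d μ, EQT s (d + 1) μ d false → EQT s (d + 1) μ (d + 1) false)
    (hsub : ∀ d μ t, EQT s d μ t true → EQT s d μ t false)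
    (heq1 : ∀ μ, EQT s 1 μ 1 false)
    (hsel : ∀ d μ, MASS s d μ → SEL s d μ)
    (hstep : ∀ d μ, d + 2 ≤ s → SEL s (d + 2) μ → MARGS s (d + 2) μ → EQS s (d + 1) s →
      EQT s (d + 2) μ (d + 1) true) :
    ∀ d, 1 ≤ d → d ≤ s → ∀ μ, EQS s d μ := by
  have ha := asm s hmarg hms0 hms hm0 hm htail hsub heq1 hsel hstep
  intro d
  induction d with
  | zero => intro h; omega
  | succ d ih =>
    intro _ hd μ
    rcases d with _ | d
    · exact heq1 μ
    · rcases ha (d + 2) hd μ with h | h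
      · exact htail (d + 1) μ (hsub _ _ _ (hstep d μ hd (hsel _ _ h.1) h.2 (ih (by omega) (by omega) s)))
      · omega

end Vale.Agent.P057T.Eq
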