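import Mathlib

/-! Counting by Cauchy-Schwarz with an exceptional set. -/

namespace Vale.Agent.P057T.CntH41

open Finset

open Classical in
theorem cs {α β : Type*} (X : Finset α) (f : α → β) (S : Finset β) (h : ∀ x ∈ X, f x ∈ S) :
    (X.card : ℝ) ^ 2 ≤ S.card * ((X ×ˢ X).filter fun p => f p.1 = f p.2).card := by
  have h1 : (X.card : ℝ) = ∑ y ∈ S, ((X.filter fun x => f x = y).card : ℝ) := by
    rw [← Nat.cast_sum, ← card_eq_sum_card_fiberwise h]
  have h2 : (((X ×ˢ X).filter fun p => f p.1 = f p.2).card : ℝ) =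
      ∑ y ∈ S, ((X.filter fun x => f x = y).card : ℝ) ^ 2 := by
    rw [card_eq_sum_card_fiberwise (f := fun p : α × α => f p.1) (t := S)
      (fun p hp => h _ (mem_product.1 (mem_filter.1 hp).1).1), Nat.cast_sum]
    refine sum_congr rfl fun y _ => ?_
    rw [sq, ← Nat.cast_mul, ← card_product]
    congr 2
    ext p
    simp only [mem_filter, mem_product]
    constructor
    · rintro ⟨⟨⟨a, b⟩, c⟩, d⟩; exact ⟨⟨a, d⟩, b, c ▸ d⟩
    · rintro ⟨⟨a, d⟩, b, c⟩; exact ⟨⟨⟨a, b⟩, d.trans c.symm⟩, d⟩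
  rw [h1, h2]
  exact sq_sum_le_card_mul_sum_sq

open Classical in
/-- many pairs in one fibre avoid a small exceptional set -/
theorem cs_good {α β : Type*} (X : Finset α) (f : α → β) (S : Finset β) (h : ∀ x ∈ X, f x ∈ S)
    (bad : α → α → Prop) {M b : ℝ} (hM : (S.card : ℝ) ≤ M)
    (hb : (((X ×ˢ X).filter fun p => f p.1 = f p.2 ∧ bad p.1 p.2).card : ℝ) ≤ b)
    (hMb : 2 * M * b ≤ (X.card : ℝ) ^ 2) :
    (X.card : ℝ) ^ 2 ≤ 2 * M * ((X ×ˢ X).filter fun p => f p.1 = f p.2 ∧ ¬ bad p.1 p.2).card := by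
  have h1 := cs X f S h
  have h2 := card_filter_add_card_filter_not (s := (X ×ˢ X).filter fun p => f p.1 = f p.2)
    (fun p : α × α => bad p.1 p.2)
  rw [filter_filter, filter_filter] at h2
  have h3 : (((X ×ˢ X).filter fun p => f p.1 = f p.2).card : ℝ) =
      ((X ×ˢ X).filter fun p => f p.1 = f p.2 ∧ bad p.1 p.2).card +
        ((X ×ˢ X).filter fun p => f p.1 = f p.2 ∧ ¬ bad p.1 p.2).card := by exact_mod_cast h2.symm
  have hM0 : 0 ≤ M := le_trans (Nat.cast_nonneg _) hM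
  have h4 := mul_le_mul_of_nonneg_right hM
    (Nat.cast_nonneg (α := ℝ) ((X ×ˢ X).filter fun p => f p.1 = f p.2).card)
  have h5 := mul_le_mul_of_nonneg_left hb hM0
  rw [h3] at h1 h4
  nlinarith

open Classical in
/-- a map with small fibres has a large image -/
theorem img {α β : Type*} (Z : Finset α) (g : α → β) {φ : ℝ}
    (hφ : ∀ y, ((Z.filter fun x => g x = y).card : ℝ) ≤ φ) :
    (Z.card : ℝ) ≤ φ * (Z.image g).card := by
  rw [card_eq_sum_card_fiberwise (f := g) (t := Z.image g) fun x hx => mem_image_of_mem g hx,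
    Nat.cast_sum]
  refine (sum_le_sum fun y _ => hφ y).trans (le_of_eq ?_)
  rw [sum_const, nsmul_eq_mul, mul_comm]

open Classical in
/-- a map into a small set has a large fibre -/
theorem pop {α β : Type*} (Z : Finset α) (g : α → β) (T : Finset β) (hT : T.Nonempty)
    (h : ∀ x ∈ Z, g x ∈ T) :
    ∃ y ∈ T, (Z.card : ℝ) ≤ T.card * (Z.filter fun x => g x = y).card := by
  have h1 : ∑ _y ∈ T, (Z.card : ℝ) ≤ ∑ y ∈ T, (T.card : ℝ) * (Z.filter fun x => g x = y).card := by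
    rw [← mul_sum, sum_const, nsmul_eq_mul, ← Nat.cast_sum, ← card_eq_sum_card_fiberwise h]
  exact exists_le_of_sum_le hT h1

open Classical in
/-- many values are taken twice, by a pair outside the exceptional set -/
theorem cs_img {α β : Type*} (X : Finset α) (f : α → β) (S : Finset β) (h : ∀ x ∈ X, f x ∈ S)
    (bad : α → α → Prop) {M b φ : ℝ} (hM : (S.card : ℝ) ≤ M)
    (hb : (((X ×ˢ X).filter fun p => f p.1 = f p.2 ∧ bad p.1 p.2).card : ℝ) ≤ b)
    (hMb : 2 * M * b ≤ (X.card : ℝ) ^ 2)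
    (hφ : ∀ y, ((X.filter fun x => f x = y).card : ℝ) ≤ φ) :
    ∃ Y ⊆ S, (X.card : ℝ) ^ 2 ≤ 2 * M * φ ^ 2 * Y.card ∧
      ∀ y ∈ Y, ∃ x ∈ X, ∃ x' ∈ X, f x = y ∧ f x' = y ∧ ¬ bad x x' := by
  have h1 := cs_good X f S h bad hM hb hMb
  set Z := (X ×ˢ X).filter fun p => f p.1 = f p.2 ∧ ¬ bad p.1 p.2 with hZ
  have h2 : (Z.card : ℝ) ≤ φ ^ 2 * (Z.image fun p => f p.1).card := by
    refine img Z _ fun y => ?_
    have h3 : (Z.filter fun p => f p.1 = y) ⊆
        (X.filter fun x => f x = y) ×ˢ (X.filter fun x => f x = y) := by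
      intro p hp
      obtain ⟨hp1, hp2⟩ := mem_filter.1 hp
      obtain ⟨hp3, hp4, -⟩ := mem_filter.1 hp1
      exact mem_product.2 ⟨mem_filter.2 ⟨(mem_product.1 hp3).1, hp2⟩,
        mem_filter.2 ⟨(mem_product.1 hp3).2, hp4 ▸ hp2⟩⟩
    have h4 := card_le_card h3
    rw [card_product] at h4
    have h5 : ((Z.filter fun p => f p.1 = y).card : ℝ) ≤
        ((X.filter fun x => f x = y).card : ℝ) ^ 2 := by rw [sq]; exact_mod_cast h4
    exact h5.trans (pow_le_pow_left₀ (Nat.cast_nonneg _) (hφ y) 2)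
  have hM0 : 0 ≤ M := le_trans (Nat.cast_nonneg _) hM
  refine ⟨Z.image fun p => f p.1, ?_, ?_, ?_⟩
  · intro y hy
    obtain ⟨p, hp, rfl⟩ := mem_image.1 hy
    exact h _ (mem_product.1 (mem_filter.1 hp).1).1
  · have := mul_le_mul_of_nonneg_left h2 (show 0 ≤ 2 * M by positivity)
    linarith
  · intro y hy
    obtain ⟨p, hp, rfl⟩ := mem_image.1 hy
    obtain ⟨hp3, hp4, hp5⟩ := mem_filter.1 hp
    exact ⟨_, (mem_product.1 hp3).1, _, (mem_product.1 hp3).2, rfl, hp4.symm, hp5⟩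

open Classical in
/-- additive quadruples through one popular point, outside an exceptional set of triples -/
theorem quad {G : Type*} [AddCommGroup G] (E S : Finset G) (hE : E.Nonempty)
    (hS : ∀ a ∈ E, ∀ b ∈ E, a + b ∈ S) (bad : G → G → G → Prop) {M b : ℝ}
    (hM : (S.card : ℝ) ≤ M)
    (hb : (((E ×ˢ E ×ˢ E).filter fun p => bad p.1 p.2.1 p.2.2).card : ℝ) ≤ b)
    (hMb : 2 * M * b ≤ (E.card : ℝ) ^ 4) :
    ∃ a ∈ E, ∃ E' ⊆ E, (E.card : ℝ) ^ 2 ≤ 2 * M * E'.card ∧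
      ∀ u ∈ E', ∃ v ∈ E, u + v - a ∈ E ∧ ¬ bad a u v := by
  have hX : ((E ×ˢ E).card : ℝ) ^ 2 = (E.card : ℝ) ^ 4 := by rw [card_product]; push_cast; ring
  have h1 := cs_good (E ×ˢ E) (fun p => p.1 + p.2) S
    (fun p hp => hS _ (mem_product.1 hp).1 _ (mem_product.1 hp).2)
    (fun p p' => bad p.1 p'.1 p'.2) (b := b) hM ?_ (by rw [hX]; exact hMb)
  swap
  · refine le_trans (Nat.cast_le.2 ?_) hb
    refine card_le_card_of_injOn (fun p => (p.1.1, p.2.1, p.2.2)) ?_ ?_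
    · intro p hp
      obtain ⟨h2, -, h3⟩ := mem_filter.1 (mem_coe.1 hp)
      obtain ⟨h4, h5⟩ := mem_product.1 h2
      exact mem_coe.2 (mem_filter.2 ⟨mem_product.2 ⟨(mem_product.1 h4).1, h5⟩, h3⟩)
    · intro p hp p' hp' h
      obtain ⟨-, h2, -⟩ := mem_filter.1 (mem_coe.1 hp)
      obtain ⟨-, h2', -⟩ := mem_filter.1 (mem_coe.1 hp')
      simp only [Prod.mk.injEq] at h
      obtain ⟨h3, h4, h5⟩ := h
      refine Prod.ext (Prod.ext h3 ?_) (Prod.ext h4 h5)
      have h6 : p.1.1 + p.1.2 = p.1.1 + p'.1.2 := by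
        rw [h2, h4, h5, ← h2', h3]
      exact add_left_cancel h6
  set Z := ((E ×ˢ E) ×ˢ (E ×ˢ E)).filter fun p =>
    p.1.1 + p.1.2 = p.2.1 + p.2.2 ∧ ¬ bad p.1.1 p.2.1 p.2.2 with hZ
  obtain ⟨a, ha, h2⟩ := pop Z (fun p => p.1.1) E hE
    fun p hp => (mem_product.1 (mem_product.1 (mem_filter.1 hp).1).1).1
  set Z' := Z.filter fun p => p.1.1 = a with hZ'
  have h3 : (Z'.card : ℝ) ≤ E.card * (Z'.image fun p => p.2.1).card := by
    refine img Z' _ fun y => Nat.cast_le.2 ?_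
    refine card_le_card_of_injOn (fun p => p.2.2) ?_ ?_
    · intro p hp
      have h4 := (mem_filter.1 (mem_filter.1 (mem_filter.1 (mem_coe.1 hp)).1).1).1
      exact mem_coe.2 (mem_product.1 (mem_product.1 h4).2).2
    · intro p hp p' hp' h
      obtain ⟨h4, h5⟩ := mem_filter.1 (mem_coe.1 hp)
      obtain ⟨h4', h5'⟩ := mem_filter.1 (mem_coe.1 hp')
      obtain ⟨h6, h7⟩ := mem_filter.1 h4
      obtain ⟨h6', h7'⟩ := mem_filter.1 h4'
      have h8 := (mem_filter.1 h6).2.1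
      have h8' := (mem_filter.1 h6').2.1
      have h9 : p.2.2 = p'.2.2 := h
      refine Prod.ext (Prod.ext (h7.trans h7'.symm) ?_) (Prod.ext (h5.trans h5'.symm) h9)
      have h10 : a + p.1.2 = a + p'.1.2 := by
        rw [h7] at h8; rw [h7'] at h8'
        rw [h8, h8', h5, h5', h9]
      exact add_left_cancel h10
  have hM0 : 0 ≤ M := le_trans (Nat.cast_nonneg _) hM
  have hE0 : (0 : ℝ) < E.card := by exact_mod_cast hE.card_pos
  refine ⟨a, ha, Z'.image fun p => p.2.1, ?_, ?_, ?_⟩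
  · intro y hy
    obtain ⟨p, hp, rfl⟩ := mem_image.1 hy
    exact (mem_product.1 (mem_product.1 (mem_filter.1 (mem_filter.1 hp).1).1).2).1
  · rw [hX] at h1
    have h4 : (Z.card : ℝ) ≤ E.card * (E.card * (Z'.image fun p => p.2.1).card) :=
      h2.trans (mul_le_mul_of_nonneg_left h3 hE0.le)
    have h5 := mul_le_mul_of_nonneg_left h4 (show 0 ≤ 2 * M by positivity)
    refine le_of_mul_le_mul_left ?_ (pow_pos hE0 2)
    nlinarith
  · intro y hy
    obtain ⟨p, hp, rfl⟩ := mem_image.1 hy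
    obtain ⟨h6, h7⟩ := mem_filter.1 hp
    obtain ⟨h8, h9, h10⟩ := mem_filter.1 h6
    obtain ⟨h11, h12⟩ := mem_product.1 h8
    refine ⟨p.2.2, (mem_product.1 h12).2, ?_, h7 ▸ h10⟩
    rw [← h9, h7, add_sub_cancel_left]
    exact (mem_product.1 h11).2

end Vale.Agent.P057T.CntH41
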