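import Mathlib

/-!
Towers and the equidistribution theorem (notes 4445, 4455).
`GT` is the formal (top degree) tower, `AT` the analytic data on top of it.
All row statements are `Prop`s at the end of the file.
-/

open MvPolynomial Finset
open scoped Real

namespace Vale.Agent.P057T.Eq

noncomputable section

/-- Formal tower: group, weight, block matrix and its inverse, top parts, exact variables. -/
structure GT (ι : Type) where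
  g : ι → ℕ
  w : ι → ℕ
  A : Matrix ι ι ℝ
  B : Matrix ι ι ℝ
  q : ι → MvPolynomial ι ℝ
  ex : Finset ι

/-- Analytic data: active variables, lower order terms of the charts, scales. -/
structure AT (ι : Type) where
  U : Finset ι
  p : ι → MvPolynomial ι ℝ
  sg : ι → ℝ

variable {ι : Type} [Fintype ι] [DecidableEq ι]

/-- Integer coefficients. -/
def IsZ (F : MvPolynomial ι ℝ) : Prop := ∀ m, ∃ n : ℤ, coeff m F = n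

def l1 (b : MvPolynomial ι ℝ) : ℝ := ∑ m ∈ b.support, |coeff m b|

def lin (k : ι → ℝ) : MvPolynomial ι ℝ := ∑ a, C (k a) * X a

def cz (z : ι → ℤ) : ι → ℝ := fun a => (z a : ℝ)

/-- Integer points supported on `U`. -/
def Lat (U : Finset ι) : AddSubgroup (ι → ℤ) where
  carrier := {z | ∀ a, a ∉ U → z a = 0}
  zero_mem' := fun _ _ => rfl
  add_mem' := fun {x y} hx hy a ha => by simp [hx a ha, hy a ha]
  neg_mem' := fun {x} hx a ha => by simp [hx a ha]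

namespace GT

variable (G : GT ι)

def Hm (e : ℕ) (F : MvPolynomial ι ℝ) : Prop := IsWeightedHomogeneous G.w F e
/-- only variables of groups `< g` -/
def Lo (g : ℕ) (F : MvPolynomial ι ℝ) : Prop := ∀ b ∈ F.vars, G.g b < g
/-- weighted degree `< e` -/
def Dl (e : ℕ) (F : MvPolynomial ι ℝ) : Prop := ∀ m ∈ F.support, Finsupp.weight G.w m < e
def top (e : ℕ) (F : MvPolynomial ι ℝ) : MvPolynomial ι ℝ := weightedHomogeneousComponent G.w e F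

structure Ok (s : ℕ) : Prop where
  w1 : ∀ a, 1 ≤ G.w a
  ws : ∀ a, G.w a ≤ s
  gs : ∀ a, G.g a < s
  AB : G.A * G.B = 1
  blk : ∀ a b, (G.A a b ≠ 0 ∨ G.B a b ≠ 0) → G.g a = G.g b ∧ G.w a = G.w b
  qh : ∀ a, G.Hm (G.w a) (G.q a)
  ql : ∀ a, G.Lo (G.g a) (G.q a)
  qe : ∀ a ∈ G.ex, G.q a = 0

/-- top chart -/
def th (a : ι) : MvPolynomial ι ℝ := ∑ b, C (G.A a b) * (X b - G.q b)

def Bd (F : MvPolynomial ι ℝ) (H : ℝ) : Prop := ∃ b : MvPolynomial ι ℝ, aeval G.th b = F ∧ l1 b ≤ H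

def Big (g : ℕ) (H : ℝ) : Prop :=
  ∀ (e : ℕ) (k : ι → ℤ) (I : MvPolynomial ι ℝ), (∀ a, k a ≠ 0 → G.g a = g ∧ G.w a = e) →
    IsZ I → G.Lo g I → G.Hm e I → G.Bd (lin (cz k) + I) H → ∀ a, k a ≠ 0 → a ∈ G.ex

def Small (g : ℕ) (η : ℝ) : Prop :=
  ∀ j ∈ G.ex, G.g j = g → ∃ v : ι → ℝ, (∀ i ∈ G.ex, v i = if i = j then 1 else 0) ∧
    (∀ i, v i ≠ 0 → G.g i = G.g j ∧ G.w i = G.w j) ∧ ∀ a, |∑ b, G.A a b * v b| ≤ η

/-- block closed set of variables -/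
def Bk (V : Finset ι) : Prop := ∀ a b, (G.A a b ≠ 0 ∨ G.B a b ≠ 0) → (a ∈ V ↔ b ∈ V)

/-- widths, measured in some unimodular basis `Um` (block compatible) -/
structure Wd (WW : ℕ → ℝ) : Prop where
  anti : Antitone WW
  nn : ∀ g, 0 ≤ WW g
  bd : ∃ Um Vm : Matrix ι ι ℤ, Um * Vm = 1 ∧
    (∀ V, G.Bk V → ∀ a b, (Um a b ≠ 0 ∨ Vm a b ≠ 0) → (a ∈ V ↔ b ∈ V)) ∧
    ∀ a b, |∑ c, G.A a c * (Um c b : ℝ)| ≤ Real.exp (WW (G.g a))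

/-- regularity of the groups `< g0` -/
def Rg (WW : ℕ → ℝ) (c Y : ℝ) (g0 : ℕ) : Prop :=
  ∀ g < g0, G.Big g (Real.exp (c * (Y + WW g))) ∧
    G.Small g (min (Real.exp (-(c * (Y + WW (g + 1))))) (c * (Y + WW g))⁻¹)

/-- no non zero bounded integer form on the groups `< g` -/
def Zr (s g : ℕ) (H : ℝ) : Prop :=
  ∀ (e : ℕ) (F : MvPolynomial ι ℝ), 1 ≤ e → e ≤ s → IsZ F → G.Lo g F → G.Hm e F → G.Bd F H → F = 0

/-- `n F` is an integer form plus a bounded form -/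
def Ap (g d : ℕ) (F : MvPolynomial ι ℝ) (H : ℝ) : Prop :=
  ∃ (n : ℕ) (I : MvPolynomial ι ℝ), 1 ≤ n ∧ (n : ℝ) ≤ H ∧ IsZ I ∧ G.Lo g I ∧ G.Hm d I ∧
    G.Bd (C (n : ℝ) * F - I) H

/-- variables of the tangent tower with copies `κ` -/
abbrev TV (κ : Type) : Type := ι ⊕ (κ × {a : ι // 2 ≤ G.w a})

variable {κ : Type} [Fintype κ] [DecidableEq κ]

def wv (h : κ → ι → ℤ) (j : κ) (b : ι) : MvPolynomial (G.TV κ) ℝ :=
  if hb : 2 ≤ G.w b then X (Sum.inr (j, ⟨b, hb⟩)) else C (h j b : ℝ)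

/-- the differential of `F` along copy `j` -/
def dd (h : κ → ι → ℤ) (j : κ) (F : MvPolynomial ι ℝ) : MvPolynomial (G.TV κ) ℝ :=
  ∑ b, G.wv h j b * rename Sum.inl (pderiv b F)

def tm (M : Matrix ι ι ℝ) : Matrix (G.TV κ) (G.TV κ) ℝ := fun x y =>
  match x, y with
  | Sum.inl a, Sum.inl b => M a b
  | Sum.inr a, Sum.inr b => if a.1 = b.1 then M a.2.1 b.2.1 else 0
  | _, _ => 0

def base : G.TV κ → ι := Sum.elim id (fun a => a.2.1)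

/-- tangent tower -/
def tan (h : κ → ι → ℤ) : GT (G.TV κ) where
  g := fun x => G.g (G.base x)
  w := Sum.elim G.w (fun a => G.w a.2.1 - 1)
  A := G.tm G.A
  B := G.tm G.B
  q := Sum.elim (fun a => rename Sum.inl (G.q a)) (fun a => G.dd h a.1 (G.q a.2.1))
  ex := univ.filter (fun x => G.base x ∈ G.ex)

def dv (V : Finset ι) : ℝ := |(G.B.submatrix (Subtype.val : V → ι) (Subtype.val : V → ι)).det|

/-- weight one variables of the groups `< g` -/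
def U1 (g : ℕ) : Finset ι := univ.filter (fun a => G.w a = 1 ∧ G.g a < g)

def InL (V : Finset ι) (R : ℝ) (h : ι → ℤ) : Prop :=
  h ∈ Lat V ∧ ∑ a ∈ V, (eval (cz h) (G.th a)) ^ 2 ≤ R ^ 2

def res (g : ℕ) (h : ι → ℤ) : ι → ℤ := fun a => if G.g a < g then h a else 0

/-- the set of `κ`-tuples in the ball of radius `R` with property `bad` is not `ε`-dense -/
def Rare (κ : Type) [Fintype κ] (g : ℕ) (R ε : ℝ) (bad : (κ → ι → ℤ) → Prop) : Prop :=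
  ∀ E : Finset (κ → ι → ℤ), (∀ h ∈ E, (∀ j, G.InL (G.U1 g) R (h j)) ∧ bad h) →
    (E.card : ℝ) < ε * G.dv (G.U1 g) ^ Fintype.card κ

variable (T : AT ι)

structure AOk (P : ℝ) : Prop where
  bk : G.Bk T.U
  qv : ∀ a ∈ T.U, (G.q a).vars ⊆ T.U
  pv : ∀ a ∈ T.U, (T.p a).vars ⊆ T.U
  pd : ∀ a ∈ T.U, G.Dl (G.w a) (T.p a)
  pl : ∀ a ∈ T.U, G.Lo (G.g a + 1) (T.p a)
  s1 : ∀ a, P⁻¹ ≤ T.sg a
  s2 : ∀ a, T.sg a ≤ P

/-- true chart -/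
def ch (a : ι) : MvPolynomial ι ℝ := G.th a + T.p a

def nu (z : ι → ℤ) : ℝ := Real.exp (-π * ∑ a ∈ T.U, (T.sg a * eval (cz z) (G.ch T a)) ^ 2)

def ms : ℝ := ∑' z : Lat T.U, G.nu T z.1

def Sm (Q : MvPolynomial ι ℝ) : ℂ :=
  ∑' z : Lat T.U, (G.nu T z.1 : ℂ) * Complex.exp (2 * π * Complex.I * (eval (cz z.1) Q : ℝ))

def mn (σ : ι → ℝ) (V : Finset ι) : ℝ := G.dv V * ∏ a ∈ V, (σ a)⁻¹

/-- dual quadratic form on the block `S` -/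
def dq (σ : ι → ℝ) (S : Finset ι) (ξ : ι → ℝ) : ℝ := ∑ a ∈ S, ((∑ b ∈ S, ξ b * G.B b a) / σ a) ^ 2

/-- centre polynomial of the variable `b` -/
def cq (b : ι) : MvPolynomial ι ℝ := G.q b - ∑ a, C (G.B b a) * T.p a

/-- active weights in the regular part are `≤ d` -/
def Inv (d g0 : ℕ) (U : Finset ι) : Prop := ∀ a ∈ U, G.g a < g0 → G.w a ≤ d

/-- number of groups `< g0` with an active variable of weight `d` -/
def cnt (d g0 : ℕ) (U : Finset ι) : ℕ :=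
  ((U.filter (fun a => G.w a = d ∧ G.g a < g0)).image G.g).card

def sh (h : ι → ℤ) (F : MvPolynomial ι ℝ) : MvPolynomial (G.TV Unit) ℝ :=
  aeval (fun b => X (Sum.inl b) + G.wv (fun _ : Unit => h) () b) F

def df (h : ι → ℤ) (F : MvPolynomial ι ℝ) : MvPolynomial (G.TV Unit) ℝ :=
  G.sh h F - rename Sum.inl F

/-- analytic data of the derivative tower -/
def der (h : ι → ℤ) : AT (G.TV Unit) where
  U := univ.filter (fun x => G.base x ∈ T.U)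
  p := Sum.elim (fun a => rename Sum.inl (T.p a) + C (1 / 2 : ℝ) * G.df h (G.ch T a))
    (fun a => G.df h (G.ch T a.2.1) - G.dd (fun _ : Unit => h) () (G.th a.2.1))
  sg := Sum.elim (fun a => √2 * T.sg a) (fun a => T.sg a.2.1 / √2)

/-- active weight one variables -/
def V1 : Finset ι := T.U.filter (fun a => G.w a = 1)

def gw (h : ι → ℤ) : ℝ :=
  Real.exp (-(π / 2) * ∑ a ∈ G.V1 T, (T.sg a * eval (cz h) (G.th a)) ^ 2)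

end GT

def AT.rs (T : AT ι) (V : Finset ι) : AT ι := ⟨V, T.p, T.sg⟩
def AT.sc (T : AT ι) (c : ℝ) : AT ι := ⟨T.U, T.p, fun a => c * T.sg a⟩

/-- standing size hypotheses -/
structure Sz (ι : Type) [Fintype ι] (P Y : ℝ) : Prop where
  cd : (Fintype.card ι : ℝ) ≤ P
  P2 : 2 ≤ P
  Y1 : 1 ≤ Y

/-! ### Formal rows -/

/-- inverse of the top chart -/
def INV : Prop := ∀ (s : ℕ) (ι : Type) [Fintype ι] [DecidableEq ι] (G : GT ι), G.Ok s →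
  ∃ ψ : ι → MvPolynomial ι ℝ, (∀ a, aeval G.th (ψ a) = X a) ∧ (∀ a, aeval ψ (G.th a) = X a) ∧
    (∀ a, G.Hm (G.w a) (ψ a)) ∧ (∀ a, G.Lo (G.g a) (ψ a - ∑ b, C (G.B a b) * X b))

/-- good witnesses; `V` is any set closed under the charts -/
def BD : Prop := ∀ (s : ℕ) (ι : Type) [Fintype ι] [DecidableEq ι] (G : GT ι), G.Ok s →
  (∀ b b' : MvPolynomial ι ℝ, aeval G.th b = aeval G.th b' → b = b') ∧
  (∀ (e : ℕ) (b : MvPolynomial ι ℝ), G.Hm e b ↔ G.Hm e (aeval G.th b)) ∧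
  (∀ (V : Finset ι) (b : MvPolynomial ι ℝ), G.Bk V → (∀ a ∈ V, (G.q a).vars ⊆ V) →
    (b.vars ⊆ V ↔ (aeval G.th b).vars ⊆ V)) ∧
  (∀ (g : ℕ) (b : MvPolynomial ι ℝ), G.Lo g b ↔ G.Lo g (aeval G.th b))

def TANOK : Prop := ∀ (s : ℕ) (ι κ : Type) [Fintype ι] [DecidableEq ι] [Fintype κ] [DecidableEq κ]
  (G : GT ι) (h : κ → ι → ℤ), G.Ok s → (G.tan h).Ok s ∧
    (∀ a, (G.tan h).th (Sum.inl a) = rename Sum.inl (G.th a)) ∧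
    (∀ x, (G.tan h).th (Sum.inr x) = G.dd h x.1 (G.th x.2.1)) ∧
    (∀ WW, G.Wd WW → (G.tan h).Wd WW) ∧ (∀ g η, 0 ≤ η → G.Small g η → (G.tan h).Small g η) ∧
    (∀ j e F, G.Hm (e + 1) F → (G.tan h).Hm e (G.dd h j F)) ∧
    (∀ j g F, G.Lo g F → (G.tan h).Lo g (G.dd h j F))

/-- the groups `≤ g` of the tangent tower only see `h` on the groups `< g` -/
def LOC : Prop := ∀ (s : ℕ) (ι κ : Type) [Fintype ι] [DecidableEq ι] [Fintype κ] [DecidableEq κ]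
  (G : GT ι) (h h' : κ → ι → ℤ) (g : ℕ), G.Ok s → (∀ j a, G.w a = 1 → G.g a < g → h j a = h' j a) →
    (∀ F H, (G.tan h).Lo (g + 1) F → (G.tan h).Bd F H → (G.tan h').Bd F H) ∧
    (∀ H, (G.tan h).Big g H → (G.tan h').Big g H) ∧
    (∀ j F, G.Lo g F → G.dd h j F = G.dd h' j F)

def Z2 : Prop := ∀ s : ℕ, ∃ c : ℕ, ∀ (ι : Type) [Fintype ι] [DecidableEq ι] (G : GT ι) (P η H : ℝ)
  (g e : ℕ) (F : MvPolynomial ι ℝ), G.Ok s → Sz ι P 1 → 0 ≤ η → η ≤ 1 → (∀ g' < g, G.Small g' η) →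
    1 ≤ e → e ≤ s → IsZ F → G.Lo g F → G.Hm e F → F.vars ⊆ G.ex → G.Bd F H → P ^ c * η * H < 1 → F = 0

def ZERO : Prop := ∀ s c : ℕ, ∃ c' : ℕ, ∀ (ι : Type) [Fintype ι] [DecidableEq ι] (G : GT ι)
  (WW : ℕ → ℝ) (P Y : ℝ) (g : ℕ), G.Ok s → G.Wd WW → Sz ι P Y → G.Rg WW (P ^ c') Y g →
    G.Zr s g (Real.exp (P ^ c * (Y + WW g)))

/-- number of points in a ball -/
def BALL : Prop := ∀ s : ℕ, 1 ≤ s → ∃ c : ℕ, ∀ (ι : Type) [Fintype ι] [DecidableEq ι] (G : GT ι)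
  (P R : ℝ) (g : ℕ) (E : Finset (ι → ℤ)), G.Ok s → Sz ι P 1 → G.Zr s g (P ^ c) →
    (∀ h ∈ E, G.InL (G.U1 g) R h) → (E.card : ℝ) ≤ Real.exp (4 * R ^ 2 + 1) * G.dv (G.U1 g)

/-- fibres of the projection to the groups `< g` -/
def FIB : Prop := ∀ s : ℕ, ∃ c : ℕ, ∀ (ι κ : Type) [Fintype ι] [DecidableEq ι] [Fintype κ]
  [DecidableEq κ] (G : GT ι) (WW : ℕ → ℝ) (P R : ℝ) (g : ℕ) (V : Finset ι) (E : Finset (κ → ι → ℤ)),
    G.Ok s → G.Wd WW → Sz ι P 1 → (Fintype.card κ : ℝ) ≤ P → G.Bk V → (∀ a ∈ V, G.w a = 1) →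
    (∀ a ∈ V, (G.q a).vars ⊆ V) → G.U1 g ⊆ V → (∀ h ∈ E, ∀ j, G.InL V R (h j)) →
    (∀ h ∈ E, ∀ j, G.InL (G.U1 g) R (G.res g (h j))) ∧
    (E.card : ℝ) * G.dv (G.U1 g) ^ Fintype.card κ ≤ Real.exp (P ^ c * (1 + R ^ 2 + WW g)) *
      G.dv V ^ Fintype.card κ * ((E.image (fun h j => G.res g (h j))).card : ℝ)

/-- INT step 1, algebra: a vanishing alternating sum forces a common slope -/
def SLOPE : Prop := ∀ (s : ℕ) (ι : Type) [Fintype ι] [DecidableEq ι] (G : GT ι) (g d : ℕ) (H : ℝ)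
  (F : MvPolynomial ι ℝ) (h : Fin 3 → ι → ℤ) (I : (ι → ℤ) → MvPolynomial (G.TV Unit) ℝ),
    G.Ok s → 1 ≤ d → d ≤ s → G.Hm (d + 1) F → G.Lo g F →
    (∀ x, (x = h 0 ∨ x = h 1 ∨ x = h 2 ∨ x = h 1 + h 2 - h 0) →
      IsZ (I x) ∧ (G.tan fun _ : Unit => x).Lo g (I x) ∧ (G.tan fun _ : Unit => x).Hm d (I x) ∧
      (G.tan fun _ : Unit => x).Bd (G.dd (fun _ : Unit => x) () F - I x) H) →
    (G.tan h).Zr s g (4 * 3 ^ s * H) →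
    ∀ a : {a : ι // 2 ≤ G.w a}, pderiv (Sum.inr ((), a)) (I (h 0)) = pderiv (Sum.inr ((), a)) (I (h 1)) ∧
      ∃ S : MvPolynomial ι ℝ, pderiv (Sum.inr ((), a)) (I (h 1)) = rename Sum.inl S

/-- INT steps 2 and 4. `S a` slopes (`S a = 0` for weight one), `om b` coefficients of the form
`dF - ∑ S a dz_a` in the top chart. -/
def FORM : Prop := ∀ (s : ℕ) (ι : Type) [Fintype ι] [DecidableEq ι] (G : GT ι) (g d : ℕ)
  (F : MvPolynomial ι ℝ) (S : ι → MvPolynomial ι ℝ), G.Ok s → 1 ≤ d → G.Hm (d + 1) F → G.Lo g F →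
    (∀ a, G.w a = 1 → S a = 0) →
    ∃ om : ι → MvPolynomial ι ℝ,
      (∀ (h : ι → ℤ) (I : MvPolynomial (G.TV Unit) ℝ) (H : ℝ), h ∈ Lat (G.U1 g) → IsZ I →
        (G.tan fun _ : Unit => h).Lo g I → (G.tan fun _ : Unit => h).Hm d I →
        (G.tan fun _ : Unit => h).Bd (G.dd (fun _ : Unit => h) () F - I) H →
        (∀ a : {a : ι // 2 ≤ G.w a}, pderiv (Sum.inr ((), a)) I = rename Sum.inl (S a.1)) →
        (∀ a, IsZ (S a) ∧ G.Lo g (X a * S a) ∧ G.Hm (d + 1) (X a * S a)) ∧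
        (∀ b, 2 ≤ G.w b → G.Bd (om b) H) ∧
        ∃ J, IsZ J ∧ G.Lo g J ∧ G.Hm d J ∧
          G.Bd ((∑ b ∈ G.U1 g, C (eval (cz h) (G.th b)) * om b) - J) H) ∧
      ((∀ a, G.Lo g (X a * S a) ∧ G.Hm (d + 1) (X a * S a)) →
        (∀ b ∈ G.U1 g, G.Lo g (om b) ∧ G.Hm d (om b)) ∧
        C ((d + 1 : ℕ) : ℝ) * F = (∑ a, C (G.w a : ℝ) * (X a * S a)) +
          (∑ b ∈ univ.filter (fun b => 2 ≤ G.w b), C (G.w b : ℝ) * (G.th b * om b)) +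
          ∑ b ∈ G.U1 g, G.th b * om b)

/-- INT step 3 -/
def LINV : Prop := ∀ s : ℕ, ∃ c : ℕ, ∀ (ι : Type) [Fintype ι] [DecidableEq ι] (G : GT ι) (P Y R : ℝ)
  (g d : ℕ) (om : ι → MvPolynomial ι ℝ) (E : Finset (ι → ℤ)), G.Ok s → Sz ι P Y → 1 ≤ d → d ≤ s →
    1 ≤ R → R ^ 2 ≤ Y → G.Zr s g (Real.exp (P ^ c * Y)) →
    (∀ b ∈ G.U1 g, G.Lo g (om b) ∧ G.Hm d (om b)) →
    Real.exp (-Y) * G.dv (G.U1 g) ≤ E.card →
    (∀ h ∈ E, G.InL (G.U1 g) R h ∧ ∃ J, IsZ J ∧ G.Lo g J ∧ G.Hm d J ∧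
      G.Bd ((∑ b ∈ G.U1 g, C (eval (cz h) (G.th b)) * om b) - J) (Real.exp Y)) →
    ∃ (n : ℕ) (I : MvPolynomial ι ℝ), 1 ≤ n ∧ (n : ℝ) ≤ Real.exp (P ^ c * Y) ∧ IsZ I ∧ G.Lo g I ∧
      G.Hm (d + 1) I ∧ G.Bd (C (n : ℝ) * (∑ b ∈ G.U1 g, G.th b * om b) - I) (Real.exp (P ^ c * Y))

def INT : Prop := ∀ s : ℕ, ∃ c : ℕ, ∀ (ι : Type) [Fintype ι] [DecidableEq ι] (G : GT ι) (P Y R : ℝ)
  (g d : ℕ) (F : MvPolynomial ι ℝ) (E : Finset (ι → ℤ)), G.Ok s → Sz ι P Y → 1 ≤ d → d + 1 ≤ s →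
    1 ≤ R → R ^ 2 ≤ Y → G.Hm (d + 1) F → G.Lo g F → G.Zr s g (Real.exp (P ^ c * Y)) →
    G.Rare (Fin 3) g R (Real.exp (-(P ^ c * Y)))
      (fun h => ¬ (G.tan h).Zr s g (Real.exp (P ^ c * Y))) →
    Real.exp (-Y) * G.dv (G.U1 g) ≤ E.card →
    (∀ h ∈ E, G.InL (G.U1 g) R h ∧
      (G.tan fun _ : Unit => h).Ap g d (G.dd (fun _ : Unit => h) () F) (Real.exp Y)) →
    G.Ap g (d + 1) F (Real.exp (P ^ c * Y))

def JZ (s g : ℕ) : Prop := ∀ r c : ℕ, ∃ c' : ℕ, ∀ (ι κ : Type) [Fintype ι] [DecidableEq ι]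
  [Fintype κ] [DecidableEq κ] (G : GT ι) (WW : ℕ → ℝ) (P Y R : ℝ), G.Ok s → G.Wd WW → Sz ι P Y →
    Fintype.card κ ≤ r → R ^ 2 ≤ P ^ c * (Y + WW g) → G.Rg WW (P ^ c') Y g →
    G.Rare κ g R (Real.exp (-(P ^ c * (Y + WW g))))
      (fun h => ¬ (G.tan h).Zr s g (Real.exp (P ^ c * (Y + WW g))))

def JB (s g : ℕ) : Prop := ∀ r c : ℕ, ∃ c' : ℕ, ∀ (ι κ : Type) [Fintype ι] [DecidableEq ι]
  [Fintype κ] [DecidableEq κ] (G : GT ι) (WW : ℕ → ℝ) (P Y R : ℝ), G.Ok s → G.Wd WW → Sz ι P Y →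
    Fintype.card κ ≤ r → R ^ 2 ≤ P ^ c * (Y + WW g) → G.Rg WW (P ^ c') Y (g + 1) →
    G.Rare κ g R (Real.exp (-(P ^ c * (Y + WW g))))
      (fun h => ¬ (G.tan h).Big g (Real.exp (P ^ c * (Y + WW g))))

/-! ### Analytic rows -/

def DET : Prop := ∀ (s : ℕ) (ι : Type) [Fintype ι] [DecidableEq ι] (G : GT ι), G.Ok s →
  (∀ V, G.Bk V → 0 < G.dv V) ∧ G.dv ∅ = 1 ∧
  (∀ U V, G.Bk U → G.Bk V → V ⊆ U → G.dv U = G.dv V * G.dv (U \ V)) ∧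
  (∀ (T : AT ι) (h : ι → ℤ) (P : ℝ), 0 < P → G.AOk T P →
    G.mn T.sg T.U ^ 2 = √2 ^ (G.V1 T).card * G.mn T.sg (G.V1 T) *
      (G.tan fun _ : Unit => h).mn (G.der T h).sg (G.der T h).U)

def SUMM : Prop := ∀ (s : ℕ) (ι : Type) [Fintype ι] [DecidableEq ι] (G : GT ι) (T : AT ι) (P : ℝ),
  G.Ok s → 0 < P → G.AOk T P → Summable (fun z : Lat T.U => G.nu T z.1)

/-- Poisson summation in a block `S` that no chart uses -/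
def POIS : Prop := ∀ (s : ℕ) (ι : Type) [Fintype ι] [DecidableEq ι] (G : GT ι) (T : AT ι) (P : ℝ)
  (S : Finset ι) (θ : ι → ℝ) (Q : MvPolynomial ι ℝ), G.Ok s → 0 < P → G.AOk T P → S ⊆ T.U → G.Bk S →
    (∀ a ∈ T.U, Disjoint (G.q a).vars S ∧ Disjoint (T.p a).vars S) → Disjoint Q.vars S →
    G.AOk (T.rs (T.U \ S)) P ∧
    HasSum (fun k : Lat S => (G.mn T.sg S * Real.exp (-π * G.dq T.sg S (cz k.1 - θ)) : ℝ) *
        G.Sm (T.rs (T.U \ S)) (Q + ∑ b ∈ S, C (θ b - k.1 b) * G.cq T b))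
      (G.Sm T (Q + ∑ b ∈ S, C (θ b) * X b))

def GW : Prop := ∃ c : ℕ, ∀ (s : ℕ) (ι : Type) [Fintype ι] [DecidableEq ι] (G : GT ι) (WW : ℕ → ℝ)
  (P : ℝ) (σ : ι → ℝ) (S : Finset ι) (g : ℕ) (θ : ι → ℝ), G.Ok s → G.Wd WW → Sz ι P 1 →
    (∀ a, P⁻¹ ≤ σ a ∧ σ a ≤ P) → G.Bk S → (∀ a ∈ S, g ≤ G.g a) →
    Summable (fun k : Lat S => Real.exp (-(π / 2) * G.dq σ S (cz k.1 - θ))) ∧
    ∑' k : Lat S, Real.exp (-(π / 2) * G.dq σ S (cz k.1 - θ)) ≤ Real.exp (P ^ c * (1 + WW g))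

/-- trivial bound for the groups `≥ g` -/
def P1M : Prop := ∀ s : ℕ, ∃ c : ℕ, ∀ (ι : Type) [Fintype ι] [DecidableEq ι] (G : GT ι) (T : AT ι)
  (WW : ℕ → ℝ) (P : ℝ) (g : ℕ), G.Ok s → G.Wd WW → Sz ι P 1 → G.AOk T P →
    G.AOk (T.rs (T.U.filter (fun a => G.g a < g))) P ∧
    G.ms T ≤ Real.exp (P ^ c * (1 + WW g)) * G.mn T.sg (T.U.filter (fun a => ¬ G.g a < g)) *
      G.ms (T.rs (T.U.filter (fun a => G.g a < g)))

def DEROK : Prop := ∀ (s : ℕ) (ι : Type) [Fintype ι] [DecidableEq ι] (G : GT ι) (T : AT ι) (P : ℝ)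
  (h : ι → ℤ), G.Ok s → 0 < P → G.AOk T P →
    (G.tan fun _ : Unit => h).AOk (G.der T h) (2 * P) ∧
    ∀ (d : ℕ) (Q : MvPolynomial ι ℝ), Q.vars ⊆ T.U → G.Dl (d + 2) Q →
      (G.df h Q).vars ⊆ (G.der T h).U ∧ (G.tan fun _ : Unit => h).Dl (d + 1) (G.df h Q) ∧
      (G.tan fun _ : Unit => h).top d (G.df h Q) = G.dd (fun _ : Unit => h) () (G.top (d + 1) Q)

/-- van der Corput identity and the tail in `h` -/
def SQ : Prop := ∀ (s : ℕ) (ι : Type) [Fintype ι] [DecidableEq ι] (G : GT ι) (T : AT ι) (P : ℝ),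
  G.Ok s → 0 < P → G.AOk T P →
    (∀ Q : MvPolynomial ι ℝ, Q.vars ⊆ T.U →
      HasSum (fun h : Lat (G.V1 T) => (G.gw T h.1 : ℂ) *
        (G.tan fun _ : Unit => h.1).Sm (G.der T h.1) (G.df h.1 Q)) ((‖G.Sm T Q‖ ^ 2 : ℝ) : ℂ)) ∧
    ∀ (R : ℝ) (E : Finset (Lat (G.V1 T))), 0 ≤ R → (∀ h ∈ E, ¬ G.InL (G.V1 T) R h.1) →
      ∑ h ∈ E, G.gw T h.1 * (G.tan fun _ : Unit => h.1).ms (G.der T h.1) ≤
        Real.exp (-(R ^ 2 / (4 * P ^ 2))) * G.ms (T.sc (1 / 2)) ^ 2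

/-- tail weights `< t`; `full = true` asks that all variables are active -/
def EQT (s d μ t : ℕ) (full : Bool) : Prop := ∃ c : ℕ, ∀ (ι : Type) [Fintype ι] [DecidableEq ι]
  (G : GT ι) (T : AT ι)
  (WW : ℕ → ℝ) (P Y : ℝ) (g0 : ℕ) (Q : MvPolynomial ι ℝ), G.Ok s → G.Wd WW → Sz ι P Y → G.AOk T P →
    g0 ≤ s → (full = true → T.U = univ) →
    G.Rg WW (P ^ c) Y g0 → G.Inv d g0 T.U → G.cnt d g0 T.U ≤ μ → (∀ a ∈ T.U, g0 ≤ G.g a → G.w a < t) →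
    Q.vars ⊆ T.U → G.Dl (d + 1) Q → G.Lo g0 (G.top d Q) →
    Real.exp (-Y) * G.mn T.sg T.U ≤ ‖G.Sm T Q‖ →
    G.Ap g0 d (G.top d Q) (Real.exp (P ^ c * (Y + WW g0)))

def EQS (s d μ : ℕ) : Prop := EQT s d μ d false

def MASS (s d μ : ℕ) : Prop := ∃ c : ℕ, ∀ (ι : Type) [Fintype ι] [DecidableEq ι] (G : GT ι) (T : AT ι)
  (WW : ℕ → ℝ) (P Y : ℝ) (g0 : ℕ), G.Ok s → G.Wd WW → Sz ι P Y → G.AOk T P → g0 ≤ s →
    G.Rg WW (P ^ c) Y g0 → G.Inv d g0 T.U → G.cnt d g0 T.U ≤ μ → (∀ a ∈ T.U, G.g a < g0) →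
    |G.ms T - G.mn T.sg T.U| ≤ Real.exp (-Y) * G.mn T.sg T.U

/-- delete the weight `d` stage of the group `g` -/
def MARG (s d μ : ℕ) : Prop := ∃ c : ℕ, ∀ (ι : Type) [Fintype ι] [DecidableEq ι] (G : GT ι) (T : AT ι)
  (WW : ℕ → ℝ) (P Y : ℝ) (g : ℕ) (Q : MvPolynomial ι ℝ), G.Ok s → G.Wd WW → Sz ι P Y → G.AOk T P →
    g < s → G.Rg WW (P ^ c) Y (g + 1) → G.Inv d g T.U → G.cnt d g T.U ≤ μ →
    (∀ a ∈ T.U, g ≤ G.g a → G.w a < d ∨ (G.g a = g ∧ G.w a = d)) → Q.vars ⊆ T.U → G.Dl d Q →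
    G.AOk (T.rs (T.U \ T.U.filter (fun a => G.g a = g ∧ G.w a = d))) P ∧
    ‖G.Sm T Q - (G.mn T.sg (T.U.filter (fun a => G.g a = g ∧ G.w a = d)) : ℝ) *
        G.Sm (T.rs (T.U \ T.U.filter (fun a => G.g a = g ∧ G.w a = d))) Q‖ ≤
      Real.exp (-Y) * G.mn T.sg T.U

/-- delete all weight `d` stages -/
def MARGS (s d μ : ℕ) : Prop := ∃ c : ℕ, ∀ (ι : Type) [Fintype ι] [DecidableEq ι] (G : GT ι) (T : AT ι)
  (WW : ℕ → ℝ) (P Y : ℝ) (g0 : ℕ) (Q : MvPolynomial ι ℝ), G.Ok s → G.Wd WW → Sz ι P Y → G.AOk T P →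
    g0 ≤ s → G.Rg WW (P ^ c) Y g0 → G.Inv d g0 T.U → G.cnt d g0 T.U ≤ μ →
    (∀ a ∈ T.U, g0 ≤ G.g a → G.w a < d) → Q.vars ⊆ T.U → G.Dl d Q →
    G.AOk (T.rs (T.U.filter (fun a => G.w a < d))) P ∧
    ‖G.Sm T Q - (G.mn T.sg (T.U.filter (fun a => ¬ G.w a < d)) : ℝ) *
        G.Sm (T.rs (T.U.filter (fun a => G.w a < d))) Q‖ ≤ Real.exp (-Y) * G.mn T.sg T.U

/-- step (0): remove the tail stages of weight `d - 1` -/
def TAIL0 : Prop := ∀ s : ℕ, ∃ c : ℕ, ∀ (ι : Type) [Fintype ι] [DecidableEq ι] (G : GT ι) (T : AT ι)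
  (WW : ℕ → ℝ) (P Y : ℝ) (g0 d : ℕ) (Q : MvPolynomial ι ℝ), G.Ok s → G.Wd WW → Sz ι P Y → G.AOk T P →
    (∀ a ∈ T.U, g0 ≤ G.g a → G.w a < d + 1) → Q.vars ⊆ T.U → G.Dl (d + 2) Q →
    G.Lo g0 (G.top (d + 1) Q) → Real.exp (-Y) * G.mn T.sg T.U ≤ ‖G.Sm T Q‖ →
    ∃ Q' : MvPolynomial ι ℝ,
      G.AOk (T.rs (T.U.filter (fun a => G.g a < g0 ∨ G.w a < d))) P ∧
      Q'.vars ⊆ T.U.filter (fun a => G.g a < g0 ∨ G.w a < d) ∧ G.Dl (d + 2) Q' ∧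
      G.top (d + 1) Q' = G.top (d + 1) Q ∧
      Real.exp (-(P ^ c * (Y + WW g0))) * G.mn T.sg (T.U.filter (fun a => G.g a < g0 ∨ G.w a < d)) ≤
        ‖G.Sm (T.rs (T.U.filter (fun a => G.g a < g0 ∨ G.w a < d))) Q'‖

/-- step (2), selection: many `h` with a regular and biased derivative tower -/
def SEL (s d μ : ℕ) : Prop := ∀ c0 : ℕ, ∃ c1 c : ℕ, ∀ (ι : Type) [Fintype ι] [DecidableEq ι]
  (G : GT ι) (T : AT ι) (WW : ℕ → ℝ) (P Y : ℝ) (g0 : ℕ) (Q : MvPolynomial ι ℝ), G.Ok s → G.Wd WW →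
    Sz ι P Y → G.AOk T P → g0 ≤ s → T.U = univ →
    G.Rg WW (P ^ c) Y g0 → G.Inv d g0 T.U → G.cnt d g0 T.U ≤ μ →
    Real.exp (-Y) * G.mn T.sg T.U ≤ ‖G.Sm T Q‖ →
    ∃ (R : ℝ) (E : Finset (ι → ℤ)), 1 ≤ R ∧ R ^ 2 ≤ P ^ c1 * (Y + WW g0) ∧
      Real.exp (-(P ^ c1 * (Y + WW g0))) * G.dv (G.V1 T) ≤ E.card ∧
      ∀ h ∈ E, G.InL (G.V1 T) R h ∧
        (G.tan fun _ : Unit => h).Rg WW ((2 * P) ^ c0) (P ^ c1 * (Y + WW g0)) g0 ∧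
        Real.exp (-(P ^ c1 * (Y + WW g0))) *
            (G.tan fun _ : Unit => h).mn (G.der T h).sg (G.der T h).U ≤
          ‖(G.tan fun _ : Unit => h).Sm (G.der T h) (G.df h Q)‖

end

end Vale.Agent.P057T.Eq
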