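import Vale.Agent.P057T.Eq.Summ

/-! The dual Gaussian sum of a block. -/

open MvPolynomial Finset Matrix
open scoped Real
open Vale.Agent.P267.H775 Vale.Agent.P057T.Poi

namespace Vale.Agent.P057T.Eq.GwH37

noncomputable section

set_option linter.all false

theorem thU {κ : Type} [Fintype κ] [DecidableEq κ] {M : Matrix κ κ ℝ} (hM : M.det ≠ 0)
    {U V : Matrix κ κ ℤ} (h1 : U * V = 1) {b : ℝ} (hb0 : 0 ≤ b)
    (hb : ∀ i j, |(M * mR U) i j| ≤ b) (x : κ → ℝ) :
    th (M⁻¹)ᵀ x ≤ (2 * (1 + Fintype.card κ * b)) ^ Fintype.card κ := by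
  have h2 : V * U = 1 := mul_eq_one_comm.1 h1
  have hUV : mR U * mR V = 1 := by rw [← mR_mul, h1, mR_one]
  have hU : (mR U).det ≠ 0 := by
    have := congrArg det hUV
    rw [det_mul, det_one] at this
    exact left_ne_zero_of_mul_eq_one this
  have hMU : (M * mR U).det ≠ 0 := by rw [det_mul]; exact mul_ne_zero hM hU
  have e : ((M * mR U)⁻¹)ᵀ = (M⁻¹)ᵀ * mR Vᵀ := by
    rw [Matrix.mul_inv_rev, Matrix.inv_eq_right_inv hUV, transpose_mul]
    rfl
  have h3 := th_dual_le hMU hb0 hb 0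
  rw [e, th_uni _ (U := Vᵀ) (V := Uᵀ) (by rw [← transpose_mul, h1, transpose_one])
    (by rw [← transpose_mul, h2, transpose_one]), mulVec_zero] at h3
  exact (th_le (det_dual hM) x).trans h3

theorem num {P W : ℝ} {d : ℕ} (hP : 2 ≤ P) (hW : 0 ≤ W) (hd : (d : ℝ) ≤ P) :
    (2 * (1 + d * (2 * P * Real.exp W))) ^ d ≤ Real.exp (P ^ 6 * (1 + W)) := by
  have e1 : 1 ≤ Real.exp W := Real.one_le_exp hW
  have hd0 : (0 : ℝ) ≤ d := Nat.cast_nonneg d
  have h1 : 2 * (1 + d * (2 * P * Real.exp W)) ≤ Real.exp (W + 5 * P ^ 2) := by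
    have a1 := Real.add_one_le_exp (5 * P ^ 2)
    have a2 : d * (2 * P * Real.exp W) ≤ P * (2 * P * Real.exp W) :=
      mul_le_mul_of_nonneg_right hd (by positivity)
    have a3 : Real.exp W * (5 * P ^ 2 + 1) ≤ Real.exp W * Real.exp (5 * P ^ 2) :=
      mul_le_mul_of_nonneg_left a1 (by positivity)
    have a4 : 4 ≤ P ^ 2 := by nlinarith
    have a5 : Real.exp W * 4 ≤ Real.exp W * P ^ 2 := mul_le_mul_of_nonneg_left a4 (by positivity)
    rw [Real.exp_add]
    nlinarith
  refine (pow_le_pow_left₀ (by positivity) h1 d).trans ?_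
  rw [← Real.exp_nat_mul, Real.exp_le_exp]
  have b1 : 8 ≤ P ^ 3 := by
    have := pow_le_pow_left₀ zero_le_two hP 3
    linarith
  have b2 : P ≤ P ^ 6 := le_self_pow₀ (by linarith) (by norm_num)
  have b3 : d * (W + 5 * P ^ 2) ≤ P * (W + 5 * P ^ 2) :=
    mul_le_mul_of_nonneg_right hd (by positivity)
  have b4 : P * W ≤ P ^ 6 * W := mul_le_mul_of_nonneg_right b2 hW
  have b5 : P ^ 3 * 8 ≤ P ^ 3 * P ^ 3 := mul_le_mul_of_nonneg_left b1 (by positivity)
  nlinarith

theorem gw : GW := by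
  refine ⟨6, fun s ι _ _ G WW P σ S g θ hG hW hS hσ hB hg => ?_⟩
  have hP : 0 < P := by linarith [hS.P2]
  have hσ0 : ∀ a, 0 < σ a := fun a => (inv_pos.2 hP).trans_le (hσ a).1
  have hM := Br.mM_det hG hB hσ0
  have s2 : (0 : ℝ) < √2 := by positivity
  have hM' := det_smul_ne s2.ne' hM
  have e : ∀ y : S → ℤ, Real.exp (-(π / 2) * G.dq σ S (cz (Br.latE S y).1 - θ)) =
      gq (((√2 : ℝ) • Br.mM G σ S)⁻¹)ᵀ ((fun b : S => -θ b) + toR y) := by
    intro y
    have e1 : (fun b : S => (cz (Br.latE S y).1 - θ) b) = (fun b : S => -θ b) + toR y := by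
      funext b
      simp only [cz, Pi.sub_apply, Pi.add_apply, Br.latE_coe, Br.ex0_coe, toR_apply]
      ring
    rw [Br.dq_eq hG hB hσ0, e1, gq, dual_smul s2.ne' hM, qf_smul, inv_pow,
      Real.sq_sqrt zero_le_two]
    congr 1
    ring
  refine ⟨(Br.latE S).summable_iff.1 ?_, ?_⟩
  · exact (summable_gq (det_dual hM') _).congr fun y => (e y).symm
  · rw [← (Br.latE S).tsum_eq, tsum_congr e]
    obtain ⟨Um, Vm, h1, h2, h3⟩ := hW.bd
    have hz : ∀ a ∈ S, ∀ b, b ∉ S → Um a b = 0 := fun a ha b hb => by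
      by_contra h
      exact hb ((h2 S hB a b (Or.inl h)).1 ha)
    have hUV : Um.submatrix (Subtype.val : S → ι) (Subtype.val : S → ι) *
        Vm.submatrix (Subtype.val : S → ι) (Subtype.val : S → ι) = 1 := by
      ext a c
      have h := congrFun (congrFun h1 a.1) c.1
      rw [mul_apply, ← Finset.sum_subset (subset_univ S)
        (fun b _ hb => by rw [hz a a.2 b hb, zero_mul]), ← Finset.sum_coe_sort S] at h
      rw [mul_apply]
      simp only [submatrix_apply]
      rw [h, one_apply, one_apply]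
      simp only [Subtype.ext_iff]
    have hb : ∀ i j, |(((√2 : ℝ) • Br.mM G σ S) * mR (Um.submatrix (Subtype.val : S → ι)
        (Subtype.val : S → ι))) i j| ≤ 2 * P * Real.exp (WW g) := by
      intro i j
      have e1 : (((√2 : ℝ) • Br.mM G σ S) * mR (Um.submatrix (Subtype.val : S → ι)
          (Subtype.val : S → ι))) i j = √2 * σ i * ∑ c, G.A i c * (Um c j : ℝ) := by
        rw [mul_apply, Br.sum_bk (V := S) _ fun b hb => by rw [Br.A_zero hB i.2 hb, zero_mul],
          Finset.mul_sum]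
        refine Finset.sum_congr rfl fun b _ => ?_
        simp only [Br.mM, mR, Matrix.smul_apply, of_apply, map_apply, submatrix_apply, smul_eq_mul]
        ring
      have a1 : √2 ≤ 2 := Real.sqrt_le_iff.2 ⟨zero_le_two, by norm_num⟩
      rw [e1, abs_mul, abs_of_pos (mul_pos s2 (hσ0 i))]
      exact mul_le_mul (mul_le_mul a1 (hσ i).2 (hσ0 i).le zero_le_two)
        ((h3 i j).trans (Real.exp_le_exp.2 (hW.anti (hg i i.2)))) (abs_nonneg _) (by positivity)
    refine (thU hM' hUV (by positivity) hb _).trans (num hS.P2 (hW.nn g) ?_)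
    exact (Nat.cast_le.2 (Fintype.card_subtype_le _)).trans hS.cd

end

end Vale.Agent.P057T.Eq.GwH37
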