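import Mathlib

/-! Hermite reduced bases of a lattice: the coordinates of a vector are controlled by its norm. -/

namespace Vale.Agent.P057T.HermH41

open Submodule Set
open scoped BigOperators

variable {E : Type*} [NormedAddCommGroup E] [InnerProductSpace ℝ E]

/-- projection away from the line of `u` -/
noncomputable def pr (u : E) : E →ₗ[ℝ] E where
  toFun v := v - (inner ℝ u v / ‖u‖ ^ 2) • u
  map_add' v w := by
    rw [inner_add_right, add_div, add_smul]; abel
  map_smul' t v := by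
    rw [inner_smul_right, RingHom.id_apply, smul_sub, smul_smul, mul_div_assoc]

theorem pr_apply (u v : E) : pr u v = v - (inner ℝ u v / ‖u‖ ^ 2) • u := rfl

theorem pr_self {u : E} (hu : u ≠ 0) : pr u u = 0 := by
  have h : ‖u‖ ^ 2 ≠ 0 := pow_ne_zero 2 (norm_ne_zero_iff.2 hu)
  rw [pr_apply, real_inner_self_eq_norm_sq, div_self h, one_smul, sub_self]

theorem norm_sq_pr {u : E} (hu : u ≠ 0) (v : E) :
    ‖v‖ ^ 2 = ‖pr u v‖ ^ 2 + (inner ℝ u v / ‖u‖ ^ 2) ^ 2 * ‖u‖ ^ 2 := by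
  have h : ‖u‖ ^ 2 ≠ 0 := pow_ne_zero 2 (norm_ne_zero_iff.2 hu)
  rw [pr_apply, norm_sub_sq_real, inner_smul_right, norm_smul, mul_pow, Real.norm_eq_abs, sq_abs,
    real_inner_comm u v]
  field_simp
  ring

theorem norm_pr_le {u : E} (hu : u ≠ 0) (v : E) : ‖pr u v‖ ≤ ‖v‖ := by
  have h := norm_sq_pr hu v
  have h2 : 0 ≤ (inner ℝ u v / ‖u‖ ^ 2) ^ 2 * ‖u‖ ^ 2 := by positivity
  exact abs_le_of_sq_le_sq' (by linarith) (norm_nonneg _) |>.2

theorem mem_spanZ {ι : Type*} [Fintype ι] (c : ι → E) (v : E) :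
    v ∈ span ℤ (range c) ↔ ∃ n : ι → ℤ, ∑ i, (n i : ℝ) • c i = v := by
  rw [mem_span_range_iff_exists_fun]
  simp only [Int.cast_smul_eq_zsmul]

theorem lower {ι : Type*} [Fintype ι] (b : ι → E) (hb : LinearIndependent ℝ b) :
    ∃ κ : ℝ, 0 < κ ∧ ∀ v ∈ span ℤ (range b), v ≠ 0 → κ ≤ ‖v‖ := by
  classical
  have hk : LinearMap.ker (Fintype.linearCombination ℝ b) = ⊥ :=
    LinearMap.ker_eq_bot.2 (hb.fintypeLinearCombination_injective)
  obtain ⟨K, hK0, hK⟩ := (Fintype.linearCombination ℝ b).exists_antilipschitzWith hk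
  have hK' : (0 : ℝ) < K := hK0
  refine ⟨1 / K, by positivity, fun v hv h0 => ?_⟩
  obtain ⟨n, rfl⟩ := (mem_spanZ b v).1 hv
  have h1 := hK.le_mul_dist (fun i => (n i : ℝ)) 0
  rw [map_zero, dist_zero_right, dist_zero_right, Fintype.linearCombination_apply] at h1
  obtain ⟨i, hi⟩ : ∃ i, n i ≠ 0 := by
    by_contra hc
    push Not at hc
    exact h0 (by simp [hc])
  have h2 : (1 : ℝ) ≤ ‖fun i => (n i : ℝ)‖ := by
    refine le_trans ?_ (norm_le_pi_norm (fun i => (n i : ℝ)) i)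
    rw [Real.norm_eq_abs]
    exact_mod_cast Int.one_le_abs hi
  rw [div_le_iff₀ hK', mul_comm]
  linarith

theorem near {D : ℕ} (b : Fin (D + 1) → E) (hb : LinearIndependent ℝ b) :
    ∃ c : Fin (D + 1) → E, LinearIndependent ℝ c ∧ span ℤ (range c) = span ℤ (range b) ∧
      ∀ e : Fin (D + 1) → E, LinearIndependent ℝ e → span ℤ (range e) = span ℤ (range b) →
        ∀ i, ‖c 0‖ ≤ 3 / 2 * ‖e i‖ := by
  obtain ⟨κ, hκ, hl⟩ := lower b hb
  set T : Set ℝ := {t | ∃ c : Fin (D + 1) → E, LinearIndependent ℝ c ∧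
    span ℤ (range c) = span ℤ (range b) ∧ t = ‖c 0‖} with hT
  have hne : T.Nonempty := ⟨_, b, hb, rfl, rfl⟩
  have hlow : ∀ t ∈ T, κ ≤ t := by
    rintro t ⟨c, hc, hs, rfl⟩
    exact hl _ (hs ▸ subset_span (mem_range_self 0)) (hc.ne_zero 0)
  have hbd : BddBelow T := ⟨κ, hlow⟩
  have h0 : κ ≤ sInf T := le_csInf hne hlow
  obtain ⟨t, ⟨c, hc, hs, rfl⟩, ht⟩ :=
    exists_lt_of_csInf_lt hne (show sInf T < 3 / 2 * sInf T by linarith)
  refine ⟨c, hc, hs, fun e he hse i => ?_⟩
  have hm : ‖e i‖ ∈ T := by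
    refine ⟨e ∘ Equiv.swap 0 i, he.comp _ (Equiv.swap 0 i).injective, ?_, by simp⟩
    rw [(Equiv.swap 0 i).surjective.range_comp, hse]
  have := csInf_le hbd hm
  linarith

theorem ker_int {D : ℕ} {c : Fin (D + 1) → E} (hc : LinearIndependent ℝ c) {v : E}
    (hv : v ∈ span ℤ (range c)) (h0 : pr (c 0) v = 0) : ∃ m : ℤ, v = (m : ℝ) • c 0 := by
  obtain ⟨n, hn⟩ := (mem_spanZ c v).1 hv
  rw [pr_apply, sub_eq_zero] at h0
  set t := inner ℝ (c 0) v / ‖c 0‖ ^ 2
  have h1 : ∑ i, ((n i : ℝ) - if i = 0 then t else 0) • c i = 0 := by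
    simp only [sub_smul, Finset.sum_sub_distrib, hn, ite_smul, zero_smul, Finset.sum_ite_eq',
      Finset.mem_univ, if_true]
    rw [sub_eq_zero]; exact h0
  have h2 := Fintype.linearIndependent_iff.1 hc _ h1 0
  simp only [if_true, sub_eq_zero] at h2
  exact ⟨n 0, by rw [h2]; exact h0⟩

theorem li_pr {D : ℕ} {c : Fin (D + 1) → E} (hc : LinearIndependent ℝ c) :
    LinearIndependent ℝ fun j : Fin D => pr (c 0) (c j.succ) := by
  rw [Fintype.linearIndependent_iff]
  intro x hx j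
  have h1 : pr (c 0) (∑ j, x j • c j.succ) = 0 := by
    rw [map_sum]; simpa only [map_smul] using hx
  rw [pr_apply, sub_eq_zero] at h1
  set t := inner ℝ (c 0) (∑ j, x j • c j.succ) / ‖c 0‖ ^ 2
  have h2 : ∑ i, (Fin.cons (-t) x : Fin (D + 1) → ℝ) i • c i = 0 := by
    rw [Fin.sum_univ_succ]
    simp only [Fin.cons_zero, Fin.cons_succ]
    rw [h1, neg_smul, neg_add_cancel]
  simpa using Fintype.linearIndependent_iff.1 hc _ h2 j.succ

theorem herm_fin (D : ℕ) : ∀ b : Fin D → E, LinearIndependent ℝ b →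
    ∃ c : Fin D → E, LinearIndependent ℝ c ∧ span ℤ (range c) = span ℤ (range b) ∧
      ∀ (x : Fin D → ℝ) (i : Fin D), |x i| * ‖c i‖ ≤ 2 ^ (D ^ 2) * ‖∑ j, x j • c j‖ := by
  induction D with
  | zero => intro b hb; exact ⟨b, hb, rfl, fun x i => i.elim0⟩
  | succ D ih =>
    intro b hb
    obtain ⟨c, hc, hs, hmin⟩ := near b hb
    have hu : c 0 ≠ 0 := hc.ne_zero 0
    obtain ⟨d, hd, hds, hdb⟩ := ih _ (li_pr hc)
    have hc0 : c 0 ∈ span ℤ (range c) := subset_span (mem_range_self 0)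
    have hw : ∀ j, ∃ w ∈ span ℤ (range c), pr (c 0) w = d j ∧
        |inner ℝ (c 0) w / ‖c 0‖ ^ 2| ≤ 1 / 2 := by
      intro j
      have h1 : d j ∈ span ℤ (range fun j : Fin D => pr (c 0) (c j.succ)) :=
        hds ▸ subset_span (mem_range_self j)
      obtain ⟨n, hn⟩ := (mem_spanZ _ _).1 h1
      set w : E := ∑ i, (n i : ℝ) • c i.succ with hw
      have hwm : w ∈ span ℤ (range c) := by
        refine sum_mem fun i _ => ?_
        rw [Int.cast_smul_eq_zsmul]
        exact smul_mem _ _ (subset_span (mem_range_self _))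
      have hpw : pr (c 0) w = d j := by
        rw [hw, map_sum, ← hn]; simp only [map_smul]
      set μ := inner ℝ (c 0) w / ‖c 0‖ ^ 2 with hμ
      refine ⟨w - ((round μ : ℤ) : ℝ) • c 0, ?_, ?_, ?_⟩
      · rw [Int.cast_smul_eq_zsmul]
        exact sub_mem hwm (smul_mem _ _ hc0)
      · rw [map_sub, map_smul, pr_self hu, smul_zero, sub_zero, hpw]
      · have h : ‖c 0‖ ^ 2 ≠ 0 := pow_ne_zero 2 (norm_ne_zero_iff.2 hu)
        rw [inner_sub_right, inner_smul_right, real_inner_self_eq_norm_sq, sub_div,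
          mul_div_assoc, div_self h, mul_one]
        exact abs_sub_round μ
    choose w hwm hwp hwb using hw
    set e : Fin (D + 1) → E := Fin.cons (c 0) w with he
    have hsum : ∀ x : Fin (D + 1) → ℝ,
        ∑ j, x j • e j = x 0 • c 0 + ∑ j : Fin D, x j.succ • w j := by
      intro x
      rw [Fin.sum_univ_succ]
      simp only [he, Fin.cons_zero, Fin.cons_succ]
    have hpe : ∀ x : Fin (D + 1) → ℝ,
        pr (c 0) (∑ j, x j • e j) = ∑ j : Fin D, x j.succ • d j := by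
      intro x
      rw [hsum, map_add, map_smul, pr_self hu, smul_zero, zero_add, map_sum]
      simp only [map_smul, hwp]
    have hel : LinearIndependent ℝ e := by
      rw [Fintype.linearIndependent_iff]
      intro x hx
      have h1 := hpe x
      rw [hx, map_zero] at h1
      have h2 := Fintype.linearIndependent_iff.1 hd _ h1.symm
      have h3 := hsum x
      simp only [hx, h2, zero_smul, Finset.sum_const_zero, add_zero] at h3
      have h4 : x 0 = 0 := (smul_eq_zero.1 h3.symm).resolve_right hu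
      intro i
      exact Fin.cases h4 h2 i
    have hes : span ℤ (range e) = span ℤ (range c) := by
      have he0 : c 0 ∈ span ℤ (range e) := subset_span ⟨0, by simp [he]⟩
      apply le_antisymm
      · rw [span_le]
        rintro _ ⟨i, rfl⟩
        refine Fin.cases ?_ (fun j => ?_) i
        · exact hc0
        · exact hwm j
      · rw [span_le]
        rintro _ ⟨i, rfl⟩
        refine Fin.cases he0 (fun j => ?_) i
        have h1 : pr (c 0) (c j.succ) ∈ span ℤ (range d) :=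
          hds ▸ subset_span (mem_range_self (f := fun j : Fin D => pr (c 0) (c j.succ)) j)
        obtain ⟨n, hn⟩ := (mem_spanZ _ _).1 h1
        have h2 : (∑ k, (n k : ℝ) • w k) ∈ span ℤ (range c) :=
          sum_mem fun k _ => by rw [Int.cast_smul_eq_zsmul]; exact smul_mem _ _ (hwm k)
        have h3 : (∑ k, (n k : ℝ) • w k) ∈ span ℤ (range e) :=
          sum_mem fun k _ => by
            rw [Int.cast_smul_eq_zsmul]
            exact smul_mem _ _ (subset_span ⟨k.succ, by simp [he]⟩)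
        obtain ⟨m, hm⟩ := ker_int hc (sub_mem (subset_span (mem_range_self j.succ)) h2) (by
          rw [map_sub, map_sum, ← hn]; simp only [map_smul, hwp, sub_self])
        rw [sub_eq_iff_eq_add] at hm
        rw [SetLike.mem_coe, hm, Int.cast_smul_eq_zsmul]
        exact add_mem (smul_mem _ _ he0) h3
    have hwn : ∀ j, ‖w j‖ ≤ 2 * ‖d j‖ := by
      intro j
      have h1 := hmin e hel (hes.trans hs) j.succ
      simp only [he, Fin.cons_succ] at h1
      have h2 := norm_sq_pr hu (w j)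
      rw [hwp] at h2
      have h3 : (inner ℝ (c 0) (w j) / ‖c 0‖ ^ 2) ^ 2 ≤ (1 / 2) ^ 2 := by
        rw [← sq_abs]; exact pow_le_pow_left₀ (abs_nonneg _) (hwb j) 2
      have h4 : ‖c 0‖ ^ 2 ≤ (3 / 2 * ‖w j‖) ^ 2 := pow_le_pow_left₀ (norm_nonneg _) h1 2
      have h5 := mul_le_mul h3 h4 (by positivity) (by positivity)
      refine (abs_le_of_sq_le_sq' ?_ (by positivity)).2
      nlinarith [sq_nonneg ‖d j‖]
    refine ⟨e, hel, hes.trans hs, fun x i => ?_⟩
    set N := ‖∑ j, x j • e j‖ with hN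
    have hN0 : 0 ≤ N := norm_nonneg _
    have hC : (1 : ℝ) ≤ 2 ^ (D ^ 2) := one_le_pow₀ one_le_two
    have hj : ∀ j : Fin D, |x j.succ| * ‖w j‖ ≤ 2 * 2 ^ (D ^ 2) * N := by
      intro j
      have h1 := hdb (fun j => x j.succ) j
      rw [← hpe] at h1
      have h2 := norm_pr_le hu (∑ j, x j • e j)
      have h3 := mul_le_mul_of_nonneg_left (hwn j) (abs_nonneg (x j.succ))
      have h4 := mul_le_mul_of_nonneg_left h2 (le_trans zero_le_one hC)
      nlinarith
    have hpow : (2 : ℝ) ^ ((D + 1) ^ 2) = 2 ^ (2 * D + 1) * 2 ^ (D ^ 2) := by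
      rw [← pow_add]; congr 1; ring
    have hD : (2 * D + 1 : ℝ) ≤ 2 ^ (2 * D + 1) := by
      exact_mod_cast (Nat.lt_two_pow_self (n := 2 * D + 1)).le
    have hD2 : (2 : ℝ) ≤ 2 ^ (2 * D + 1) := le_self_pow₀ one_le_two (by omega)
    have hCN : 0 ≤ 2 ^ (D ^ 2) * N := by positivity
    rw [hpow, mul_assoc]
    refine Fin.cases ?_ (fun j => ?_) i
    · have h1 : x 0 • c 0 = ∑ j, x j • e j - ∑ j : Fin D, x j.succ • w j := by
        rw [hsum]; abel
      have h2 : |x 0| * ‖c 0‖ ≤ N + ∑ j : Fin D, |x j.succ| * ‖w j‖ := by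
        rw [← Real.norm_eq_abs, ← norm_smul, h1]
        refine (norm_sub_le _ _).trans (add_le_add le_rfl ((norm_sum_le _ _).trans ?_))
        simp only [norm_smul, Real.norm_eq_abs, le_refl]
      have h3 : ∑ j : Fin D, |x j.succ| * ‖w j‖ ≤ D * (2 * 2 ^ (D ^ 2) * N) := by
        refine (Finset.sum_le_sum fun j _ => hj j).trans ?_
        simp
      have h4 : N ≤ 2 ^ (D ^ 2) * N := le_mul_of_one_le_left hN0 hC
      have h5 := mul_le_mul_of_nonneg_right hD hCN
      simp only [he, Fin.cons_zero]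
      nlinarith
    · have h5 := mul_le_mul_of_nonneg_right hD2 hCN
      simp only [he, Fin.cons_succ]
      have := hj j
      nlinarith

theorem herm_fam {ι : Type*} [Fintype ι] (b : ι → E) (hb : LinearIndependent ℝ b) :
    ∃ c : ι → E, LinearIndependent ℝ c ∧ span ℤ (range c) = span ℤ (range b) ∧
      ∀ (x : ι → ℝ) (i : ι),
        |x i| * ‖c i‖ ≤ 2 ^ (Fintype.card ι ^ 2) * ‖∑ j, x j • c j‖ := by
  set σ := Fintype.equivFin ι
  obtain ⟨c, hc, hs, hb'⟩ := herm_fin _ (b ∘ σ.symm) (hb.comp _ σ.symm.injective)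
  refine ⟨c ∘ σ, hc.comp _ σ.injective, ?_, fun x i => ?_⟩
  · rw [σ.surjective.range_comp, hs, σ.symm.surjective.range_comp]
  · have h := hb' (x ∘ σ.symm) (σ i)
    rw [← σ.sum_comp] at h
    simpa using h

open Matrix

variable {ι : Type*} [Fintype ι] [DecidableEq ι]

/-- Euclidean length of `A x` -/
noncomputable def len (A : Matrix ι ι ℝ) (x : ι → ℝ) : ℝ := √(∑ k, (A *ᵥ x) k ^ 2)

omit [DecidableEq ι] in
theorem len_nonneg (A : Matrix ι ι ℝ) (x : ι → ℝ) : 0 ≤ len A x := Real.sqrt_nonneg _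

omit [DecidableEq ι] in
theorem len_sq (A : Matrix ι ι ℝ) (x : ι → ℝ) : len A x ^ 2 = ∑ k, (A *ᵥ x) k ^ 2 :=
  Real.sq_sqrt (Finset.sum_nonneg fun _ _ => sq_nonneg _)

/-- the columns of `A` as Euclidean vectors -/
noncomputable def col (A : Matrix ι ι ℝ) (j : ι) : EuclideanSpace ℝ ι :=
  WithLp.toLp 2 fun k => A k j

omit [DecidableEq ι] in
theorem sum_col (A : Matrix ι ι ℝ) (x : ι → ℝ) :
    ∑ j, x j • col A j = WithLp.toLp 2 (A *ᵥ x) := by
  ext k
  simp [col, mulVec, dotProduct, mul_comm]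

omit [DecidableEq ι] in
theorem norm_sum_col (A : Matrix ι ι ℝ) (x : ι → ℝ) : ‖∑ j, x j • col A j‖ = len A x := by
  rw [sum_col, EuclideanSpace.norm_eq, len]
  simp

theorem li_col {A : Matrix ι ι ℝ} (hA : A.det ≠ 0) : LinearIndependent ℝ (col A) := by
  rw [Fintype.linearIndependent_iff]
  intro x hx i
  rw [sum_col] at hx
  have h : A *ᵥ x = 0 := by
    funext k
    simpa using congrArg (fun v : EuclideanSpace ℝ ι => v k) hx
  rw [eq_zero_of_mulVec_eq_zero hA h]; rfl

/-- Hadamard's inequality -/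
theorem hadamard (A : Matrix ι ι ℝ) : |A.det| ≤ ∏ j, √(∑ k, A k j ^ 2) := by
  set σ := Fintype.equivFin ι
  have : Fact (Module.finrank ℝ (EuclideanSpace ℝ ι) = Fintype.card ι) := ⟨by simp⟩
  let b : OrthonormalBasis (Fin (Fintype.card ι)) ℝ (EuclideanSpace ℝ ι) :=
    (EuclideanSpace.basisFun ι ℝ).reindex σ
  have h := b.toBasis.orientation.abs_volumeForm_apply_le (col A ∘ σ.symm)
  rw [Orientation.volumeForm_robust' _ b, Module.Basis.det_apply] at h
  have h1 : b.toBasis.toMatrix (col A ∘ σ.symm) = A.submatrix σ.symm σ.symm := by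
    ext i j
    simp [b, Module.Basis.toMatrix_apply, col]
  rw [h1, det_submatrix_equiv_self, ← σ.prod_comp] at h
  refine h.trans (le_of_eq (Finset.prod_congr rfl fun j _ => ?_))
  simp [col, EuclideanSpace.norm_eq]

/-- A Hermite basis: the columns of `U`, coordinates given by the inverse matrix `V`. -/
theorem herm {A : Matrix ι ι ℝ} (hA : A.det ≠ 0) :
    ∃ U V : Matrix ι ι ℤ, U * V = 1 ∧ V * U = 1 ∧
      (∀ (h : ι → ℤ) (i : ι), |((V *ᵥ h) i : ℝ)| * len A (fun k => (U k i : ℝ)) ≤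
        2 ^ (Fintype.card ι ^ 2) * len A (fun k => (h k : ℝ))) ∧
      (∀ (x : ι → ℝ) (i : ι), |x i| * len A (fun k => (U k i : ℝ)) ≤
        2 ^ (Fintype.card ι ^ 2) * len A (U.map (Int.cast : ℤ → ℝ) *ᵥ x)) ∧
      (∀ i, 0 < len A (fun k => (U k i : ℝ))) ∧
      |A.det| ≤ ∏ i, len A (fun k => (U k i : ℝ)) := by
  have hl := li_col hA
  obtain ⟨c, hc, hs, hb⟩ := herm_fam (col A) hl
  have h1 : ∀ j, ∃ n : ι → ℤ, ∑ i, (n i : ℝ) • col A i = c j := fun j =>
    (mem_spanZ _ _).1 (hs ▸ subset_span (mem_range_self j))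
  have h2 : ∀ j, ∃ n : ι → ℤ, ∑ i, (n i : ℝ) • c i = col A j := fun j =>
    (mem_spanZ _ _).1 (hs ▸ subset_span (mem_range_self j))
  choose u hu using h1
  choose v hv using h2
  set U : Matrix ι ι ℤ := Matrix.of fun k j => u j k with hU
  set V : Matrix ι ι ℤ := Matrix.of fun k j => v j k with hV
  have hUV : U * V = 1 := by
    ext k j
    have h3 : ∑ k, (((U * V) k j : ℝ) - if k = j then 1 else 0) • col A k = 0 := by
      simp only [sub_smul, Finset.sum_sub_distrib, ite_smul, one_smul, zero_smul,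
        Finset.sum_ite_eq', Finset.mem_univ, if_true]
      rw [sub_eq_zero, ← hv j]
      simp only [← hu, Finset.smul_sum, smul_smul, mul_apply, hU, hV, of_apply, Int.cast_sum,
        Int.cast_mul, Finset.sum_smul]
      rw [Finset.sum_comm]
      simp only [mul_comm]
    have h4 := Fintype.linearIndependent_iff.1 hl _ h3 k
    rw [sub_eq_zero] at h4
    rw [one_apply]
    split_ifs at h4 ⊢ <;> exact_mod_cast h4
  have hlen : ∀ i, len A (fun k => (U k i : ℝ)) = ‖c i‖ := fun i => by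
    rw [← norm_sum_col, ← hu i]; rfl
  have hx : ∀ x : ι → ℝ, len A (U.map (Int.cast : ℤ → ℝ) *ᵥ x) = ‖∑ j, x j • c j‖ := by
    intro x
    rw [← norm_sum_col]
    congr 1
    simp only [← hu, Finset.smul_sum, smul_smul, mulVec, dotProduct, map_apply, hU, of_apply,
      Finset.sum_smul]
    rw [Finset.sum_comm]
    simp only [mul_comm]
  have hB : ∀ (x : ι → ℝ) (i : ι), |x i| * len A (fun k => (U k i : ℝ)) ≤
      2 ^ (Fintype.card ι ^ 2) * len A (U.map (Int.cast : ℤ → ℝ) *ᵥ x) := fun x i => by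
    rw [hlen, hx]; exact hb x i
  refine ⟨U, V, hUV, mul_eq_one_comm.1 hUV, fun h i => ?_, hB,
    fun i => by rw [hlen]; exact norm_pos_iff.2 (hc.ne_zero i), ?_⟩
  · have h3 := hB (fun k => ((V *ᵥ h) k : ℝ)) i
    have h4 : U.map (Int.cast : ℤ → ℝ) *ᵥ (fun k => ((V *ᵥ h) k : ℝ)) = fun k => (h k : ℝ) := by
      funext k
      have h5 : (U *ᵥ (V *ᵥ h)) k = h k := by rw [mulVec_mulVec, hUV, one_mulVec]
      rw [← h5]
      simp [mulVec, dotProduct]
    rwa [h4] at h3
  · have h3 := hadamard (A * U.map (Int.cast : ℤ → ℝ))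
    have h4 : |(U.map (Int.cast : ℤ → ℝ)).det| = 1 := by
      have h5 : (U.map (Int.cast : ℤ → ℝ)).det = (U.det : ℝ) :=
        ((Int.castRingHom ℝ).map_det U).symm
      have h6 : U.det * V.det = 1 := by rw [← det_mul, hUV, det_one]
      rw [h5, ← Int.cast_abs, Int.abs_eq_natAbs, Int.isUnit_iff_natAbs_eq.1 (IsUnit.of_mul_eq_one _ h6)]
      simp
    rw [det_mul, abs_mul, h4, mul_one] at h3
    refine h3.trans (le_of_eq (Finset.prod_congr rfl fun j _ => ?_))
    simp [len, mul_apply, mulVec, dotProduct]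

end Vale.Agent.P057T.HermH41
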