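import Vale.Agent.P057T.Eq.Defs
import Vale.Agent.P057T.Chart2

/-! Row INV: the inverse of the top chart. -/

open MvPolynomial Finset

namespace Vale.Agent.P057T.Eq

variable {ι : Type} [Fintype ι] [DecidableEq ι]

omit [DecidableEq ι] in
theorem th_eq (G : GT ι) : G.th = Chart.tc G.A G.q := rfl

omit [Fintype ι] [DecidableEq ι] in
theorem l1_eq (b : MvPolynomial ι ℝ) : l1 b = L1.nrm b := rfl

omit [Fintype ι] [DecidableEq ι] in
theorem isZ_iff (b : MvPolynomial ι ℝ) : IsZ b ↔ L1.IsInt b := Iff.rfl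

theorem exists_psi {s : ℕ} {G : GT ι} (h : G.Ok s) :
    ∃ ψ : ι → MvPolynomial ι ℝ, (∀ i, ψ i = Chart.lin G.B i + aeval ψ (G.q i)) ∧
      (∀ b, aeval ψ (aeval G.th b) = b) ∧ (∀ F, aeval G.th (aeval ψ F) = F) ∧
      (∀ i, ∀ j ∈ (ψ i).vars, G.g j ≤ G.g i) ∧ ∀ i, G.Hm (G.w i) (ψ i) := by
  obtain ⟨ψ, h1, h2, h3, h4, h5⟩ := Chart.exists_tc_inv (g := G.g) (q := G.q) h.ql h.AB
    fun i j hij => (h.blk i j (Or.inr hij)).1.ge
  exact ⟨ψ, h1, h2, h3, h4, h5 G.w h.qh fun i j hij => (h.blk i j (Or.inr hij)).2.symm⟩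

theorem inv : INV := by
  intro s ι _ _ G h
  obtain ⟨ψ, h1, h2, h3, h4, h5⟩ := exists_psi h
  refine ⟨ψ, fun a => ?_, fun a => ?_, h5, fun a => ?_⟩
  · simpa using h3 (X a)
  · simpa using h2 (X a)
  · have e : ψ a - ∑ b, C (G.B a b) * X b = aeval ψ (G.q a) := by
      rw [h1 a]; exact add_sub_cancel_left _ _
    rw [e]
    exact Chart.vars_aeval fun k hk j hj => (h4 k j hj).trans_lt (h.ql a k hk)

end Vale.Agent.P057T.Eq
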