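import Vale.Agent.P057T.Eq.Inv

/-! The case of JB in which all new coefficients sit on exact variables. -/

set_option linter.all false

open MvPolynomial Finset

namespace Vale.Agent.P057T.Eq

namespace J1

open Vale.Agent.P057T.Chart Vale.Agent.P057T.L1

variable {ι κ κ' : Type} [Fintype ι] [DecidableEq ι] [Fintype κ] [DecidableEq κ]
  [Fintype κ'] [DecidableEq κ']

theorem fix {σ : ι → MvPolynomial ι ℝ} {F : MvPolynomial ι ℝ} (h : ∀ x ∈ F.vars, σ x = X x) :
    aeval σ F = F := by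
  rw [aeval_congr_vars h, aeval_X_left_apply]

open Classical in
/-- put the chart coordinates of a block closed part `K` of the group `g` to zero -/
theorem bd_kill (hB : BD) {s g : ℕ} {G : GT ι} (hG : G.Ok s) (K : ι → Prop)
    (hK : ∀ x y, G.A x y ≠ 0 → (K x ↔ K y)) (hg : ∀ x, K x → G.g x = g)
    {F : MvPolynomial ι ℝ} {H : ℝ} (hl : G.Lo (g + 1) F) (h : G.Bd F H) :
    G.Bd (aeval (fun x => if K x then G.q x else X x) F) H := by
  obtain ⟨b, rfl, hb⟩ := h
  have hbl := ((hB s ι G hG).2.2.2 (g + 1) b).2 hl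
  refine ⟨aeval (fun x => if K x then 0 else X x) b, ?_, le_trans (nrm_aeval_le_one ?_ b) hb⟩
  · rw [aeval_aeval, aeval_aeval]
    refine aeval_congr_vars fun x hx => ?_
    have hx' : G.g x ≤ g := Nat.lt_succ_iff.1 (hbl x hx)
    have e : ∀ y, G.A x y ≠ 0 →
        aeval (fun x => if K x then G.q x else X x) (G.q y) = G.q y := by
      intro y hy
      refine fix fun z hz => if_neg fun hz' => ?_
      have h1 := hG.ql y z hz
      have h2 := (hG.blk x y (Or.inl hy)).1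
      have h3 := hg z hz'
      omega
    by_cases hx2 : K x
    · rw [if_pos hx2, map_zero, GT.th, map_sum]
      refine (sum_eq_zero fun y _ => ?_).symm
      by_cases hy : G.A x y = 0
      · simp [hy]
      · rw [map_mul, map_sub, e y hy, aeval_X, if_pos ((hK x y hy).1 hx2), sub_self, mul_zero]
    · rw [if_neg hx2, aeval_X, GT.th, map_sum]
      refine sum_congr rfl fun y _ => ?_
      by_cases hy : G.A x y = 0
      · simp [hy]
      · rw [map_mul, map_sub, e y hy, aeval_X, if_neg fun h => hx2 ((hK x y hy).2 h), aeval_C]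
        rfl
  · intro x
    by_cases hx : K x <;> simp [hx]

variable (G : GT ι)

/-- change of the set of copies -/
def cpy (f : κ → κ') : G.TV κ → G.TV κ' := Sum.map id (Prod.map f id)

theorem cpy_inl (f : κ → κ') (F : MvPolynomial ι ℝ) :
    rename (cpy G f) (rename Sum.inl F : MvPolynomial (G.TV κ) ℝ) = rename Sum.inl F := by
  rw [rename_rename]; rfl

theorem cpy_wv (f : κ → κ') (h : κ' → ι → ℤ) (j : κ) (b : ι) :
    rename (cpy G f) (G.wv (fun j => h (f j)) j b) = G.wv h (f j) b := by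
  unfold GT.wv
  split_ifs
  · rw [rename_X]; rfl
  · rw [rename_C]

theorem cpy_dd (f : κ → κ') (h : κ' → ι → ℤ) (j : κ) (F : MvPolynomial ι ℝ) :
    rename (cpy G f) (G.dd (fun j => h (f j)) j F) = G.dd h (f j) F := by
  unfold GT.dd
  rw [map_sum]
  exact sum_congr rfl fun b _ => by rw [map_mul, cpy_wv, cpy_inl]

variable {G}

theorem cpy_th (hT : TANOK) {s : ℕ} (hG : G.Ok s) (f : κ → κ') (h : κ' → ι → ℤ) (x : G.TV κ) :
    rename (cpy G f) ((G.tan fun j => h (f j)).th x) = (G.tan h).th (cpy G f x) := by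
  rcases x with a | x
  · rw [(hT s ι κ G _ hG).2.1, cpy_inl]
    exact ((hT s ι κ' G h hG).2.1 a).symm
  · rw [(hT s ι κ G _ hG).2.2.1, cpy_dd]
    exact ((hT s ι κ' G h hG).2.2.1 (f x.1, x.2)).symm

theorem cpy_bd (hT : TANOK) {s : ℕ} (hG : G.Ok s) (f : κ → κ') (h : κ' → ι → ℤ)
    {F : MvPolynomial (G.TV κ) ℝ} {H : ℝ} (hF : (G.tan fun j => h (f j)).Bd F H) :
    (G.tan h).Bd (rename (cpy G f) F) H := by
  obtain ⟨b, rfl, hb⟩ := hF
  refine ⟨rename (cpy G f) b, ?_, (nrm_rename_le _ b).trans hb⟩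
  rw [aeval_rename, rename_eq_aeval, aeval_aeval]
  refine aeval_congr_vars fun x _ => ?_
  rw [← rename_eq_aeval, cpy_th hT hG]
  rfl

theorem cpy_lo (f : κ → κ') (h : κ → ι → ℤ) (h' : κ' → ι → ℤ) {g : ℕ}
    {F : MvPolynomial (G.TV κ) ℝ} (hF : (G.tan h).Lo g F) : (G.tan h').Lo g (rename (cpy G f) F) := by
  intro x hx
  obtain ⟨y, hy, rfl⟩ := mem_vars_rename _ _ hx
  have := hF y hy
  rcases y with a | y <;> exact this

theorem cpy_hm (f : κ → κ') (h : κ → ι → ℤ) (h' : κ' → ι → ℤ) {e : ℕ}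
    {F : MvPolynomial (G.TV κ) ℝ} (hF : (G.tan h).Hm e F) : (G.tan h').Hm e (rename (cpy G f) F) := by
  rw [rename_eq_aeval]
  refine hom_aeval hF fun x => ?_
  rcases x with a | x
  · exact isWeightedHomogeneous_X ℝ (G.tan h').w (Sum.inl a)
  · exact isWeightedHomogeneous_X ℝ (G.tan h').w (Sum.inr (f x.1, x.2))

/-- a form in the old variables which is bounded on the tangent tower is bounded -/
theorem bd_inl (hB : BD) (hT : TANOK) {s : ℕ} (hG : G.Ok s) (h : κ → ι → ℤ)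
    {F : MvPolynomial ι ℝ} {H : ℝ} (hF : (G.tan h).Bd (rename Sum.inl F) H) : G.Bd F H := by
  obtain ⟨b, e, hb⟩ := hF
  obtain ⟨ψ, -, -, h3, -⟩ := exists_psi hG
  have e2 : aeval (G.tan h).th (rename Sum.inl (aeval ψ F)) = rename Sum.inl F := by
    conv_rhs => rw [← h3 F, rename_eq_aeval, aeval_aeval]
    rw [aeval_rename]
    refine aeval_congr_vars fun x _ => ?_
    rw [← rename_eq_aeval]
    exact (hT s ι κ G h hG).2.1 x
  have e3 : b = rename Sum.inl (aeval ψ F) :=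
    (hB s _ (G.tan h) (hT s ι κ G h hG).1).1 _ _ (e.trans e2.symm)
  refine ⟨aeval ψ F, h3 F, le_trans ?_ hb⟩
  have e4 : aeval ψ F = aeval (Sum.elim X fun _ => 0 : G.TV κ → MvPolynomial ι ℝ) b := by
    rw [e3, aeval_rename]
    exact (aeval_X_left_apply _).symm
  rw [e4]
  refine nrm_aeval_le_one ?_ b
  rintro (a | x) <;> simp

theorem tm_side {M : Matrix ι ι ℝ} {x y : G.TV κ} (hxy : G.tm M x y ≠ 0) :
    x.isRight = y.isRight := by
  rcases x with a | a <;> rcases y with b | b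
  · rfl
  · exact absurd rfl hxy
  · exact absurd rfl hxy
  · rfl

/-- remove the exact new variables from a bounded relation -/
theorem drop (hB : BD) (hT : TANOK) {s g e : ℕ} (hG : G.Ok s) (h : κ → ι → ℤ) (k : G.TV κ → ℤ)
    {I : MvPolynomial (G.TV κ) ℝ} {H : ℝ}
    (hk : ∀ x, k x ≠ 0 → (G.tan h).g x = g ∧ (G.tan h).w x = e)
    (hl : ∀ x, k (Sum.inr x) ≠ 0 → x.2.1 ∈ G.ex) (hI : (G.tan h).Lo g I)
    (hb : (G.tan h).Bd (lin (cz k) + I) H) :
    (G.tan h).Bd (rename Sum.inl (lin (cz fun a => k (Sum.inl a))) + I) H := by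
  classical
  have hO := (hT s ι κ G h hG).1
  have hlo : (G.tan h).Lo (g + 1) (lin (cz k) + I) := by
    refine vars_add' (P := fun x => (G.tan h).g x < g + 1) ?_ fun x hx => (hI x hx).trans g.lt_succ_self
    refine vars_sum' fun x _ => ?_
    by_cases hx : k x = 0
    · simp [cz, hx]
    · exact vars_mul' (vars_C' _) (vars_X' (P := fun x => (G.tan h).g x < g + 1)
        ((hk x hx).1.le.trans_lt g.lt_succ_self))
  have key := bd_kill hB hO (fun x => x.isRight = true ∧ (G.tan h).g x = g)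
    (fun x y hxy => by rw [tm_side hxy, (hO.blk x y (Or.inl hxy)).1]) (fun x hx => hx.2) hlo hb
  generalize hσ : (fun x : G.TV κ => @ite _ (x.isRight = true ∧ (G.tan h).g x = g)
    (Classical.propDecidable _) ((G.tan h).q x) (X x)) = σ at key
  have s1 : ∀ x, (x.isRight = true ∧ (G.tan h).g x = g) → σ x = (G.tan h).q x :=
    fun x hx => by rw [← hσ]; exact if_pos hx
  have s2 : ∀ x, ¬ (x.isRight = true ∧ (G.tan h).g x = g) → σ x = X x :=
    fun x hx => by rw [← hσ]; exact if_neg hx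
  rw [map_add, fix (F := I) fun x hx => s2 x fun hc => (hI x hx).ne hc.2] at key
  convert key using 2
  unfold lin
  rw [map_sum, map_sum, Fintype.sum_sum_type]
  have z : ∀ x : κ × {a : ι // 2 ≤ G.w a},
      aeval σ (C (cz k (Sum.inr x)) * X (Sum.inr x) : MvPolynomial (G.TV κ) ℝ) = 0 := by
    intro x
    by_cases hx : k (Sum.inr x) = 0
    · simp [cz, hx]
    · rw [map_mul, aeval_X, s1 _ ⟨rfl, (hk _ hx).1⟩,
        hO.qe (Sum.inr x) (mem_filter.2 ⟨mem_univ _, hl x hx⟩), mul_zero]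
  rw [sum_eq_zero (s := univ) fun x _ => z x, add_zero]
  refine sum_congr rfl fun a _ => ?_
  rw [map_mul, map_mul, aeval_X, s2 _ (by simp), rename_X, rename_C, aeval_C]
  rfl

end J1

open J1 Vale.Agent.P057T.Chart Vale.Agent.P057T.L1

variable {ι κ : Type} [Fintype ι] [DecidableEq ι] [Fintype κ] [DecidableEq κ] {G : GT ι}

/-- two tuples with the same relation, all new coefficients on exact variables -/
theorem jb1 (hB : BD) (hT : TANOK) {s g e : ℕ} (hG : G.Ok s) (h h' : κ → ι → ℤ) (k : G.TV κ → ℤ)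
    {I I' : MvPolynomial (G.TV κ) ℝ} {H : ℝ}
    (hk : ∀ x, k x ≠ 0 → (G.tan h).g x = g ∧ (G.tan h).w x = e)
    (hl : ∀ x, k (Sum.inr x) ≠ 0 → x.2.1 ∈ G.ex)
    (z : IsZ I) (l : (G.tan h).Lo g I) (m : (G.tan h).Hm e I) (b : (G.tan h).Bd (lin (cz k) + I) H)
    (z' : IsZ I') (l' : (G.tan h').Lo g I') (m' : (G.tan h').Hm e I')
    (b' : (G.tan h').Bd (lin (cz k) + I') H)
    (hZ : (G.tan (Sum.elim h h')).Zr s g (2 * H)) (hBig : G.Big g H) :
    ∀ x, k x ≠ 0 → G.base x ∈ G.ex := by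
  intro x hx
  rcases x with a0 | x
  swap
  · exact hl x hx
  have he : G.w a0 = e := (hk _ hx).2
  have d := drop hB hT hG h k hk hl l b
  have d' := drop hB hT hG h' k hk hl l' b'
  obtain ⟨c, e1, hc⟩ := cpy_bd hT hG Sum.inl (Sum.elim h h') d
  obtain ⟨c', e2, hc'⟩ := cpy_bd hT hG Sum.inr (Sum.elim h h') d'
  rw [map_add, cpy_inl] at e1 e2
  have h0 : rename (cpy G (Sum.inl : κ → κ ⊕ κ)) I - rename (cpy G Sum.inr) I' = 0 := by
    refine hZ e _ (he ▸ hG.w1 a0) (he ▸ hG.ws a0) (IsInt.sub (IsInt.rename z _) (IsInt.rename z' _))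
      (vars_sub' (P := fun x => (G.tan (Sum.elim h h')).g x < g) (cpy_lo _ h _ l) (cpy_lo _ h' _ l'))
      ((cpy_hm _ h _ m).sub (cpy_hm _ h' _ m')) ⟨c - c', ?_, ?_⟩
    · rw [map_sub, e1, e2]; ring
    · exact (nrm_sub_le c c').trans (by have : nrm c ≤ H := hc; have : nrm c' ≤ H := hc'; linarith)
  let π0 : G.TV κ → MvPolynomial ι ℝ := Sum.elim X fun _ => 0
  let π1 : G.TV (κ ⊕ κ) → MvPolynomial (G.TV κ) ℝ := Sum.elim (fun a => X (Sum.inl a))
    fun y => Sum.elim (fun j => X (Sum.inr (j, y.2))) (fun _ => 0) y.1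
  have h1 : I = rename Sum.inl (aeval π0 I') := by
    have := congrArg (aeval π1) (sub_eq_zero.1 h0)
    rw [aeval_rename, aeval_rename, fix (F := I) (by rintro (a | y) _ <;> rfl)] at this
    rw [this, rename_eq_aeval, aeval_aeval]
    refine aeval_congr_vars ?_
    rintro (a | y) _ <;> simp [π0, π1, cpy]
  rw [h1, ← map_add] at d
  refine hBig e (fun a => k (Sum.inl a)) (aeval π0 I') (fun a ha => hk _ ha) ?_ ?_ ?_
    (bd_inl hB hT hG h d) a0 hx
  · refine IsInt.aeval z' ?_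
    rintro (a | y)
    · exact isInt_X a
    · exact isInt_zero
  · refine vars_aeval (P := fun a => G.g a < g) ?_
    rintro (a | y) hy
    · exact vars_X' (P := fun a => G.g a < g) (l' _ hy)
    · simp [π0]
  · refine hom_aeval m' ?_
    rintro (a | y)
    · exact isWeightedHomogeneous_X ℝ G.w a
    · exact isWeightedHomogeneous_zero ℝ G.w _

/-- counting form: a set of tuples with a common relation of this kind is not dense -/
theorem jb1c (hB : BD) (hT : TANOK) {s g e : ℕ} (hG : G.Ok s) (k : G.TV κ → ℤ) {H R ε : ℝ}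
    (hε : 0 ≤ ε) (hk : ∀ x, k x ≠ 0 → (G.tan (0 : κ → ι → ℤ)).g x = g ∧ (G.tan (0 : κ → ι → ℤ)).w x = e)
    (hl : ∀ x, k (Sum.inr x) ≠ 0 → x.2.1 ∈ G.ex) (hx : ∃ x, k x ≠ 0 ∧ G.base x ∉ G.ex)
    (hR : G.Rare (κ ⊕ κ) g R (ε ^ 2) fun h => ¬ (G.tan h).Zr s g (2 * H)) (hBig : G.Big g H)
    (E : Finset (κ → ι → ℤ))
    (hE : ∀ h ∈ E, (∀ j, G.InL (G.U1 g) R (h j)) ∧ ∃ I, IsZ I ∧ (G.tan h).Lo g I ∧
      (G.tan h).Hm e I ∧ (G.tan h).Bd (lin (cz k) + I) H) :
    (E.card : ℝ) < ε * G.dv (G.U1 g) ^ Fintype.card κ := by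
  classical
  have hinj : Function.Injective fun p : (κ → ι → ℤ) × (κ → ι → ℤ) => Sum.elim p.1 p.2 := by
    rintro ⟨a, b⟩ ⟨a', b'⟩ hp
    exact Prod.ext (funext fun j => congrFun hp (Sum.inl j)) (funext fun j => congrFun hp (Sum.inr j))
  have key := hR ((E ×ˢ E).image fun p => Sum.elim p.1 p.2) (by
    intro u hu
    obtain ⟨⟨h, h'⟩, hp, rfl⟩ := mem_image.1 hu
    obtain ⟨h1, I, z, l, m, b⟩ := hE h (mem_product.1 hp).1
    obtain ⟨h2, I', z', l', m', b'⟩ := hE h' (mem_product.1 hp).2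
    refine ⟨?_, fun hZ => ?_⟩
    · rintro (j | j)
      · exact h1 j
      · exact h2 j
    · obtain ⟨x, hx1, hx2⟩ := hx
      exact hx2 (jb1 hB hT hG h h' k hk hl z l m b z' l' m' b' hZ hBig x hx1))
  rw [card_image_of_injective _ hinj, card_product, Fintype.card_sum, pow_add] at key
  push_cast at key
  have h0 : 0 ≤ ε * G.dv (G.U1 g) ^ Fintype.card κ := mul_nonneg hε (pow_nonneg (abs_nonneg _) _)
  refine lt_of_pow_lt_pow_left₀ 2 h0 ?_
  calc (E.card : ℝ) ^ 2 = E.card * E.card := sq _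
    _ < _ := key
    _ = _ := by ring

end Vale.Agent.P057T.Eq
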