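import Vale.Agent.P057T.Eq.JbS
import Vale.Agent.P057T.Eq.Mono
import Vale.Agent.P057T.Eq.CntH41
import Vale.Agent.P057T.Eq.A1H41

/-! Row JB: the two counting cores and the numerics. -/

open MvPolynomial Finset

namespace Vale.Agent.P057T.Eq.JbH38

variable {ι : Type} [Fintype ι] [DecidableEq ι]

theorem inl_sub {G : GT ι} {s g : ℕ} (hG : G.Ok s) {R : ℝ} {x y : ι → ℤ}
    (hx : G.InL (G.U1 g) R x) (hy : G.InL (G.U1 g) R y) :
    G.InL (G.U1 g) (2 * |R| + 1) (x - y) := by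
  refine ⟨(Lat _).sub_mem hx.1 hy.1, ?_⟩
  have e : ∀ a ∈ G.U1 g, eval (cz (x - y)) (G.th a) = eval (cz x) (G.th a) - eval (cz y) (G.th a) := by
    intro a ha
    have h := fun z => A1H41.eval_th hG (A1H41.w1_U1 hG g) z ⟨a, ha⟩
    rw [h, h, h, ← Pi.sub_apply, ← Matrix.mulVec_sub]
    congr 1
    funext b
    simp [cz]
  have h1 : ∑ a ∈ G.U1 g, eval (cz (x - y)) (G.th a) ^ 2 ≤
      ∑ a ∈ G.U1 g, (2 * eval (cz x) (G.th a) ^ 2 + 2 * eval (cz y) (G.th a) ^ 2) := by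
    refine sum_le_sum fun a ha => ?_
    rw [e a ha]
    nlinarith [sq_nonneg (eval (cz x) (G.th a) + eval (cz y) (G.th a))]
  rw [sum_add_distrib, ← mul_sum, ← mul_sum] at h1
  have h2 := hx.2
  have h3 := hy.2
  have h4 : |R| ^ 2 = R ^ 2 := sq_abs R
  nlinarith [abs_nonneg R]

theorem sq_le (R : ℝ) : R ^ 2 ≤ (2 * |R| + 1) ^ 2 := by
  have h4 : |R| ^ 2 = R ^ 2 := sq_abs R
  nlinarith [abs_nonneg R]

/-- two tuples in general position -/
theorem core2 {κ : Type} [Fintype κ] [DecidableEq κ] {G : GT ι} {s g : ℕ} {R α Λ : ℝ}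
    (E1 : Finset (κ → ι → ℤ)) (hα : 0 < α) (hΛ : α ^ 2 ≤ Λ)
    (hE : ∀ h ∈ E1, ∀ j, G.InL (G.U1 g) R (h j))
    (hc : G.dv (G.U1 g) ^ Fintype.card κ ≤ α * E1.card)
    (hr : G.Rare (κ ⊕ κ) g R Λ⁻¹ fun h => ¬ (G.tan h).Zr s g Λ) :
    ∃ h ∈ E1, ∃ h' ∈ E1, (G.tan (Sum.elim h h')).Zr s g Λ := by
  classical
  by_contra hno
  push Not at hno
  have hinj : Function.Injective fun p : (κ → ι → ℤ) × (κ → ι → ℤ) => Sum.elim p.1 p.2 := by
    intro p p' h
    exact Prod.ext (funext fun j => congrFun h (Sum.inl j)) (funext fun j => congrFun h (Sum.inr j))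
  have h1 := hr ((E1 ×ˢ E1).image fun p => Sum.elim p.1 p.2) (by
    intro h hh
    obtain ⟨p, hp, rfl⟩ := mem_image.1 hh
    obtain ⟨hp1, hp2⟩ := mem_product.1 hp
    refine ⟨fun j => ?_, hno _ hp1 _ hp2⟩
    rcases j with j | j
    · exact hE _ hp1 j
    · exact hE _ hp2 j)
  rw [card_image_of_injective _ hinj, card_product, Fintype.card_sum, pow_add] at h1
  push_cast at h1
  set D := G.dv (G.U1 g) ^ Fintype.card κ
  have hD : 0 ≤ D := pow_nonneg (G.dv_nonneg _) _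
  have hΛ0 : 0 < Λ := lt_of_lt_of_le (by positivity) hΛ
  have h2 : D * D ≤ (α * E1.card) * (α * E1.card) := mul_self_le_mul_self hD hc
  have h3 : Λ * ((E1.card : ℝ) * E1.card) < D * D := by
    have := mul_lt_mul_of_pos_left h1 hΛ0
    rwa [← mul_assoc Λ Λ⁻¹, mul_inv_cancel₀ hΛ0.ne', one_mul] at this
  have h4 : α ^ 2 * ((E1.card : ℝ) * E1.card) ≤ Λ * ((E1.card : ℝ) * E1.card) :=
    mul_le_mul_of_nonneg_right hΛ (by positivity)
  nlinarith

/-- a dense set of differences in the copy `j0`, each taken by two pairs in general position -/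
theorem core1 {κ : Type} [Fintype κ] [DecidableEq κ] {G : GT ι} {s g : ℕ} {R α Λ μ : ℝ}
    (hG : G.Ok s) (E1 : Finset (κ → ι → ℤ)) (j0 : κ) (hα : 2 ≤ α) (hΛ : α ^ 8 ≤ Λ) (hμ1 : 1 ≤ μ)
    (hμ : μ ^ Fintype.card κ ≤ α) (hD : 0 < G.dv (G.U1 g))
    (hB : ∀ B : Finset (ι → ℤ), (∀ x ∈ B, G.InL (G.U1 g) R x) → (B.card : ℝ) ≤ μ * G.dv (G.U1 g))
    (hB1 : ∀ B : Finset (ι → ℤ), (∀ x ∈ B, G.InL (G.U1 g) (2 * |R| + 1) x) →
      (B.card : ℝ) ≤ α * G.dv (G.U1 g))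
    (hE : ∀ h ∈ E1, ∀ j, G.InL (G.U1 g) R (h j))
    (hc : G.dv (G.U1 g) ^ Fintype.card κ ≤ α * E1.card)
    (hr : G.Rare (Unit ⊕ (κ ⊕ κ)) g (2 * |R| + 1) Λ⁻¹ fun h => ¬ (G.tan h).Zr s g Λ) :
    ∃ Y : Finset (ι → ℤ), G.dv (G.U1 g) ≤ α ^ 10 * Y.card ∧
      ∀ x ∈ Y, G.InL (G.U1 g) (2 * |R| + 1) x ∧ ∃ h1 ∈ E1, ∃ h2 ∈ E1,
        Function.update h1 j0 (h1 j0 + x) ∈ E1 ∧ Function.update h2 j0 (h2 j0 + x) ∈ E1 ∧
        (G.tan (Sum.elim (fun _ : Unit => x) (Sum.elim h1 h2))).Zr s g Λ := by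
  classical
  set D := G.dv (G.U1 g) with hDd
  have hα0 : 0 < α := by linarith
  have hΛ0 : 0 < Λ := lt_of_lt_of_le (by positivity) hΛ
  obtain ⟨m, hm⟩ : ∃ m, Fintype.card κ = m + 1 :=
    Nat.exists_eq_succ_of_ne_zero (Fintype.card_pos_iff.2 ⟨j0⟩).ne'
  set B : Finset (ι → ℤ) := E1.biUnion fun h => univ.image h with hBd
  have hBin : ∀ x ∈ B, G.InL (G.U1 g) R x := by
    intro x hx
    obtain ⟨h, hh, hx⟩ := mem_biUnion.1 hx
    obtain ⟨j, -, rfl⟩ := mem_image.1 hx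
    exact hE h hh j
  have hmemB : ∀ h ∈ E1, ∀ j, h j ∈ B := fun h hh j =>
    mem_biUnion.2 ⟨h, hh, mem_image_of_mem _ (mem_univ j)⟩
  have hBc := hB B hBin
  have hE1c : (E1.card : ℝ) ≤ α * D ^ (m + 1) := by
    have h1 : E1 ⊆ Fintype.piFinset fun _ : κ => B := fun h hh =>
      Fintype.mem_piFinset.2 (hmemB h hh)
    have h2 := card_le_card h1
    rw [Fintype.card_piFinset, prod_const, card_univ] at h2
    have h3 : (E1.card : ℝ) ≤ (B.card : ℝ) ^ Fintype.card κ := by exact_mod_cast h2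
    refine h3.trans ((pow_le_pow_left₀ (Nat.cast_nonneg _) hBc _).trans ?_)
    rw [mul_pow, ← hm]
    exact mul_le_mul_of_nonneg_right hμ (by positivity)
  set f : (κ → ι → ℤ) → (κ → ι → ℤ) := fun h => Function.update h j0 0 with hf
  set S : Finset (κ → ι → ℤ) :=
    Fintype.piFinset (Function.update (fun _ : κ => B) j0 {0}) with hSd
  have hfS : ∀ h ∈ E1, f h ∈ S := by
    intro h hh
    refine Fintype.mem_piFinset.2 fun j => ?_
    by_cases hj : j = j0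
    · subst hj; simp [hf]
    · simp only [hf, Function.update_of_ne hj]; exact hmemB h hh j
  have hSc : (S.card : ℝ) ≤ α * D ^ m := by
    have h1 : S.card = B.card ^ m := by
      rw [hSd, Fintype.card_piFinset, ← mul_prod_erase univ _ (mem_univ j0),
        Function.update_self, card_singleton, one_mul,
        prod_congr rfl (g := fun _ => B.card)
          (fun j hj => by rw [Function.update_of_ne (ne_of_mem_erase hj)]),
        prod_const, card_erase_of_mem (mem_univ j0), card_univ, hm, Nat.add_sub_cancel]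
    rw [h1]
    push_cast
    refine (pow_le_pow_left₀ (Nat.cast_nonneg _) hBc _).trans ?_
    rw [mul_pow]
    refine mul_le_mul_of_nonneg_right (le_trans ?_ hμ) (by positivity)
    exact pow_le_pow_right₀ hμ1 (by omega)
  have hcs := CntH41.cs E1 f S hfS
  set X := (E1 ×ˢ E1).filter fun p => f p.1 = f p.2 with hXd
  have hX : ∀ p ∈ X, p.1 ∈ E1 ∧ p.2 ∈ E1 ∧
      p.1 = Function.update p.2 j0 (p.2 j0 + (p.1 j0 - p.2 j0)) := by
    intro p hp
    obtain ⟨hp1, hp2⟩ := mem_filter.1 hp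
    refine ⟨(mem_product.1 hp1).1, (mem_product.1 hp1).2, funext fun j => ?_⟩
    by_cases hj : j = j0
    · subst hj; simp
    · have := congrFun hp2 j
      simpa only [hf, Function.update_of_ne hj] using this
  have hXc : D ^ (m + 2) ≤ α ^ 3 * X.card := by
    have h1 : (D ^ (m + 1)) ^ 2 ≤ (α * E1.card) ^ 2 :=
      pow_le_pow_left₀ (by positivity) (hm ▸ hc) 2
    have h2 : (E1.card : ℝ) ^ 2 ≤ α * D ^ m * X.card := by
      have h5 : (E1.card : ℝ) ^ 2 ≤ S.card * X.card := by convert hcs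
      exact h5.trans (mul_le_mul_of_nonneg_right hSc (Nat.cast_nonneg _))
    have h3 : D ^ (m + 2) * D ^ m ≤ (α ^ 3 * X.card) * D ^ m := by
      calc D ^ (m + 2) * D ^ m = (D ^ (m + 1)) ^ 2 := by ring
        _ ≤ α ^ 2 * (E1.card : ℝ) ^ 2 := by rw [← mul_pow]; exact h1
        _ ≤ α ^ 2 * (α * D ^ m * X.card) := mul_le_mul_of_nonneg_left h2 (by positivity)
        _ = _ := by ring
    exact le_of_mul_le_mul_right h3 (by positivity)
  set φ : (κ → ι → ℤ) × (κ → ι → ℤ) → (ι → ℤ) := fun p => p.1 j0 - p.2 j0 with hφd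
  have hφin : ∀ p ∈ X, G.InL (G.U1 g) (2 * |R| + 1) (φ p) := fun p hp =>
    inl_sub hG (hE _ (hX p hp).1 j0) (hE _ (hX p hp).2.1 j0)
  have hS2 : ((X.image φ).card : ℝ) ≤ α * D := hB1 _ (by
    intro x hx
    obtain ⟨p, hp, rfl⟩ := mem_image.1 hx
    exact hφin p hp)
  set bad : (κ → ι → ℤ) × (κ → ι → ℤ) → (κ → ι → ℤ) × (κ → ι → ℤ) → Prop := fun p p' =>
    ¬ (G.tan (Sum.elim (fun _ : Unit => φ p) (Sum.elim p.2 p'.2))).Zr s g Λ with hbad
  set T := (X ×ˢ X).filter fun p => φ p.1 = φ p.2 ∧ bad p.1 p.2 with hT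
  have hTc : (T.card : ℝ) ≤ Λ⁻¹ * D ^ (2 * m + 3) := by
    have h1 := hr (T.image fun p => Sum.elim (fun _ : Unit => φ p.1) (Sum.elim p.1.2 p.2.2)) (by
      intro h hh
      obtain ⟨p, hp, rfl⟩ := mem_image.1 hh
      obtain ⟨hp1, hp2⟩ := mem_filter.1 hp
      obtain ⟨hp3, hp4⟩ := mem_product.1 hp1
      refine ⟨fun j => ?_, hp2.2⟩
      rcases j with j | j | j
      · exact hφin _ hp3
      · exact (hE _ (hX _ hp3).2.1 j).mono (sq_le R)
      · exact (hE _ (hX _ hp4).2.1 j).mono (sq_le R))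
    rw [card_image_of_injOn, Fintype.card_sum, Fintype.card_sum, Fintype.card_unit, hm] at h1
    · have e : 1 + (m + 1 + (m + 1)) = 2 * m + 3 := by ring
      rw [e] at h1
      exact h1.le
    · intro p hp p' hp' h
      obtain ⟨hp1, hp2⟩ := mem_filter.1 (mem_coe.1 hp)
      obtain ⟨hp3, hp4⟩ := mem_product.1 hp1
      obtain ⟨hq1, hq2⟩ := mem_filter.1 (mem_coe.1 hp')
      obtain ⟨hq3, hq4⟩ := mem_product.1 hq1
      have e0 : φ p.1 = φ p'.1 := congrFun h (Sum.inl ())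
      have e1 : p.1.2 = p'.1.2 := funext fun j => congrFun h (Sum.inr (Sum.inl j))
      have e2 : p.2.2 = p'.2.2 := funext fun j => congrFun h (Sum.inr (Sum.inr j))
      have e3 : φ p.2 = φ p'.2 := by rw [← hp2.1, ← hq2.1, e0]
      have key : ∀ u ∈ X, ∀ v ∈ X, φ u = φ v → u.2 = v.2 → u = v := by
        intro u hu v hv a1 a2
        refine Prod.ext ?_ a2
        have b1 := (hX u hu).2.2
        have b2 := (hX v hv).2.2
        have a3 : u.1 j0 - u.2 j0 = v.1 j0 - v.2 j0 := a1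
        rw [a3, a2] at b1
        exact b1.trans b2.symm
      exact Prod.ext (key _ hp3 _ hq3 e0 e1) (key _ hp4 _ hq4 e3 e2)
  have hX2 : D ^ (2 * m + 4) ≤ α ^ 6 * (X.card : ℝ) ^ 2 := by
    have h1 := pow_le_pow_left₀ (by positivity) hXc 2
    calc D ^ (2 * m + 4) = (D ^ (m + 2)) ^ 2 := by ring
      _ ≤ (α ^ 3 * X.card) ^ 2 := h1
      _ = _ := by ring
  have hMb : 2 * (α * D) * (Λ⁻¹ * D ^ (2 * m + 3)) ≤ (X.card : ℝ) ^ 2 := by
    have h1 : Λ⁻¹ ≤ (α ^ 8)⁻¹ := inv_anti₀ (by positivity) hΛ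
    have h2 : 2 * (α * D) * (Λ⁻¹ * D ^ (2 * m + 3)) ≤ α * (α * D) * ((α ^ 8)⁻¹ * D ^ (2 * m + 3)) := by
      gcongr
    have h3 : α * (α * D) * ((α ^ 8)⁻¹ * D ^ (2 * m + 3)) = (α ^ 6)⁻¹ * D ^ (2 * m + 4) := by
      field_simp
      ring
    have h4 : (α ^ 6)⁻¹ * D ^ (2 * m + 4) ≤ (X.card : ℝ) ^ 2 := by
      rw [inv_mul_le_iff₀ (by positivity)]
      exact hX2
    linarith
  have hfib : ∀ y, ((X.filter fun p => φ p = y).card : ℝ) ≤ α * D ^ (m + 1) := by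
    intro y
    refine le_trans ?_ hE1c
    have : (X.filter fun p => φ p = y).card ≤ E1.card := by
      refine card_le_card_of_injOn (fun p => p.2) (fun p hp => ?_) ?_
      · exact (hX p (mem_filter.1 (mem_coe.1 hp)).1).2.1
      · intro u hu v hv a2
        obtain ⟨hu1, hu2⟩ := mem_filter.1 (mem_coe.1 hu)
        obtain ⟨hv1, hv2⟩ := mem_filter.1 (mem_coe.1 hv)
        have a2' : u.2 = v.2 := a2
        refine Prod.ext ?_ a2'
        have b1 := (hX u hu1).2.2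
        have b2 := (hX v hv1).2.2
        have a3 : u.1 j0 - u.2 j0 = v.1 j0 - v.2 j0 := hu2.trans hv2.symm
        rw [a3, a2'] at b1
        exact b1.trans b2.symm
    exact_mod_cast this
  obtain ⟨Y, hYS, hY1, hY2⟩ := CntH41.cs_img X φ (X.image φ) (fun p hp => mem_image_of_mem φ hp) bad
    (M := α * D) (b := Λ⁻¹ * D ^ (2 * m + 3)) (φ := α * D ^ (m + 1)) hS2
    (by convert hTc) hMb (fun y => by convert hfib y)
  refine ⟨Y, ?_, fun x hx => ?_⟩
  · have h1 : D * D ^ (2 * m + 3) ≤ (α ^ 10 * Y.card) * D ^ (2 * m + 3) := by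
      calc D * D ^ (2 * m + 3) = D ^ (2 * m + 4) := by ring
        _ ≤ α ^ 6 * (X.card : ℝ) ^ 2 := hX2
        _ ≤ α ^ 6 * (2 * (α * D) * (α * D ^ (m + 1)) ^ 2 * Y.card) :=
          mul_le_mul_of_nonneg_left hY1 (by positivity)
        _ ≤ α ^ 6 * (α * (α * D) * (α * D ^ (m + 1)) ^ 2 * Y.card) := by gcongr
        _ = _ := by ring
    exact le_of_mul_le_mul_right h1 (by positivity)
  · obtain ⟨p, hp, p', hp', e1, e2, hb⟩ := hY2 x hx
    have e1' : p.1 j0 - p.2 j0 = x := e1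
    have e2' : p'.1 j0 - p'.2 j0 = x := e2
    refine ⟨e1 ▸ hφin p hp, p.2, (hX p hp).2.1, p'.2, (hX p' hp').2.1, ?_, ?_, ?_⟩
    · rw [← e1', ← (hX p hp).2.2]; exact (hX p hp).1
    · rw [← e2', ← (hX p' hp').2.2]; exact (hX p' hp').1
    · rw [← e1]; exact not_not.1 hb

theorem nums {W β T R ω : ℝ} (hW : 1 ≤ W) (hβ : 64 ≤ β) (hT : 16 * (β ^ 2 * W) ≤ T)
    (hR : R ^ 2 ≤ W) (hω : ω ≤ W) :
    (∀ N : ℕ, (N : ℝ) ≤ β →
      Real.exp W * (2 * (N * Real.exp W * Real.exp ω) + 1) ^ N ≤ Real.exp T) ∧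
    (∀ n : ℕ, (n : ℝ) ≤ β → Real.exp (4 * R ^ 2 + 1) ^ n ≤ Real.exp T) ∧
    4 * (2 * |R| + 1) ^ 2 + 1 ≤ T ∧
    (∀ s N : ℕ, (s : ℝ) ≤ β → (N : ℝ) ≤ β →
      2 * ((2 ^ s + 1) * ((N + 1) * Real.exp W)) ≤ Real.exp T) := by
  have hb0 : 0 ≤ β := by linarith
  have hbW : β ≤ β * W := le_mul_of_one_le_right hb0 hW
  have hWb : 64 * W ≤ β * W := mul_le_mul_of_nonneg_right hβ (by linarith)
  have hbb : 64 * (β * W) ≤ β ^ 2 * W := by
    have := mul_le_mul_of_nonneg_right hβ (show 0 ≤ β * W by positivity)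
    nlinarith
  have hb2 : β ^ 2 ≤ β ^ 2 * W := le_mul_of_one_le_right (by positivity) hW
  refine ⟨fun N hN => ?_, fun n hn => ?_, ?_, fun s N hs hN => ?_⟩
  · have hN0 : (0 : ℝ) ≤ N := Nat.cast_nonneg N
    have h1 : 2 * (N * Real.exp W * Real.exp ω) + 1 ≤ Real.exp (2 * β + 2 * W) := by
      have h2 : Real.exp ω ≤ Real.exp W := Real.exp_le_exp.2 hω
      have h3 : 1 ≤ Real.exp W := Real.one_le_exp (by linarith)
      have h4 : 2 * β + 1 ≤ Real.exp (2 * β) := Real.add_one_le_exp _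
      have h5 : 1 ≤ Real.exp W * Real.exp W := one_le_mul_of_one_le_of_one_le h3 h3
      have h6 : N * Real.exp W * Real.exp ω ≤ β * (Real.exp W * Real.exp W) := by
        rw [← mul_assoc]; gcongr
      calc 2 * (N * Real.exp W * Real.exp ω) + 1 ≤ (2 * β + 1) * (Real.exp W * Real.exp W) := by
            nlinarith
        _ ≤ Real.exp (2 * β) * (Real.exp W * Real.exp W) := by gcongr
        _ = _ := by rw [← Real.exp_add, ← Real.exp_add]; ring_nf
    refine (mul_le_mul_of_nonneg_left (pow_le_pow_left₀ (by positivity) h1 N)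
      (Real.exp_pos _).le).trans ?_
    rw [← Real.exp_nat_mul, ← Real.exp_add]
    refine Real.exp_le_exp.2 ?_
    have h7 : N * (2 * β + 2 * W) ≤ β * (2 * β + 2 * W) :=
      mul_le_mul_of_nonneg_right hN (by linarith)
    nlinarith
  · rw [← Real.exp_nat_mul]
    refine Real.exp_le_exp.2 ?_
    have h7 : n * (4 * R ^ 2 + 1) ≤ β * (5 * W) :=
      mul_le_mul hn (by linarith) (by positivity) hb0
    nlinarith
  · have h4 : |R| ^ 2 = R ^ 2 := sq_abs R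
    nlinarith [sq_nonneg (2 * |R| - 1)]
  · have h1 : (2 : ℝ) ≤ Real.exp 1 := by have := Real.add_one_le_exp (1 : ℝ); linarith
    have h2 : (2 : ℝ) ^ (s + 2) ≤ Real.exp ((s + 2 : ℕ) * 1) := by
      rw [Real.exp_nat_mul]; exact pow_le_pow_left₀ (by norm_num) h1 _
    have h3 : (1 : ℝ) ≤ 2 ^ s := one_le_pow₀ (by norm_num)
    have h4 : (N : ℝ) + 1 ≤ Real.exp N := Real.add_one_le_exp _
    have h5 : 2 * ((2 : ℝ) ^ s + 1) ≤ Real.exp ((s + 2 : ℕ) * 1) := by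
      refine le_trans ?_ h2
      rw [pow_add]; linarith
    calc 2 * (((2 : ℝ) ^ s + 1) * ((N + 1) * Real.exp W))
        = (2 * ((2 : ℝ) ^ s + 1)) * ((N + 1) * Real.exp W) := by ring
      _ ≤ Real.exp ((s + 2 : ℕ) * 1) * (Real.exp N * Real.exp W) := by gcongr
      _ = Real.exp ((s + 2 : ℕ) * 1 + (N + W)) := by rw [Real.exp_add, Real.exp_add]
      _ ≤ _ := by
        refine Real.exp_le_exp.2 ?_
        push_cast
        linarith

end Vale.Agent.P057T.Eq.JbH38
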