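import Vale.Agent.P057T.Eq.JbAH38

/-! Row JB: assembly. -/

open MvPolynomial Finset

namespace Vale.Agent.P057T.Eq.JbH38

theorem n1 {a x T : ℝ} (ha : 1 ≤ a) (hx : 0 ≤ x) (h : 2 * ((a + 1) * x) ≤ T) :
    2 * x ≤ T ∧ x ≤ T ∧ (a + 1) * x ≤ T := by
  have : x ≤ a * x := le_mul_of_one_le_left hx ha
  refine ⟨?_, ?_, ?_⟩ <;> nlinarith

theorem n2 {N H T : ℝ} (hH : 1 ≤ H) (h : (N + 1) * H ≤ T) : 1 + N * H ≤ T := by
  linarith [add_mul N 1 H]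

theorem n3 {x T : ℝ} (h : 4 * x ^ 2 + 1 ≤ T) : x ^ 2 ≤ T := by
  linarith [sq_nonneg x]

theorem jb (s g : ℕ) (hCO : JCO) (hCN : JCNT) (h1 : JB1) (h2 : JB2) (h3 : JB3) (hT : TANOK)
    (hBa : BALL) (hD : DET) (hI : INT) (hZ : ZERO) (hJ : JZ s g) : JB s g := by
  classical
  intro r c
  have hBa' : ∃ cb : ℕ, 1 ≤ s → ∀ (ι : Type) [Fintype ι] [DecidableEq ι] (G : GT ι)
      (P R : ℝ) (g : ℕ) (E : Finset (ι → ℤ)), G.Ok s → Sz ι P 1 → G.Zr s g (P ^ cb) →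
      (∀ h ∈ E, G.InL (G.U1 g) R h) →
      (E.card : ℝ) ≤ Real.exp (4 * R ^ 2 + 1) * G.dv (G.U1 g) := by
    by_cases hs : 1 ≤ s
    · obtain ⟨cb, h⟩ := hBa s hs
      exact ⟨cb, fun _ => h⟩
    · exact ⟨0, fun h => absurd h hs⟩
  obtain ⟨cb, hcb⟩ := hBa'
  obtain ⟨ci, hci⟩ := hI s
  obtain ⟨c4, hc4⟩ : ∃ c4, c4 = c + 2 * (r + s + 6) + 4 := ⟨_, rfl⟩
  obtain ⟨c7, hc7⟩ : ∃ c7, c7 = ci + (c4 + 4) := ⟨_, rfl⟩
  obtain ⟨cz', hcz⟩ := hZ s (c7 + cb)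
  obtain ⟨cj, hcj⟩ := hJ (2 * r + 3) c7
  refine ⟨c7 + 1 + cz' + cj, ?_⟩
  intro ι κ _ _ _ _ G WW P Y R hG hW hS hκ hR hRg E hE
  have hP : 2 ≤ P := hS.P2
  have hY : 1 ≤ Y := hS.Y1
  have hP0 : 0 < P := by linarith
  have hW0 := hW.nn g
  obtain ⟨Z, hZd⟩ : ∃ Z, Z = Y + WW g := ⟨_, rfl⟩
  have hZ1 : 1 ≤ Z := by linarith
  have hmono : ∀ a b : ℕ, a ≤ b → P ^ a * Z ≤ P ^ b * Z := fun a b h =>
    mul_le_mul_of_nonneg_right (pw_le hP h) (by linarith)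
  have hone : ∀ a : ℕ, Z ≤ P ^ a * Z := fun a =>
    le_mul_of_one_le_left (by linarith) (one_le_pw hP a)
  have hDpos : 0 < G.dv (G.U1 g) := (hD s ι G hG).1 _ (A1H41.w1_U1 hG g).bk
  have hZr : G.Zr s g (Real.exp (P ^ (c7 + cb) * Z)) := hZd ▸ hcz ι G WW P Y g hG hW hS
    (hRg.mono (Nat.le_succ g) hW.nn (pw_pos hP _) (by linarith) (pw_le hP (by omega)) le_rfl)
  have hBig : G.Big g (Real.exp (P ^ (c7 + 1) * Z)) := (hRg g (Nat.lt_succ_self g)).1.mono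
    (Real.exp_le_exp.2 (hZd ▸ hmono _ _ (by omega)))
  have hRare : ∀ (κ' : Type) [Fintype κ'] [DecidableEq κ'] (R' : ℝ), Fintype.card κ' ≤ 2 * r + 3 →
      R' ^ 2 ≤ P ^ c7 * Z → G.Rare κ' g R' (Real.exp (-(P ^ c7 * Z)))
        fun h => ¬ (G.tan h).Zr s g (Real.exp (P ^ c7 * Z)) := by
    intro κ' _ _ R' hκ' hR'
    rw [hZd] at hR' ⊢
    exact hcj ι κ' G WW P Y R' hG hW hS hκ' hR'
      (hRg.mono (Nat.le_succ g) hW.nn (pw_pos hP _) (by linarith) (pw_le hP (by omega)) le_rfl)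
  rw [← hZd] at hR hE ⊢
  clear hcz hcj hRg
  by_contra hcon
  push Not at hcon
  obtain ⟨W, hWd⟩ : ∃ W, W = P ^ c * Z := ⟨_, rfl⟩
  obtain ⟨T, hTd⟩ : ∃ T, T = P ^ c4 * Z := ⟨_, rfl⟩
  rw [← hWd] at hR hE hcon
  have hZW : Z ≤ W := hWd ▸ hone c
  have hβ : (64 : ℝ) ≤ P ^ (r + s + 6) := by
    have h := pow_le_pow_left₀ (by norm_num : (0 : ℝ) ≤ 2) hP 6
    have h' := pw_le hP (show 6 ≤ r + s + 6 by omega)
    norm_num at h
    linarith
  have h16 : (16 : ℝ) ≤ P ^ 4 := by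
    have h := pow_le_pow_left₀ (by norm_num : (0 : ℝ) ≤ 2) hP 4
    norm_num at h
    exact h
  have hT16 : 16 * ((P ^ (r + s + 6)) ^ 2 * W) ≤ T := by
    have e : T = P ^ 4 * ((P ^ (r + s + 6)) ^ 2 * W) := by rw [hTd, hWd, hc4]; ring
    rw [e]
    exact mul_le_mul_of_nonneg_right h16 (mul_nonneg (by positivity) (by linarith))
  obtain ⟨na, nb, nc, nd⟩ := nums (R := R) (ω := WW g) (by linarith) hβ hT16 hR (by linarith)
  have hT1 : 1 ≤ T := by linarith [hTd ▸ hone c4]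
  have hrβ : ((r : ℕ) : ℝ) ≤ P ^ (r + s + 6) := (nat_le_pw hP r).trans (pw_le hP (by omega))
  have hsβ : ((s : ℕ) : ℝ) ≤ P ^ (r + s + 6) := (nat_le_pw hP s).trans (pw_le hP (by omega))
  have hκβ : (Fintype.card κ : ℝ) ≤ P ^ (r + s + 6) := le_trans (by exact_mod_cast hκ) hrβ
  have hιβ : (Fintype.card ι : ℝ) ≤ P ^ (r + s + 6) := by
    have := pw_le hP (show 1 ≤ r + s + 6 by omega)
    rw [pow_one] at this
    exact hS.cd.trans this
  have hNβ : (Fintype.card (G.TV κ) : ℝ) ≤ P ^ (r + s + 6) := by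
    have h := (hS.tv G κ hκ hY).cd
    have h' := mul_pw_le hP r 1
    rw [pow_one] at h'
    exact h.trans (h'.trans (pw_le hP (by omega)))
  have hY16 : 16 * T ≤ P ^ (c4 + 4) * Z := by
    have e : P ^ (c4 + 4) * Z = P ^ 4 * T := by rw [hTd]; ring
    rw [e]
    exact mul_le_mul_of_nonneg_right h16 (by linarith)
  have hY7 : P ^ (c4 + 4) * Z ≤ P ^ c7 * Z := hmono _ _ (by omega)
  have hpow : ∀ n : ℕ, n ≤ 16 → Real.exp T ^ n ≤ Real.exp (P ^ (c4 + 4) * Z) := by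
    intro n hn
    rw [← Real.exp_nat_mul]
    have : (n : ℝ) ≤ 16 := by exact_mod_cast hn
    exact Real.exp_le_exp.2 (le_trans (mul_le_mul_of_nonneg_right this (by linarith)) hY16)
  have hT4 : T ≤ P ^ (c4 + 4) * Z := by linarith
  have hT7 : T ≤ P ^ c7 * Z := hT4.trans hY7
  have hTΛ : Real.exp T ≤ Real.exp (P ^ c7 * Z) := Real.exp_le_exp.2 hT7
  have hH0 : 0 < Real.exp W := Real.exp_pos _
  -- the relations
  have hrel : ∀ h ∈ E, ∃ k : G.TV κ → ℤ, ∃ e : ℕ, ∃ I,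
      (∀ a, k a ≠ 0 → (G.tan h).g a = g ∧ (G.tan h).w a = e) ∧
      (G.tan h).Rel g e k (Real.exp W) I ∧ ∃ a, k a ≠ 0 ∧ a ∉ (G.tan h).ex := by
    intro h hh
    have hb := (hE h hh).2
    unfold GT.Big at hb
    push Not at hb
    obtain ⟨e, k, I, a1, a2, a3, a4, a5, a6⟩ := hb
    exact ⟨k, e, I, a1, ⟨a2, a3, a4, a5⟩, a6⟩
  choose! kf hkf using hrel
  obtain ⟨K, hK1, hK2⟩ := hCN s (G.TV κ) (G.tan (0 : κ → ι → ℤ)) WW g (Real.exp W)
    (hT s ι κ G 0 hG).1 ((hT s ι κ G 0 hG).2.2.2.1 WW hW) hH0.le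
  have hkK : ∀ h ∈ E, kf h ∈ K := by
    intro h hh
    obtain ⟨e, I, a1, a2, -⟩ := hkf h hh
    refine hK2 _ (fun a ha => (a1 a ha).1) ?_
    exact hCO s (G.TV κ) (G.tan h) g (cz (kf h)) I (Real.exp W) (hT s ι κ G h hG).1
      (fun a ha => (a1 a fun h0 => ha (by simp [cz, h0])).1) a2.2.1 a2.2.2.2
  have hDn : 0 < G.dv (G.U1 g) ^ Fintype.card κ := pow_pos hDpos _
  have hEpos : (0 : ℝ) < E.card := lt_of_lt_of_le (by positivity) hcon
  obtain ⟨h0, hh0⟩ : E.Nonempty := card_pos.1 (by exact_mod_cast hEpos)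
  obtain ⟨k, -, hpop⟩ := CntH41.pop E kf K ⟨_, hkK h0 hh0⟩ hkK
  obtain ⟨E1, hE1, hpop1⟩ : ∃ E1 : Finset (κ → ι → ℤ), (∀ h ∈ E1, h ∈ E ∧ kf h = k) ∧
      (E.card : ℝ) ≤ K.card * E1.card := ⟨_, fun h hh => by simpa only [mem_filter] using hh, hpop⟩
  have hc1 : G.dv (G.U1 g) ^ Fintype.card κ ≤ Real.exp T * E1.card := by
    have a1 : G.dv (G.U1 g) ^ Fintype.card κ ≤ Real.exp W * E.card := by
      have := mul_le_mul_of_nonneg_left hcon hH0.le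
      rwa [← mul_assoc, ← Real.exp_add, add_neg_cancel, Real.exp_zero, one_mul] at this
    have a2 : Real.exp W * K.card ≤ Real.exp T :=
      (mul_le_mul_of_nonneg_left hK1 hH0.le).trans (na _ hNβ)
    calc _ ≤ Real.exp W * E.card := a1
      _ ≤ Real.exp W * (K.card * E1.card) := mul_le_mul_of_nonneg_left hpop1 hH0.le
      _ = Real.exp W * K.card * E1.card := by ring
      _ ≤ _ := mul_le_mul_of_nonneg_right a2 (Nat.cast_nonneg _)
  obtain ⟨h1', hh1⟩ : E1.Nonempty := by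
    by_contra hne
    rw [not_nonempty_iff_eq_empty.1 hne, card_empty, Nat.cast_zero, mul_zero] at hc1
    exact absurd hc1 (not_le.2 hDn)
  obtain ⟨e, I1, hke, hrel1, a0, ha0, ha0ex⟩ := hkf h1' (hE1 _ hh1).1
  rw [(hE1 _ hh1).2] at hke hrel1 ha0
  have hall : ∀ h ∈ E1, ∃ I, (G.tan h).Rel g e k (Real.exp W) I := by
    intro h hh
    obtain ⟨e', I, b1, b2, -⟩ := hkf h (hE1 _ hh).1
    rw [(hE1 _ hh).2] at b1 b2
    have : e' = e := (b1 a0 ha0).2.symm.trans (hke a0 ha0).2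
    exact ⟨I, this ▸ b2⟩
  have hOk1 := (hT s ι κ G h1' hG).1
  have he1 : 1 ≤ e := (hke a0 ha0).2 ▸ hOk1.w1 a0
  have hes : e ≤ s := (hke a0 ha0).2 ▸ hOk1.ws a0
  have hin : ∀ h ∈ E1, ∀ j, G.InL (G.U1 g) R (h j) := fun h hh => (hE h (hE1 h hh).1).1
  have hball : ∀ (R' : ℝ) (B : Finset (ι → ℤ)), (∀ x ∈ B, G.InL (G.U1 g) R' x) →
      (B.card : ℝ) ≤ Real.exp (4 * R' ^ 2 + 1) * G.dv (G.U1 g) := by
    intro R' B hB
    refine hcb (by omega) ι G P R' g B hG (hS.mono le_rfl le_rfl) (hZr.mono ?_) hB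
    have a1 : P ^ cb ≤ P ^ (c7 + cb) := pw_le hP (by omega)
    have a2 : P ^ (c7 + cb) ≤ P ^ (c7 + cb) * Z := le_mul_of_one_le_right (by positivity) hZ1
    linarith only [Real.add_one_le_exp (P ^ (c7 + cb) * Z), a1, a2]
  have hnd := nd s _ hsβ hNβ
  have h2s : (1 : ℝ) ≤ 2 ^ s := one_le_pow₀ (by norm_num)
  have hNH : 0 ≤ ((Fintype.card (G.TV κ) : ℝ) + 1) * Real.exp W := by positivity
  have hR1 : (2 * |R| + 1) ^ 2 ≤ T := n3 nc
  have hR7 : (2 * |R| + 1) ^ 2 ≤ P ^ c7 * Z := hR1.trans hT7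
  obtain ⟨m1, m2, m3⟩ := n1 h2s hNH hnd
  have hΛΛ : Real.exp (P ^ c7 * Z) * Real.exp T ≤ Real.exp (P ^ (c7 + 1) * Z) := by
    rw [← Real.exp_add]
    refine Real.exp_le_exp.2 ?_
    have := mul_le_mul_of_nonneg_right (two_mul_pw hP c7) (zero_le_one.trans hZ1)
    linarith only [this, hT7]
  have hΛ1 : 1 ≤ Real.exp (P ^ c7 * Z) := Real.one_le_exp (zero_le_one.trans (hT1.trans hT7))
  by_cases hcase : ∀ x, k (Sum.inr x) ≠ 0 → x.2.1 ∈ G.ex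
  · obtain ⟨h, hh, h', hh', hz⟩ := core2 (s := s) (Λ := Real.exp (P ^ c7 * Z)) E1 (Real.exp_pos T)
      ((hpow 2 (by norm_num)).trans (Real.exp_le_exp.2 hY7)) hin hc1 (by
        rw [← Real.exp_neg]
        exact hRare (κ ⊕ κ) R (by rw [Fintype.card_sum]; omega) ((sq_le R).trans hR7))
    obtain ⟨I, hI1⟩ := hall h hh
    obtain ⟨I', hI2⟩ := hall h' hh'
    obtain ⟨I0, b1, b2, b3, b4⟩ := h1 s ι κ G g e (Real.exp W) k h h' I I' hG he1 hes hke hcase hI1 hI2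
      (hz.mono (m1.trans hTΛ))
    have hex := hBig e (fun a => k (Sum.inl a)) I0 (fun a ha => hke (Sum.inl a) ha) b1 b2 b3
      (b4.mono (m2.trans (le_trans (le_mul_of_one_le_left (Real.exp_pos T).le hΛ1) hΛΛ)))
    refine ha0ex (mem_filter.2 ⟨mem_univ _, ?_⟩)
    rcases a0 with a | x
    · exact hex a ha0
    · exact hcase x ha0
  · push Not at hcase
    obtain ⟨⟨j0, a1⟩, hk1, hk2⟩ := hcase
    have hes1 : e + 1 ≤ s := by
      have b1 : G.w a1.1 - 1 = e := (hke _ hk1).2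
      have b2 := hG.ws a1.1
      have b3 := a1.2
      omega
    have hα2 : 2 ≤ Real.exp T := by linarith only [Real.add_one_le_exp T, hT1]
    obtain ⟨Yd, hY1, hY2⟩ := core1 (s := s) (Λ := Real.exp (P ^ c7 * Z))
      (μ := Real.exp (4 * R ^ 2 + 1)) hG E1 j0 hα2
      ((hpow 8 (by norm_num)).trans (Real.exp_le_exp.2 hY7)) (Real.one_le_exp (by positivity))
      (nb _ hκβ) hDpos (hball R)
      (fun B hB => (hball _ B hB).trans
        (mul_le_mul_of_nonneg_right (Real.exp_le_exp.2 nc) hDpos.le)) hin hc1 (by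
        rw [← Real.exp_neg]
        exact hRare _ _ (by
          rw [Fintype.card_sum, Fintype.card_sum, Fintype.card_unit]; omega) hR7)
    obtain ⟨⟨f1, f2⟩, f3⟩ := h3 s ι κ G g e (Real.exp W) (Real.exp (P ^ c7 * Z)) k j0 h1' I1 hG hke
      hrel1
    have e7 : P ^ ci * (P ^ (c4 + 4) * Z) = P ^ c7 * Z := by rw [hc7]; ring
    have hAp := hci ι G P (P ^ (c4 + 4) * Z) (2 * |R| + 1) g e (G.Fk k j0) Yd hG
      (hS.mono le_rfl (hT1.trans hT4)) he1 hes1 (le_add_of_nonneg_left (by positivity))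
      (hR1.trans hT4) f1 f2
      (by rw [e7]; exact hZr.mono (Real.exp_le_exp.2 (hmono _ _ (by omega))))
      (by rw [e7]; exact hRare (Fin 3) _ (by rw [Fintype.card_fin]; omega) hR7)
      (by
        rw [Real.exp_neg, inv_mul_le_iff₀ (Real.exp_pos _)]
        exact hY1.trans (mul_le_mul_of_nonneg_right (hpow 10 (by norm_num)) (Nat.cast_nonneg _)))
      (by
        intro x hx
        obtain ⟨x1, u, hu, v, hv, hu', hv', hz⟩ := hY2 x hx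
        obtain ⟨Iu, hIu⟩ := hall u hu
        obtain ⟨Iv, hIv⟩ := hall v hv
        obtain ⟨Iu', hIu'⟩ := hall _ hu'
        obtain ⟨Iv', hIv'⟩ := hall _ hv'
        obtain ⟨J, j1, j2, j3, j4⟩ := h2 s ι κ G g e (Real.exp W) k j0 x u v Iu' Iu Iv' Iv hG he1 hes
          hke hIu' hIu hIv' hIv (hz.mono (hnd.trans hTΛ))
        have hTY : Real.exp T ≤ Real.exp (P ^ (c4 + 4) * Z) := Real.exp_le_exp.2 hT4
        refine ⟨x1, 1, J, le_rfl, ?_, j1, j2, j3, ?_⟩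
        · rw [Nat.cast_one]; exact (one_le_two.trans hα2).trans hTY
        · rw [Nat.cast_one, C_1, one_mul]
          exact j4.mono (m3.trans hTY))
    rw [e7] at hAp
    refine hk2 (f3 hAp (hBig.mono (le_trans ?_ hΛΛ)) a1 hk1)
    have b1 := nd s _ hsβ hιβ
    have b2 : 1 ≤ Real.exp W := Real.one_le_exp (zero_le_one.trans (hZ1.trans hZW))
    have b4 : 0 ≤ ((Fintype.card ι : ℝ) + 1) * Real.exp W := by positivity
    have b5 : 1 + Fintype.card ι * Real.exp W ≤ Real.exp T := n2 b2 (n1 h2s b4 b1).2.1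
    calc Real.exp (P ^ c7 * Z) + Real.exp (P ^ c7 * Z) * (Fintype.card ι * Real.exp W)
        = Real.exp (P ^ c7 * Z) * (1 + Fintype.card ι * Real.exp W) := by ring
      _ ≤ _ := mul_le_mul_of_nonneg_left b5 (Real.exp_pos _).le

end Vale.Agent.P057T.Eq.JbH38
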