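import Vale.Agent.P057T.Eq.Margs

/-! The trivial bound for the last groups. -/

set_option linter.all false

open MvPolynomial Finset
open scoped Real

namespace Vale.Agent.P057T.Eq

noncomputable section

namespace P1mH55

open MgA

variable {ι : Type} [Fintype ι] [DecidableEq ι] {G : GT ι}

lemma ms_nonneg (T : AT ι) : 0 ≤ G.ms T := tsum_nonneg fun _ => (Real.exp_pos _).le

lemma norm_sm_le (hS : SUMM) {s : ℕ} {T : AT ι} {P : ℝ} (hG : G.Ok s) (hP : 0 < P) (hA : G.AOk T P)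
    (Q : MvPolynomial ι ℝ) : ‖G.Sm T Q‖ ≤ G.ms T := by
  refine tsum_of_norm_bounded (hS s ι G T P hG hP hA).hasSum fun z => ?_
  have e : (2 * π * Complex.I * (eval (cz z.1) Q : ℝ) : ℂ) =
      ((2 * π * eval (cz z.1) Q : ℝ) : ℂ) * Complex.I := by
    push_cast
    ring
  rw [norm_mul, e, Complex.norm_exp_ofReal_mul_I, mul_one, Complex.norm_real]
  exact (Real.norm_of_nonneg (Real.exp_pos _).le).le

lemma dq_nonneg (σ : ι → ℝ) (S : Finset ι) (ξ : ι → ℝ) : 0 ≤ G.dq σ S ξ :=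
  Finset.sum_nonneg fun _ _ => sq_nonneg _

/-- the last stage of the groups `≥ g` -/
lemma last {s g : ℕ} {T : AT ι} {P : ℝ} (hG : G.Ok s) (hA : G.AOk T P)
    (hne : (T.U.filter (fun a => ¬ G.g a < g)).Nonempty) :
    ∃ S : Finset ι, S.Nonempty ∧ S ⊆ T.U.filter (fun a => ¬ G.g a < g) ∧ G.Bk S ∧
      ∀ a ∈ T.U, Disjoint (G.q a).vars S ∧ Disjoint (T.p a).vars S := by
  obtain ⟨a1, ha1, h1⟩ := Finset.exists_max_image _ G.g hne
  obtain ⟨a0, ha0, h0⟩ := Finset.exists_max_image (T.U.filter (fun a => G.g a = G.g a1)) G.w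
    ⟨a1, mem_filter.2 ⟨(mem_filter.1 ha1).1, rfl⟩⟩
  have hg1 : ¬ G.g a1 < g := (mem_filter.1 ha1).2
  have hle : ∀ a ∈ T.U, G.g a ≤ G.g a1 := by
    intro a ha
    by_cases h : G.g a < g
    · omega
    · exact h1 a (mem_filter.2 ⟨ha, h⟩)
  refine ⟨T.U.filter (fun a => G.g a = G.g a1 ∧ G.w a = G.w a0),
    ⟨a0, mem_filter.2 ⟨(mem_filter.1 ha0).1, (mem_filter.1 ha0).2, rfl⟩⟩, fun a ha => ?_,
    bk_filter hG hA.bk (fun x y => x = G.g a1 ∧ y = G.w a0), fun a ha => ⟨?_, ?_⟩⟩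
  · obtain ⟨h2, h3, -⟩ := mem_filter.1 ha
    exact mem_filter.2 ⟨h2, by rw [h3]; exact hg1⟩
  · refine Finset.disjoint_left.2 fun b hb hbS => ?_
    have h2 := hG.ql a b hb
    have h3 := (mem_filter.1 hbS).2.1
    have h4 := hle a ha
    omega
  · refine Finset.disjoint_left.2 fun b hb hbS => ?_
    have h2 := hA.pl a ha b hb
    obtain ⟨-, h3, h5⟩ := mem_filter.1 hbS
    have h4 := hle a ha
    have h6 := w_lt (hA.pd a ha) hb
    have h7 := h0 a (mem_filter.2 ⟨ha, by omega⟩)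
    omega

/-- summing out a block that no chart uses -/
lemma out (hP : POIS) (hS : SUMM) {s : ℕ} {T : AT ι} {P E : ℝ} {S : Finset ι} (hG : G.Ok s)
    (hP0 : 0 < P) (hA : G.AOk T P) (h1 : S ⊆ T.U) (h2 : G.Bk S)
    (h3 : ∀ a ∈ T.U, Disjoint (G.q a).vars S ∧ Disjoint (T.p a).vars S)
    (h4 : Summable (fun k : Lat S => Real.exp (-(π / 2) * G.dq T.sg S (cz k.1 - 0))))
    (h5 : ∑' k : Lat S, Real.exp (-(π / 2) * G.dq T.sg S (cz k.1 - 0)) ≤ E) :
    G.AOk (T.rs (T.U \ S)) P ∧ G.ms T ≤ E * G.mn T.sg S * G.ms (T.rs (T.U \ S)) := by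
  obtain ⟨hA1, hs⟩ := hP s ι G T P S 0 0 hG hP0 hA h1 h2 h3 (by simp)
  refine ⟨hA1, ?_⟩
  have e : (0 : MvPolynomial ι ℝ) + ∑ b ∈ S, C ((0 : ι → ℝ) b) * X b = 0 := by simp
  rw [e, sm_zero] at hs
  have hm := mn_nonneg hP0 hA S
  have hm' := ms_nonneg (G := G) (T.rs (T.U \ S))
  have hb := tsum_of_norm_bounded
    (h4.hasSum.mul_left (G.mn T.sg S * G.ms (T.rs (T.U \ S))))
    (f := fun k : Lat S => ((G.mn T.sg S * Real.exp (-π * G.dq T.sg S (cz k.1 - 0)) : ℝ) : ℂ) *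
      G.Sm (T.rs (T.U \ S)) (0 + ∑ b ∈ S, C ((0 : ι → ℝ) b - k.1 b) * G.cq T b)) fun k => by
      rw [norm_mul, Complex.norm_real, Real.norm_of_nonneg (mul_nonneg hm (Real.exp_pos _).le)]
      have h6 := norm_sm_le hS hG hP0 hA1 (0 + ∑ b ∈ S, C ((0 : ι → ℝ) b - k.1 b) * G.cq T b)
      have h7 : Real.exp (-π * G.dq T.sg S (cz k.1 - 0)) ≤
          Real.exp (-(π / 2) * G.dq T.sg S (cz k.1 - 0)) := by
        refine Real.exp_le_exp.2 ?_
        have := mul_nonneg Real.pi_pos.le (dq_nonneg (G := G) T.sg S (cz k.1 - 0))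
        linarith
      calc _ ≤ G.mn T.sg S * Real.exp (-(π / 2) * G.dq T.sg S (cz k.1 - 0)) *
            G.ms (T.rs (T.U \ S)) :=
            mul_le_mul (mul_le_mul_of_nonneg_left h7 hm) h6 (norm_nonneg _)
              (mul_nonneg hm (Real.exp_pos _).le)
        _ = _ := by ring
  rw [hs.tsum_eq, Complex.norm_real, Real.norm_of_nonneg (ms_nonneg T)] at hb
  refine hb.trans ?_
  calc _ ≤ G.mn T.sg S * G.ms (T.rs (T.U \ S)) * E :=
        mul_le_mul_of_nonneg_left h5 (mul_nonneg hm hm')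
    _ = _ := by ring

theorem p1m (hP : POIS) (hW : GW) (hD : DET) (hS : SUMM) : P1M := by
  intro s
  obtain ⟨c, hW⟩ := hW
  refine ⟨c + 1, ?_⟩
  intro ι _ _ G T WW P g hG hWd hSz hA
  have hP2 := hSz.P2
  have hP0 : 0 < P := by linarith
  have hw := hWd.nn g
  set E : ℝ := Real.exp (P ^ c * (1 + WW g)) with hE
  have hE1 : 1 ≤ E := Real.one_le_exp (by positivity)
  have key : ∀ n : ℕ, ∀ T : AT ι, G.AOk T P → (T.U.filter (fun a => ¬ G.g a < g)).card ≤ n →
      G.AOk (T.rs (T.U.filter (fun a => G.g a < g))) P ∧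
      G.ms T ≤ E ^ n * G.mn T.sg (T.U.filter (fun a => ¬ G.g a < g)) *
        G.ms (T.rs (T.U.filter (fun a => G.g a < g))) := by
    have base : ∀ (n : ℕ) (T : AT ι), G.AOk T P → T.U.filter (fun a => ¬ G.g a < g) = ∅ →
        G.AOk (T.rs (T.U.filter (fun a => G.g a < g))) P ∧
        G.ms T ≤ E ^ n * G.mn T.sg (T.U.filter (fun a => ¬ G.g a < g)) *
          G.ms (T.rs (T.U.filter (fun a => G.g a < g))) := by
      intro n T hA h
      have e1 : T.U.filter (fun a => G.g a < g) = T.U :=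
        Finset.filter_true_of_mem fun a ha => by
          by_contra h'
          have : a ∈ T.U.filter (fun a => ¬ G.g a < g) := mem_filter.2 ⟨ha, h'⟩
          rw [h] at this
          exact notMem_empty a this
      rw [e1, h, mn_empty hD hG, mul_one]
      exact ⟨hA, le_mul_of_one_le_left (ms_nonneg T) (one_le_pow₀ hE1)⟩
    intro n
    induction n with
    | zero => exact fun T hA h => base 0 T hA (Finset.card_eq_zero.1 (Nat.le_zero.1 h))
    | succ n ih =>
      intro T hA h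
      rcases (T.U.filter (fun a => ¬ G.g a < g)).eq_empty_or_nonempty with h0 | h0
      · exact base _ T hA h0
      obtain ⟨S, hne, hsub, hB, hdj⟩ := last hG hA h0
      obtain ⟨h4, h5⟩ := hW s ι G WW P T.sg S g 0 hG hWd hSz (fun a => ⟨hA.s1 a, hA.s2 a⟩) hB
        (fun a ha => not_lt.1 (mem_filter.1 (hsub ha)).2)
      obtain ⟨hA1, hb1⟩ := out hP hS hG hP0 hA (hsub.trans (filter_subset _ _)) hB hdj h4 h5
      have e1 : (T.U \ S).filter (fun a => G.g a < g) = T.U.filter (fun a => G.g a < g) := by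
        ext a
        simp only [mem_filter, mem_sdiff]
        exact ⟨fun h => ⟨h.1.1, h.2⟩, fun h => ⟨⟨h.1, fun h' => (mem_filter.1 (hsub h')).2 h.2⟩, h.2⟩⟩
      have e2 : (T.U \ S).filter (fun a => ¬ G.g a < g) = T.U.filter (fun a => ¬ G.g a < g) \ S := by
        ext a
        simp only [mem_filter, mem_sdiff]
        tauto
      obtain ⟨hA2, hb2⟩ := ih (T.rs (T.U \ S)) hA1 (by
        change ((T.U \ S).filter (fun a => ¬ G.g a < g)).card ≤ n
        rw [e2, Finset.card_sdiff_of_subset hsub]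
        have := hne.card_pos
        omega)
      change G.AOk (T.rs ((T.U \ S).filter (fun a => G.g a < g))) P at hA2
      change G.ms (T.rs (T.U \ S)) ≤ E ^ n * G.mn T.sg ((T.U \ S).filter (fun a => ¬ G.g a < g)) *
        G.ms (T.rs ((T.U \ S).filter (fun a => G.g a < g))) at hb2
      rw [e1] at hA2 hb2
      rw [e2] at hb2
      refine ⟨hA2, hb1.trans ?_⟩
      have hBV : G.Bk (T.U.filter (fun a => ¬ G.g a < g)) := bk_filter hG hA.bk (fun x _ => ¬ x < g)
      rw [mn_split hD hG T.sg hBV hB hsub]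
      calc _ ≤ E * G.mn T.sg S * (E ^ n * G.mn T.sg (T.U.filter (fun a => ¬ G.g a < g) \ S) *
            G.ms (T.rs (T.U.filter (fun a => G.g a < g)))) :=
            mul_le_mul_of_nonneg_left hb2 (mul_nonneg (by linarith) (mn_nonneg hP0 hA S))
        _ = _ := by ring
  obtain ⟨h1, h2⟩ := key (Fintype.card ι) T hA (Finset.card_le_univ _)
  refine ⟨h1, h2.trans ?_⟩
  refine mul_le_mul_of_nonneg_right (mul_le_mul_of_nonneg_right ?_ (mn_nonneg hP0 hA _))
    (ms_nonneg _)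
  rw [hE, ← Real.exp_nat_mul]
  refine Real.exp_le_exp.2 ?_
  rw [pow_succ', mul_assoc]
  exact mul_le_mul_of_nonneg_right hSz.cd (by positivity)

end P1mH55

end

end Vale.Agent.P057T.Eq
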