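import Vale.Agent.P057T.Eq.Asm
import Vale.Agent.P057T.Eq.Step
import Vale.Agent.P057T.Eq.Inv
import Vale.Agent.P057T.Eq.Bdw
import Vale.Agent.P057T.Eq.Tanok
import Vale.Agent.P057T.Eq.Loc
import Vale.Agent.P057T.Eq.Ztwo
import Vale.Agent.P057T.Eq.Ball
import Vale.Agent.P057T.Eq.Fib
import Vale.Agent.P057T.Eq.Slope
import Vale.Agent.P057T.Eq.Form
import Vale.Agent.P057T.Eq.Linv
import Vale.Agent.P057T.Eq.Int
import Vale.Agent.P057T.Eq.Jz
import Vale.Agent.P057T.Eq.Det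
import Vale.Agent.P057T.Eq.Summ
import Vale.Agent.P057T.Eq.Pois
import Vale.Agent.P057T.Eq.Gw
import Vale.Agent.P057T.Eq.P1m
import Vale.Agent.P057T.Eq.Derok
import Vale.Agent.P057T.Eq.Sq
import Vale.Agent.P057T.Eq.Marg
import Vale.Agent.P057T.Eq.Margs
import Vale.Agent.P057T.Eq.Tail
import Vale.Agent.P057T.Eq.Sub
import Vale.Agent.P057T.Eq.Eq1
import Vale.Agent.P057T.Eq.Zero

/-! Closed rows, and the theorem from the three rows ZERO, JB, SEL. -/

namespace Vale.Agent.P057T.Eq.Pre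

theorem cBD : BD := bd inv
theorem cLOC : LOC := loc cBD tanok
theorem cZ2 : Z2 := z2 cBD
theorem cZERO : ZERO := zero inv cBD cZ2
theorem cBALL : BALL := ball inv cBD
theorem cFIB : FIB := fib det0 gw
theorem cSLOPE : SLOPE := slope cBD tanok
theorem cFORM : FORM := form inv cBD tanok
theorem cLINV : LINV := linv inv
theorem cINT : INT := int cBD tanok det0 cBALL cSLOPE cFORM cLINV
theorem cDEROK : DEROK := derok tanok
theorem cSQ : SQ := sq summ tanok cDEROK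
theorem cTAIL0 : TAIL0 := tail0 pois gw det0

theorem jj (hZ : ZERO) (s : ℕ) (hjb : ∀ g, JZ s g → JB s g) : (∀ g, JZ s g) ∧ ∀ g, JB s g :=
  asmJ s (fun g h => jz s g tanok cLOC hZ cFIB det0 h) hjb

theorem eqs_of (hZ : ZERO) (s : ℕ) (hjb : ∀ g, JZ s g → JB s g)
    (hsel : (∀ g, JB s g) → ∀ d μ, MASS s d μ → SEL s d μ) :
    (∀ d, 1 ≤ d → d ≤ s → ∀ μ, EQS s d μ) ∧ (∀ d, d ≤ s → ∀ μ, MASS s d μ) ∧
      ∀ d, 1 ≤ d → d ≤ s → ∀ μ, MARGS s d μ := by
  obtain ⟨h1, h2⟩ := jj hZ s hjb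
  have a1 : ∀ d μ, 1 ≤ d → EQS s d μ → MASS s d μ → MARG s d μ :=
    fun d μ _ hE hM => marg s d μ pois gw p1m det0 summ hE hM
  have a2 : ∀ d μ, d + 2 ≤ s → SEL s (d + 2) μ → MARGS s (d + 2) μ → EQS s (d + 1) s →
      EQT s (d + 2) μ (d + 1) true :=
    fun d μ hd hS hM hE => step s d μ hd tanok cDEROK cLOC det0 cFIB hZ h1 cINT hS hM hE
  have a3 := asm s a1 (margs0 det0 s) (fun _ _ h => margs det0 h) (mass0 det0 s)
    (fun _ _ h h' => mass det0 h h') (fun _ _ h => tail cTAIL0 h) (sub s)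
    (fun μ => eq1 s μ inv cBD hZ det0) (hsel h2) a2
  refine ⟨asmE s a1 (margs0 det0 s) (fun _ _ h => margs det0 h) (mass0 det0 s)
    (fun _ _ h h' => mass det0 h h') (fun _ _ h => tail cTAIL0 h) (sub s)
    (fun μ => eq1 s μ inv cBD hZ det0) (hsel h2) a2, fun d hd μ => ?_, fun d h1 hd μ => ?_⟩
  · rcases a3 d hd μ with h | h
    · exact h.1
    · exact h.2
  · rcases a3 d hd μ with h | h
    · exact h.2
    · omega

end Vale.Agent.P057T.Eq.Pre
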