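import Vale.Agent.P057T.Eq.Defs

set_option linter.all false

open MvPolynomial Finset
open scoped Real

namespace Vale.Agent.P057T.Eq.SelH29

variable {ι : Type} [Fintype ι] [DecidableEq ι]

theorem bd_mono {G : GT ι} {F : MvPolynomial ι ℝ} {H H' : ℝ} (h : G.Bd F H) (hH : H ≤ H') :
    G.Bd F H' := by
  obtain ⟨b, h1, h2⟩ := h
  exact ⟨b, h1, h2.trans hH⟩

theorem big_mono {G : GT ι} {g : ℕ} {H H' : ℝ} (h : G.Big g H) (hH : H' ≤ H) : G.Big g H' :=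
  fun e k I h1 h2 h3 h4 h5 => h e k I h1 h2 h3 h4 (bd_mono h5 hH)

theorem small_mono {G : GT ι} {g : ℕ} {η η' : ℝ} (h : G.Small g η) (hη : η ≤ η') :
    G.Small g η' := by
  intro j hj hg
  obtain ⟨v, h1, h2, h3⟩ := h j hj hg
  exact ⟨v, h1, h2, fun a => (h3 a).trans hη⟩

theorem zr_mono {G : GT ι} {s g : ℕ} {H H' : ℝ} (h : G.Zr s g H) (hH : H' ≤ H) : G.Zr s g H' :=
  fun e F h1 h2 h3 h4 h5 h6 => h e F h1 h2 h3 h4 h5 (bd_mono h6 hH)

theorem thr_mono {a b a' b' : ℝ} (h1 : a' ≤ a) (h2 : b' ≤ b) (h3 : 0 < b') :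
    min (Real.exp (-a)) b⁻¹ ≤ min (Real.exp (-a')) b'⁻¹ :=
  min_le_min (Real.exp_le_exp.2 (neg_le_neg h1)) (inv_anti₀ h3 h2)

theorem rg_mono {G : GT ι} {WW : ℕ → ℝ} {c c' Y Y' : ℝ} {g0 g : ℕ} (h : G.Rg WW c Y g0)
    (hg : g ≤ g0) (h1 : ∀ x ≤ g, c' * (Y' + WW x) ≤ c * (Y + WW x))
    (h2 : ∀ x, 0 < c' * (Y' + WW x)) : G.Rg WW c' Y' g := by
  intro x hx
  obtain ⟨a, b⟩ := h x (lt_of_lt_of_le hx hg)
  exact ⟨big_mono a (Real.exp_le_exp.2 (h1 x hx.le)),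
    small_mono b (thr_mono (h1 (x + 1) hx) (h1 x hx.le) (h2 x))⟩

theorem pw_mono {P : ℝ} (hP : 2 ≤ P) {k l : ℕ} (h : k ≤ l) : P ^ k ≤ P ^ l :=
  pow_le_pow_right₀ (by linarith) h

theorem pw_one {P : ℝ} (hP : 2 ≤ P) (k : ℕ) : 1 ≤ P ^ k := one_le_pow₀ (by linarith)

theorem two_pw {P : ℝ} (hP : 2 ≤ P) (k : ℕ) : (2 * P) ^ k ≤ P ^ (2 * k) := by
  rw [pow_mul]
  exact pow_le_pow_left₀ (by linarith) (by nlinarith) k

theorem pw_succ {P : ℝ} (hP : 2 ≤ P) (k : ℕ) : 2 * P ^ k ≤ P ^ (k + 1) := by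
  rw [pow_succ]
  have := pw_one hP k
  nlinarith

theorem pw_add2 {P : ℝ} (hP : 2 ≤ P) (k : ℕ) : 4 * P ^ k ≤ P ^ (k + 2) := by
  have h1 := pw_succ hP k
  have h2 := pw_succ hP (k + 1)
  linarith

theorem pw_add3 {P : ℝ} (hP : 2 ≤ P) (k : ℕ) : 8 * P ^ k ≤ P ^ (k + 3) := by
  have h1 := pw_add2 hP k
  have h2 := pw_succ hP (k + 2)
  linarith

theorem rg_pw {G : GT ι} {WW : ℕ → ℝ} (hW : G.Wd WW) {P Y K : ℝ} (hP : 2 ≤ P) (hY : 1 ≤ Y)
    {c g0 g : ℕ} (h : G.Rg WW (P ^ c) Y g0) (hg : g ≤ g0) (hK : 0 < K) (hK' : K ≤ P ^ c) :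
    G.Rg WW K Y g := by
  refine rg_mono h hg (fun x _ => ?_) (fun x => ?_)
  · have := hW.nn x
    gcongr
  · have := hW.nn x
    positivity

theorem w_le_of_vars {G : GT ι} {e : ℕ} {F : MvPolynomial ι ℝ} (h : G.Hm e F) {b : ι}
    (hb : b ∈ F.vars) : G.w b ≤ e := by
  obtain ⟨m, hm, hbm⟩ := (mem_vars b).1 hb
  have h1 := h (mem_support_iff.1 hm)
  rw [← h1]
  exact Finsupp.le_weight_of_ne_zero' G.w (Finsupp.mem_support_iff.1 hbm)

theorem mn_pos (hD : DET) {s : ℕ} {G : GT ι} (hG : G.Ok s) {σ : ι → ℝ} (hσ : ∀ a, 0 < σ a)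
    {V : Finset ι} (hV : G.Bk V) : 0 < G.mn σ V :=
  mul_pos ((hD s ι G hG).1 V hV) (Finset.prod_pos fun a _ => inv_pos.2 (hσ a))

theorem sg_pos {G : GT ι} {T : AT ι} {P : ℝ} (hP : 0 < P) (hA : G.AOk T P) (a : ι) :
    0 < T.sg a := lt_of_lt_of_le (inv_pos.2 hP) (hA.s1 a)

theorem ms_nonneg (G : GT ι) (T : AT ι) : 0 ≤ G.ms T :=
  tsum_nonneg fun _ => (Real.exp_pos _).le

theorem norm_Sm_le (hS : SUMM) {s : ℕ} {G : GT ι} {T : AT ι} {P : ℝ} (hG : G.Ok s) (hP : 0 < P)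
    (hA : G.AOk T P) (Q : MvPolynomial ι ℝ) : ‖G.Sm T Q‖ ≤ G.ms T := by
  have h := hS s ι G T P hG hP hA
  refine tsum_of_norm_bounded h.hasSum fun z => ?_
  have h0 : 0 ≤ G.nu T z.1 := (Real.exp_pos _).le
  rw [norm_mul, Complex.norm_real, Real.norm_of_nonneg h0, Complex.norm_exp]
  simp

/-- mass bound: regular below `g`, trivial above -/
def MSB (s d μ : ℕ) : Prop := ∃ c : ℕ, ∀ (ι : Type) [Fintype ι] [DecidableEq ι] (G : GT ι)
  (T : AT ι) (WW : ℕ → ℝ) (P Y : ℝ) (g : ℕ), G.Ok s → G.Wd WW → Sz ι P Y → G.AOk T P → g ≤ s →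
    G.Rg WW (P ^ c) Y g → G.Inv d g T.U → G.cnt d g T.U ≤ μ →
    G.ms T ≤ Real.exp (P ^ c * (1 + WW g)) * G.mn T.sg T.U

theorem msb {s d μ : ℕ} (hD : DET) (hP1 : P1M) (hM : MASS s d μ) : MSB s d μ := by
  obtain ⟨cP, hP1⟩ := hP1 s
  obtain ⟨cM, hM⟩ := hM
  refine ⟨cP + cM + 1, ?_⟩
  intro ι _ _ G T WW P Y g hG hW hS hA hg hR hI hc
  have hP := hS.P2
  obtain ⟨hA', h1⟩ := hP1 ι G T WW P g hG hW ⟨hS.cd, hP, le_rfl⟩ hA
  have h2 := hM ι G (T.rs (T.U.filter (fun a => G.g a < g))) WW P Y g hG hW hS hA' hg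
    (rg_pw hW hP hS.Y1 hR le_rfl (by positivity) (pw_mono hP (by omega)))
    (fun a ha => hI a (Finset.mem_filter.1 ha).1)
    (by
      refine le_trans (Finset.card_le_card (Finset.image_subset_image ?_)) hc
      exact Finset.filter_subset_filter _ (Finset.filter_subset _ _))
    (fun a ha => (Finset.mem_filter.1 ha).2)
  have hσ := sg_pos (by linarith) hA
  have hm1 : 0 < G.mn T.sg (T.U.filter (fun a => G.g a < g)) := mn_pos hD hG hσ hA'.bk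
  have hsp : G.mn T.sg T.U = G.mn T.sg (T.U.filter (fun a => G.g a < g)) *
      G.mn T.sg (T.U.filter (fun a => ¬ G.g a < g)) := by
    unfold GT.mn
    rw [(hD s ι G hG).2.2.1 T.U (T.U.filter (fun a => G.g a < g)) hA.bk hA'.bk
        (Finset.filter_subset _ _),
      ← Finset.prod_filter_mul_prod_filter_not T.U (fun a => G.g a < g), Finset.filter_not]
    ring
  have hm0 : 0 < G.mn T.sg T.U := mn_pos hD hG hσ hA.bk
  have hm2 : 0 < G.mn T.sg (T.U.filter (fun a => ¬ G.g a < g)) := by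
    rw [hsp] at hm0
    exact (mul_pos_iff_of_pos_left hm1).1 hm0
  have h3 : G.ms (T.rs (T.U.filter (fun a => G.g a < g))) ≤
      2 * G.mn T.sg (T.U.filter (fun a => G.g a < g)) := by
    have h4 := (abs_le.1 h2).2
    have h5 : Real.exp (-Y) ≤ 1 := Real.exp_le_one_iff.2 (by linarith [hS.Y1])
    change _ - G.mn T.sg (T.U.filter (fun a => G.g a < g)) ≤
      Real.exp (-Y) * G.mn T.sg (T.U.filter (fun a => G.g a < g)) at h4
    nlinarith
  have hw := hW.nn g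
  have h6 : 2 * Real.exp (P ^ cP * (1 + WW g)) ≤ Real.exp (P ^ (cP + cM + 1) * (1 + WW g)) := by
    have h7 : (2 : ℝ) ≤ Real.exp 1 := by have := Real.add_one_le_exp (1 : ℝ); linarith
    have h8 : 2 * P ^ cP ≤ P ^ (cP + cM + 1) := (pw_succ hP cP).trans (pw_mono hP (by omega))
    have h9 := pw_one hP cP
    calc 2 * Real.exp (P ^ cP * (1 + WW g)) ≤ Real.exp 1 * Real.exp (P ^ cP * (1 + WW g)) := by
          gcongr
      _ = Real.exp (1 + P ^ cP * (1 + WW g)) := (Real.exp_add _ _).symm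
      _ ≤ _ := Real.exp_le_exp.2 (by nlinarith)
  calc G.ms T ≤ Real.exp (P ^ cP * (1 + WW g)) * G.mn T.sg (T.U.filter (fun a => ¬ G.g a < g)) *
        (2 * G.mn T.sg (T.U.filter (fun a => G.g a < g))) := h1.trans (by gcongr)
    _ = 2 * Real.exp (P ^ cP * (1 + WW g)) * G.mn T.sg T.U := by rw [hsp]; ring
    _ ≤ _ := by gcongr

/-- all weight one variables -/
def W1 (G : GT ι) : Finset ι := univ.filter (fun a => G.w a = 1)

theorem W1_bk {s : ℕ} {G : GT ι} (hG : G.Ok s) : G.Bk (W1 G) := by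
  intro a b h
  simp [W1, (hG.blk a b h).2]

theorem U1_bk {s : ℕ} {G : GT ι} (hG : G.Ok s) (g : ℕ) : G.Bk (G.U1 g) := by
  intro a b h
  simp [GT.U1, (hG.blk a b h).2, (hG.blk a b h).1]

/-- FIB for one copy and all weight one variables -/
theorem fib1 (hF : FIB) (s : ℕ) : ∃ c : ℕ, ∀ (ι : Type) [Fintype ι] [DecidableEq ι] (G : GT ι)
    (WW : ℕ → ℝ) (P R : ℝ) (g : ℕ) (E : Finset (ι → ℤ)), G.Ok s → G.Wd WW → Sz ι P 1 →
    (∀ h ∈ E, G.InL (W1 G) R h) → (∀ h ∈ E, G.InL (G.U1 g) R (G.res g h)) ∧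
    (E.card : ℝ) * G.dv (G.U1 g) ≤ Real.exp (P ^ c * (1 + R ^ 2 + WW g)) * G.dv (W1 G) *
      ((E.image (G.res g)).card : ℝ) := by
  obtain ⟨c, hF⟩ := hF s
  refine ⟨c, ?_⟩
  intro ι _ _ G WW P R g E hG hW hS hE
  have hinj : Function.Injective (fun (h : ι → ℤ) (_ : Unit) => h) := fun a b h => congrFun h ()
  have h := hF ι Unit G WW P R g (W1 G) (E.image (fun h _ => h)) hG hW hS
    (by simp; linarith [hS.P2]) (W1_bk hG) (fun a ha => (Finset.mem_filter.1 ha).2)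
    (fun a ha b hb => by
      have h1 := w_le_of_vars (hG.qh a) hb
      have h2 := (Finset.mem_filter.1 ha).2
      have h3 := hG.w1 b
      simp only [W1, Finset.mem_filter, Finset.mem_univ, true_and]
      omega)
    (fun a ha => by
      simp only [W1, GT.U1, Finset.mem_filter, Finset.mem_univ, true_and] at ha ⊢
      exact ha.1)
    (fun h hh j => by
      obtain ⟨x, hx, rfl⟩ := Finset.mem_image.1 hh
      exact hE x hx)
  obtain ⟨h1, h2⟩ := h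
  refine ⟨fun h hh => h1 _ (Finset.mem_image_of_mem _ hh) (), ?_⟩
  rw [Finset.card_image_of_injective _ hinj, Finset.image_image] at h2
  have e : E.image ((fun (h : Unit → ι → ℤ) j => G.res g (h j)) ∘ fun h _ => h) =
      (E.image (G.res g)).image (fun (h : ι → ℤ) (_ : Unit) => h) := by
    rw [Finset.image_image]; rfl
  rw [e, Finset.card_image_of_injective _ hinj] at h2
  simpa using h2

/-- number of points in the ball of all weight one variables -/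
theorem cntb (hD : DET) (hF : FIB) (hB : BALL) (hZ : ZERO) (s : ℕ) : ∃ c : ℕ,
    ∀ (ι : Type) [Fintype ι] [DecidableEq ι] (G : GT ι) (WW : ℕ → ℝ) (P Y R : ℝ) (g : ℕ)
    (E : Finset (ι → ℤ)), G.Ok s → G.Wd WW → Sz ι P Y → g ≤ s → G.Rg WW (P ^ c) Y g →
    (∀ h ∈ E, G.InL (W1 G) R h) →
    (E.card : ℝ) ≤ Real.exp (P ^ c * (1 + R ^ 2 + WW g)) * G.dv (W1 G) := by
  obtain ⟨cF, hF⟩ := fib1 hF s
  have hB' : ∃ c : ℕ, ∀ (ι : Type) [Fintype ι] [DecidableEq ι] (G : GT ι)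
      (P R : ℝ) (g : ℕ) (E : Finset (ι → ℤ)), g ≤ s → G.Ok s → Sz ι P 1 → G.Zr s g (P ^ c) →
      (∀ h ∈ E, G.InL (G.U1 g) R h) →
      (E.card : ℝ) ≤ Real.exp (4 * R ^ 2 + 1) * G.dv (G.U1 g) := by
    rcases Nat.eq_zero_or_pos s with h0 | h0
    · refine ⟨0, ?_⟩
      intro ι _ _ G P R g E hg hG hS _ hE
      have hU : G.U1 g = ∅ := by
        ext a; simp only [GT.U1, Finset.mem_filter, Finset.mem_univ, true_and]
        simp; omega
      rw [hU, (hD s ι G hG).2.1, mul_one]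
      have : E.card ≤ 1 := by
        rw [Finset.card_le_one]
        intro a ha b hb
        funext i
        have h1 := (hE a ha).1 i (by rw [hU]; simp)
        have h2 := (hE b hb).1 i (by rw [hU]; simp)
        rw [h1, h2]
      have h3 : (E.card : ℝ) ≤ 1 := by exact_mod_cast this
      exact h3.trans (Real.one_le_exp (by positivity))
    · obtain ⟨c, h⟩ := hB s h0
      exact ⟨c, fun ι _ _ G P R g E _ => h ι G P R g E⟩
  obtain ⟨cB, hB'⟩ := hB'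
  obtain ⟨cZ, hZ⟩ := hZ s cB
  refine ⟨cF + cZ + 3, ?_⟩
  intro ι _ _ G WW P Y R g E hG hW hS hg hR hE
  have hP := hS.P2
  have hY := hS.Y1
  have hw := hW.nn g
  have hS1 : Sz ι P 1 := ⟨hS.cd, hP, le_rfl⟩
  obtain ⟨h1, h2⟩ := hF ι G WW P R g E hG hW hS1 hE
  have h3 := hZ ι G WW P Y g hG hW hS
    (rg_pw hW hP hY hR le_rfl (by positivity) (pw_mono hP (by omega)))
  have h4 := hB' ι G P R g (E.image (G.res g)) hg hG hS1 (zr_mono h3 (by
      have h5 := Real.add_one_le_exp (P ^ cB * (Y + WW g))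
      have h6 := pw_one hP cB
      nlinarith))
    (fun h hh => by
      obtain ⟨x, hx, rfl⟩ := Finset.mem_image.1 hh
      exact h1 x hx)
  have hd := (hD s ι G hG).1 _ (U1_bk hG g)
  have hd' := (hD s ι G hG).1 _ (W1_bk hG)
  have h7 : (E.card : ℝ) * G.dv (G.U1 g) ≤ (Real.exp (P ^ cF * (1 + R ^ 2 + WW g)) *
      Real.exp (4 * R ^ 2 + 1) * G.dv (W1 G)) * G.dv (G.U1 g) := by
    refine h2.trans ?_
    calc _ ≤ Real.exp (P ^ cF * (1 + R ^ 2 + WW g)) * G.dv (W1 G) *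
          (Real.exp (4 * R ^ 2 + 1) * G.dv (G.U1 g)) := by gcongr
      _ = _ := by ring
  refine (le_of_mul_le_mul_right h7 hd).trans ?_
  rw [← Real.exp_add]
  gcongr
  have h8 : 8 * P ^ cF ≤ P ^ (cF + cZ + 3) := (pw_add3 hP cF).trans (pw_mono hP (by omega))
  have h9 := pw_one hP cF
  have h10 := sq_nonneg R
  nlinarith

/-- number of points with an irregular group `g` -/
theorem badb (hD : DET) (hF : FIB) (hL : LOC) (s : ℕ) (hJ : ∀ g, JB s g) : ∃ cF : ℕ, ∀ c3 : ℕ,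
    ∃ c : ℕ, ∀ (ι : Type) [Fintype ι] [DecidableEq ι] (G : GT ι) (WW : ℕ → ℝ) (P Y R : ℝ)
    (g g0 : ℕ) (E : Finset (ι → ℤ)), G.Ok s → G.Wd WW → Sz ι P Y → g < g0 → g0 ≤ s →
    G.Rg WW (P ^ c) Y g0 → R ^ 2 ≤ P ^ c3 * (Y + WW g) →
    (∀ h ∈ E, G.InL (W1 G) R h ∧
      ¬ (G.tan fun _ : Unit => h).Big g (Real.exp (P ^ c3 * (Y + WW g)))) →
    (E.card : ℝ) ≤ Real.exp (P ^ cF * (1 + R ^ 2 + WW g)) * Real.exp (-(P ^ c3 * (Y + WW g))) *
      G.dv (W1 G) := by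
  obtain ⟨cF, hF⟩ := fib1 hF s
  refine ⟨cF, fun c3 => ?_⟩
  choose cJ hJ' using fun g => hJ g 1 c3
  refine ⟨∑ g ∈ range s, cJ g, ?_⟩
  intro ι _ _ G WW P Y R g g0 E hG hW hS hg hg0 hR hR2 hE
  have hP := hS.P2
  have hY := hS.Y1
  have hS1 : Sz ι P 1 := ⟨hS.cd, hP, le_rfl⟩
  obtain ⟨h1, h2⟩ := hF ι G WW P R g E hG hW hS1 (fun h hh => (hE h hh).1)
  have hle : cJ g ≤ ∑ g ∈ range s, cJ g :=
    Finset.single_le_sum (f := cJ) (fun _ _ => Nat.zero_le _) (Finset.mem_range.2 (by omega))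
  have h3 := hJ' g ι Unit G WW P Y R hG hW hS (by simp) hR2
    (rg_pw hW hP hY hR hg (by positivity) (pw_mono hP hle))
    ((E.image (G.res g)).image (fun (h : ι → ℤ) (_ : Unit) => h)) (fun h hh => by
      obtain ⟨x, hx, rfl⟩ := Finset.mem_image.1 hh
      obtain ⟨y, hy, rfl⟩ := Finset.mem_image.1 hx
      refine ⟨fun _ => h1 y hy, fun hb => (hE y hy).2 ?_⟩
      exact (hL s ι Unit G (fun _ => G.res g y) (fun _ => y) g hG
        (fun _ a _ ha => by simp [GT.res, ha])).2.1 _ hb)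
  have hinj : Function.Injective (fun (h : ι → ℤ) (_ : Unit) => h) := fun a b h => congrFun h ()
  rw [Finset.card_image_of_injective _ hinj, Fintype.card_unit, pow_one] at h3
  have hd := (hD s ι G hG).1 _ (U1_bk hG g)
  have hd' := (hD s ι G hG).1 _ (W1_bk hG)
  have h7 : (E.card : ℝ) * G.dv (G.U1 g) ≤ (Real.exp (P ^ cF * (1 + R ^ 2 + WW g)) *
      Real.exp (-(P ^ c3 * (Y + WW g))) * G.dv (W1 G)) * G.dv (G.U1 g) := by
    refine h2.trans ?_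
    calc _ ≤ Real.exp (P ^ cF * (1 + R ^ 2 + WW g)) * G.dv (W1 G) *
          (Real.exp (-(P ^ c3 * (Y + WW g))) * G.dv (G.U1 g)) := by gcongr
      _ = _ := by ring
  exact le_of_mul_le_mul_right h7 hd

end Vale.Agent.P057T.Eq.SelH29
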