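import Vale.Agent.P057T.Eq.Eq1
import Vale.Agent.P057T.Eq.Step
import Vale.Agent.P057T.Eq.Margs

/-! Equidistribution on a regular tower without restriction on the active weights. -/

open MvPolynomial Finset Matrix
open scoped Real
open Vale.Agent.P267.H775

namespace Vale.Agent.P057T.Eq

noncomputable section

set_option linter.unusedSectionVars false

/-- delete all stages of weight `> d` -/
def RED (s d k : ℕ) : Prop := ∃ c : ℕ, ∀ (ι : Type) [Fintype ι] [DecidableEq ι] (G : GT ι) (T : AT ι)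
  (WW : ℕ → ℝ) (P Y : ℝ) (g0 : ℕ) (Q : MvPolynomial ι ℝ), G.Ok s → G.Wd WW → Sz ι P Y → G.AOk T P →
    g0 ≤ s → (∀ a ∈ T.U, G.g a < g0) → G.Rg WW (P ^ c) Y g0 → G.Inv (d + k) g0 T.U →
    Q.vars ⊆ T.U → G.Dl (d + 1) Q → Real.exp (-Y) * G.mn T.sg T.U ≤ ‖G.Sm T Q‖ →
    G.AOk (T.rs (T.U.filter (fun a => G.w a < d + 1))) P ∧
      Real.exp (-(Y + k)) * G.mn T.sg (T.U.filter (fun a => G.w a < d + 1)) ≤
        ‖G.Sm (T.rs (T.U.filter (fun a => G.w a < d + 1))) Q‖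

theorem red (hdet : DET) (s d : ℕ) (hM : ∀ e, d < e → e ≤ s → MARGS s e s) :
    ∀ k, d + k ≤ s → RED s d k := by
  intro k
  induction k with
  | zero =>
    intro _
    refine ⟨0, fun ι _ _ G T WW P Y g0 Q hG hW hS hA _ hg _ hI _ _ hb => ?_⟩
    have e1 : T.U.filter (fun a => G.w a < d + 1) = T.U :=
      filter_true_of_mem fun a ha => Nat.lt_succ_of_le (hI a ha (hg a ha))
    rw [e1, Nat.cast_zero, add_zero]
    exact ⟨hA, hb⟩
  | succ k ih =>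
    intro hk
    obtain ⟨c1, h1⟩ := ih (by omega)
    obtain ⟨c2, h2⟩ := hM (d + (k + 1)) (by omega) hk
    refine ⟨c1 + c2 + 1, fun ι _ _ G T WW P Y g0 Q hG hW hS hA hg0 hg hR hI hQ hD hb => ?_⟩
    have hP0 : 0 < P := by linarith [hS.P2]
    have hS' := MgA.sz_shift hS 1
    have hR1 := MgA.rg_shift (c := c1) (n := 1) hW hS hR (by omega)
    have hR2 := MgA.rg_shift (c := c2) (n := 1) hW hS hR (by omega)
    rw [Nat.cast_one] at hS' hR1 hR2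
    obtain ⟨hA1, hb1⟩ := h2 ι G T WW P (Y + 1) g0 Q hG hW hS' hA hg0 hR2 hI (Step.cnt_le hG _ _ _)
      (fun a ha h => absurd (hg a ha) (not_lt.2 h)) hQ (hD.mono (by omega))
    have hσ : ∀ a, 0 < T.sg a := fun a => (inv_pos.2 hP0).trans_le (hA.s1 a)
    have hsp := Step.mn_split hdet hG T.sg hA.bk hA1.bk (filter_subset _ _)
    have hb2 := Step.bias_step (Step.mn_pos hdet hG hσ (Step.bk_sdiff hA.bk hA1.bk))
      (Step.mn_pos hdet hG hσ hA1.bk).le hsp (Step.mn_not _ _ _) hb hb1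
    have h3 := h1 ι G (T.rs (T.U.filter fun a => G.w a < d + (k + 1))) WW P (Y + 1) g0 Q hG hW hS'
      hA1 hg0 (fun a ha => hg a (mem_filter.1 ha).1) hR1
      (fun a ha _ => Nat.lt_succ_iff.1 (mem_filter.1 ha).2)
      (fun a ha => mem_filter.2 ⟨hQ ha, (Step.lt_of_vars hD ha).trans_le (by omega)⟩) hD hb2
    have e1 : (T.rs (T.U.filter fun a => G.w a < d + (k + 1))).U.filter (fun a => G.w a < d + 1)
        = T.U.filter (fun a => G.w a < d + 1) := by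
      show (T.U.filter fun a => G.w a < d + (k + 1)).filter (fun a => G.w a < d + 1) = _
      rw [filter_filter]
      exact filter_congr fun a _ => ⟨fun h => h.2, fun h => ⟨by omega, h⟩⟩
    rw [e1] at h3
    have e2 : Y + ((k + 1 : ℕ) : ℝ) = Y + 1 + k := by push_cast; ring
    rw [e2]
    exact h3

/-- the conclusion with a multiplier `n ≤ N` -/
def GT.Apn {ι : Type} [Fintype ι] [DecidableEq ι] (G : GT ι) (g d : ℕ) (F : MvPolynomial ι ℝ)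
    (N H : ℝ) : Prop :=
  ∃ (n : ℕ) (I : MvPolynomial ι ℝ), 1 ≤ n ∧ (n : ℝ) ≤ N ∧ IsZ I ∧ G.Lo g I ∧ G.Hm d I ∧
    G.Bd (C (n : ℝ) * F - I) H

theorem GT.Apn.mono {ι : Type} [Fintype ι] [DecidableEq ι] {G : GT ι} {g d : ℕ}
    {F : MvPolynomial ι ℝ} {N H N' H' : ℝ} (h : G.Apn g d F N H) (hN : N ≤ N') (hH : H ≤ H') :
    G.Apn g d F N' H' := by
  obtain ⟨n, I, h1, h2, h3, h4, h5, h6⟩ := h
  exact ⟨n, I, h1, h2.trans hN, h3, h4, h5, h6.mono hH⟩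

/-- equidistribution, all active groups regular, any weights -/
def EQG (s d : ℕ) : Prop := ∃ c : ℕ, ∀ (ι : Type) [Fintype ι] [DecidableEq ι] (G : GT ι) (T : AT ι)
  (WW : ℕ → ℝ) (P Y : ℝ) (g0 : ℕ) (Q : MvPolynomial ι ℝ), G.Ok s → G.Wd WW → Sz ι P Y → G.AOk T P →
    g0 ≤ s → (∀ a ∈ T.U, G.g a < g0) → G.Rg WW (P ^ c) Y g0 → Q.vars ⊆ T.U → G.Dl (d + 1) Q →
    Real.exp (-Y) * G.mn T.sg T.U ≤ ‖G.Sm T Q‖ →
    G.Ap g0 d (G.top d Q) (Real.exp (P ^ c * (Y + WW g0)))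

theorem num_shift {P Y W : ℝ} (hP : 2 ≤ P) (hY : 1 ≤ Y) (hW : 0 ≤ W) {c n c' : ℕ}
    (h : c + n ≤ c') : P ^ c * (Y + n + W) ≤ P ^ c' * (Y + W) := by
  have h1 : (1 + n : ℝ) ≤ P ^ n := by
    have h2 : ((n + 1 : ℕ) : ℝ) ≤ 2 ^ n := by exact_mod_cast Nat.lt_two_pow_self
    have h3 := pow_le_pow_left₀ (by norm_num) hP n
    push_cast at h2
    linarith
  have hn : (0 : ℝ) ≤ n := Nat.cast_nonneg n
  have h4 : Y + n + W ≤ P ^ n * (Y + W) := by nlinarith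
  calc P ^ c * (Y + n + W) ≤ P ^ c * (P ^ n * (Y + W)) :=
        mul_le_mul_of_nonneg_left h4 (pw_pos hP c).le
    _ = P ^ (c + n) * (Y + W) := by ring
    _ ≤ _ := mul_le_mul_of_nonneg_right (pw_le hP h) (by linarith)

theorem eqg (hdet : DET) (s d : ℕ) (hd : d ≤ s) (hM : ∀ e, d < e → e ≤ s → MARGS s e s)
    (hE : EQS s d s) : EQG s d := by
  obtain ⟨c1, h1⟩ := red hdet s d hM (s - d) (by omega)
  obtain ⟨c2, h2⟩ := hE
  refine ⟨c1 + c2 + s, fun ι _ _ G T WW P Y g0 Q hG hW hS hA hg0 hg hR hQ hD hb => ?_⟩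
  have hP := hS.P2
  have hY := hS.Y1
  obtain ⟨hA1, hb1⟩ := h1 ι G T WW P Y g0 Q hG hW hS hA hg0 hg
    (hR.mono le_rfl hW.nn (pw_pos hP _) (by linarith) (pw_le hP (by omega)) le_rfl)
    (fun a _ _ => (hG.ws a).trans (by omega)) hQ hD hb
  refine (h2 ι G _ WW P _ g0 Q hG hW (MgA.sz_shift hS _) hA1 hg0 (fun h => by simp at h)
    (MgA.rg_shift (n := s - d) hW hS hR (by omega))
    (fun a ha _ => Nat.lt_succ_iff.1 (mem_filter.1 ha).2) (Step.cnt_le hG _ _ _)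
    (fun a ha h => absurd (hg a (mem_filter.1 ha).1) (not_lt.2 h))
    (fun a ha => mem_filter.2 ⟨hQ ha, Step.lt_of_vars hD ha⟩) hD
    (fun b hb => hg b (hQ (E1.vars_top G d Q hb))) hb1).mono
    (Real.exp_le_exp.2 (num_shift hP hY (hW.nn g0) (by omega)))

open E1 in
/-- degree one on a tower of weight one, multiplier one -/
theorem one0 (s : ℕ) (hZ : ZERO) : ∃ c : ℕ, ∀ (ι : Type) [Fintype ι] [DecidableEq ι] (G : GT ι)
    (T : AT ι) (WW : ℕ → ℝ) (P Y : ℝ) (g0 : ℕ) (Q : MvPolynomial ι ℝ), G.Ok s → G.Wd WW →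
    Sz ι P Y → G.AOk T P → (∀ a ∈ T.U, G.g a < g0) → (∀ a ∈ T.U, G.w a = 1) →
    G.Rg WW (P ^ c) Y g0 → Q.vars ⊆ T.U → G.Dl 2 Q →
    Real.exp (-Y) * G.mn T.sg T.U ≤ ‖G.Sm T Q‖ →
    G.Apn g0 1 (G.top 1 Q) 1 (Real.exp (P ^ c * (Y + WW g0))) := by
  obtain ⟨c', hc'⟩ := hZ s 5
  refine ⟨c' + 5, ?_⟩
  intro ι _ _ G T WW P Y g0 Q hG hW hS hT hg hw hR hQ hD hb
  have hP2 := hS.P2
  have hY := hS.Y1
  have hP : 0 < P := by linarith
  have hW0 := hW.nn g0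
  have hZr := hc' ι G WW P Y g0 hG hW hS
    (hR.mono le_rfl hW.nn (pw_pos hP2 _) (by linarith) (pw_le hP2 (Nat.le_add_right _ _)) le_rfl)
  have hσ : ∀ a, 0 < T.sg a := fun a => (inv_pos.2 hP).trans_le (hT.s1 a)
  have hdm := det_mm hG hT.bk hσ
  have hd : (mm G T.U T.sg).det ≠ 0 := by
    intro h
    rw [h] at hdm
    simp at hdm
  have hD' := Poi.det_dual hd
  have hmn : 0 < G.mn T.sg T.U := by
    by_contra h
    nlinarith [abs_nonneg (mm G T.U T.sg).det]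
  have hcU : (Fintype.card T.U : ℝ) ≤ P :=
    le_trans (by exact_mod_cast Fintype.card_subtype_le _) hS.cd
  have hnum : ∀ {c : ℕ} {t : ℝ}, 5 ≤ c → t ≤ Y + P →
      P ^ 3 * t + 1 ≤ Real.exp (P ^ c * (Y + WW g0)) := by
    intro c t h5 ht
    have h1 := Real.add_one_le_exp (P ^ c * (Y + WW g0))
    have h2 := pw_le hP2 h5
    have h3 : Y + P ≤ P ^ 2 * Y := by
      have h8 : 1 + P ≤ P ^ 2 := by nlinarith
      have h9 := mul_le_mul_of_nonneg_right h8 (by linarith : (0 : ℝ) ≤ Y)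
      nlinarith
    have h4 : P ^ 3 * t ≤ P ^ 3 * (P ^ 2 * Y) :=
      mul_le_mul_of_nonneg_left (ht.trans h3) (by positivity)
    have h6 : P ^ 5 * Y ≤ P ^ c * (Y + WW g0) :=
      mul_le_mul h2 (by linarith) (by linarith) (by positivity)
    have h7 : P ^ 3 * (P ^ 2 * Y) = P ^ 5 * Y := by ring
    linarith
  have hlo : ∀ ξ : T.U → ℝ, G.Lo g0 (lU T.U ξ) := fun ξ b hb => hg b (vars_lU _ _ b hb)
  have hth : Poi.th ((mm G T.U T.sg)⁻¹)ᵀ 0 ≤ 2 := by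
    have h1 := Poi.th_sub_one_le hD' (K := 0 + P) (δ := 1 / 3) (fun k hk => ?_)
      (by simpa using num1 hcU hP2 le_rfl) (by norm_num)
    · linarith
    · by_contra h
      obtain ⟨a, ha⟩ := Function.ne_iff.1 hk
      have h2 := hZr 1 (lU T.U (toR k)) le_rfl ((hG.w1 a.1).trans (hG.ws a.1)) (isZ_lU _ _)
        (hlo _) (hm_lU G hw _)
        (bd_lU hG hT.bk hw hT.qv hσ hT.s2 hS.cd _ (hnum le_rfl (by linarith)))
      have h3 := congrFun (lU_eq_zero h2) a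
      exact ha (by simpa using h3)
  set θ : T.U → ℝ := fun c => coeff (Finsupp.single c.1 1) (G.top 1 Q) with hθ
  have htop : G.top 1 Q = lU T.U θ :=
    eq_lU hG.w1 (weightedHomogeneousComponent_isWeightedHomogeneous _ _)
      ((vars_top G 1 Q).trans hQ)
  have hQe : Q = C (coeff 0 Q) + lU T.U θ := by rw [← htop]; exact eq_C_add hG.w1 hD
  rw [hQe] at hb
  have h1 := hb.trans (norm_sm hG hP hT hw _ θ)
  rw [mul_comm] at h1
  have h2 := le_of_mul_le_mul_left h1 hmn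
  obtain ⟨k, hk⟩ : ∃ k : T.U → ℤ, qf ((mm G T.U T.sg)⁻¹)ᵀ (-θ + toR k) < Y + P := by
    by_contra h
    have h3 := Poi.th_le_of_far hD' (-θ) (K := Y + P) fun k => not_lt.1 fun h' => h ⟨k, h'⟩
    have h4 := num1 (K := Y) hcU hP2 (by linarith)
    have h5 := mul_le_mul h4 hth (Poi.th_pos hD' 0).le (by positivity)
    have h6 := Real.exp_pos (-Y)
    linarith
  refine ⟨1, lU T.U (toR k), le_rfl, by simp, isZ_lU _ _, hlo _, hm_lU G hw _, ?_⟩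
  rw [htop, Nat.cast_one, C_1, one_mul, ← lU_sub]
  refine bd_lU hG hT.bk hw hT.qv hσ hT.s2 hS.cd _ (hnum (Nat.le_add_left _ _) ?_)
  have h3 : θ - toR k = -(-θ + toR k) := by abel
  rw [h3, Poi.qf_neg]
  exact hk.le

/-- **the upgrade**: the multiplier is at most a power of the inverse bias -/
def UPG (s d : ℕ) : Prop := ∃ C c : ℕ, ∀ (ι : Type) [Fintype ι] [DecidableEq ι] (G : GT ι) (T : AT ι)
  (WW : ℕ → ℝ) (P Y : ℝ) (g0 : ℕ) (Q : MvPolynomial ι ℝ) (δ : ℝ), G.Ok s → G.Wd WW → Sz ι P Y →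
    G.AOk T P → g0 ≤ s → (∀ a ∈ T.U, G.g a < g0) → G.Rg WW (P ^ c) Y g0 → Q.vars ⊆ T.U →
    G.Dl (d + 1) Q → Real.exp (-Y) ≤ δ → δ ≤ 1 / 2 → δ * G.mn T.sg T.U ≤ ‖G.Sm T Q‖ →
    G.Apn g0 d (G.top d Q) (δ⁻¹ ^ C) (Real.exp (P ^ c * (Y + WW g0)))

theorem upg1 (hdet : DET) (hZ : ZERO) (s : ℕ) (hs : 1 ≤ s)
    (hM : ∀ e, 1 < e → e ≤ s → MARGS s e s) : UPG s 1 := by
  obtain ⟨c1, h1⟩ := red hdet s 1 hM (s - 1) (by omega)
  obtain ⟨c2, h2⟩ := one0 s hZ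
  refine ⟨0, c1 + c2 + s, fun ι _ _ G T WW P Y g0 Q δ hG hW hS hA hg0 hg hR hQ hD hδ _ hb => ?_⟩
  have hP := hS.P2
  have hY := hS.Y1
  obtain ⟨hA1, hb1⟩ := h1 ι G T WW P Y g0 Q hG hW hS hA hg0 hg
    (hR.mono le_rfl hW.nn (pw_pos hP _) (by linarith) (pw_le hP (by omega)) le_rfl)
    (fun a _ _ => (hG.ws a).trans (by omega)) hQ hD
    ((mul_le_mul_of_nonneg_right hδ (MgA.mn_nonneg (by linarith) hA _)).trans hb)
  refine (h2 ι G _ WW P _ g0 Q hG hW (MgA.sz_shift hS _) hA1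
    (fun a ha => hg a (mem_filter.1 ha).1)
    (fun a ha => le_antisymm (Nat.lt_succ_iff.1 (mem_filter.1 ha).2) (hG.w1 a))
    (MgA.rg_shift (n := s - 1) hW hS hR (by omega))
    (fun a ha => mem_filter.2 ⟨hQ ha, Step.lt_of_vars hD ha⟩) hD hb1).mono (by simp)
    (Real.exp_le_exp.2 (num_shift hP hY (hW.nn g0) (by omega)))

/-- the shifts which are long or irregular carry no mass -/
def SELB (s : ℕ) : Prop := ∀ c0 : ℕ, ∃ c1 c : ℕ, ∀ (ι : Type) [Fintype ι] [DecidableEq ι]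
  (G : GT ι) (T : AT ι) (WW : ℕ → ℝ) (P Y : ℝ) (g0 : ℕ), G.Ok s → G.Wd WW → Sz ι P Y → G.AOk T P →
    g0 ≤ s → T.U = univ → (∀ a, G.g a < g0) → G.Rg WW (P ^ c) Y g0 →
    ∃ R : ℝ, 1 ≤ R ∧ R ^ 2 ≤ P ^ c1 * (Y + WW g0) ∧ ∀ E : Finset (Lat (G.V1 T)),
      (∀ h ∈ E, ¬ (G.InL (G.V1 T) R h.1 ∧
        (G.tan fun _ : Unit => h.1).Rg WW ((2 * P) ^ c0) (P ^ c1 * (Y + WW g0)) g0)) →
      ∑ h ∈ E, G.gw T h.1 * (G.tan fun _ : Unit => h.1).ms (G.der T h.1) ≤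
        Real.exp (-Y) * G.mn T.sg T.U ^ 2

end

end Vale.Agent.P057T.Eq
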