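import Vale.Agent.P057T.Eq.Sel
import Vale.Agent.P057T.Eq.Upg1

/-! The long or irregular shifts carry no mass. -/

set_option linter.all false

open MvPolynomial Finset
open scoped Real

namespace Vale.Agent.P057T.Eq

open SelH29 in
theorem split_two {α : Type} (F : Finset α) (f : α → ℝ) (hf : ∀ x, 0 ≤ f x) (A : α → Prop)
    (B : ℕ → α → Prop) (n : ℕ) [DecidablePred A] [∀ g, DecidablePred (B g)]
    (hno : ∀ x ∈ F, ¬ (A x ∧ ∀ y < n, B y x)) :
    ∑ x ∈ F, f x ≤ ∑ x ∈ F.filter (fun x => ¬ A x), f x +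
      ∑ g ∈ range n, ∑ x ∈ F.filter (fun x => A x ∧ ¬ B g x ∧ ∀ y < g, B y x), f x := by
  have h := split_sum F f hf A (fun _ => True) B n
  rw [Finset.filter_false_of_mem (s := F) (p := fun x => A x ∧ (∀ y < n, B y x) ∧ ¬ True)
      (fun x _ h => h.2.2 trivial),
    Finset.filter_false_of_mem (s := F) (p := fun x => A x ∧ (∀ y < n, B y x) ∧ True)
      (fun x hx h => hno x hx ⟨h.1, h.2.1⟩), Finset.sum_empty, add_zero, add_zero] at h
  exact h

open SelH29 in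
theorem selb (s : ℕ) (hT : TANOK) (hDer : DEROK) (hL : LOC) (hD : DET) (hQ : SQ)
    (hP1 : P1M) (hF : FIB) (hJ : ∀ g, JB s g) (hM : MASS s s s) : SELB s := by
  classical
  intro c0
  obtain ⟨cS, hMS⟩ := msb hD hP1 hM
  obtain ⟨cF, hF'⟩ := badb hD hF hL s hJ
  obtain ⟨cR, hcR⟩ : ∃ n, n = 2 * cS + 8 := ⟨_, rfl⟩
  obtain ⟨c1, hc1⟩ : ∃ n, n = cR + 3 := ⟨_, rfl⟩
  obtain ⟨c3, hc3⟩ : ∃ n, n = cF + cR + s + 4 + (2 * c0 + c1 + 1) := ⟨_, rfl⟩
  obtain ⟨cJ, hJ'⟩ := hF' c3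
  refine ⟨c1, cJ + c3, ?_⟩
  intro ι _ _ G T WW P Y g0 hG hW hS hA hg0 hU _ hR
  have hI : G.Inv s g0 T.U := fun a _ _ => hG.ws a
  have hc : G.cnt s g0 T.U ≤ s := Step.cnt_le hG _ _ _
  have hP := hS.P2
  have hY := hS.Y1
  have hP0 : 0 < P := by linarith
  have hw0 := hW.nn g0
  have hV1 : G.V1 T = W1 G := by simp [GT.V1, W1, hU]
  set X := Y + WW g0 with hX
  have hX1 : 1 ≤ X := by linarith
  set M := G.mn T.sg T.U with hMdef
  have hσ := sg_pos hP0 hA
  have hM0 : 0 < M := mn_pos hD hG hσ hA.bk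
  have hdv : 0 < G.dv (W1 G) := (hD s ι G hG).1 _ (W1_bk hG)
  have hm1 : 0 < G.mn T.sg (W1 G) := mn_pos hD hG hσ (W1_bk hG)
  have hr1 : 1 ≤ √2 ^ (W1 G).card := one_le_pow₀ (Real.one_le_sqrt.2 (by norm_num))
  obtain ⟨mh, hmhdef⟩ : ∃ x, x = M ^ 2 / (√2 ^ (W1 G).card * G.mn T.sg (W1 G)) := ⟨_, rfl⟩
  have hmh0 : 0 < mh := by rw [hmhdef]; positivity
  have hmh : ∀ h, (G.tan fun _ : Unit => h).mn (G.der T h).sg (G.der T h).U = mh := by
    intro h
    have h1 := (hD s ι G hG).2.2.2 T h P hP0 hA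
    rw [hV1] at h1
    rw [hmhdef, eq_div_iff (by positivity)]
    rw [← hMdef] at h1
    rw [h1]
    ring
  have hkey : G.dv (W1 G) * mh ≤ Real.exp (P ^ 2) * M ^ 2 := by
    have h1 : M ^ 2 = √2 ^ (W1 G).card * G.mn T.sg (W1 G) * mh := by
      rw [hmhdef]; field_simp
    have h2 : ∏ a ∈ W1 G, T.sg a ≤ Real.exp (P ^ 2) := by
      calc ∏ a ∈ W1 G, T.sg a ≤ ∏ _a ∈ W1 G, P :=
            Finset.prod_le_prod (fun a _ => (hσ a).le) (fun a _ => hA.s2 a)
        _ = P ^ (W1 G).card := by simp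
        _ ≤ Real.exp (P * P) := pow_card_le _ hS.cd hP0.le
        _ = _ := by rw [sq]
    have h3 : 0 < ∏ a ∈ W1 G, T.sg a := Finset.prod_pos fun a _ => hσ a
    have h4 : G.dv (W1 G) = G.mn T.sg (W1 G) * ∏ a ∈ W1 G, T.sg a := by
      unfold GT.mn
      rw [Finset.prod_inv_distrib]; field_simp
    rw [h1, h4]
    calc G.mn T.sg (W1 G) * (∏ a ∈ W1 G, T.sg a) * mh
        = (∏ a ∈ W1 G, T.sg a) * (1 * G.mn T.sg (W1 G) * mh) := by ring
      _ ≤ _ := by gcongr
  -- the radius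
  have hRX : 1 ≤ P ^ cR * X := by have := pw_one hP cR; nlinarith
  set R := √(P ^ cR * X) with hRdef
  have hR2 : R ^ 2 = P ^ cR * X := Real.sq_sqrt (by linarith)
  have hR1 : 1 ≤ R := Real.one_le_sqrt.2 hRX
  -- tangent towers
  have hTok : ∀ h : ι → ℤ, (G.tan fun _ : Unit => h).Ok s := fun h => (hT s ι Unit G _ hG).1
  have hTwd : ∀ h : ι → ℤ, (G.tan fun _ : Unit => h).Wd WW :=
    fun h => (hT s ι Unit G _ hG).2.2.2.1 WW hW
  have hTa : ∀ h : ι → ℤ, (G.tan fun _ : Unit => h).AOk (G.der T h) (2 * P) :=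
    fun h => (hDer s ι G T P h hG hP0 hA).1
  have hms : ∀ (h : ι → ℤ) (g : ℕ), g ≤ g0 →
      (∀ x < g, (G.tan fun _ : Unit => h).Big x (Real.exp (P ^ c3 * (Y + WW x)))) →
      (G.tan fun _ : Unit => h).ms (G.der T h) ≤ Real.exp (P ^ (2 * cS) * (Y + WW g)) * mh := by
    intro h g hg hb
    have h1 := tanRg hT hG hW hP hY hR (by omega) hg h hb
    have h2 := hMS _ (G.tan fun _ : Unit => h) (G.der T h) WW (2 * P) Y g (hTok h) (hTwd h)
      (sz_tan hS) (hTa h) (hg.trans hg0)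
      (rg_pw (hTwd h) hP hY h1 le_rfl (by positivity)
        ((two_pw hP cS).trans (pw_mono hP (by omega))))
      (inv_tan hI hg h) ((cnt_tan hI hg h).trans hc)
    rw [hmh] at h2
    refine h2.trans ?_
    have := hW.nn g
    gcongr
    exact two_pw hP cS
  -- a finite part of the sum
  set τ := Real.exp (-(2 * Y)) * M ^ 2 with hτ
  have hτ0 : 0 < τ := by positivity
  obtain ⟨-, hQ2⟩ := hQ s ι G T P hG hP0 hA
  refine ⟨R, hR1, by rw [hR2]; exact pwX hP hX1 (by omega), fun F hFb => ?_⟩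
  let f : Lat (G.V1 T) → ℝ := fun h =>
    G.gw T h.1 * (G.tan fun _ : Unit => h.1).ms (G.der T h.1)
  have hgw : ∀ h, 0 < G.gw T h := fun h => Real.exp_pos _
  have hf0 : ∀ h, 0 ≤ f h := fun h => mul_nonneg (hgw _).le (ms_nonneg _ _)
  have hf1 : ∀ h, f h ≤ (G.tan fun _ : Unit => h.1).ms (G.der T h.1) := fun h =>
    mul_le_of_le_one_left (ms_nonneg _ _) (gw_le G T h.1)
  have hYX : Y ≤ X := by linarith
  -- (a)
  have ha : ∑ h ∈ F.filter (fun h => ¬ G.InL (G.V1 T) R h.1), f h ≤ τ / 8 := by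
    have h1 := hQ2 R (F.filter (fun h => ¬ G.InL (G.V1 T) R h.1)) (by linarith)
      (fun h hh => (Finset.mem_filter.1 hh).2)
    have h2 := hMS ι G (T.sc (1 / 2)) WW (2 * P) Y g0 hG hW ⟨by linarith [hS.cd], by linarith, hY⟩
      (aok_sc hP0 hA) hg0
      (rg_pw hW hP hY hR le_rfl (by positivity) ((two_pw hP cS).trans (pw_mono hP (by omega))))
      hI hc
    rw [mn_sc, ← hMdef] at h2
    have h3 : G.ms (T.sc (1 / 2)) ≤ Real.exp (P ^ (2 * cS) * X + 2 * P) * M := by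
      refine h2.trans ?_
      rw [Real.exp_add, mul_assoc]
      gcongr
      · exact two_pw hP cS
      · linarith
      · exact pow_card_le _ hS.cd (by norm_num)
    have h4 : G.ms (T.sc (1 / 2)) ^ 2 ≤ Real.exp (2 * (P ^ (2 * cS) * X + 2 * P)) * M ^ 2 := by
      calc _ ≤ (Real.exp (P ^ (2 * cS) * X + 2 * P) * M) ^ 2 :=
            pow_le_pow_left₀ (ms_nonneg _ _) h3 2
        _ = _ := by rw [mul_pow, ← Real.exp_nat_mul]; norm_num
    calc _ ≤ ∑ h ∈ F.filter (fun h => ¬ G.InL (G.V1 T) R h.1),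
          G.gw T h.1 * (G.tan fun _ : Unit => h.1).ms (G.der T h.1) :=
          le_rfl
      _ ≤ Real.exp (-(R ^ 2 / (4 * P ^ 2))) *
          (Real.exp (2 * (P ^ (2 * cS) * X + 2 * P)) * M ^ 2) := h1.trans (by gcongr)
      _ = Real.exp (-(R ^ 2 / (4 * P ^ 2)) + 2 * (P ^ (2 * cS) * X + 2 * P)) * M ^ 2 := by
          rw [Real.exp_add]; ring
      _ ≤ τ / 8 := le8 (sq_nonneg _) (numA hP hX1 hYX (hR2.trans (by rw [hcR])))
  -- cardinalities through the coercion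
  have hcard : ∀ E : Finset (Lat (G.V1 T)), ((E.image Subtype.val).card : ℝ) = E.card :=
    fun E => by rw [Finset.card_image_of_injective _ Subtype.val_injective]
  -- (b)
  have hb : ∑ g ∈ range g0, ∑ h ∈ F.filter (fun h => G.InL (G.V1 T) R h.1 ∧
      ¬ (G.tan fun _ : Unit => h.1).Big g (Real.exp (P ^ c3 * (Y + WW g))) ∧
      ∀ y < g, (G.tan fun _ : Unit => h.1).Big y (Real.exp (P ^ c3 * (Y + WW y)))), f h ≤
      τ / 8 := by
    have hone : ∀ g ∈ range g0, ∑ h ∈ F.filter (fun h => G.InL (G.V1 T) R h.1 ∧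
        ¬ (G.tan fun _ : Unit => h.1).Big g (Real.exp (P ^ c3 * (Y + WW g))) ∧
        ∀ y < g, (G.tan fun _ : Unit => h.1).Big y (Real.exp (P ^ c3 * (Y + WW y)))), f h ≤
        Real.exp (-(2 * Y) - s) * M ^ 2 / 8 := by
      intro g hg
      have hg' := Finset.mem_range.1 hg
      have hwg := hW.nn g
      have hXg : X ≤ Y + WW g := by have := hW.anti hg'.le; linarith
      have hRg : R ^ 2 ≤ P ^ cR * (Y + WW g) := by
        rw [hR2]; exact mul_le_mul_of_nonneg_left hXg (by positivity)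
      set E := F.filter (fun h => G.InL (G.V1 T) R h.1 ∧
        ¬ (G.tan fun _ : Unit => h.1).Big g (Real.exp (P ^ c3 * (Y + WW g))) ∧
        ∀ y < g, (G.tan fun _ : Unit => h.1).Big y (Real.exp (P ^ c3 * (Y + WW y)))) with hE
      have h1 := hJ' ι G WW P Y R g g0 (E.image Subtype.val) hG hW hS hg' hg0
        (rg_pw hW hP hY hR le_rfl (by positivity) (pw_mono hP (by omega)))
        (hRg.trans (pwX hP (by linarith) (by omega)))
        (fun h hh => by
          obtain ⟨x, hx, rfl⟩ := Finset.mem_image.1 hh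
          have := (Finset.mem_filter.1 hx).2
          exact ⟨hV1 ▸ this.1, this.2.1⟩)
      rw [hcard] at h1
      have h2 := sum_le_card E f (Real.exp (P ^ (2 * cS) * (Y + WW g)) * mh) (fun h hh =>
        (hf1 h).trans (hms _ g hg'.le (Finset.mem_filter.1 hh).2.2.2))
      rw [← Real.exp_add] at h1
      exact h2.trans (fin3 hdv.le hmh0.le h1 hkey (sq_nonneg _)
        (numB hP hY hwg rfl hRg (by omega) (by omega)))
    have h3 := sum_le_card _ _ _ hone
    refine h3.trans ?_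
    rw [Finset.card_range, hτ, Real.exp_sub]
    have h4 : (g0 : ℝ) ≤ Real.exp s := by
      have h5 : (g0 : ℝ) ≤ s := by exact_mod_cast hg0
      have := Real.add_one_le_exp (s : ℝ)
      linarith
    calc (g0 : ℝ) * (Real.exp (-(2 * Y)) / Real.exp s * M ^ 2 / 8)
        ≤ Real.exp s * (Real.exp (-(2 * Y)) / Real.exp s * M ^ 2 / 8) := by gcongr
      _ = _ := by field_simp
  have hgood : ∀ x ∈ F, ¬ (G.InL (G.V1 T) R x.1 ∧
      ∀ y < g0, (G.tan fun _ : Unit => x.1).Big y (Real.exp (P ^ c3 * (Y + WW y)))) := by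
    rintro x hx ⟨h1, h2⟩
    refine hFb x hx ⟨h1, ?_⟩
    have h4 := tanRg hT hG hW hP hY hR (by omega) le_rfl x.1 h2
    refine rg_mono h4 le_rfl (fun y hy => ?_) (fun y => ?_)
    · have hwy := hW.nn y
      have hXy : X ≤ Y + WW y := by have := hW.anti hy; linarith
      exact numE hP hY hwy (by linarith) hXy (by omega)
    · have hwy := hW.nn y
      positivity
  have hsp := split_two F f hf0 (fun h => G.InL (G.V1 T) R h.1)
    (fun g h => (G.tan fun _ : Unit => h.1).Big g (Real.exp (P ^ c3 * (Y + WW g)))) g0 hgood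
  have hτY : τ ≤ Real.exp (-Y) * M ^ 2 :=
    mul_le_mul_of_nonneg_right (Real.exp_le_exp.2 (by linarith)) (sq_nonneg _)
  exact hsp.trans ((add_le_add ha hb).trans (by linarith))

end Vale.Agent.P057T.Eq
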