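import Vale.Agent.P057T.Eq.Defs

/-! Widths of the tangent tower. -/

set_option linter.all false

open MvPolynomial Finset

namespace Vale.Agent.P057T.Eq

noncomputable section

namespace TanWd

variable {ι κ : Type} [Fintype ι] [DecidableEq ι] [Fintype κ] [DecidableEq κ]

def tz (G : GT ι) (M : Matrix ι ι ℤ) : Matrix (G.TV κ) (G.TV κ) ℤ := fun x y =>
  match x, y with
  | Sum.inl a, Sum.inl b => M a b
  | Sum.inr a, Sum.inr b => if a.1 = b.1 then M a.2.1 b.2.1 else 0
  | _, _ => 0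

theorem hi {G : GT ι} {R : Type} [AddCommMonoid R] (f : ι → R) (hf : ∀ b, ¬ 2 ≤ G.w b → f b = 0) :
    ∑ b : {a : ι // 2 ≤ G.w a}, f b.1 = ∑ b, f b := by
  rw [← sum_subtype (univ.filter fun a => 2 ≤ G.w a) (by simp) f, sum_filter]
  refine sum_congr rfl fun b _ => ?_
  split_ifs with h
  · rfl
  · exact (hf b h).symm

theorem bk2 {s : ℕ} {G : GT ι} (hG : G.Ok s) : G.Bk (univ.filter fun a => 2 ≤ G.w a) := by
  intro a b hab
  simp only [mem_filter, mem_univ, true_and, (hG.blk a b hab).2]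

theorem wd {s : ℕ} {G : GT ι} (h : κ → ι → ℤ) (hG : G.Ok s) {WW : ℕ → ℝ} (hW : G.Wd WW) :
    (G.tan h).Wd WW := by
  classical
  obtain ⟨U, V, hUV, hbk, hbd⟩ := hW.bd
  have h2 : ∀ a b, (U a b ≠ 0 ∨ V a b ≠ 0) → (2 ≤ G.w a ↔ 2 ≤ G.w b) := fun a b hab => by
    simpa using hbk _ (bk2 hG) a b hab
  refine ⟨hW.anti, hW.nn, tz G U, tz G V, ?_, ?_, ?_⟩
  · ext x y
    rw [Matrix.mul_apply, Fintype.sum_sum_type, Fintype.sum_prod_type]
    rcases x with a | ⟨j, a⟩ <;> rcases y with b | ⟨l, b⟩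
    · have := congrFun (congrFun hUV a) b
      rw [Matrix.mul_apply] at this
      simp only [tz, zero_mul, sum_const_zero, add_zero, this, Matrix.one_apply, Sum.inl.injEq]
    · simp [tz, Matrix.one_apply]
    · simp [tz, Matrix.one_apply]
    · have := congrFun (congrFun hUV a.1) b.1
      rw [Matrix.mul_apply, ← hi (G := G) (fun c => U a.1 c * V c b.1) (fun c hc => by
        by_cases h0 : U a.1 c = 0
        · rw [h0, zero_mul]
        · exact absurd ((h2 _ _ (Or.inl h0)).1 a.2) hc)] at this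
      simp only [tz, zero_mul, sum_const_zero, zero_add]
      rw [sum_eq_single j (fun i _ hi => by simp [Ne.symm hi]) (by simp)]
      by_cases hjl : j = l
      · subst hjl
        simp only [if_true, this, Matrix.one_apply, Sum.inr.injEq, Prod.mk.injEq, true_and,
          Subtype.ext_iff]
      · simp [hjl, Matrix.one_apply]
  · intro W hWb x y hxy
    rcases x with a | ⟨j, a⟩ <;> rcases y with b | ⟨l, b⟩
    · have hV : G.Bk (univ.filter fun c => (Sum.inl c : G.TV κ) ∈ W) := fun c d hcd => by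
        simpa using hWb (Sum.inl c) (Sum.inl d) hcd
      simpa using hbk _ hV a b hxy
    · simp [tz] at hxy
    · simp [tz] at hxy
    · have hjl : j = l := by
        by_contra hne
        simp [tz, hne] at hxy
      subst hjl
      have hxy' : U a.1 b.1 ≠ 0 ∨ V a.1 b.1 ≠ 0 := by simpa [tz] using hxy
      have hV : G.Bk (univ.filter fun c => ∃ hc : 2 ≤ G.w c,
          (Sum.inr (j, ⟨c, hc⟩) : G.TV κ) ∈ W) := fun c d hcd => by
        have hw := (hG.blk c d hcd).2
        simp only [mem_filter, mem_univ, true_and]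
        have key : ∀ (hc : 2 ≤ G.w c) (hd : 2 ≤ G.w d),
            ((Sum.inr (j, ⟨c, hc⟩) : G.TV κ) ∈ W ↔ (Sum.inr (j, ⟨d, hd⟩) : G.TV κ) ∈ W) :=
          fun hc hd => hWb _ _ (by simpa [GT.tan, GT.tm] using hcd)
        exact ⟨fun ⟨hc, m⟩ => ⟨hw ▸ hc, (key hc _).1 m⟩, fun ⟨hd, m⟩ => ⟨hw ▸ hd, (key _ hd).2 m⟩⟩
      have := hbk _ hV a.1 b.1 hxy'
      simp only [mem_filter, mem_univ, true_and] at this
      exact ⟨fun m => (this.1 ⟨a.2, m⟩).2, fun m => (this.2 ⟨b.2, m⟩).2⟩
  · intro x y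
    show |∑ c, G.tm G.A x c * (tz G U c y : ℝ)| ≤ Real.exp (WW (G.g (G.base x)))
    rw [Fintype.sum_sum_type, Fintype.sum_prod_type]
    rcases x with a | ⟨j, a⟩ <;> rcases y with b | ⟨l, b⟩
    · simpa [tz, GT.tm, GT.base] using hbd a b
    · simpa [tz, GT.tm] using (Real.exp_pos _).le
    · simpa [tz, GT.tm] using (Real.exp_pos _).le
    · have := hbd a.1 b.1
      rw [← hi (G := G) (fun c => G.A a.1 c * (U c b.1 : ℝ)) (fun c hc => by
        by_cases h0 : G.A a.1 c = 0
        · rw [h0, zero_mul]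
        · exact absurd ((hG.blk _ _ (Or.inl h0)).2 ▸ a.2) hc)] at this
      simp only [tz, GT.tm, zero_mul, sum_const_zero, zero_add]
      rw [sum_eq_single j (fun i _ hi => by simp [Ne.symm hi]) (by simp)]
      by_cases hjl : j = l
      · subst hjl
        simpa [GT.base] using this
      · simpa [hjl] using (Real.exp_pos _).le

end TanWd

end

end Vale.Agent.P057T.Eq
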