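import Vale.Agent.P057T.Eq.Defs
import Vale.Agent.P057T.Chart
import Vale.Agent.P057T.Eq.TanWd

/-! The tangent tower is a tower. -/

set_option linter.unusedSectionVars false

open MvPolynomial Finset

namespace Vale.Agent.P057T.Eq

namespace Tk2

open Vale.Agent.P057T.Chart

variable {ι κ : Type} [Fintype ι] [DecidableEq ι] [Fintype κ] [DecidableEq κ]
  (G : GT ι) (h : κ → ι → ℤ)

theorem dd_zero (j : κ) : G.dd h j 0 = 0 := by simp [GT.dd]

theorem dd_add (j : κ) (F F' : MvPolynomial ι ℝ) :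
    G.dd h j (F + F') = G.dd h j F + G.dd h j F' := by
  simp [GT.dd, mul_add, sum_add_distrib]

theorem dd_sub (j : κ) (F F' : MvPolynomial ι ℝ) :
    G.dd h j (F - F') = G.dd h j F - G.dd h j F' := by
  simp [GT.dd, mul_sub, sum_sub_distrib]

theorem dd_neg (j : κ) (F : MvPolynomial ι ℝ) : G.dd h j (-F) = -G.dd h j F := by
  simp [GT.dd, sum_neg_distrib]

theorem dd_C (j : κ) (c : ℝ) : G.dd h j (C c) = 0 := by simp [GT.dd]

theorem dd_mul (j : κ) (F F' : MvPolynomial ι ℝ) :
    G.dd h j (F * F') = G.dd h j F * rename Sum.inl F' + rename Sum.inl F * G.dd h j F' := by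
  simp only [GT.dd, sum_mul, mul_sum, ← sum_add_distrib]
  refine sum_congr rfl fun b _ => ?_
  rw [Derivation.leibniz]
  simp only [smul_eq_mul, map_add, map_mul]
  ring

theorem dd_C_mul (j : κ) (c : ℝ) (F : MvPolynomial ι ℝ) :
    G.dd h j (C c * F) = C c * G.dd h j F := by
  rw [dd_mul, dd_C]; simp

theorem dd_sum {α : Type*} (j : κ) (s : Finset α) (f : α → MvPolynomial ι ℝ) :
    G.dd h j (∑ a ∈ s, f a) = ∑ a ∈ s, G.dd h j (f a) := by
  classical
  induction s using Finset.induction_on with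
  | empty => simp [dd_zero]
  | insert a s ha ih => rw [sum_insert ha, sum_insert ha, dd_add, ih]

theorem dd_X (j : κ) (b : ι) : G.dd h j (X b) = G.wv h j b := by
  unfold GT.dd
  rw [sum_eq_single b]
  · simp
  · intro c _ hc
    rw [pderiv_X_of_ne hc.symm]; simp
  · simp

theorem wv_hi (j : κ) (b : {a : ι // 2 ≤ G.w a}) : G.wv h j b.1 = X (Sum.inr (j, b)) := by
  unfold GT.wv; rw [dif_pos b.2]

theorem wv_lo (j : κ) {b : ι} (hb : ¬ 2 ≤ G.w b) : G.wv h j b = C (h j b : ℝ) := by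
  unfold GT.wv; rw [dif_neg hb]

/-- sums over the variables of weight at least two -/
theorem sum_hi {M : Type*} [AddCommMonoid M] (f : ι → M) (hf : ∀ b, ¬ 2 ≤ G.w b → f b = 0) :
    ∑ b : {a : ι // 2 ≤ G.w a}, f b.1 = ∑ b, f b := by
  rw [← Finset.sum_subtype (univ.filter fun a => 2 ≤ G.w a) (by simp) f]
  exact sum_filter_of_ne fun b _ hb => by by_contra hc; exact hb (hf b hc)

/-- sums over the tangent variables -/
theorem sum_tv {M : Type*} [AddCommMonoid M] (f : G.TV κ → M) :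
    ∑ x, f x = ∑ a, f (Sum.inl a) + ∑ j, ∑ b : {a : ι // 2 ≤ G.w a}, f (Sum.inr (j, b)) := by
  rw [Fintype.sum_sum_type, Fintype.sum_prod_type]

theorem ren_eq {σ τ : Type*} (f : σ → τ) (F : MvPolynomial σ ℝ) :
    rename f F = aeval (fun a => (X (f a) : MvPolynomial τ ℝ)) F := by
  have : (rename f : MvPolynomial σ ℝ →ₐ[ℝ] MvPolynomial τ ℝ) = aeval (fun a => X (f a)) := by
    ext a; simp
  rw [this]

theorem hm_ren {e : ℕ} {F : MvPolynomial ι ℝ} (hF : G.Hm e F) :
    (G.tan h).Hm e (rename Sum.inl F) := by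
  rw [ren_eq]
  exact hom_aeval hF fun a => isWeightedHomogeneous_X ℝ (G.tan h).w (Sum.inl a)

theorem vars_ren {P : G.TV κ → Prop} {F : MvPolynomial ι ℝ} (hF : ∀ b ∈ F.vars, P (Sum.inl b)) :
    ∀ x ∈ (rename Sum.inl F : MvPolynomial (G.TV κ) ℝ).vars, P x := by
  intro x hx
  obtain ⟨b, hb, rfl⟩ := mem_vars_rename _ _ hx
  exact hF b hb

theorem lo_ren {g : ℕ} {F : MvPolynomial ι ℝ} (hF : G.Lo g F) :
    (G.tan h).Lo g (rename Sum.inl F) :=
  vars_ren G (P := fun x => (G.tan h).g x < g) hF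

theorem hm_wv (j : κ) (b : ι) : (G.tan h).Hm (G.w b - 1) (G.wv h j b) := by
  by_cases hb : 2 ≤ G.w b
  · rw [wv_hi G h j ⟨b, hb⟩]
    exact isWeightedHomogeneous_X ℝ (G.tan h).w (Sum.inr (j, ⟨b, hb⟩))
  · rw [wv_lo G h j hb, show G.w b - 1 = 0 by omega]
    exact isWeightedHomogeneous_C _ _

theorem w_le_of_vars {e : ℕ} {F : MvPolynomial ι ℝ} (hF : G.Hm e F) {b : ι} (hb : b ∈ F.vars) :
    G.w b ≤ e := by
  obtain ⟨m, hm, hbm⟩ := (mem_vars_iff_mem_support b).1 hb
  rw [← hF (mem_support_iff.1 hm)]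
  exact Finsupp.le_weight_of_ne_zero' G.w (Finsupp.mem_support_iff.1 hbm)

theorem hm_dd (w1 : ∀ a, 1 ≤ G.w a) (j : κ) (e : ℕ) (F : MvPolynomial ι ℝ) (hF : G.Hm (e + 1) F) :
    (G.tan h).Hm e (G.dd h j F) := by
  refine IsWeightedHomogeneous.sum _ _ _ fun b _ => ?_
  by_cases hb : b ∈ F.vars
  · have h1 := w_le_of_vars G hF hb
    have h2 := w1 b
    have h3 : G.Hm (e + 1 - G.w b) (pderiv b F) := IsWeightedHomogeneous.pderiv hF (by omega)
    have h4 := IsWeightedHomogeneous.mul (hm_wv G h j b) (hm_ren G h h3)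
    rwa [show G.w b - 1 + (e + 1 - G.w b) = e by omega] at h4
  · rw [pderiv_eq_zero_of_notMem_vars hb, map_zero, mul_zero]
    exact isWeightedHomogeneous_zero _ _ _

/-- variables of the differential -/
theorem vars_dd {P : ι → Prop} (j : κ) {F : MvPolynomial ι ℝ} (hF : ∀ b ∈ F.vars, P b) :
    ∀ x ∈ (G.dd h j F).vars, P (G.base x) := by
  refine vars_sum' (P := fun x => P (G.base x)) fun b _ => ?_
  by_cases hb : b ∈ F.vars
  · refine vars_mul' (P := fun x => P (G.base x)) ?_ ?_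
    · by_cases hw : 2 ≤ G.w b
      · rw [wv_hi G h j ⟨b, hw⟩]
        exact vars_X' (P := fun x => P (G.base x)) (hF b hb)
      · rw [wv_lo G h j hw]
        exact vars_C' _
    · exact vars_ren G (P := fun x => P (G.base x)) (vars_pderiv' b hF)
  · rw [pderiv_eq_zero_of_notMem_vars hb, map_zero, mul_zero]; simp

theorem lo_dd (j : κ) (g : ℕ) (F : MvPolynomial ι ℝ) (hF : G.Lo g F) :
    (G.tan h).Lo g (G.dd h j F) :=
  vars_dd G h (P := fun b => G.g b < g) j hF

theorem th_inl (a : ι) : (G.tan h).th (Sum.inl a) = rename Sum.inl (G.th a) := by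
  unfold GT.th
  rw [sum_tv]
  simp [GT.tan, GT.tm]

theorem th_inr {s : ℕ} (hG : G.Ok s) (x : κ × {a : ι // 2 ≤ G.w a}) :
    (G.tan h).th (Sum.inr x) = G.dd h x.1 (G.th x.2.1) := by
  obtain ⟨j, a⟩ := x
  unfold GT.th
  rw [sum_tv, dd_sum]
  have e1 : ∀ b, G.dd h j (C (G.A a.1 b) * (X b - G.q b)) =
      C (G.A a.1 b) * (G.wv h j b - G.dd h j (G.q b)) := by
    intro b; rw [dd_C_mul, dd_sub, dd_X]
  simp only [e1]
  rw [← sum_hi G (fun b => C (G.A a.1 b) * (G.wv h j b - G.dd h j (G.q b)))]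
  · rw [sum_eq_single j]
    · simp [GT.tan, GT.tm, wv_hi]
    · intro k _ hk
      simp [GT.tan, GT.tm, Ne.symm hk]
    · simp
  · intro b hb
    have : G.A a.1 b = 0 := by
      by_contra hc
      have := (hG.blk a.1 b (Or.inl hc)).2
      have := a.2
      omega
    simp [this]

theorem tm_ne {M : Matrix ι ι ℝ} {x y : G.TV κ} (hxy : G.tm M x y ≠ 0) :
    M (G.base x) (G.base y) ≠ 0 ∧ (x.isLeft = y.isLeft) := by
  rcases x with a | a <;> rcases y with b | b
  · exact ⟨hxy, rfl⟩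
  · exact absurd rfl hxy
  · exact absurd rfl hxy
  · refine ⟨?_, rfl⟩
    simp only [GT.tm] at hxy
    split_ifs at hxy
    · exact hxy
    · exact absurd rfl hxy

theorem tm_mul {s : ℕ} (hG : G.Ok s) : G.tm (κ := κ) G.A * G.tm G.B = 1 := by
  ext x y
  rw [Matrix.mul_apply, sum_tv]
  rcases x with a | ⟨i, a⟩ <;> rcases y with b | ⟨j, b⟩
  · have := congrFun (congrFun hG.AB a) b
    rw [Matrix.mul_apply] at this
    simp [GT.tm, this, Matrix.one_apply]
  · simp [GT.tm]
  · simp [GT.tm]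
  · have h1 := congrFun (congrFun hG.AB a.1) b.1
    rw [Matrix.mul_apply, ← sum_hi G (fun c => G.A a.1 c * G.B c b.1)] at h1
    · rw [sum_eq_single i]
      · by_cases hij : i = j
        · subst hij
          simp only [GT.tm, if_true, h1, Matrix.one_apply]
          simp [Subtype.ext_iff]
        · simp [GT.tm, hij]
      · intro k _ hk
        simp [GT.tm, Ne.symm hk]
      · simp
    · intro c hc
      have : G.A a.1 c = 0 := by
        by_contra hc'
        have := (hG.blk a.1 c (Or.inl hc')).2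
        have := a.2
        omega
      simp [this]

theorem ok {s : ℕ} (hG : G.Ok s) : (G.tan h).Ok s where
  w1 := by
    rintro (a | ⟨j, a⟩)
    · exact hG.w1 a
    · have := a.2
      show 1 ≤ G.w a.1 - 1
      omega
  ws := by
    rintro (a | ⟨j, a⟩)
    · exact hG.ws a
    · have := hG.ws a.1
      show G.w a.1 - 1 ≤ s
      omega
  gs := fun x => hG.gs _
  AB := tm_mul G hG
  blk := by
    intro x y hxy
    have h1 : (G.A (G.base x) (G.base y) ≠ 0 ∨ G.B (G.base x) (G.base y) ≠ 0) ∧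
        x.isLeft = y.isLeft := by
      rcases hxy with h1 | h1
      · exact ⟨Or.inl (tm_ne G h1).1, (tm_ne G h1).2⟩
      · exact ⟨Or.inr (tm_ne G h1).1, (tm_ne G h1).2⟩
    obtain ⟨h2, h3⟩ := hG.blk _ _ h1.1
    refine ⟨h2, ?_⟩
    rcases x with a | a <;> rcases y with b | b
    · exact h3
    · simp at h1
    · simp at h1
    · show G.w a.2.1 - 1 = G.w b.2.1 - 1
      exact congrArg (· - 1) h3
  qh := by
    rintro (a | ⟨j, a⟩)
    · exact hm_ren G h (hG.qh a)
    · refine hm_dd G h hG.w1 j (G.w a.1 - 1) _ ?_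
      have := a.2
      rw [show G.w a.1 - 1 + 1 = G.w a.1 by omega]
      exact hG.qh a.1
  ql := by
    rintro (a | ⟨j, a⟩)
    · exact lo_ren G h (hG.ql a)
    · exact lo_dd G h j _ _ (hG.ql a.1)
  qe := by
    rintro (a | ⟨j, a⟩) ha
    · have : G.q a = 0 := hG.qe a (mem_filter.1 ha).2
      show rename Sum.inl (G.q a) = 0
      rw [this, map_zero]
    · have : G.q a.1 = 0 := hG.qe a.1 (mem_filter.1 ha).2
      show G.dd h j (G.q a.1) = 0
      rw [this, dd_zero]

theorem mem_ex {x : G.TV κ} : x ∈ (G.tan h).ex ↔ G.base x ∈ G.ex := by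
  simp [GT.tan]

theorem small (g : ℕ) (η : ℝ) (hη : 0 ≤ η) (hS : G.Small g η) : (G.tan h).Small g η := by
  rintro (j | ⟨k, j⟩) hj hg
  · obtain ⟨v, h1, h2, h3⟩ := hS j ((mem_ex G h).1 hj) hg
    refine ⟨Sum.elim v 0, ?_, ?_, ?_⟩
    · rintro (i | i) hi
      · simpa using h1 i ((mem_ex G h).1 hi)
      · simp
    · rintro (i | i) hi
      · exact h2 i hi
      · simp at hi
    · rintro (a | a)
      · rw [sum_tv]
        simpa [GT.tan, GT.tm] using h3 a
      · rw [sum_tv]
        simpa [GT.tan, GT.tm] using hη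
  · obtain ⟨v, h1, h2, h3⟩ := hS j.1 ((mem_ex G h).1 hj) hg
    refine ⟨Sum.elim 0 (fun x => if x.1 = k then v x.2.1 else 0), ?_, ?_, ?_⟩
    · rintro (i | ⟨k', i⟩) hi
      · simp
      · have := h1 i.1 ((mem_ex G h).1 hi)
        by_cases hk : k' = k
        · subst hk
          simp [this, Subtype.ext_iff]
        · simp [hk]
    · rintro (i | ⟨k', i⟩) hi
      · simp at hi
      · have hv : v i.1 ≠ 0 := by
          intro hv; simp [hv] at hi
        obtain ⟨h4, h5⟩ := h2 i.1 hv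
        exact ⟨h4, congrArg (· - 1) h5⟩
    · rintro (a | ⟨k', a⟩)
      · rw [sum_tv]
        simpa [GT.tan, GT.tm] using hη
      · rw [sum_tv, sum_eq_single k']
        · by_cases hk : k' = k
          · subst hk
            have h4 := h3 a.1
            rw [← sum_hi G (fun b => G.A a.1 b * v b)] at h4
            · simpa [GT.tan, GT.tm] using h4
            · intro b hb
              have : v b = 0 := by
                by_contra hc
                have := (h2 b hc).2
                have := j.2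
                omega
              simp [this]
          · simpa [GT.tan, GT.tm, hk] using hη
        · intro k'' _ hk
          simp [GT.tan, GT.tm, Ne.symm hk]
        · simp

end Tk2

theorem Tk2.tanok : TANOK := by
  intro s ι κ _ _ _ _ G h hG
  exact ⟨Tk2.ok G h hG, Tk2.th_inl G h, Tk2.th_inr G h hG, fun WW hW => TanWd.wd h hG hW, Tk2.small G h,
    fun j e F => Tk2.hm_dd G h hG.w1 j e F, Tk2.lo_dd G h⟩

end Vale.Agent.P057T.Eq
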