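import Vale.Agent.P057T.Eq.Upg2
import Vale.Agent.P057T.Eq.Summ
import Vale.Agent.P057T.Eq.Sub

/-! The inductive step of the upgrade. -/

open MvPolynomial Finset
open scoped Real

namespace Vale.Agent.P057T.Eq

noncomputable section

set_option linter.unusedSectionVars false

namespace Up

variable {ι : Type} [Fintype ι] [DecidableEq ι] {G : GT ι} {s : ℕ}

theorem hm_cmul {e : ℕ} {F : MvPolynomial ι ℝ} (h : G.Hm e F) (r : ℝ) : G.Hm e (C r * F) :=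
  fun _ hm => h (by rw [coeff_C_mul] at hm; exact right_ne_zero_of_mul hm)

theorem hm_sub {e : ℕ} {F F' : MvPolynomial ι ℝ} (h : G.Hm e F) (h' : G.Hm e F') :
    G.Hm e (F - F') := fun m hm => by
  by_cases h0 : coeff m F = 0
  · exact h' (by rw [coeff_sub, h0, zero_sub, neg_ne_zero] at hm; exact hm)
  · exact h h0

theorem isZ_dd (h : ι → ℤ) {I : MvPolynomial ι ℝ} (hI : IsZ I) :
    IsZ (G.dd (fun _ : Unit => h) () I) :=
  L1.isInt_sum fun b _ => L1.IsInt.mul (by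
    unfold GT.wv
    split_ifs
    · exact L1.isInt_X _
    · exact L1.isInt_C _) (L1.IsInt.rename (L1.IsInt.pderiv hI b) _)

theorem le_exp_mul {x L : ℝ} (hx : 0 ≤ x) (hL : 1 ≤ L) : x ≤ Real.exp (x * L) := by
  have h1 := Real.add_one_le_exp (x * L)
  nlinarith

theorem inv_pow_le {δ Y : ℝ} (h : Real.exp (-Y) ≤ δ) (k : ℕ) : δ⁻¹ ^ k ≤ Real.exp (k * Y) := by
  have h0 := Real.exp_pos (-Y)
  have h1 : δ⁻¹ ≤ Real.exp Y := by
    have := inv_anti₀ h0 h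
    rwa [Real.exp_neg, inv_inv] at this
  rw [Real.exp_nat_mul]
  exact pow_le_pow_left₀ (inv_nonneg.2 (h0.le.trans h)) h1 k

theorem numZ {P L A Y R n0 N : ℝ} {a e s cE cu : ℕ} (hP : 2 ≤ P) (hL : 1 ≤ L)
    (hA : A ≤ P ^ cE * L) (hY : Y ≤ L) (hR1 : 1 ≤ R) (hR : R ^ 2 ≤ L)
    (hn : n0 ≤ Real.exp (a * Y)) (hN : N ≤ Real.exp A) (he : e ≤ s) :
    N * Real.exp ((2 * P) ^ cu * L) + n0 * (P * (e * Real.exp A * R)) ≤
      Real.exp ((2 * P) ^ (a + s + cE + cu + 4) * L) := by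
  have h2 : 2 ≤ 2 * P := by linarith
  obtain ⟨k, hk⟩ : ∃ k, k = a + s + cE + cu + 2 := ⟨_, rfl⟩
  have hK := one_le_pw h2 k
  have b1 : P ^ cE ≤ (2 * P) ^ k :=
    (pow_le_pow_left₀ (by linarith) (by linarith) cE).trans (pw_le h2 (by omega))
  have b2 : (2 * P) ^ cu ≤ (2 * P) ^ k := pw_le h2 (by omega)
  have b3 : (a : ℝ) ≤ (2 * P) ^ k := (nat_le_pw h2 a).trans (pw_le h2 (by omega))
  have b4 : (e : ℝ) ≤ (2 * P) ^ k := (nat_le_pw h2 e).trans (pw_le h2 (by omega))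
  have b5 : P ≤ (2 * P) ^ k := by
    have := pw_le h2 (show 1 ≤ k by omega)
    rw [pow_one] at this
    linarith
  set K := (2 * P) ^ k * L with hKd
  have hL0 : 0 ≤ L := by linarith
  have hK1 : 1 ≤ K := by nlinarith
  have c1 : Real.exp A ≤ Real.exp K :=
    Real.exp_le_exp.2 (hA.trans (mul_le_mul_of_nonneg_right b1 hL0))
  have c2 : Real.exp ((2 * P) ^ cu * L) ≤ Real.exp K :=
    Real.exp_le_exp.2 (mul_le_mul_of_nonneg_right b2 hL0)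
  have c3 : n0 ≤ Real.exp K := hn.trans (Real.exp_le_exp.2
    ((mul_le_mul_of_nonneg_left hY (Nat.cast_nonneg a)).trans (mul_le_mul_of_nonneg_right b3 hL0)))
  have c4 : (e : ℝ) ≤ Real.exp K := (le_exp_mul (Nat.cast_nonneg e) hL).trans
    (Real.exp_le_exp.2 (mul_le_mul_of_nonneg_right b4 hL0))
  have c5 : P ≤ Real.exp K := (le_exp_mul (by linarith) hL).trans
    (Real.exp_le_exp.2 (mul_le_mul_of_nonneg_right b5 hL0))
  have c6 : R ≤ Real.exp K := by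
    have := Real.add_one_le_exp K
    nlinarith
  have c7 : 2 ≤ Real.exp K := by linarith [Real.add_one_le_exp K]
  have hE := Real.exp_pos K
  have d1 : N * Real.exp ((2 * P) ^ cu * L) ≤ Real.exp K ^ 5 := by
    calc _ ≤ Real.exp K * Real.exp K := mul_le_mul (hN.trans c1) c2 (by positivity) hE.le
      _ = Real.exp K ^ 2 := (sq _).symm
      _ ≤ _ := pow_le_pow_right₀ (by linarith) (by norm_num)
  have d2 : n0 * (P * (e * Real.exp A * R)) ≤ Real.exp K ^ 5 := by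
    calc _ ≤ Real.exp K * (Real.exp K * (Real.exp K * Real.exp K * Real.exp K)) := by
          gcongr
      _ = _ := by ring
  have d3 : Real.exp K ^ 6 ≤ Real.exp ((2 * P) ^ (a + s + cE + cu + 4) * L) := by
    rw [← Real.exp_nat_mul, Real.exp_le_exp, show a + s + cE + cu + 4 = k + 2 by omega, pow_add,
      hKd]
    have h6 : (6 : ℝ) ≤ (2 * P) ^ 2 := by nlinarith
    have := mul_le_mul_of_nonneg_right h6 (by linarith : 0 ≤ K)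
    push_cast
    rw [hKd] at this
    linarith
  have d4 : 2 * Real.exp K ^ 5 ≤ Real.exp K ^ 6 := by
    rw [pow_succ' _ 5]
    exact mul_le_mul_of_nonneg_right c7 (by positivity)
  linarith

theorem numL {P X N : ℝ} {cE : ℕ} (hP : 2 ≤ P) (hX : 1 ≤ X) (hN0 : 1 ≤ N)
    (hN : N ≤ Real.exp (P ^ cE * X)) : (N * P) ^ 3 * P + 1 ≤ Real.exp (P ^ (cE + 4) * X) := by
  have h1 : P ≤ Real.exp P := by linarith [Real.add_one_le_exp P]
  set A := P ^ cE * X with hA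
  have hA1 : 1 ≤ A := by nlinarith [one_le_pw hP cE]
  have h2 : (N * P) ^ 3 * P ≤ Real.exp (3 * A + 4 * P) := by
    calc _ ≤ (Real.exp A * Real.exp P) ^ 3 * Real.exp P := by gcongr
      _ = _ := by
        rw [← Real.exp_add, ← Real.exp_nat_mul, ← Real.exp_add]; congr 1; push_cast; ring
  have h3 : 1 ≤ Real.exp (3 * A + 4 * P) := Real.one_le_exp (by linarith)
  have h4 : 2 ≤ Real.exp 1 := by linarith [Real.add_one_le_exp (1 : ℝ)]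
  have h5 : 4 * P + 4 ≤ P ^ 4 := by
    have : 8 ≤ P ^ 3 := by nlinarith [mul_nonneg (sub_nonneg.2 hP) (sub_nonneg.2 hP)]
    nlinarith
  calc _ ≤ 2 * Real.exp (3 * A + 4 * P) := by linarith
    _ ≤ Real.exp 1 * Real.exp (3 * A + 4 * P) := mul_le_mul_of_nonneg_right h4 (by linarith)
    _ = Real.exp (1 + (3 * A + 4 * P)) := (Real.exp_add _ _).symm
    _ ≤ _ := by
      rw [Real.exp_le_exp, pow_add, mul_right_comm, ← hA]
      nlinarith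

theorem pigeon {α : Type} (E : Finset α) (g : α → ℝ) (hg : ∀ x, 0 ≤ g x) (nn : α → ℕ) {B : ℝ}
    (hB : 1 ≤ B) (h : ∀ x ∈ E, 1 ≤ nn x ∧ (nn x : ℝ) ≤ B) :
    ∃ n : ℕ, 1 ≤ n ∧ (n : ℝ) ≤ B ∧ ∑ x ∈ E, g x ≤ B * ∑ x ∈ E.filter (fun x => nn x = n), g x := by
  have hB0 : 0 ≤ B := by linarith
  have hne : (Icc 1 ⌊B⌋₊).Nonempty := ⟨1, mem_Icc.2 ⟨le_rfl, Nat.le_floor (by simpa using hB)⟩⟩
  obtain ⟨n, hn, hmax⟩ := exists_max_image (Icc 1 ⌊B⌋₊)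
    (fun n => ∑ x ∈ E.filter (fun x => nn x = n), g x) hne
  refine ⟨n, (mem_Icc.1 hn).1, (Nat.le_floor_iff hB0).1 (mem_Icc.1 hn).2, ?_⟩
  rw [← sum_fiberwise_of_maps_to (g := nn) (t := Icc 1 ⌊B⌋₊)
    fun x hx => mem_Icc.2 ⟨(h x hx).1, Nat.le_floor (h x hx).2⟩]
  refine (sum_le_card_nsmul _ _ _ hmax).trans ?_
  rw [nsmul_eq_mul, Nat.card_Icc, Nat.add_sub_cancel]
  exact mul_le_mul_of_nonneg_right (Nat.floor_le hB0) (sum_nonneg fun x _ => hg x)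

theorem meas {α : Type} [DecidableEq α] (F : Finset α) (g f ms : α → ℝ) (good : α → Prop)
    [DecidablePred good] {t m Z : ℝ} (hg : ∀ x, 0 ≤ g x) (hm : 0 < m) (ht : 0 ≤ t)
    (hf : ∀ x, f x ≤ ms x) (hms : ∀ x, good x → ms x ≤ 2 * m)
    (h1 : 7 / 8 * (t * (Z * m)) ≤ ∑ x ∈ F, g x * f x)
    (h2 : ∑ x ∈ F.filter (fun x => ¬ good x), g x * ms x ≤ t * (Z * m) / 8)
    (h3 : ∑ x ∈ F, g x ≤ 2 * Z) :
    t / 8 * Z ≤ ∑ x ∈ F.filter (fun x => good x ∧ t / 4 * m ≤ f x), g x := by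
  have h4 : ∀ x ∈ F, g x * f x ≤ (if ¬ good x then g x * ms x else 0) + t / 4 * m * g x +
      2 * m * (if good x ∧ t / 4 * m ≤ f x then g x else 0) := by
    intro x _
    have a0 := hg x
    have a1 : 0 ≤ t / 4 * m * g x := by positivity
    by_cases hx : good x
    · rw [if_neg (not_not.2 hx)]
      by_cases hy : t / 4 * m ≤ f x
      · rw [if_pos ⟨hx, hy⟩]
        have := mul_le_mul_of_nonneg_left ((hf x).trans (hms x hx)) a0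
        linarith
      · rw [if_neg fun h => hy h.2]
        have := mul_le_mul_of_nonneg_left (not_le.1 hy).le a0
        linarith
    · rw [if_pos hx, if_neg fun h => hx h.1]
      have := mul_le_mul_of_nonneg_left (hf x) a0
      linarith
  have h5 := sum_le_sum h4
  rw [sum_add_distrib, sum_add_distrib, ← mul_sum, ← mul_sum, ← sum_filter, ← sum_filter] at h5
  have h6 := mul_le_mul_of_nonneg_left h3 (by positivity : 0 ≤ t / 4 * m)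
  have h7 : 2 * m * (t / 8 * Z) ≤
      2 * m * ∑ x ∈ F.filter (fun x => good x ∧ t / 4 * m ≤ f x), g x := by linarith
  exact le_of_mul_le_mul_left h7 (by linarith)

theorem finU (hG : G.Ok s) {T : AT ι} {g0 d Cu N : ℕ} {δ Z H0 : ℝ} {F I : MvPolynomial ι ℝ}
    (hV1 : ∀ a, a ∈ G.V1 T ↔ G.w a = 1) (hg : ∀ a, G.g a < g0) (hδ0 : 0 < δ) (hδi : 2 ≤ δ⁻¹)
    (hZ0 : 0 < Z) (hN1 : 1 ≤ N) (hI1 : IsZ I) (hI3 : G.Hm (d + 1) I)
    (hI4 : G.Bd (C (N : ℝ) * F - I) H0) (E1 : Finset (Lat (G.V1 T)))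
    (hme : δ ^ 2 / 8 * Z ≤ ∑ h ∈ E1, G.gw T h.1)
    (hall : ∀ h ∈ E1, ∃ n : ℕ, (1 ≤ n ∧ (n : ℝ) ≤ δ⁻¹ ^ (4 * Cu)) ∧
      IsZ (C ((n : ℝ) / N) * G.dd (fun _ : Unit => h.1) () I))
    (hlat : ∀ K : AddSubgroup (ι → ℤ), (∀ y, N • y ∈ K) → ∀ E : Finset (Lat (G.V1 T)),
      (∀ h ∈ E, h.1 ∈ K) → ∀ ε : ℝ, ε * Z ≤ ∑ h ∈ E, G.gw T h.1 →
      ∃ m : ℕ, 1 ≤ m ∧ (m : ℝ) * ε ≤ 2 ∧ ∀ h ∈ Lat (G.V1 T), m • h ∈ K) :
    G.Apn g0 (d + 1) F (δ⁻¹ ^ (8 * Cu + 6 + (d + 1))) (δ⁻¹ ^ (8 * Cu + 6 + (d + 1)) * H0) := by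
  classical
  have hN1' : (1 : ℝ) ≤ N := by exact_mod_cast hN1
  have hgw : ∀ h : Lat (G.V1 T), 0 ≤ G.gw T h.1 := fun h => (Real.exp_pos _).le
  choose! nn hn1 hn2 using hall
  have hB1 : 1 ≤ δ⁻¹ ^ (4 * Cu) := one_le_pw hδi _
  obtain ⟨n0, h01, h02, h03⟩ := pigeon E1 (fun h => G.gw T h.1) hgw nn hB1 hn1
  set E2 := E1.filter (fun h => nn h = n0) with hE2
  have hin : ∀ h ∈ E2, ∀ u : ι → ℤ, (fun b => if 2 ≤ G.w b then u b else h.1 b) ∈ dirs ((n0 : ℝ) / N) I :=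
    fun h hh u => dirs_of_dd ((mem_filter.1 hh).2 ▸ hn2 h (mem_filter.1 hh).1) u
  have hin0 : ∀ h ∈ E2, h.1 ∈ dirs ((n0 : ℝ) / N) I := by
    intro h hh
    have := hin h hh h.1
    simpa using this
  have hε : δ ^ 2 / 8 / δ⁻¹ ^ (4 * Cu) * Z ≤ ∑ h ∈ E2, G.gw T h.1 := by
    rw [div_mul_eq_mul_div, div_le_iff₀' (by linarith)]
    exact hme.trans h03
  obtain ⟨m, m1, m2, m3⟩ := hlat _ (dirs_mul hN1 hI1 rfl) E2 hin0 _ hε
  have hne : E2.Nonempty := by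
    by_contra h
    rw [not_nonempty_iff_eq_empty.1 h, sum_empty] at hε
    have : 0 < δ ^ 2 / 8 / δ⁻¹ ^ (4 * Cu) * Z := by positivity
    linarith
  obtain ⟨h0, hh0⟩ := hne
  have hsing : ∀ a, m • Pi.single a (1 : ℤ) ∈ dirs ((n0 : ℝ) / N) I := by
    intro a
    by_cases ha : 2 ≤ G.w a
    · refine AddSubgroup.nsmul_mem _ ?_ m
      have h1 := AddSubgroup.sub_mem _ (hin h0 hh0 (Pi.single a 1)) (hin h0 hh0 0)
      have e : ((fun b => if 2 ≤ G.w b then (Pi.single a (1 : ℤ) : ι → ℤ) b else h0.1 b) -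
          fun b => if 2 ≤ G.w b then (0 : ι → ℤ) b else h0.1 b) = Pi.single a 1 := by
        funext b
        simp only [Pi.sub_apply, Pi.zero_apply]
        split_ifs with hb
        · rw [sub_zero]
        · rw [sub_self, Pi.single_eq_of_ne (by rintro rfl; exact hb ha)]
      rwa [e] at h1
    · refine m3 _ fun b hb => Pi.single_eq_of_ne ?_ _
      rintro rfl
      have := hG.w1 b
      exact hb ((hV1 b).2 (by omega))
  have hn : ((m * (d + 1) * n0 : ℕ) : ℝ) ≤ δ⁻¹ ^ (8 * Cu + 6 + (d + 1)) := by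
    have a1 : (m : ℝ) ≤ δ⁻¹ ^ (4 * Cu + 6) := by
      have a2 : (m : ℝ) ≤ 16 * δ⁻¹ ^ 2 * δ⁻¹ ^ (4 * Cu) := by
        have a3 : (m : ℝ) = m * (δ ^ 2 / 8 / δ⁻¹ ^ (4 * Cu)) * (8 * δ⁻¹ ^ 2 * δ⁻¹ ^ (4 * Cu)) := by
          field_simp
        have a4 := mul_le_mul_of_nonneg_right m2
          (by positivity : 0 ≤ 8 * δ⁻¹ ^ 2 * δ⁻¹ ^ (4 * Cu))
        linarith
      have a5 : (16 : ℝ) ≤ δ⁻¹ ^ 4 := by
        have := pow_le_pow_left₀ (by norm_num) hδi 4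
        norm_num at this ⊢
        exact this
      calc (m : ℝ) ≤ δ⁻¹ ^ 4 * δ⁻¹ ^ 2 * δ⁻¹ ^ (4 * Cu) := a2.trans (by gcongr)
        _ = _ := by ring
    push_cast
    have a6 := nat_le_pw hδi (d + 1)
    push_cast at a6
    calc (m : ℝ) * (d + 1) * n0 ≤ δ⁻¹ ^ (4 * Cu + 6) * δ⁻¹ ^ (d + 1) * δ⁻¹ ^ (4 * Cu) := by gcongr
      _ = _ := by ring
  refine ⟨m * (d + 1) * n0, C ((m * (d + 1) : ℕ) * ((n0 : ℝ) / N) : ℝ) * I,
    Nat.mul_pos (Nat.mul_pos m1 (Nat.succ_pos _)) h01, hn, euler hI3 hsing, fun b _ => hg b,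
    hm_cmul hI3 _, ?_⟩
  have e3 : C ((m * (d + 1) * n0 : ℕ) : ℝ) * F - C ((m * (d + 1) : ℕ) * ((n0 : ℝ) / N) : ℝ) * I
      = C (((m * (d + 1) * n0 : ℕ) : ℝ) / N) * (C (N : ℝ) * F - I) := by
    rw [mul_sub, ← mul_assoc, ← C_mul, div_mul_cancel₀ _ (by linarith)]
    congr 3
    push_cast
    ring
  rw [e3]
  refine (hI4.C_mul _).mono ?_
  rw [abs_of_nonneg (by positivity)]
  exact mul_le_mul_of_nonneg_right ((div_le_self (Nat.cast_nonneg _) hN1').trans hn) hI4.nonneg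

theorem oneH (hG : G.Ok s) {h : ι → ℤ} {g0 d N n : ℕ} {P R H0 H1 H2 : ℝ} {F I : MvPolynomial ι ℝ}
    {J : MvPolynomial (G.TV Unit) ℝ} (hd1 : 1 ≤ d) (hd : d ≤ s) (hg : ∀ a, G.g a < g0)
    (hc : (Fintype.card ι : ℝ) ≤ P) (hR : 1 ≤ R)
    (hh : ∀ a, G.w a = 1 → |eval (cz h) (G.th a)| ≤ R) (hN1 : 1 ≤ N) (hF : G.Hm (d + 1) F)
    (hI1 : IsZ I) (hI3 : G.Hm (d + 1) I) (hI4 : G.Bd (C (N : ℝ) * F - I) H0) (j1 : IsZ J)
    (j3 : (G.tan fun _ : Unit => h).Hm d J)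
    (j4 : (G.tan fun _ : Unit => h).Bd (C (n : ℝ) * G.dd (fun _ : Unit => h) () F - J) H1)
    (hz : (G.tan fun _ : Unit => h).Zr s g0 H2)
    (hH : N * H1 + n * (P * ((d + 1 : ℕ) * H0 * R)) ≤ H2) :
    IsZ (C ((n : ℝ) / N) * G.dd (fun _ : Unit => h) () I) := by
  have hN0 : (N : ℝ) ≠ 0 := by positivity
  have b1 := bd_dd hG hc hR hh (hm_sub (hm_cmul hF _) hI3) hI4
  have b2 := (j4.C_mul (N : ℝ)).sub (b1.C_mul (n : ℝ))
  have e1 : C (N : ℝ) * (C (n : ℝ) * G.dd (fun _ : Unit => h) () F - J) -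
      C (n : ℝ) * G.dd (fun _ : Unit => h) () (C (N : ℝ) * F - I)
      = C (n : ℝ) * G.dd (fun _ : Unit => h) () I - C (N : ℝ) * J := by
    rw [Tk.dd_sub, Tk.dd_C_mul]; ring
  rw [e1, Nat.abs_cast, Nat.abs_cast] at b2
  have z1 : IsZ (C (n : ℝ) * G.dd (fun _ : Unit => h) () I - C (N : ℝ) * J) := by
    have := L1.IsInt.sub ((L1.isInt_C n).mul (isZ_dd (G := G) h hI1)) ((L1.isInt_C N).mul j1)
    rwa [Int.cast_natCast, Int.cast_natCast] at this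
  have b3 := hz d _ hd1 hd z1 (fun x _ => hg (G.base x))
    (hm_sub (hm_cmul (Tk.hm_dd G _ hG.w1 () d I hI3) _) (hm_cmul j3 _)) (b2.mono hH)
  have e2 : C ((n : ℝ) / N) * G.dd (fun _ : Unit => h) () I = J := by
    rw [div_eq_inv_mul, C_mul, mul_assoc, sub_eq_zero.1 b3, ← mul_assoc, ← C_mul,
      inv_mul_cancel₀ hN0, C_1, one_mul]
  rw [e2]
  exact j1

theorem num4 {δ : ℝ} (hδ0 : 0 < δ) (hδi : 2 ≤ δ⁻¹) (k : ℕ) :
    (δ ^ 2 / 4)⁻¹ ^ k ≤ δ⁻¹ ^ (4 * k) := by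
  rw [pow_mul]
  refine pow_le_pow_left₀ (by positivity) ?_ _
  have e : (δ ^ 2 / 4)⁻¹ = 4 * δ⁻¹ ^ 2 := by field_simp
  rw [e]
  have h4 : 4 ≤ δ⁻¹ ^ 2 := by nlinarith
  have := mul_le_mul_of_nonneg_right h4 (sq_nonneg δ⁻¹)
  linarith [show δ⁻¹ ^ 4 = δ⁻¹ ^ 2 * δ⁻¹ ^ 2 by ring]

theorem num8 {δ Y : ℝ} (hδ : Real.exp (-Y) ≤ δ) : Real.exp (-(2 * Y + 3)) ≤ δ ^ 2 / 8 := by
  have h1 : Real.exp (-(2 * Y + 3)) * Real.exp 3 = Real.exp (-Y) ^ 2 := by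
    rw [← Real.exp_add, ← Real.exp_nat_mul]; congr 1; push_cast; ring
  have h2 := pow_le_pow_left₀ (Real.exp_pos _).le hδ 2
  have h3 : (8 : ℝ) ≤ Real.exp 3 := by
    have h4 : (2 : ℝ) ≤ Real.exp 1 := by linarith [Real.add_one_le_exp (1 : ℝ)]
    have h5 := pow_le_pow_left₀ (by norm_num) h4 3
    rw [← Real.exp_nat_mul] at h5
    norm_num at h5
    exact h5
  nlinarith [Real.exp_pos (-(2 * Y + 3))]

theorem numF {P Y W δ : ℝ} (hP : 2 ≤ P) (hY : 1 ≤ Y) (hW : 0 ≤ W) (hδ : Real.exp (-Y) ≤ δ)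
    {k cE c : ℕ} (hc : k + cE + 1 ≤ c) :
    δ⁻¹ ^ k * Real.exp (P ^ cE * (Y + W)) ≤ Real.exp (P ^ c * (Y + W)) := by
  refine (mul_le_mul_of_nonneg_right (inv_pow_le hδ _) (Real.exp_pos _).le).trans ?_
  rw [← Real.exp_add, Real.exp_le_exp]
  have a8 := mul_le_mul (nat_le_pw hP k) (show Y ≤ Y + W by linarith)
    (by linarith) (pw_pos hP _).le
  have a9 := mul_le_mul_of_nonneg_right ((add_pw_le hP k cE).trans (pw_le hP hc))
    (show 0 ≤ Y + W by linarith)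
  linarith

theorem near {α : Type} (F : Finset α) (g : α → ℝ) (hg : ∀ x, 0 ≤ g x) (S : α → ℂ) {b t : ℝ}
    (hb : t ≤ b) (hb0 : 0 ≤ b) (h : dist (∑ x ∈ F, (g x : ℂ) * S x) (b : ℂ) < t / 8) :
    7 / 8 * t ≤ ∑ x ∈ F, g x * ‖S x‖ := by
  rw [dist_eq_norm] at h
  have h1 : ‖∑ x ∈ F, (g x : ℂ) * S x‖ ≤ ∑ x ∈ F, g x * ‖S x‖ := by
    refine (norm_sum_le _ _).trans (sum_le_sum fun x _ => ?_)
    rw [norm_mul, Complex.norm_real, Real.norm_of_nonneg (hg _)]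
  have h2 := norm_sub_norm_le (b : ℂ) (∑ x ∈ F, (g x : ℂ) * S x)
  rw [norm_sub_rev, Complex.norm_real, Real.norm_of_nonneg hb0] at h2
  linarith

end Up

/-- the upgrade when all variables are active -/
def UPGf (s d : ℕ) : Prop := ∃ C c : ℕ, ∀ (ι : Type) [Fintype ι] [DecidableEq ι] (G : GT ι)
  (T : AT ι) (WW : ℕ → ℝ) (P Y : ℝ) (g0 : ℕ) (Q : MvPolynomial ι ℝ) (δ : ℝ), G.Ok s → G.Wd WW →
    Sz ι P Y → G.AOk T P → g0 ≤ s → T.U = univ → (∀ a, G.g a < g0) → G.Rg WW (P ^ c) Y g0 →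
    G.Dl (d + 1) Q → Real.exp (-Y) ≤ δ → δ ≤ 1 / 2 → δ * G.mn T.sg T.U ≤ ‖G.Sm T Q‖ →
    G.Apn g0 d (G.top d Q) (δ⁻¹ ^ C) (Real.exp (P ^ c * (Y + WW g0)))

open Up in
theorem upgS (s d : ℕ) (hd1 : 1 ≤ d) (hd : d + 1 ≤ s) (hDer : DEROK) (hdet : DET) (hQ : SQ)
    (hZ : ZERO) (hM : MASS s s s) (hB : SELB s) (hE : EQG s (d + 1)) (hU : UPG s d) :
    UPGf s (d + 1) := by
  classical
  obtain ⟨Cu, cu, hU⟩ := hU
  obtain ⟨cE, hE⟩ := hE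
  obtain ⟨cM, hM⟩ := hM
  obtain ⟨ca, hz⟩ := hZ s (4 * Cu + s + cE + cu + 4)
  obtain ⟨cy, hy⟩ := hZ s (cE + 4)
  obtain ⟨c1, cS, hB⟩ := hB (ca + cM + cu)
  refine ⟨8 * Cu + 6 + (d + 1), cS + 3 + cy + cE + (8 * Cu + 6 + (d + 1)) + 1, ?_⟩
  intro ι _ _ G T WW P Y g0 Q δ hG hW hS hA hg0 hUu hg hR hD hδ hδ2 hb
  have hP := hS.P2
  have hY := hS.Y1
  have hP0 : 0 < P := by linarith
  have h2P : 2 ≤ 2 * P := by linarith
  have hW0 := hW.nn g0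
  have hδ0 : 0 < δ := (Real.exp_pos _).trans_le hδ
  have hδi : 2 ≤ δ⁻¹ := by
    have := inv_anti₀ hδ0 hδ2
    simpa using this
  have hQv : Q.vars ⊆ T.U := by rw [hUu]; exact subset_univ _
  have hrg : ∀ c, c ≤ cS + 3 + cy + cE + (8 * Cu + 6 + (d + 1)) + 1 → G.Rg WW (P ^ c) Y g0 :=
    fun c hc => hR.mono le_rfl hW.nn (pw_pos hP c) (by linarith) (pw_le hP hc) le_rfl
  have hσ : ∀ a, 0 < T.sg a := Br.sg_pos hP0 hA
  obtain ⟨N, I, hN1, hN2, hI1, hI2, hI3, hI4⟩ := hE ι G T WW P Y g0 Q hG hW hS hA hg0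
    (fun a _ => hg a) (hrg cE (by omega)) hQv hD
    ((mul_le_mul_of_nonneg_right hδ (MgA.mn_nonneg hP0 hA _)).trans hb)
  have hN1' : (1 : ℝ) ≤ N := by exact_mod_cast hN1
  set F := G.top (d + 1) Q with hF
  have hFh : G.Hm (d + 1) F := weightedHomogeneousComponent_isWeightedHomogeneous _ _
  obtain ⟨R, hR1, hR2, hbad⟩ := hB ι G T WW P (2 * Y + 3) g0 hG hW ⟨hS.cd, hP, by linarith⟩ hA hg0
    hUu hg ((hrg (cS + 3) (by omega)).of_le le_rfl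
      (fun g _ => mul_pos (pw_pos hP _) (by linarith [hW.nn g])) fun g _ => by
        have h1 := hW.nn g
        have h2 : 8 ≤ P ^ 3 := by nlinarith [mul_nonneg (sub_nonneg.2 hP) (sub_nonneg.2 hP)]
        rw [pow_add, mul_assoc]
        exact mul_le_mul_of_nonneg_left (by nlinarith) (pw_pos hP _).le)
  obtain ⟨Y1, hY1⟩ : ∃ Y1, Y1 = P ^ c1 * (2 * Y + 3 + WW g0) := ⟨_, rfl⟩
  rw [← hY1] at hR2 hbad
  have hY2 : 2 * Y + 3 + WW g0 ≤ Y1 := by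
    rw [hY1]; exact le_mul_of_one_le_left (by linarith) (one_le_pw hP c1)
  have hV1 : ∀ a, a ∈ G.V1 T ↔ G.w a = 1 := fun a => by simp [GT.V1, hUu]
  have hBk : G.Bk (G.V1 T) := fun a b hab => by rw [hV1, hV1, (hG.blk a b hab).2]
  have hq : ∀ a ∈ G.V1 T, (G.q a).vars ⊆ G.V1 T := fun a ha b hb =>
    (hV1 b).2 (le_antisymm (((hV1 a).1 ha) ▸ Tk.w_le_of_vars G (hG.qh a) hb) (hG.w1 b))
  have hlat := fun (N : ℕ) (hN : 1 ≤ N) (hH : (N * P) ^ 3 * P + 1 ≤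
      Real.exp (P ^ (cE + 4) * (Y + WW g0))) =>
    latt hG ⟨hS.cd, hP, le_rfl⟩ hA hBk hq (fun a _ => hg a)
      (hy ι G WW P Y g0 hG hW hS (hrg cy (by omega))) hN hH
  obtain ⟨Z, hZd⟩ : ∃ Z, Z = √2 ^ (G.V1 T).card * G.mn T.sg (G.V1 T) := ⟨_, rfl⟩
  rw [← hZd] at hlat
  have hZ0 : 0 < Z := by rw [hZd]; exact mul_pos (by positivity) (Br.mn_pos hG hBk hσ)
  have hM0 : 0 < G.mn T.sg T.U := Br.mn_pos hG hA.bk hσ
  obtain ⟨mh, hmhd⟩ : ∃ x, x = G.mn T.sg T.U ^ 2 / Z := ⟨_, rfl⟩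
  have hmh0 : 0 < mh := by rw [hmhd]; positivity
  have hMZ : G.mn T.sg T.U ^ 2 = Z * mh := by rw [hmhd]; field_simp
  have hmh : ∀ h, (G.tan fun _ : Unit => h).mn (G.der T h).sg (G.der T h).U = mh := by
    intro h
    have h1 := (hdet s ι G hG).2.2.2 T h P hP0 hA
    rw [← hZd, hMZ] at h1
    exact (mul_left_cancel₀ hZ0.ne' h1).symm
  have hTok : ∀ h : ι → ℤ, (G.tan fun _ : Unit => h).Ok s := fun h => Tk.ok G _ hG
  have hTwd : ∀ h : ι → ℤ, (G.tan fun _ : Unit => h).Wd WW :=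
    fun h => (tanok s ι Unit G _ hG).2.2.2.1 WW hW
  have hTa : ∀ h : ι → ℤ, (G.tan fun _ : Unit => h).AOk (G.der T h) (2 * P) :=
    fun h => (hDer s ι G T P h hG hP0 hA).1
  have hTs : Sz (G.TV Unit) (2 * P) Y1 := hS.tv1 G (by linarith)
  have hTr : ∀ {h : ι → ℤ} (c : ℕ), c ≤ ca + cM + cu →
      (G.tan fun _ : Unit => h).Rg WW ((2 * P) ^ (ca + cM + cu)) Y1 g0 →
      (G.tan fun _ : Unit => h).Rg WW ((2 * P) ^ c) Y1 g0 := fun c hc h =>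
    h.mono le_rfl hW.nn (pw_pos h2P c) (by linarith) (pw_le h2P hc) le_rfl
  have hgw : ∀ h : Lat (G.V1 T), 0 ≤ G.gw T h.1 := fun h => (Real.exp_pos _).le
  have ht0 : 0 < δ ^ 2 * (Z * mh) / 8 := by positivity
  obtain ⟨F0, hF0⟩ := (((hQ s ι G T P hG hP0 hA).1 Q hQv).eventually
    (Metric.ball_mem_nhds _ ht0)).exists
  have hδe := num8 hδ
  have hL1 : 1 ≤ Y1 + WW g0 := by linarith
  have hL2 : P ^ cE * (Y + WW g0) ≤ P ^ cE * (Y1 + WW g0) :=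
    mul_le_mul_of_nonneg_left (by linarith) (pw_pos hP _).le
  have hL3 : Y ≤ Y1 + WW g0 := by linarith
  have hL4 : R ^ 2 ≤ Y1 + WW g0 := by linarith
  have hL5 : Real.exp (-Y1) ≤ δ ^ 2 / 4 :=
    (Real.exp_le_exp.2 (by linarith)).trans (hδe.trans (by linarith [sq_nonneg δ]))
  have hL6 : δ ^ 2 / 4 ≤ 1 / 2 := by nlinarith
  have hL7 : Real.exp (-Y1) * mh ≤ mh :=
    mul_le_of_le_one_left hmh0.le (Real.exp_le_one_iff.2 (by linarith))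
  have hL8 := mul_le_mul_of_nonneg_right hδe (mul_pos hZ0 hmh0).le
  have hme := meas F0 (fun h => G.gw T h.1)
    (fun h => ‖(G.tan fun _ : Unit => h.1).Sm (G.der T h.1) (G.df h.1 Q)‖)
    (fun h => (G.tan fun _ : Unit => h.1).ms (G.der T h.1))
    (fun h => G.InL (G.V1 T) R h.1 ∧
      (G.tan fun _ : Unit => h.1).Rg WW ((2 * P) ^ (ca + cM + cu)) Y1 g0)
    (t := δ ^ 2) (Z := Z) hgw hmh0 (by positivity)
    (fun h => Br.norm_Sm_le (hTok _) (by linarith) (hTa _) _)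
    (fun h hh => by
      have h1 := hM _ _ (G.der T h.1) WW (2 * P) Y1 g0 (hTok _) (hTwd _) hTs (hTa _) hg0
        (hTr cM (by omega) hh.2) (fun a _ _ => (hTok _).ws a) (Step.cnt_le (hTok _) _ _ _)
        (fun x _ => hg (G.base x))
      rw [hmh] at h1
      linarith only [(abs_le.1 h1).2, hL7])
    (near F0 _ hgw _ (by
      have h3 := pow_le_pow_left₀ (by positivity) hb 2
      rwa [mul_pow, hMZ] at h3) (sq_nonneg _) hF0)
    (by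
      refine (hbad _ fun h hh => (mem_filter.1 hh).2).trans ?_
      rw [hMZ]
      linarith only [hL8])
    (by
      obtain ⟨m, h1, h2, -⟩ := hlat 1 le_rfl
        (numL hP (by linarith) (by simp) (by simpa using by positivity)) ⊤ (fun _ => trivial) F0
        (fun _ _ => trivial) (ε := (∑ h ∈ F0, G.gw T h.1) / Z) (by rw [div_mul_cancel₀ _ hZ0.ne'])
      have h3 : (1 : ℝ) ≤ m := by exact_mod_cast h1
      have h4 : 0 ≤ (∑ h ∈ F0, G.gw T h.1) / Z := div_nonneg (sum_nonneg fun h _ => hgw h) hZ0.le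
      rw [← div_le_iff₀ hZ0]
      exact (le_mul_of_one_le_left h4 h3).trans h2)
  set E1 := F0.filter (fun h => (G.InL (G.V1 T) R h.1 ∧
      (G.tan fun _ : Unit => h.1).Rg WW ((2 * P) ^ (ca + cM + cu)) Y1 g0) ∧
      δ ^ 2 / 4 * mh ≤ ‖(G.tan fun _ : Unit => h.1).Sm (G.der T h.1) (G.df h.1 Q)‖) with hE1
  have hall : ∀ h ∈ E1, ∃ n : ℕ, (1 ≤ n ∧ (n : ℝ) ≤ δ⁻¹ ^ (4 * Cu)) ∧
      IsZ (C ((n : ℝ) / N) * G.dd (fun _ : Unit => h.1) () I) := by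
    intro h hh
    obtain ⟨⟨hin, hrg'⟩, hbi⟩ := (mem_filter.1 hh).2
    obtain ⟨hv, hdl, htop⟩ := (hDer s ι G T P h.1 hG hP0 hA).2 d Q hQv hD
    obtain ⟨n, J, n1, n2, j1, -, j3, j4⟩ := hU _ _ (G.der T h.1) WW (2 * P) Y1 g0 (G.df h.1 Q)
      (δ ^ 2 / 4) (hTok _) (hTwd _) hTs (hTa _) hg0 (fun x _ => hg (G.base x))
      (hTr cu (by omega) hrg') hv hdl
      hL5 hL6 (by rw [hmh]; exact hbi)
    rw [htop] at j4
    have n3 : (n : ℝ) ≤ δ⁻¹ ^ (4 * Cu) := n2.trans (num4 hδ0 hδi Cu)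
    exact ⟨n, ⟨n1, n3⟩, oneH hG hd1 (by omega) hg hS.cd hR1 (fun a ha => abs_le.2
      (abs_le_of_sq_le_sq' (le_trans (single_le_sum (f := fun a => (eval (cz h.1) (G.th a)) ^ 2)
        (fun _ _ => sq_nonneg _) ((hV1 a).2 ha)) hin.2) (le_trans zero_le_one hR1))) hN1 hFh hI1 hI3
      hI4 j1 j3 j4 (hz _ _ WW (2 * P) Y1 g0 (hTok _) (hTwd _) hTs (hTr ca (by omega) hrg'))
      (numZ hP hL1 hL2 hL3 hR1 hL4 (n3.trans (inv_pow_le hδ _)) hN2 hd)⟩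
  exact (finU hG hV1 hg hδ0 hδi hZ0 hN1 hI1 hI3 hI4 E1 hme hall fun K hK E hE ε hε =>
    hlat N hN1 (numL hP (by linarith) hN1' hN2) K hK E hE hε).mono le_rfl
    (numF hP hY hW0 hδ (by omega))

open SubH1 in
theorem upg_sub {s d : ℕ} (h : UPGf s d) : UPG s d := by
  obtain ⟨C', c, hc⟩ := h
  refine ⟨C', c, fun ι _ _ G T WW P Y g0 Q δ hO hW hS hA hg hU hR hQ hD h1 h2 hb => ?_⟩
  have hQ' := rn_kl hQ
  rw [← hQ'] at hD hb ⊢
  rw [top_rn]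
  obtain ⟨n, I, a1, a2, a3, a4, a5, a6⟩ := hc T.U (sG G T.U) (sT T) WW P Y g0 (kl T.U Q) δ
    (ok_s hO hA.bk hA.qv) (wd_s hA.bk hW)
    ⟨le_trans (by exact_mod_cast Fintype.card_subtype_le _) hS.cd, hS.P2, hS.Y1⟩ (aok_s hA) hg rfl
    (fun a => hU a.1 a.2) (fun g hg => ⟨big_s hA.bk hA.qv (hR g hg).1, small_s hA.bk (hR g hg).2⟩)
    (dl_rn hD) h1 h2 (by rw [mn_s, ← sm_s hA]; exact hb)
  refine ⟨n, rn T.U I, a1, a2, isZ_rn a3, lo_rn.2 a4, hm_rn.2 a5, ?_⟩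
  have := bd_rn hA.bk hA.qv a6
  unfold rn at this ⊢
  rwa [map_sub, map_mul, rename_C] at this

end

end Vale.Agent.P057T.Eq
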