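import Vale.Agent.P057T.Eq.All
import Vale.Agent.P057T.Eq.SelB
import Vale.Agent.P057T.Eq.Upg3

/-! The upgrade, closed. -/

namespace Vale.Agent.P057T.Eq

namespace All

theorem eqgc {s d : ℕ} (h1 : 1 ≤ d) (h2 : d ≤ s) : EQG s d :=
  eqg detc s d h2 (fun _ h h' => margsc (by omega) h' s) (eqs h1 h2 s)

theorem selbc (s : ℕ) : SELB s := selb s tanok derc locc detc sqc p1m fibc (jbc s) (masss s)

theorem upgc {s d : ℕ} (h1 : 1 ≤ d) (h2 : d ≤ s) : UPG s d := by
  induction d, h1 using Nat.le_induction with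
  | base => exact upg1 detc zeroc s h2 fun _ h h' => margsc (by omega) h' s
  | succ d hd ih =>
    exact upg_sub (upgS s d hd h2 derc detc sqc zeroc (masss s) (selbc s) (eqgc (by omega) h2)
      (ih (by omega)))

end All

end Vale.Agent.P057T.Eq
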