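import Vale.Agent.P057T.Eq.Upg1
import Vale.Agent.P057T.Eq.Bdw
import Vale.Agent.P057T.Eq.Tanok
import Vale.Agent.P057T.UpgF

/-! Subgroups of large Gaussian mass have small index; differentials of bounded forms. -/

open MvPolynomial Finset Matrix
open scoped Real
open Vale.Agent.P267.H775 Vale.Agent.P057T.Poi

namespace Vale.Agent.P057T.Eq

noncomputable section

set_option linter.unusedSectionVars false

namespace Up

theorem idx {V : Type} [Fintype V] [DecidableEq V] {M : Matrix V V ℝ} (hM : M.det ≠ 0) {N : ℕ}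
    (hN : 1 ≤ N) (hth : th ((N : ℝ) • M) 0 ≤ 2 * |((N : ℝ) • M).det|⁻¹)
    (K : AddSubgroup (V → ℤ)) (hK : ∀ y, N • y ∈ K) (E : Finset (V → ℤ)) (hE : ∀ h ∈ E, h ∈ K)
    {ε : ℝ} (hs : ε * |M.det|⁻¹ ≤ ∑ h ∈ E, gq M (toR h)) :
    ∃ m : ℕ, 1 ≤ m ∧ (m : ℝ) * ε ≤ 2 ∧ ∀ h, m • h ∈ K := by
  classical
  have : NeZero N := ⟨by omega⟩
  have hN0 : (0 : ℝ) < N := by exact_mod_cast hN
  have hNM := det_smul_ne hN0.ne' hM
  let φ : (V → ℤ) →+ (V → ZMod N) :=
    { toFun := fun h a => (h a : ZMod N)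
      map_zero' := by funext a; simp
      map_add' := fun _ _ => by funext a; simp }
  have hdiv : ∀ h : V → ℤ, φ h = 0 → ∃ y : V → ℤ, h = N • y := by
    intro h hh
    choose y hy using fun a => (ZMod.intCast_zmod_eq_zero_iff_dvd (h a) N).1 (congrFun hh a)
    exact ⟨y, funext fun a => by rw [hy a]; simp⟩
  set K' := K.map φ with hK'
  have hidx : Nat.card K' * K'.index = N ^ Fintype.card V := by
    rw [AddSubgroup.card_mul_index, Nat.card_eq_fintype_card, Fintype.card_fun, ZMod.card]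
  have hi0 : 1 ≤ K'.index := by
    rcases Nat.eq_zero_or_pos K'.index with h0 | h0
    · rw [h0, mul_zero] at hidx
      have := Nat.pow_pos (n := Fintype.card V) hN
      omega
    · exact h0
  refine ⟨K'.index, hi0, ?_, fun h => ?_⟩
  swap
  · obtain ⟨g, hg1, hg2⟩ := K'.nsmul_index_mem (φ h)
    obtain ⟨y, hy⟩ := hdiv (K'.index • h - g) (by rw [map_sub, map_nsmul, hg2, sub_self])
    have : K'.index • h - g ∈ K := hy ▸ hK y
    simpa using K.add_mem this hg1
  have hfib : ∀ x : V → ZMod N, ∑ h ∈ E.filter (fun h => φ h = x), gq M (toR h)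
      ≤ 2 * |((N : ℝ) • M).det|⁻¹ := by
    intro x
    have h1 : ∀ h : V → ℤ, ∃ y : V → ℤ, φ h = x → h - UpgF.lf x = N • y := by
      intro h
      by_cases hh : φ h = x
      · obtain ⟨y, hy⟩ := hdiv (h - UpgF.lf x) (by
          rw [map_sub, hh]
          funext a
          exact sub_eq_zero.2 (UpgF.cast_lf x a).symm)
        exact ⟨y, fun _ => hy⟩
      · exact ⟨0, fun h => absurd h hh⟩
    choose y hy using h1
    have h2 : ∀ h ∈ E.filter (fun h => φ h = x), gq M (toR h)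
        = gq ((N : ℝ) • M) ((N : ℝ)⁻¹ • toR (UpgF.lf x) + toR (y h)) := by
      intro h hh
      have h3 : toR h = (N : ℝ) • ((N : ℝ)⁻¹ • toR (UpgF.lf x) + toR (y h)) := by
        funext a
        have h4 := congrFun (hy h (mem_filter.1 hh).2) a
        simp only [Pi.sub_apply, Pi.smul_apply, nsmul_eq_mul] at h4
        have h5 : ((h a : ℤ) : ℝ) - (UpgF.lf x a : ℤ) = N * (y h a : ℤ) := by exact_mod_cast h4
        simp only [Pi.smul_apply, Pi.add_apply, toR_apply, smul_eq_mul]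
        field_simp
        linarith
      rw [h3]
      unfold gq qf
      rw [mulVec_smul, smul_mulVec]
    rw [sum_congr rfl h2, ← sum_image (s := E.filter (fun h => φ h = x)) (g := y)
      (f := fun n => gq ((N : ℝ) • M) ((N : ℝ)⁻¹ • toR (UpgF.lf x) + toR n)) ?_]
    · exact ((summable_gq hNM _).sum_le_tsum _ fun _ _ => (gq_pos _ _).le).trans
        ((th_le hNM _).trans hth)
    · intro a ha b hb hab
      have h1 := hy a (mem_filter.1 ha).2
      have h2 := hy b (mem_filter.1 hb).2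
      rw [hab, ← h2] at h1
      exact sub_left_injective h1
  have hsum : ∑ h ∈ E, gq M (toR h) ≤ (E.image φ).card * (2 * |((N : ℝ) • M).det|⁻¹) := by
    rw [← sum_fiberwise_of_maps_to (g := φ) (t := E.image φ) fun h hh => mem_image_of_mem _ hh,
      ← nsmul_eq_mul]
    exact sum_le_card_nsmul _ _ _ fun x _ => hfib x
  have hsub : (E.image φ).card ≤ Nat.card K' := by
    have : ((E.image φ : Finset _) : Set (V → ZMod N)) ⊆ (K' : Set (V → ZMod N)) := by
      intro x hx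
      obtain ⟨h, hh, rfl⟩ := mem_image.1 (mem_coe.1 hx)
      exact ⟨h, hE h hh, rfl⟩
    have h2 := Set.ncard_le_ncard this (Set.toFinite _)
    rw [Set.ncard_coe_finset] at h2
    exact h2
  have hd : 0 < |M.det| := abs_pos.2 hM
  have hNp : (0 : ℝ) < (N : ℝ) ^ Fintype.card V := by positivity
  rw [det_smul, abs_mul, abs_of_pos hNp] at hsum
  have h1 : ((E.image φ).card : ℝ) * K'.index ≤ (N : ℝ) ^ Fintype.card V := by
    have : (E.image φ).card * K'.index ≤ N ^ Fintype.card V :=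
      hidx ▸ Nat.mul_le_mul_right _ hsub
    exact_mod_cast this
  have h2 := mul_le_mul_of_nonneg_left (hs.trans hsum) (Nat.cast_nonneg (α := ℝ) K'.index)
  have h3 : (K'.index : ℝ) * (((E.image φ).card : ℝ) * (2 * ((N : ℝ) ^ Fintype.card V * |M.det|)⁻¹))
      ≤ 2 * |M.det|⁻¹ := by
    calc _ = ((E.image φ).card : ℝ) * K'.index * (2 * ((N : ℝ) ^ Fintype.card V * |M.det|)⁻¹) := by
          ring
      _ ≤ (N : ℝ) ^ Fintype.card V * (2 * ((N : ℝ) ^ Fintype.card V * |M.det|)⁻¹) :=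
          mul_le_mul_of_nonneg_right h1 (by positivity)
      _ = _ := by field_simp
  have h4 := h2.trans h3
  rw [← mul_assoc] at h4
  exact le_of_mul_le_mul_right h4 (inv_pos.2 hd)

variable {ι : Type} [Fintype ι] [DecidableEq ι] {G : GT ι} {s : ℕ}

open E1 in
theorem det_ne (hG : G.Ok s) {V : Finset ι} (hV : G.Bk V) {σ : ι → ℝ} (hσ : ∀ a, 0 < σ a) :
    (mm G V σ).det ≠ 0 := by
  intro h
  have := det_mm hG hV hσ
  rw [h] at this
  simp at this

open E1 in
theorem th_two (hG : G.Ok s) {V : Finset ι} (hV : G.Bk V) (hw : ∀ a ∈ V, G.w a = 1)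
    (hq : ∀ a ∈ V, (G.q a).vars ⊆ V) {g0 : ℕ} (hg : ∀ a ∈ V, G.g a < g0) {σ : ι → ℝ}
    {P P' H : ℝ} (hσ : ∀ a, 0 < σ a) (hσ' : ∀ a, σ a ≤ P') (hS : Sz ι P 1) (hP : P ≤ P')
    (hZ : G.Zr s g0 H) (hH : P' ^ 3 * P + 1 ≤ H) :
    th (mm G V σ) 0 ≤ 2 * |(mm G V σ).det|⁻¹ := by
  have hd := det_ne hG hV hσ
  have hcU : (Fintype.card V : ℝ) ≤ P :=
    le_trans (by exact_mod_cast Fintype.card_subtype_le _) hS.cd
  have hP0 : 0 < P' := by linarith [hS.P2]
  have h1 := th_sub_one_le (det_dual hd) (K := 0 + P) (δ := 1 / 3) (fun k hk => ?_)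
    (by simpa using num1 hcU hS.P2 le_rfl) (by norm_num)
  · rw [th_dual hd] at h1
    have h2 : 0 < |(mm G V σ).det| := abs_pos.2 hd
    rw [← div_eq_mul_inv, le_div_iff₀ h2]
    linarith
  · by_contra h
    obtain ⟨a, ha⟩ := Function.ne_iff.1 hk
    have h2 := hZ 1 (lU V (toR k)) le_rfl ((hG.w1 a.1).trans (hG.ws a.1)) (isZ_lU _ _)
      (fun b hb => hg b (vars_lU _ _ b hb)) (hm_lU G hw _)
      (bd_lU hG hV hw hq hσ hσ' (hS.cd.trans hP) _ (le_trans (by
        have := mul_le_mul_of_nonneg_left (not_le.1 h).le (pow_pos hP0 3).le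
        rw [zero_add] at this
        linarith) hH))
    have h3 := congrFun (lU_eq_zero h2) a
    exact ha (by simpa using h3)

open E1 in
theorem gw_eq (hG : G.Ok s) {T : AT ι} (hV : G.Bk (G.V1 T))
    (hq : ∀ a ∈ G.V1 T, (G.q a).vars ⊆ G.V1 T) (y : G.V1 T → ℤ) :
    G.gw T (E1.ext (G.V1 T) y) = gq (mm G (G.V1 T) fun a => T.sg a / √2) (toR y) := by
  unfold GT.gw gq qf
  rw [← sum_coe_sort (G.V1 T)]
  congr 1
  rw [mul_sum, mul_sum]
  refine sum_congr rfl fun a _ => ?_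
  rw [E1.th_eq hG hV (fun a ha => (mem_filter.1 ha).2) hq, eval_lU, mm, ← mulVec_mulVec,
    mulVec_diagonal]
  have r2 : √2 ^ 2 = (2 : ℝ) := Real.sq_sqrt (by norm_num)
  have : (a1 G (G.V1 T) *ᵥ toR y) a = ∑ c, a1 G (G.V1 T) a c * (y c : ℝ) := rfl
  rw [this, mul_pow, mul_pow, div_pow, r2]
  ring

theorem mn_div (σ : ι → ℝ) (V : Finset ι) :
    G.mn (fun a => σ a / √2) V = √2 ^ V.card * G.mn σ V := by
  unfold GT.mn
  simp only [div_eq_mul_inv, mul_inv, inv_inv, prod_mul_distrib, prod_const]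
  ring

open E1 in
/-- the lattice of the weight one variables -/
theorem latt (hG : G.Ok s) {T : AT ι} {P H : ℝ} {g0 : ℕ} (hS : Sz ι P 1) (hA : G.AOk T P)
    (hV : G.Bk (G.V1 T)) (hq : ∀ a ∈ G.V1 T, (G.q a).vars ⊆ G.V1 T)
    (hg : ∀ a ∈ G.V1 T, G.g a < g0) (hZ : G.Zr s g0 H) {N : ℕ} (hN : 1 ≤ N)
    (hH : (N * P) ^ 3 * P + 1 ≤ H) (K : AddSubgroup (ι → ℤ)) (hK : ∀ y, N • y ∈ K)
    (E : Finset (Lat (G.V1 T))) (hE : ∀ h ∈ E, h.1 ∈ K) {ε : ℝ}
    (hs : ε * (√2 ^ (G.V1 T).card * G.mn T.sg (G.V1 T)) ≤ ∑ h ∈ E, G.gw T h.1) :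
    ∃ m : ℕ, 1 ≤ m ∧ (m : ℝ) * ε ≤ 2 ∧ ∀ h ∈ Lat (G.V1 T), m • h ∈ K := by
  have hP0 : 0 < P := by linarith [hS.P2]
  have hN1 : (1 : ℝ) ≤ N := by exact_mod_cast hN
  have hσ : ∀ a, 0 < T.sg a / √2 := fun a =>
    div_pos ((inv_pos.2 hP0).trans_le (hA.s1 a)) (by positivity)
  have hσ' : ∀ a, T.sg a / √2 ≤ P := fun a =>
    (div_le_self ((inv_pos.2 hP0).le.trans (hA.s1 a)) (Real.one_le_sqrt.2 (by norm_num))).trans
      (hA.s2 a)
  have e1 : (N : ℝ) • mm G (G.V1 T) (fun a => T.sg a / √2)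
      = mm G (G.V1 T) fun a => N * (T.sg a / √2) := by
    ext a b
    simp only [mm, Matrix.smul_apply, diagonal_mul, smul_eq_mul, mul_assoc]
  let ψ : (G.V1 T → ℤ) →+ (ι → ℤ) :=
    { toFun := E1.ext (G.V1 T)
      map_zero' := by funext a; simp [E1.ext]
      map_add' := fun x y => by
        funext a
        simp only [E1.ext, Pi.add_apply]
        split_ifs <;> simp }
  obtain ⟨m, h1, h2, h3⟩ := idx (det_ne hG hV hσ) hN (by
      rw [e1]
      exact th_two hG hV (fun a ha => (mem_filter.1 ha).2) hq hg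
        (fun a => mul_pos (by linarith) (hσ a))
        (fun a => mul_le_mul_of_nonneg_left (hσ' a) (by linarith)) hS (by nlinarith) hZ hH)
    (K.comap ψ) (fun y => by rw [AddSubgroup.mem_comap, map_nsmul]; exact hK _)
    (E.map (latE (G.V1 T)).symm.toEmbedding) (fun y hy => by
      obtain ⟨h, hh, rfl⟩ := mem_map.1 hy
      have : ψ ((latE (G.V1 T)).symm h) = h.1 :=
        congrArg Subtype.val ((latE (G.V1 T)).apply_symm_apply h)
      rw [AddSubgroup.mem_comap]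
      exact this ▸ hE h hh) (ε := ε) (by
      rw [inv_eq_of_mul_eq_one_right (det_mm hG hV hσ), mn_div, sum_map]
      refine hs.trans (le_of_eq (sum_congr rfl fun h _ => ?_))
      rw [← gw_eq hG hV hq]
      congr 1
      exact (congrArg Subtype.val ((latE (G.V1 T)).apply_symm_apply h)).symm)
  refine ⟨m, h1, h2, fun h hh => ?_⟩
  have h4 := h3 ((latE (G.V1 T)).symm ⟨h, hh⟩)
  rw [AddSubgroup.mem_comap, map_nsmul] at h4
  have : ψ ((latE (G.V1 T)).symm ⟨h, hh⟩) = h :=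
    congrArg Subtype.val ((latE (G.V1 T)).apply_symm_apply ⟨h, hh⟩)
  rwa [this] at h4

theorem dd_one (hG : G.Ok s) (h : ι → ℤ) {F : MvPolynomial ι ℝ} (hF : G.Hm 1 F) :
    G.dd (fun _ : Unit => h) () F = C (eval (cz h) F) := by
  have hv : F.vars ⊆ univ.filter (fun a => G.w a = 1) := fun b hb =>
    mem_filter.2 ⟨mem_univ _, le_antisymm (Tk.w_le_of_vars G hF hb) (hG.w1 b)⟩
  rw [E1.eq_lU hG.w1 hF hv]
  unfold E1.lU
  rw [Tk.dd_sum, map_sum, map_sum]
  refine sum_congr rfl fun c _ => ?_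
  have := (mem_filter.1 c.2).2
  rw [Tk.dd_C_mul, Tk.dd_X, Tk.wv_lo _ _ _ (by omega), map_mul, eval_C, eval_X, C_mul]
  rfl

theorem bd_dd (hG : G.Ok s) {h : ι → ℤ} {P R H : ℝ} (hc : (Fintype.card ι : ℝ) ≤ P) (hR : 1 ≤ R)
    (hh : ∀ a, G.w a = 1 → |eval (cz h) (G.th a)| ≤ R) {e : ℕ} {F : MvPolynomial ι ℝ}
    (hF : G.Hm e F) (hB : G.Bd F H) :
    (G.tan fun _ : Unit => h).Bd (G.dd (fun _ : Unit => h) () F) (P * (e * H * R)) := by
  have hH := hB.nonneg
  obtain ⟨b, rfl, hb⟩ := hB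
  have hbh := (hm_iff hG e b).2 hF
  have e1 : G.dd (fun _ : Unit => h) () (aeval G.th b) = ∑ a,
      rename Sum.inl (aeval G.th (pderiv a b)) * G.dd (fun _ : Unit => h) () (G.th a) := by
    unfold GT.dd
    simp only [L1.pderiv_aeval, map_sum, map_mul, mul_sum]
    rw [sum_comm]
    refine sum_congr rfl fun a _ => sum_congr rfl fun c _ => ?_
    ring
  rw [e1]
  refine (GT.bd_sum _ (K := fun _ => e * H * R) fun a _ => GT.Bd.mul ?_ ?_).mono ?_
  · refine ⟨rename Sum.inl (pderiv a b), ?_, (L1.nrm_rename_le _ _).trans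
      ((L1.nrm_pderiv_le a (Chart.totalDegree_le_of_hom hG.w1 hbh)).trans
        (mul_le_mul_of_nonneg_left hb (Nat.cast_nonneg e)))⟩
    rw [aeval_rename, Tk.ren_eq, Chart.aeval_aeval]
    congr 2
    funext c
    rw [← Tk.ren_eq]
    exact Tk.th_inl G _ c
  · by_cases ha : 2 ≤ G.w a
    · rw [← Tk.th_inr G (fun _ : Unit => h) hG ((), ⟨a, ha⟩)]
      exact (GT.bd_th _ _).mono hR
    · have h1 : G.w a = 1 := by have := hG.w1 a; omega
      rw [dd_one hG h (h1 ▸ th_hm hG a)]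
      exact (GT.bd_C _ _).mono (hh a h1)
  · rw [sum_const, card_univ, nsmul_eq_mul]
    exact mul_le_mul_of_nonneg_right hc (by positivity)

/-- the directions in which `r • I` has an integral derivative -/
def dirs (r : ℝ) (I : MvPolynomial ι ℝ) : AddSubgroup (ι → ℤ) where
  carrier := {v | IsZ (C r * ∑ b, C (v b : ℝ) * pderiv b I)}
  zero_mem' := by
    show IsZ _
    simp only [Pi.zero_apply, Int.cast_zero, C_0, zero_mul, sum_const_zero, mul_zero]
    exact L1.isInt_zero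
  add_mem' := fun {x y} hx hy => by
    show IsZ _
    simp only [Pi.add_apply, Int.cast_add, C_add, add_mul, sum_add_distrib, mul_add]
    exact L1.IsInt.add hx hy
  neg_mem' := fun {x} hx => by
    show IsZ _
    simp only [Pi.neg_apply, Int.cast_neg, C_neg, neg_mul, sum_neg_distrib, mul_neg]
    exact L1.IsInt.neg hx

theorem dirs_of_dd {r : ℝ} {I : MvPolynomial ι ℝ} {h : ι → ℤ}
    (hI : IsZ (C r * G.dd (fun _ : Unit => h) () I)) (u : ι → ℤ) :
    (fun b => if 2 ≤ G.w b then u b else h b) ∈ dirs r I := by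
  have h1 := L1.IsInt.aeval hI (f := Sum.elim X fun a => (C (u a.2.1 : ℝ) : MvPolynomial ι ℝ))
    (by rintro (a | a); exacts [L1.isInt_X a, L1.isInt_C _])
  show IsZ _
  have e : aeval (Sum.elim X fun a : Unit × {a : ι // 2 ≤ G.w a} =>
      (C (u a.2.1 : ℝ) : MvPolynomial ι ℝ)) (C r * G.dd (fun _ : Unit => h) () I)
      = C r * ∑ b, C (((if 2 ≤ G.w b then u b else h b : ℤ)) : ℝ) * pderiv b I := by
    unfold GT.dd
    rw [map_mul, aeval_C, algebraMap_eq, map_sum]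
    congr 1
    refine sum_congr rfl fun b _ => ?_
    rw [map_mul, aeval_rename]
    congr 1
    · unfold GT.wv
      split_ifs
      · simp
      · simp
    · exact aeval_X_left_apply _
  rw [e] at h1
  exact h1

theorem dirs_mul {n0 : ℝ} {N n : ℕ} (hN : 1 ≤ N) {I : MvPolynomial ι ℝ} (hI : IsZ I)
    (hn : n0 = n) (y : ι → ℤ) : N • y ∈ dirs (n0 / N) I := by
  show IsZ _
  have hN0 : (N : ℝ) ≠ 0 := by positivity
  have e : C (n0 / N) * ∑ b, C (((N • y) b : ℤ) : ℝ) * pderiv b I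
      = ∑ b, C (((n * y b : ℤ)) : ℝ) * pderiv b I := by
    rw [mul_sum]
    refine sum_congr rfl fun b _ => ?_
    rw [← mul_assoc, ← C_mul]
    congr 2
    simp only [Pi.smul_apply, nsmul_eq_mul, hn]
    push_cast
    field_simp
  rw [e]
  exact L1.isInt_sum fun b _ => (L1.isInt_C _).mul (L1.IsInt.pderiv hI b)

theorem euler {r : ℝ} {I : MvPolynomial ι ℝ} {e m : ℕ} (hI : G.Hm e I)
    (h : ∀ a, m • Pi.single a (1 : ℤ) ∈ dirs r I) : IsZ (C ((m * e : ℕ) * r : ℝ) * I) := by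
  have h1 : ∀ a, IsZ (C (m * r : ℝ) * pderiv a I) := by
    intro a
    have h2 : IsZ _ := h a
    rw [sum_eq_single a (fun b _ hb => by simp [Pi.single_eq_of_ne hb])
      (fun hb => absurd (mem_univ a) hb), ← mul_assoc, ← C_mul] at h2
    simpa [mul_comm] using h2
  have h3 := IsWeightedHomogeneous.sum_weight_X_mul_pderiv hI
  have e1 : C ((m * e : ℕ) * r : ℝ) * I
      = ∑ a, C ((G.w a : ℤ) : ℝ) * (X a * (C (m * r : ℝ) * pderiv a I)) := by
    have e2 : C ((m * e : ℕ) * r : ℝ) * I = C (m * r : ℝ) * (e • I) := by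
      rw [nsmul_eq_mul, ← mul_assoc, ← map_natCast (C : ℝ →+* MvPolynomial ι ℝ), ← C_mul]
      congr 2
      push_cast
      ring
    rw [e2, ← h3, mul_sum]
    refine sum_congr rfl fun a _ => ?_
    rw [nsmul_eq_mul, ← map_natCast (C : ℝ →+* MvPolynomial ι ℝ), Int.cast_natCast]
    ring
  rw [e1]
  exact L1.isInt_sum fun a _ => (L1.isInt_C _).mul ((L1.isInt_X a).mul (h1 a))

end Up

end

end Vale.Agent.P057T.Eq
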